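import Mathlib.Algebra.MvPolynomial.Eval
import Mathlib.RingTheory.MvPolynomial.WeightedHomogeneous
import Mathlib.RingTheory.MvPolynomial.Ideal
import Mathlib.Algebra.Field.ZMod

/-!
# P257, V(4), part A: normal forms (base `p` digits) for the multidegree filtration

`S` is any index type of blocks (`Fin s` in the applications). The letter `(r, (i, k))` stands for
`t_{i, i+k+1}` of the block `r`; it is mapped to `t_{k+1}^{p^i}`.
-/

namespace Vale.Agent.P257.V4.A.NF

open MvPolynomial Finsupp

variable (p : ℕ) {S : Type*}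

/-- The ring map `t_{i,i+k+1} ↦ t_{k+1}^{p^i}` in each block. -/
noncomputable def phi :
    MvPolynomial (S × (ℕ × ℕ)) (ZMod p) →ₐ[ZMod p] MvPolynomial (S × ℕ) (ZMod p) :=
  aeval fun x => X (x.1, x.2.2) ^ p ^ x.2.1

@[simp] theorem phi_X (x : S × (ℕ × ℕ)) :
    phi p (X x) = (X (x.1, x.2.2) : MvPolynomial (S × ℕ) (ZMod p)) ^ p ^ x.2.1 := by
  simp [phi]

/-- exponents of the image of a monomial -/
noncomputable def col : (S × (ℕ × ℕ) →₀ ℕ) →+ (S × ℕ →₀ ℕ) :=
  Finsupp.weight fun x => single (x.1, x.2.2) (p ^ x.2.1)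

theorem col_single (x : S × (ℕ × ℕ)) (a : ℕ) :
    col p (single x a) = single (x.1, x.2.2) (a * p ^ x.2.1) := by
  simp [col, weight_single]

theorem phi_monomial (m : S × (ℕ × ℕ) →₀ ℕ) (a : ZMod p) :
    phi p (monomial m a) = monomial (col p m) a := by
  induction m using Finsupp.induction_linear generalizing a with
  | zero =>
    rw [map_zero]
    exact (phi p).commutes a
  | add f g hf hg =>
    have : (monomial (f + g) a : MvPolynomial (S × (ℕ × ℕ)) (ZMod p)) =
        monomial f a * monomial g 1 := by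
      rw [monomial_mul, mul_one]
    rw [this, map_mul, hf, hg, monomial_mul, mul_one, map_add]
  | single x b =>
    have : (monomial (single x b) a : MvPolynomial (S × (ℕ × ℕ)) (ZMod p)) =
        C a * X x ^ b := by
      rw [C_mul_X_pow_eq_monomial]
    rw [this, map_mul, map_pow, phi_X, col_single, ← pow_mul, mul_comm (p ^ x.2.1) b,
      ← C_mul_X_pow_eq_monomial]
    congr 1
    exact (phi p).commutes a

theorem phi_eq_sum (z : MvPolynomial (S × (ℕ × ℕ)) (ZMod p)) :
    phi p z = ∑ m ∈ z.support, monomial (col p m) (coeff m z) := by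
  conv_lhs => rw [z.as_sum]
  rw [map_sum]
  exact Finset.sum_congr rfl fun m _ => phi_monomial p m _

/-- restricted monomials: all exponents `< p` -/
def Res (m : S × (ℕ × ℕ) →₀ ℕ) : Prop := ∀ x, m x < p

section digits

variable {p}

theorem digits_unique (M : ℕ) (f g : ℕ → ℕ) (hf : ∀ i, f i < p) (hg : ∀ i, g i < p)
    (h : ∑ i ∈ Finset.range M, f i * p ^ i = ∑ i ∈ Finset.range M, g i * p ^ i) :
    ∀ i < M, f i = g i := by
  induction M generalizing f g with
  | zero => intro i hi; omega
  | succ M ih =>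
    have hp : 0 < p := (Nat.zero_le _).trans_lt (hf 0)
    rw [Finset.sum_range_succ', Finset.sum_range_succ'] at h
    have e : ∀ f : ℕ → ℕ, ∑ i ∈ Finset.range M, f (i + 1) * p ^ (i + 1) =
        p * ∑ i ∈ Finset.range M, f (i + 1) * p ^ i := by
      intro f
      rw [Finset.mul_sum]
      exact Finset.sum_congr rfl fun i _ => by ring
    rw [e, e, pow_zero, mul_one, mul_one] at h
    have h0 : f 0 = g 0 := by
      have := congrArg (· % p) h
      simpa [Nat.mul_add_mod, Nat.mod_eq_of_lt (hf 0), Nat.mod_eq_of_lt (hg 0)] using this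
    have h1 : ∑ i ∈ Finset.range M, f (i + 1) * p ^ i =
        ∑ i ∈ Finset.range M, g (i + 1) * p ^ i := by
      rw [h0] at h
      exact Nat.eq_of_mul_eq_mul_left hp (Nat.add_right_cancel h)
    intro i hi
    cases i with
    | zero => exact h0
    | succ i =>
      exact ih (fun i => f (i + 1)) (fun i => g (i + 1)) (fun i => hf _) (fun i => hg _) h1 i
        (by omega)

end digits

theorem col_apply (m : S × (ℕ × ℕ) →₀ ℕ) (M : ℕ) (hM : ∀ x ∈ m.support, x.2.1 < M) (r : S)
    (k : ℕ) : col p m (r, k) = ∑ i ∈ Finset.range M, m (r, (i, k)) * p ^ i := by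
  classical
  have h1 : col p m (r, k) = ∑ x ∈ m.support,
      if (x.1, x.2.2) = (r, k) then m x * p ^ x.2.1 else 0 := by
    rw [col, Finsupp.weight_apply, Finsupp.sum, Finsupp.finsetSum_apply]
    refine Finset.sum_congr rfl fun x _ => ?_
    rw [smul_single, smul_eq_mul, single_apply]
  have inj : Function.Injective fun i : ℕ => ((r, (i, k)) : S × (ℕ × ℕ)) := by
    intro a b h
    simpa using h
  have h2 : ∑ i ∈ Finset.range M, m (r, (i, k)) * p ^ i =
      ∑ x ∈ (Finset.range M).map ⟨_, inj⟩, m x * p ^ x.2.1 := by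
    rw [Finset.sum_map]
    rfl
  rw [h1, h2, ← Finset.sum_filter]
  refine Finset.sum_subset ?_ ?_
  · intro x hx
    rw [Finset.mem_filter] at hx
    rw [Finset.mem_map]
    refine ⟨x.2.1, Finset.mem_range.2 (hM x hx.1), ?_⟩
    obtain ⟨a, b, c⟩ := x
    simp only [Prod.mk.injEq] at hx
    simp [hx.2.1, hx.2.2]
  · intro x hx hx'
    rw [Finset.mem_map] at hx
    obtain ⟨i, _, rfl⟩ := hx
    rw [Finset.mem_filter] at hx'
    have : m (r, (i, k)) = 0 := by
      by_contra h
      exact hx' ⟨Finsupp.mem_support_iff.2 h, rfl⟩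
    simp [this]

theorem res_ext {m m' : S × (ℕ × ℕ) →₀ ℕ} (hm : Res p m) (hm' : Res p m')
    (h : col p m = col p m') : m = m' := by
  classical
  obtain ⟨M, hM⟩ : ∃ M, ∀ x ∈ m.support ∪ m'.support, x.2.1 < M :=
    ⟨(m.support ∪ m'.support).sup (fun x => x.2.1) + 1, fun x hx =>
      Nat.lt_succ_of_le (Finset.le_sup (f := fun x : S × (ℕ × ℕ) => x.2.1) hx)⟩
  ext ⟨r, i, k⟩
  have e := DFunLike.congr_fun h (r, k)
  rw [col_apply p m (M + i + 1) (fun x hx => by
      have := hM x (Finset.mem_union_left _ hx); omega),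
    col_apply p m' (M + i + 1) (fun x hx => by
      have := hM x (Finset.mem_union_right _ hx); omega)] at e
  exact digits_unique (M + i + 1) (fun i => m (r, (i, k))) (fun i => m' (r, (i, k)))
    (fun i => hm _) (fun i => hm' _) e i (by omega)

/-- A level function on letters which is lowered by carries. -/
def Carry (l : S × (ℕ × ℕ) → ℕ) : Prop := ∀ r i k, l (r, (i + 1, k)) < p * l (r, (i, k))

variable {p}

/-- one carry -/
theorem exists_carry (hp : 2 ≤ p) {m : S × (ℕ × ℕ) →₀ ℕ} (hm : ¬ Res p m) :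
    ∃ w : S × (ℕ × ℕ) →₀ ℕ, col p w = col p m ∧ w.degree < m.degree ∧
      ∀ l : S × (ℕ × ℕ) → ℕ, Carry p l → Finsupp.weight l w < Finsupp.weight l m := by
  classical
  unfold Res at hm
  push Not at hm
  obtain ⟨⟨r, i, k⟩, hx⟩ := hm
  obtain ⟨m0, rfl⟩ : ∃ m0, m = m0 + single (r, (i, k)) p := by
    refine ⟨m - single (r, (i, k)) p, ?_⟩
    ext y
    by_cases hy : (r, (i, k)) = y
    · subst hy
      simp only [coe_add, coe_tsub, Pi.add_apply, Pi.sub_apply, single_eq_same]
      omega
    · simp [single_eq_of_ne (Ne.symm hy)]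
  refine ⟨m0 + single (r, (i + 1, k)) 1, ?_, ?_, ?_⟩
  · rw [map_add, map_add, col_single, col_single]
    congr 2
    simp only
    rw [pow_succ]
    ring
  · rw [map_add, map_add, degree_single, degree_single]
    omega
  · intro l hl
    rw [map_add, map_add, weight_single, weight_single]
    have := hl r i k
    simp only [smul_eq_mul, one_mul]
    omega

/-- full reduction of a monomial -/
theorem exists_res (hp : 2 ≤ p) (m : S × (ℕ × ℕ) →₀ ℕ) :
    ∃ w : S × (ℕ × ℕ) →₀ ℕ, Res p w ∧ col p w = col p m ∧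
      ∀ l : S × (ℕ × ℕ) → ℕ, Carry p l → Finsupp.weight l w ≤ Finsupp.weight l m ∧
        (¬ Res p m → Finsupp.weight l w < Finsupp.weight l m) := by
  induction h : m.degree using Nat.strong_induction_on generalizing m with
  | _ n ih =>
    by_cases hm : Res p m
    · exact ⟨m, hm, rfl, fun l _ => ⟨le_rfl, fun h => absurd hm h⟩⟩
    · obtain ⟨w, h1, h2, h3⟩ := exists_carry hp hm
      obtain ⟨v, k1, k2, k3⟩ := ih _ (h ▸ h2) w rfl
      exact ⟨v, k1, k2.trans h1, fun l hl =>
        ⟨((k3 l hl).1.trans_lt (h3 l hl)).le, fun _ => (k3 l hl).1.trans_lt (h3 l hl)⟩⟩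

/-- Among the monomials with a given image the restricted one has the smallest level. -/
theorem weight_lt_of_res (hp : 2 ≤ p) {m m' : S × (ℕ × ℕ) →₀ ℕ} (hm : Res p m) (hne : m' ≠ m)
    (h : col p m' = col p m) {l : S × (ℕ × ℕ) → ℕ} (hl : Carry p l) :
    Finsupp.weight l m < Finsupp.weight l m' := by
  obtain ⟨w, h1, h2, h3⟩ := exists_res hp m'
  obtain rfl : w = m := res_ext p h1 hm (h2.trans h)
  by_cases hr : Res p m'
  · exact absurd (res_ext p hr hm h) hne
  · exact (h3 l hl).2 hr

/-- **Leading forms of elements of the kernel**: if `φ z = 0` and all monomials of `z` have level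
`≤ n` then every monomial of `z` of level `n` is divisible by the `p`-th power of a variable. -/
theorem lead_ker (hp : 2 ≤ p) {l : S × (ℕ × ℕ) → ℕ} (hl : Carry p l) {n : ℕ}
    {z : MvPolynomial (S × (ℕ × ℕ)) (ZMod p)} (hz : phi p z = 0)
    (hn : ∀ m ∈ z.support, Finsupp.weight l m ≤ n) {m : S × (ℕ × ℕ) →₀ ℕ} (hm : m ∈ z.support)
    (hmn : Finsupp.weight l m = n) : ¬ Res p m := by
  classical
  intro hr
  have h := congrArg (coeff (col p m)) hz
  rw [phi_eq_sum, coeff_sum, coeff_zero, Finset.sum_eq_single_of_mem m hm, coeff_monomial,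
    if_pos rfl] at h
  · exact (MvPolynomial.mem_support_iff.1 hm) h
  · intro m' hm' hne
    rw [coeff_monomial, if_neg]
    intro hc
    have := weight_lt_of_res hp hr hne hc hl
    have := hn m' hm'
    omega

/-- `z` lies in the ideal of the `p`-th powers of the variables. -/
def InJ (z : MvPolynomial (S × (ℕ × ℕ)) (ZMod p)) : Prop := ∀ m ∈ z.support, ¬ Res p m

theorem inJ_iff_mem {z : MvPolynomial (S × (ℕ × ℕ)) (ZMod p)} :
    InJ z ↔ z ∈ Ideal.span (Set.range fun x : S × (ℕ × ℕ) =>
      (X x : MvPolynomial (S × (ℕ × ℕ)) (ZMod p)) ^ p) := by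
  have h : (Set.range fun x : S × (ℕ × ℕ) =>
      (X x : MvPolynomial (S × (ℕ × ℕ)) (ZMod p)) ^ p) =
      (fun s => monomial s (1 : ZMod p)) '' Set.range fun x : S × (ℕ × ℕ) => single x p := by
    rw [← Set.range_comp]
    congr 1
    funext x
    simp [X_pow_eq_monomial]
  rw [h, mem_ideal_span_monomial_image]
  refine forall₂_congr fun m _ => ?_
  unfold Res
  push Not
  constructor
  · rintro ⟨x, hx⟩
    exact ⟨_, ⟨x, rfl⟩, by simpa using hx⟩
  · rintro ⟨_, ⟨x, rfl⟩, hx⟩
    exact ⟨x, by simpa using hx⟩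

theorem not_res_iff {m : S × (ℕ × ℕ) →₀ ℕ} : ¬ Res p m ↔ ∃ v, p ≤ m v := by
  unfold Res
  push Not
  rfl

/-! ### reduction of polynomials -/

/-- Elements of the ideal of `p`-th powers can be replaced by elements of smaller level with the
same image (each monomial of `u'` comes from a monomial of `u`). -/
theorem exists_lower (hp : 2 ≤ p) (u : MvPolynomial (S × (ℕ × ℕ)) (ZMod p))
    (hu : ∀ m ∈ u.support, ¬ Res p m) :
    ∃ u' : MvPolynomial (S × (ℕ × ℕ)) (ZMod p), phi p u' = phi p u ∧
      ∀ m' ∈ u'.support, ∃ m ∈ u.support, col p m' = col p m ∧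
        ∀ l : S × (ℕ × ℕ) → ℕ, Carry p l → Finsupp.weight l m' < Finsupp.weight l m := by
  classical
  have h : ∀ m : S × (ℕ × ℕ) →₀ ℕ, ∃ w : S × (ℕ × ℕ) →₀ ℕ, m ∈ u.support →
      col p w = col p m ∧
        ∀ l : S × (ℕ × ℕ) → ℕ, Carry p l → Finsupp.weight l w < Finsupp.weight l m := by
    intro m
    by_cases hm : m ∈ u.support
    · obtain ⟨w, _, h2, h3⟩ := exists_res hp m
      exact ⟨w, fun _ => ⟨h2, fun l hl => (h3 l hl).2 (hu m hm)⟩⟩
    · exact ⟨0, fun h => absurd h hm⟩
  choose w hw using h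
  refine ⟨∑ m ∈ u.support, monomial (w m) (coeff m u), ?_, ?_⟩
  · rw [map_sum, phi_eq_sum]
    refine Finset.sum_congr rfl fun m hm => ?_
    rw [phi_monomial, (hw m hm).1]
  · intro m' hm'
    obtain ⟨m, hm, h2⟩ := Finset.mem_biUnion.1 (support_sum hm')
    have := support_monomial_subset h2
    rw [Finset.mem_singleton] at this
    subst this
    exact ⟨m, hm, hw m hm⟩

/-- Every element of the target has a preimage supported on monomials lying over its support. -/
theorem exists_preimage (x : MvPolynomial (S × ℕ) (ZMod p)) :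
    ∃ y : MvPolynomial (S × (ℕ × ℕ)) (ZMod p), phi p y = x ∧
      ∀ m ∈ y.support, col p m ∈ x.support := by
  classical
  let w : (S × ℕ →₀ ℕ) → (S × (ℕ × ℕ) →₀ ℕ) :=
    fun A => Finsupp.weight (fun v : S × ℕ => single ((v.1, (0, v.2)) : S × (ℕ × ℕ)) 1) A
  have hw : ∀ A, col p (w A) = A := by
    intro A
    induction A using Finsupp.induction_linear with
    | zero => simp [w]
    | add f g hf hg =>
      have : w (f + g) = w f + w g := map_add _ _ _
      rw [this, map_add, hf, hg]
    | single v b =>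
      simp only [w]
      rw [weight_single, smul_single, smul_eq_mul, mul_one, col_single, pow_zero, mul_one]
  refine ⟨∑ A ∈ x.support, monomial (w A) (coeff A x), ?_, ?_⟩
  · rw [map_sum]
    conv_rhs => rw [x.as_sum]
    refine Finset.sum_congr rfl fun A _ => ?_
    rw [phi_monomial, hw]
  · intro m hm
    obtain ⟨A, hA, h2⟩ := Finset.mem_biUnion.1 (support_sum hm)
    have := support_monomial_subset h2
    rw [Finset.mem_singleton] at this
    subst this
    rw [hw]
    exact hA

/-- A weight of the source which is pulled back from the target. -/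
theorem weight_col {M : Type*} [AddCommMonoid M] (δ : S × ℕ → M)
    (m : S × (ℕ × ℕ) →₀ ℕ) :
    Finsupp.weight δ (col p m) =
      Finsupp.weight (fun x : S × (ℕ × ℕ) => p ^ x.2.1 • δ (x.1, x.2.2)) m := by
  induction m using Finsupp.induction_linear with
  | zero => simp
  | add f g hf hg => rw [map_add, map_add, map_add, hf, hg]
  | single x b => rw [col_single, weight_single, weight_single, mul_smul]

end Vale.Agent.P257.V4.A.NF
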