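import Vale.Agent.P257.V4.A.Defs
import Mathlib.Tactic.Ring
import Mathlib.Tactic.Linarith

/-!
# P257 / V4, part A: weights of the cosimplicial ring `Ch p n`

All cosimplicial maps, the differential and the cup products are homogeneous; the standard
cochains have the expected weights; a homogeneous coboundary bounds a homogeneous cochain.
-/

open MvPolynomial

namespace Vale.Agent.P257.V4.A

/-! ### a general lemma -/

/-- A ring homomorphism between polynomial rings which sends constants to elements of weight `0`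
and variables to elements of the same weight preserves weights. -/
theorem isWH_map {σ τ R S M : Type*} [CommSemiring R] [CommSemiring S] [AddCommMonoid M]
    (w : σ → M) (w' : τ → M) (φ : MvPolynomial σ R →+* MvPolynomial τ S)
    (hC : ∀ r, IsWeightedHomogeneous w' (φ (C r)) 0)
    (hX : ∀ i, IsWeightedHomogeneous w' (φ (X i)) (w i)) {x : MvPolynomial σ R} {D : M}
    (hx : IsWeightedHomogeneous w x D) : IsWeightedHomogeneous w' (φ x) D := by
  rw [x.as_sum, map_sum]
  refine IsWeightedHomogeneous.sum _ _ _ fun m hm => ?_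
  have hD : Finsupp.weight w m = D := hx (mem_support_iff.1 hm)
  rw [monomial_eq, map_mul, Finsupp.prod, map_prod]
  have h1 : IsWeightedHomogeneous w' (∏ i ∈ m.support, φ (X i ^ m i))
      (∑ i ∈ m.support, m i • w i) := by
    refine IsWeightedHomogeneous.prod _ _ _ fun i _ => ?_
    rw [map_pow]
    exact (hX i).pow (m i)
  have h2 := (hC (coeff m x)).mul h1
  rw [zero_add] at h2
  rw [← hD, Finsupp.weight_apply, Finsupp.sum]
  exact h2

namespace Ch

variable {p : ℕ}

theorem N_zero : N p 0 = 0 := rfl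

theorem N_one : N p 1 = 1 := by simp [N]

theorem N_succ (k : ℕ) : N p (k + 1) = N p k + p ^ k := Finset.sum_range_succ _ _

theorem N_add (i j : ℕ) : N p (i + j) = N p i + p ^ i * N p j := by
  induction j with
  | zero => simp [N_zero]
  | succ j ih => rw [← add_assoc, N_succ, ih, N_succ, mul_add, pow_add, add_assoc]

theorem N_succ' (k : ℕ) : N p (k + 1) = 1 + p * N p k := by
  rw [add_comm k 1, N_add, N_one, pow_one]

theorem N_mono {i j : ℕ} (h : i ≤ j) : N p i ≤ N p j := by
  obtain ⟨k, rfl⟩ := Nat.exists_eq_add_of_le h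
  rw [N_add]
  exact Nat.le_add_right _ _

theorem N_pos (k : ℕ) : 0 < N p (k + 1) := by
  rw [N_succ']
  omega

theorem N_ge (hp : 1 ≤ p) (k : ℕ) : k ≤ N p k := by
  induction k with
  | zero => exact Nat.zero_le _
  | succ k ih =>
    rw [N_succ]
    have : 1 ≤ p ^ k := Nat.one_le_pow _ _ hp
    omega

variable [Fact p.Prime] {n m : ℕ}

/-! ### homogeneous group elements -/

/-- All coefficients have the expected weight. -/
def HomG (x : G p (Ch p n)) : Prop := ∀ k, IsWt (N p k) (x.a k)

theorem isWt_zero (D : ℕ) : IsWt D (0 : Ch p n) := isWeightedHomogeneous_zero _ _ _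

theorem isWt_one : IsWt 0 (1 : Ch p n) := isWeightedHomogeneous_one _ _

theorem isWt_C (r : ZMod p) : IsWt 0 (C r : Ch p n) := isWeightedHomogeneous_C _ r

theorem isWt_X (i : Fin n) (k : ℕ) : IsWt (N p (k + 1)) (X (i, k) : Ch p n) :=
  isWeightedHomogeneous_X _ _ _

theorem IsWt.add {D : ℕ} {x y : Ch p n} (hx : IsWt D x) (hy : IsWt D y) : IsWt D (x + y) :=
  IsWeightedHomogeneous.add hx hy

theorem IsWt.neg {D : ℕ} {x : Ch p n} (hx : IsWt D x) : IsWt D (-x) :=
  IsWeightedHomogeneous.neg hx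

theorem IsWt.sub {D : ℕ} {x y : Ch p n} (hx : IsWt D x) (hy : IsWt D y) : IsWt D (x - y) :=
  IsWeightedHomogeneous.sub hx hy

theorem IsWt.mul {D E : ℕ} {x y : Ch p n} (hx : IsWt D x) (hy : IsWt E y) :
    IsWt (D + E) (x * y) := IsWeightedHomogeneous.mul hx hy

theorem IsWt.pow {D : ℕ} {x : Ch p n} (hx : IsWt D x) (k : ℕ) : IsWt (k * D) (x ^ k) :=
  IsWeightedHomogeneous.pow hx k

theorem IsWt.cast {D E : ℕ} {x : Ch p n} (hx : IsWt D x) (h : D = E) : IsWt E x := h ▸ hx

theorem IsWt.sum {ι : Type*} {D : ℕ} (s : Finset ι) {f : ι → Ch p n}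
    (h : ∀ i ∈ s, IsWt D (f i)) : IsWt D (∑ i ∈ s, f i) :=
  IsWeightedHomogeneous.sum s f D h

theorem IsWt.zsmul {D : ℕ} {x : Ch p n} (hx : IsWt D x) (a : ℤ) : IsWt D (a • x) := by
  rw [← Int.cast_smul_eq_zsmul (ZMod p) a x]
  exact (weightedHomogeneousSubmodule (ZMod p) (vwt p n) D).smul_mem _ hx

theorem homG_one : HomG (1 : G p (Ch p n)) := by
  intro k
  rw [G.one_a]
  split_ifs with h
  · rw [h, N_zero]
    exact isWt_one
  · exact isWt_zero _

theorem HomG.mul {x y : G p (Ch p n)} (hx : HomG x) (hy : HomG y) : HomG (x * y) := by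
  intro k
  rw [G.mul_a]
  refine IsWt.sum _ fun ij hij => ?_
  rw [Finset.mem_antidiagonal] at hij
  refine ((hx ij.1).mul ((hy ij.2).pow _)).cast ?_
  rw [← hij, N_add]

theorem HomG.inv {x : G p (Ch p n)} (hx : HomG x) : HomG x⁻¹ := by
  intro k
  induction k using Nat.strong_induction_on with
  | _ k ih =>
    cases k with
    | zero =>
      rw [G.inv_a_zero, N_zero]
      exact isWt_one
    | succ k =>
      rw [G.inv_a_succ]
      refine IsWt.neg (IsWt.sum _ fun i _ => ?_)
      refine ((ih i i.2).mul ((hx (k + 1 - i)).pow _)).cast ?_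
      rw [← N_add]
      congr 1
      have := i.2
      omega

theorem homG_univ (i : Fin (n + 1)) : HomG ((univ p n).g i) := by
  refine Fin.cases ?_ (fun i => ?_) i
  · rw [univ_g_zero]
    exact homG_one
  · intro k
    rw [univ_g_succ]
    cases k with
    | zero =>
      rw [G.a_zero, N_zero]
      exact isWt_one
    | succ k =>
      rw [G.mk_a_succ]
      exact isWt_X i k

theorem homG_res (α : Fin (m + 1) → Fin (n + 1)) (i : Fin (m + 1)) :
    HomG (((univ p n).res α).g i) := by
  rw [Chain.res_g]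
  exact (homG_univ _).mul (homG_univ _).inv

/-! ### the cosimplicial maps are homogeneous -/

theorem map_isWt (α : Fin (m + 1) → Fin (n + 1)) {D : ℕ} {x : Ch p m} (hx : IsWt D x) :
    IsWt D (map α x) := by
  refine isWH_map (vwt p m) (vwt p n) (map α) (fun r => ?_) (fun ik => ?_) hx
  · rw [map, ev_C]
    exact isWt_C r
  · rw [map, ev_X]
    exact homG_res α _ _

theorem d_isWt {D : ℕ} {x : Ch p n} (hx : IsWt D x) : IsWt D (d n x) := by
  rw [d_apply]
  exact IsWt.sum _ fun i _ => (map_isWt _ hx).zsmul _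

theorem cup_isWt {a b n : ℕ} (h : a + b = n) {D E : ℕ} {x : Ch p a} {y : Ch p b}
    (hx : IsWt D x) (hy : IsWt E y) : IsWt (D + E) (cup h x y) :=
  (map_isWt _ hx).mul (map_isWt _ hy)

theorem t_isWt (k : ℕ) : IsWt (N p k) (t p k) := homG_univ (n := 1) 1 k

theorem h_isWt (n i : ℕ) : IsWt (p ^ i * N p n) (h p n i) := (t_isWt n).pow _

theorem b0_isWt : IsWt p (b0 p) := by
  refine IsWt.sum _ fun j hj => IsWt.zsmul ?_ _
  rw [Finset.mem_Ioo] at hj
  refine (cup_isWt rfl ((t_isWt 1).pow j) ((t_isWt 1).pow (p - j))).cast ?_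
  rw [N_one]
  omega

theorem mulb0_isWt (k : ℕ) {s D : ℕ} {x : Ch p s} (hx : IsWt D x) :
    IsWt (D + p * k) (mulb0 k x) := by
  induction k with
  | zero => simpa [mulb0] using hx
  | succ k ih =>
    rw [mulb0]
    exact (cup_isWt _ ih b0_isWt).cast (by ring)

theorem b0mul_isWt (k : ℕ) {s D : ℕ} {x : Ch p s} (hx : IsWt D x) :
    IsWt (D + p * k) (b0mul k x) := by
  induction k with
  | zero => simpa [b0mul] using hx
  | succ k ih =>
    rw [b0mul]
    exact (cup_isWt _ b0_isWt ih).cast (by ring)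

/-! ### homogeneous components -/

/-- the component of weight `D` -/
noncomputable def comp (n D : ℕ) : Ch p n →ₗ[ZMod p] Ch p n :=
  weightedHomogeneousComponent (vwt p n) D

theorem comp_isWt (D : ℕ) (x : Ch p n) : IsWt D (comp n D x) :=
  weightedHomogeneousComponent_isWeightedHomogeneous D x

theorem comp_same {D : ℕ} {x : Ch p n} (hx : IsWt D x) : comp n D x = x :=
  IsWeightedHomogeneous.weightedHomogeneousComponent_same hx

theorem comp_ne {D E : ℕ} {x : Ch p n} (hx : IsWt D x) (h : D ≠ E) : comp n E x = 0 :=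
  IsWeightedHomogeneous.weightedHomogeneousComponent_ne E hx h.symm

theorem sum_comp (x : Ch p n) :
    ∃ s : Finset ℕ, x = ∑ D ∈ s, comp n D x := by
  refine ⟨(weightedHomogeneousComponent_finsupp (w := vwt p n) x).toFinset, ?_⟩
  have h := finsum_weightedHomogeneousComponent (vwt p n) x
  rw [finsum_eq_sum _ (weightedHomogeneousComponent_finsupp x)] at h
  exact h.symm

/-- Additive homogeneous maps commute with the homogeneous components. -/
theorem comp_comm {n m : ℕ} (f : Ch p n →+ Ch p m) (hf : ∀ D x, IsWt D x → IsWt D (f x)) (D : ℕ)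
    (x : Ch p n) : comp m D (f x) = f (comp n D x) := by
  obtain ⟨s, hs⟩ := sum_comp x
  have key : ∀ E, comp m D (f (comp n E x)) = f (comp n D (comp n E x)) := by
    intro E
    by_cases h : E = D
    · subst h
      rw [comp_same (hf E _ (comp_isWt E x)), comp_same (comp_isWt E x)]
    · rw [comp_ne (hf E _ (comp_isWt E x)) h, comp_ne (comp_isWt E x) h, map_zero]
  calc comp m D (f x) = comp m D (f (∑ E ∈ s, comp n E x)) := by rw [← hs]
    _ = ∑ E ∈ s, comp m D (f (comp n E x)) := by rw [map_sum, map_sum]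
    _ = ∑ E ∈ s, f (comp n D (comp n E x)) := Finset.sum_congr rfl fun E _ => key E
    _ = f (comp n D (∑ E ∈ s, comp n E x)) := by rw [map_sum, map_sum]
    _ = f (comp n D x) := by rw [← hs]

theorem comp_d (D : ℕ) (x : Ch p n) : comp (n + 1) D (d n x) = d n (comp n D x) :=
  comp_comm (d n) (fun _ _ => d_isWt) D x

theorem comp_map (α : Fin (m + 1) → Fin (n + 1)) (D : ℕ) (x : Ch p m) :
    comp n D (map α x) = map α (comp m D x) :=
  comp_comm (map α : Ch p m →+* Ch p n).toAddMonoidHom (fun _ _ => map_isWt α) D x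

/-- A homogeneous coboundary bounds a homogeneous cochain. -/
theorem exists_isWt_of_d_eq {D : ℕ} {z : Ch p (n + 1)} (hz : IsWt D z) {y : Ch p n}
    (h : d n y = z) : ∃ y', IsWt D y' ∧ d n y' = z :=
  ⟨comp n D y, comp_isWt D y, by rw [← comp_d, h, comp_same hz]⟩

theorem isCobdy_succ_iff {D : ℕ} {z : Ch p (n + 1)} (hz : IsWt D z) :
    IsCobdy z ↔ ∃ y, IsWt D y ∧ d n y = z :=
  ⟨fun ⟨_, h⟩ => exists_isWt_of_d_eq hz h, fun ⟨y, _, h⟩ => ⟨y, h⟩⟩

end Ch

end Vale.Agent.P257.V4.A
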