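import Vale.Agent.P257.V4.A.UBasic
import Vale.Agent.P257.V4.A.NF
import Vale.Agent.P257.V4.A.Wt

/-!
# P257, part A: the comparison map `phi : UC p s → Ch p s`

It is induced by the homomorphism `g ↦ (g_{j-i}^{p^i})` from additive series to unitriangular
matrices, hence it commutes with all cosimplicial maps, the differentials and cup products.
-/

namespace Vale.Agent.P257.V4.A

open MvPolynomial Finset

variable {p : ℕ} [Fact p.Prime] {B C : Type} [CommRing B] [Algebra (ZMod p) B] [CommRing C]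
  [Algebra (ZMod p) C] {n m l s : ℕ}

/-- The homomorphism from additive series to unitriangular matrices. -/
noncomputable def toUn : G p B →* Un B where
  toFun x := ⟨fun i n => x.a n ^ p ^ i, fun i => by rw [G.a_zero, one_pow]⟩
  map_one' := by
    ext i n
    change (1 : G p B).a n ^ p ^ i = (1 : Un B).e i n
    rw [G.one_a, Un.one_e]
    split_ifs
    · exact one_pow _
    · exact zero_pow (pow_ne_zero _ (Fact.out : p.Prime).ne_zero)
  map_mul' x y := by
    ext i n
    change (x * y).a n ^ p ^ i = ∑ z ∈ antidiagonal n, x.a z.1 ^ p ^ i * y.a z.2 ^ p ^ (i + z.1)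
    rw [G.mul_a, sum_pow_pow]
    refine Finset.sum_congr rfl fun z _ => ?_
    rw [mul_pow, ← pow_mul, ← pow_add, add_comm z.1 i]

@[simp] theorem toUn_e (x : G p B) (i n : ℕ) : (toUn x).e i n = x.a n ^ p ^ i := rfl

theorem mapHom_toUn (f : B →+* C) (x : G p B) : Un.mapHom f (toUn x) = toUn (x.map f) := by
  ext i n
  rw [Un.mapHom_e, toUn_e, toUn_e, map_pow, G.map_a]

/-- The chain of matrices of a chain of series. -/
noncomputable def UChain.ofChain (c : Chain p n B) : UChain n B :=
  ⟨fun r => toUn (c.g r), by rw [c.zero, map_one]⟩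

@[simp] theorem UChain.ofChain_g (c : Chain p n B) (r : Fin (n + 1)) :
    (UChain.ofChain c).g r = toUn (c.g r) := rfl

theorem UChain.ofChain_res (α : Fin (m + 1) → Fin (n + 1)) (c : Chain p n B) :
    UChain.ofChain (c.res α) = (UChain.ofChain c).res α := by
  ext1
  funext r
  rw [UChain.ofChain_g, UChain.res_g, Chain.res_g, map_mul, map_inv]
  rfl

theorem UChain.ofChain_map (f : B →+* C) (c : Chain p n B) :
    UChain.ofChain (c.map f) = (UChain.ofChain c).map f := by
  ext1
  funext r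
  rw [UChain.ofChain_g, UChain.map_g, Chain.map_g, UChain.ofChain_g, mapHom_toUn]

/-- A ring homomorphism between `F_p`-algebras is an algebra homomorphism. -/
def algOf (p : ℕ) {B C : Type} [CommRing B] [Algebra (ZMod p) B] [CommRing C]
    [Algebra (ZMod p) C] (f : B →+* C) : B →ₐ[ZMod p] C :=
  { f with
    commutes' := fun r => by
      have : f.comp (algebraMap (ZMod p) B) = algebraMap (ZMod p) C := Subsingleton.elim _ _
      exact congrArg (fun g : ZMod p →+* C => g r) this }

/-- The comparison map. -/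
noncomputable def phi (p : ℕ) [Fact p.Prime] (s : ℕ) : UC p s →ₐ[ZMod p] Ch p s := NF.phi p

@[simp] theorem phi_X (v : Fin s × (ℕ × ℕ)) :
    phi p s (X v) = (X (v.1, v.2.2) : Ch p s) ^ p ^ v.2.1 := NF.phi_X p v

theorem phi_eq_ev : phi p s = UC.ev (UChain.ofChain (Ch.univ p s)) := by
  refine MvPolynomial.algHom_ext fun v => ?_
  rw [phi_X, UC.ev_X, UChain.ofChain_g, toUn_e, Ch.univ_g_succ, G.mk_a_succ]

/-- Evaluation of `phi x` on a chain. -/
theorem ev_phi (c : Chain p s B) (x : UC p s) :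
    Ch.ev c (phi p s x) = UC.ev (UChain.ofChain c) x := by
  have h := UC.ev_map (algOf p (Ch.ev c)) (UChain.ofChain (Ch.univ p s)) x
  rw [phi_eq_ev]
  change algOf p (Ch.ev c) _ = _
  rw [← h]
  change UC.ev ((UChain.ofChain (Ch.univ p s)).map (Ch.ev c)) x = _
  rw [← UChain.ofChain_map, Ch.univ_map_ev]

theorem phi_map (α : Fin (m + 1) → Fin (n + 1)) (x : UC p m) :
    phi p n (UC.map α x) = Ch.map α (phi p m x) := by
  apply Ch.ext_ev
  intro B _ _ c
  rw [ev_phi, Ch.ev_map_res, ev_phi, UChain.ofChain_res, UC.ev_res]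

theorem phi_d (x : UC p n) : phi p (n + 1) (UC.d n x) = Ch.d n (phi p n x) := by
  rw [UC.d_apply, Ch.d_apply, map_sum]
  refine Finset.sum_congr rfl fun i _ => ?_
  rw [map_smul, phi_map]
  have h : ((-1 : ZMod p) ^ (i : ℕ)) = (((-1 : ℤ) ^ (i : ℕ) : ℤ) : ZMod p) := by
    push_cast
    rfl
  rw [h, ← Int.cast_smul_eq_zsmul (ZMod p)]

/-! ### cup products -/

/-- The cup product. -/
noncomputable def UC.cup {p a b n : ℕ} (h : a + b = n) (x : UC p a) (y : UC p b) : UC p n :=
  UC.map (Ch.front (by omega)) x * UC.map (Ch.back (by omega)) y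

theorem phi_cup {a b n : ℕ} (h : a + b = n) (x : UC p a) (y : UC p b) :
    phi p n (UC.cup h x y) = Ch.cup h (phi p a x) (phi p b y) := by
  rw [UC.cup, Ch.cup, map_mul, phi_map, phi_map]

omit [Fact p.Prime] in
theorem UC.cup_MH {a b n : ℕ} (h : a + b = n) {x : UC p a} {y : UC p b} {e e' : ℕ →₀ ℕ}
    (hx : MH e x) (hy : MH e' y) : MH (e + e') (UC.cup h x y) :=
  (UC.map_MH _ hx).mul (UC.map_MH _ hy)

theorem UC.cup_InJ_left {a b n : ℕ} (h : a + b = n) {x : UC p a} (hx : InJ x) (y : UC p b) :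
    InJ (UC.cup h x y) := (UC.map_InJ _ hx).mul_right _

theorem UC.cup_InJ_right {a b n : ℕ} (h : a + b = n) (x : UC p a) {y : UC p b} (hy : InJ y) :
    InJ (UC.cup h x y) := (UC.map_InJ _ hy).mul_left _

theorem UC.cup_add_left {a b n : ℕ} (h : a + b = n) (x x' : UC p a) (y : UC p b) :
    UC.cup h (x + x') y = UC.cup h x y + UC.cup h x' y := by
  rw [UC.cup, map_add, add_mul]
  rfl

theorem UC.cup_add_right {a b n : ℕ} (h : a + b = n) (x : UC p a) (y y' : UC p b) :
    UC.cup h x (y + y') = UC.cup h x y + UC.cup h x y' := by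
  rw [UC.cup, map_add, mul_add]
  rfl

theorem UC.cup_sub_right {a b n : ℕ} (h : a + b = n) (x : UC p a) (y y' : UC p b) :
    UC.cup h x (y - y') = UC.cup h x y - UC.cup h x y' := by
  rw [UC.cup, map_sub, mul_sub]
  rfl

theorem UC.cup_sub_left {a b n : ℕ} (h : a + b = n) (x x' : UC p a) (y : UC p b) :
    UC.cup h (x - x') y = UC.cup h x y - UC.cup h x' y := by
  rw [UC.cup, map_sub, sub_mul]
  rfl

/-! ### weights -/

/-- the total weight `∑ e_k p^k` of a multidegree -/
noncomputable def wtE (p : ℕ) : (ℕ →₀ ℕ) →+ ℕ := Finsupp.weight fun k => p ^ k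

theorem wtE_single (p k a : ℕ) : wtE p (Finsupp.single k a) = a * p ^ k := by
  rw [wtE, Finsupp.weight_single, smul_eq_mul]

theorem wtE_itw (p i k : ℕ) : wtE p (itw i k) = p ^ i * Ch.N p k := by
  rw [itw, map_sum, Ch.N, Finset.mul_sum]
  refine Finset.sum_congr rfl fun l _ => ?_
  rw [wtE_single, one_mul, pow_add]

theorem wtE_mw (p : ℕ) (v : Fin s × (ℕ × ℕ)) : wtE p (mw v) = p ^ v.2.1 * Ch.N p (v.2.2 + 1) := by
  rw [mw, itv_eq, wtE_itw]

/-- `phi` maps multidegree `e` to weight `∑ e_k p^k`. -/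
theorem phi_isWt {e : ℕ →₀ ℕ} {x : UC p s} (hx : MH e x) : Ch.IsWt (wtE p e) (phi p s x) := by
  have h := hx
  unfold MH at h
  have h' : IsWeightedHomogeneous (fun v : Fin s × (ℕ × ℕ) => wtE p (mw v)) x (wtE p e) := by
    intro d hd
    have := h hd
    rw [← this]
    rw [Finsupp.weight_apply, Finsupp.weight_apply, Finsupp.sum, Finsupp.sum, map_sum]
    exact Finset.sum_congr rfl fun v _ => (map_nsmul _ _ _).symm
  refine isWH_map _ _ (phi p s).toRingHom (fun r => ?_) (fun v => ?_) h'
  · change IsWeightedHomogeneous _ (phi p s (C r)) 0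
    have : phi p s (C r) = C r := (phi p s).commutes r
    rw [this]
    exact isWeightedHomogeneous_C _ r
  · change IsWeightedHomogeneous _ (phi p s (X v)) _
    rw [phi_X, wtE_mw]
    exact (Ch.isWt_X v.1 v.2.2).pow _

end Vale.Agent.P257.V4.A
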