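import Vale.Agent.P257.V4.A.Strip
import Vale.Agent.P257.V4.A.Phi

/-!
# P257, V(4), part A: A0, the multidegree filtration (final form)

`van_of_vanA`: vanishing of `Ext_P^{s+1}` in weight `D` from the vanishing of the cohomology of the
first Frobenius kernel in all multidegrees of weight `D`; `strip`, `strip_bdd`, `lead`: the
filtration of cocycles by the level of the multidegree.
-/

namespace Vale.Agent.P257.V4.A

open MvPolynomial

variable {p : ℕ} [Fact p.Prime]

theorem compat : Compat p where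
  phi_d _ y := phi_d y
  mh_d _ _ _ h := UC.d_MH h

omit [Fact p.Prime] in
theorem pw_eq_wtE : pw p = wtE p := rfl

omit [Fact p.Prime] in
theorem mcomp_eq_comp {s : ℕ} (e : ℕ →₀ ℕ) (z : UC p s) : mcomp e z = comp e z := rfl

/-- **Leading forms.** If `φ z = 0` and all monomials of `z` have level `≤ n`, then the
components of `z` of level `n` lie in `J`. -/
theorem lead_comp {W : (ℕ →₀ ℕ) →+ ℕ} (hW : IsLevel p W) {s n : ℕ} {z : UC p s}
    (hz : phi p s z = 0) (hn : Sup (fun e => W e ≤ n) z) {e : ℕ →₀ ℕ} (he : W e = n) :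
    InJ (comp e z) := lead hW hz hn he

/-- Elements of `J` can be replaced by elements of lower level (and the same weight) with the same
image. -/
theorem exists_lower_inJ {W : (ℕ →₀ ℕ) →+ ℕ} (hW : IsLevel p W) {s : ℕ} {e : ℕ →₀ ℕ}
    {z : UC p s} (hz : MH e z) (hJ : InJ z) :
    ∃ z' : UC p s, phi p s z' = phi p s z ∧ Sup (fun e' => wtE p e' = wtE p e) z' ∧
      Sup (fun e' => W e' < W e) z' := by
  obtain ⟨j, h3, h4⟩ := NF.exists_lower (Fact.out : p.Prime).two_le _ (inJ_iff.1 hJ)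
  have h5 := mh_iff.1 hz
  refine ⟨j, h3, fun m hm => ?_, fun m hm => ?_⟩
  · obtain ⟨m', hm', h6, _⟩ := h4 m hm
    change pw p (mdeg m) = pw p e
    rw [pw_mdeg, h6, ← pw_mdeg, h5 m' hm']
  · obtain ⟨m', hm', _, h7⟩ := h4 m hm
    have h8 := h7 _ (hW.carry s)
    rw [← apply_mdeg, ← apply_mdeg, h5 m' hm'] at h8
    exact h8

/-- one step: from level `≤ n` to level `< n`; it suffices that the components of level `n` of the
given element bound modulo `J` -/
theorem step_gen {W : (ℕ →₀ ℕ) →+ ℕ} (hW : IsLevel p W) {s D n : ℕ} {z : UC p (s + 1)}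
    (hvan : ∀ e, wtE p e = D → W e = n → InJ (UC.d (s + 1) (comp e z)) →
      ∃ y : UC p s, MH e y ∧ InJ (comp e z - UC.d s y))
    (hzD : Sup (fun e => wtE p e = D) z) (hz : Sup (fun e => W e ≤ n) z) {w : UC p (s + 2)}
    (hw : Sup (fun e => W e < n) w)
    (hd : Ch.d (s + 1) (phi p (s + 1) z) = phi p (s + 2) w) :
    ∃ y : UC p s, Sup (fun e => wtE p e = D) y ∧ Sup (fun e => W e = n) y ∧
      ∃ z' : UC p (s + 1), Sup (fun e => wtE p e = D) z' ∧ Sup (fun e => W e < n) z' ∧
        phi p (s + 1) z = Ch.d s (phi p s y) + phi p (s + 1) z' :=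
  compat.step_gen hW hvan hzD hz hw hd

/-- **Strip**: a cochain whose coboundary has level `< n` can be moved to level `< n` if the
cohomology vanishes in all multidegrees of level `≥ n`. -/
theorem strip {W : (ℕ →₀ ℕ) →+ ℕ} (hW : IsLevel p W) {s D n : ℕ}
    (hvan : ∀ e, wtE p e = D → n ≤ W e → VanA p (s + 1) e) {x : Ch p (s + 1)}
    (hx : Ch.IsWt D x) {w : UC p (s + 2)} (hw : Sup (fun e => W e < n) w)
    (hd : Ch.d (s + 1) x = phi p (s + 2) w) :
    ∃ y : Ch p s, Ch.IsWt D y ∧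
      ∃ z' : UC p (s + 1), Sup (fun e => wtE p e = D) z' ∧ Sup (fun e => W e < n) z' ∧
        x = Ch.d s y + phi p (s + 1) z' :=
  compat.strip hW hvan hx hw hd

/-- **Strip** with an upper bound. -/
theorem strip_bdd {W : (ℕ →₀ ℕ) →+ ℕ} (hW : IsLevel p W) {s D n m : ℕ}
    (hvan : ∀ e, wtE p e = D → n ≤ W e → W e < m → VanA p (s + 1) e) {z : UC p (s + 1)}
    (hzD : Sup (fun e => wtE p e = D) z) (hz : Sup (fun e => W e < m) z) {w : UC p (s + 2)}
    (hw : Sup (fun e => W e < n) w)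
    (hd : Ch.d (s + 1) (phi p (s + 1) z) = phi p (s + 2) w) :
    ∃ y : UC p s, Sup (fun e => wtE p e = D) y ∧ Sup (fun e => W e < m) y ∧
      ∃ z' : UC p (s + 1), Sup (fun e => wtE p e = D) z' ∧ Sup (fun e => W e < n) z' ∧
        phi p (s + 1) z = Ch.d s (phi p s y) + phi p (s + 1) z' :=
  compat.strip_bdd hW hvan hzD hz hw hd

omit [Fact p.Prime] in
theorem eq_zero_of_level {W : (ℕ →₀ ℕ) →+ ℕ} {s : ℕ} {z : UC p s}
    (hz : Sup (fun e => W e < 0) z) : z = 0 := by
  rw [← support_eq_empty, Finset.eq_empty_iff_forall_notMem]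
  intro m hm
  exact absurd (hz m hm) (Nat.not_lt_zero _)

omit [Fact p.Prime] in
theorem Sup.zero {s : ℕ} {P : (ℕ →₀ ℕ) → Prop} : Sup P (0 : UC p s) := by
  intro m hm
  simp at hm

/-- **A0**: vanishing from the vanishing for the first Frobenius kernel in all multidegrees. -/
theorem van_of_vanA {s D : ℕ} (hvan : ∀ e, wtE p e = D → VanA p (s + 1) e) :
    Ch.Van p (s + 1) D :=
  compat.van hvan

end Vale.Agent.P257.V4.A
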