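import Vale.Agent.P257.V4.A.A0

/-!
# P257, part A, block A0: supplements

Level functions, leading forms of differences, supports under products, cosimplicial maps and cup
products.
-/

namespace Vale.Agent.P257.V4.A

open MvPolynomial Finset

variable {p : ℕ} [Fact p.Prime] {s : ℕ}

theorem phi_eq_nf (z : UC p s) : phi p s z = NF.phi p z := rfl

/-! ### level functions -/

omit [Fact p.Prime] in
/-- `W e = ∑ c_k e_k` is a level function if `c_{k+1} < p c_k`. -/
theorem isLevel_weight {c : ℕ → ℕ} (hc : ∀ k, c (k + 1) < p * c k) :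
    IsLevel p (Finsupp.weight c : (ℕ →₀ ℕ) →+ ℕ) := by
  have h : ∀ i k, (Finsupp.weight c : (ℕ →₀ ℕ) →+ ℕ) (itv i k) =
      ∑ l ∈ range (k + 1), c (i + l) := by
    intro i k
    unfold itv
    rw [map_sum]
    refine Finset.sum_congr rfl fun l _ => ?_
    rw [Finsupp.weight_single, one_smul]
  intro i k
  rw [h, h, Finset.mul_sum]
  refine Finset.sum_lt_sum_of_nonempty ⟨0, Finset.mem_range.2 (Nat.succ_pos k)⟩ fun l _ => ?_
  rw [add_right_comm]
  exact hc (i + l)

omit [Fact p.Prime] in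
/-- `W e = ∑ c_k e_k` is a level function if `c` is positive and not increasing. -/
theorem isLevel_of_antitone (hp : 2 ≤ p) {c : ℕ → ℕ} (hc : ∀ k, c (k + 1) ≤ c k)
    (hpos : ∀ k, 0 < c k) : IsLevel p (Finsupp.weight c : (ℕ →₀ ℕ) →+ ℕ) :=
  isLevel_weight fun k => by
    have h1 := hc k
    have h2 := hpos k
    nlinarith

/-! ### strip for cocycles -/

/-- Strip for cocycles. -/
theorem strip_cocycle {W : (ℕ →₀ ℕ) →+ ℕ} (hW : IsLevel p W) {D n : ℕ}
    (hvan : ∀ e, wtE p e = D → n ≤ W e → VanA p (s + 1) e) {x : Ch p (s + 1)}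
    (hx : Ch.IsWt D x) (hd : Ch.d (s + 1) x = 0) :
    ∃ y : Ch p s, Ch.IsWt D y ∧
      ∃ z' : UC p (s + 1), Sup (fun e => wtE p e = D) z' ∧ Sup (fun e => W e < n) z' ∧
        x = Ch.d s y + phi p (s + 1) z' :=
  strip hW hvan hx (w := 0) (by intro m hm; simp at hm) (by rw [hd, map_zero])

/-! ### leading forms -/

/-- **Leading forms**: two representatives of the same cochain, both of level `≤ n`, have the same
components of level `n` modulo `p`-th powers. -/
theorem lead_sub {W : (ℕ →₀ ℕ) →+ ℕ} (hW : IsLevel p W) {n : ℕ} {a b : UC p s}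
    (h : phi p s a = phi p s b) (ha : Sup (fun e => W e ≤ n) a) (hb : Sup (fun e => W e ≤ n) b)
    {e : ℕ →₀ ℕ} (he : W e = n) : InJ (comp e a - comp e b) := by
  have h0 : NF.phi p (a - b) = 0 := by
    rw [map_sub, sub_eq_zero]
    exact h
  have := lead hW h0 (ha.sub hb) he
  rwa [mcomp_eq_comp, map_sub] at this

omit [Fact p.Prime] in
theorem comp_eq_zero_of_sup {P : (ℕ →₀ ℕ) → Prop} {z : UC p s} (hz : Sup P z) {e : ℕ →₀ ℕ}
    (he : ¬ P e) : comp e z = 0 := by
  ext m
  rw [← mcomp_eq_comp, coeff_mcomp, coeff_zero]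
  split_ifs with h
  · by_contra hc
    exact he (h ▸ hz m (mem_support_iff.2 hc))
  · rfl

/-- The component of level `n` of a representative of a cocycle of level `≤ n` is a cocycle modulo
`p`-th powers. -/
theorem inJ_d_comp {W : (ℕ →₀ ℕ) →+ ℕ} (hW : IsLevel p W) {n : ℕ} {z : UC p s}
    {w : UC p (s + 1)} (hd : Ch.d s (phi p s z) = phi p (s + 1) w)
    (hz : Sup (fun e => W e ≤ n) z) (hw : Sup (fun e => W e < n) w) {e : ℕ →₀ ℕ} (he : W e = n) :
    InJ (UC.d s (comp e z)) := by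
  have h1 : phi p (s + 1) (UC.d s z) = phi p (s + 1) w := by
    rw [phi_d, hd]
  have h2 := lead_sub hW h1 (compat.sup_d hz) (hw.mono fun e he => he.le) he
  have h3 : comp e w = 0 := comp_eq_zero_of_sup hw (by omega)
  rwa [h3, sub_zero, comp_d] at h2

/-! ### supports -/

omit [Fact p.Prime] in
theorem sup_of_MH {P : (ℕ →₀ ℕ) → Prop} {e : ℕ →₀ ℕ} {z : UC p s} (hz : MH e z) (h : P e) :
    Sup P z := (mh_iff.1 hz).mono fun _ he' => he' ▸ h

theorem Sup.d {P : (ℕ →₀ ℕ) → Prop} {z : UC p s} (hz : Sup P z) : Sup P (UC.d s z) :=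
  compat.sup_d hz

theorem Sup.smul {P : (ℕ →₀ ℕ) → Prop} {z : UC p s} (hz : Sup P z) (c : ZMod p) :
    Sup P (c • z) := fun m hm => hz m (support_smul hm)

omit [Fact p.Prime] in
/-- Supports under products. -/
theorem Sup.mul {P Q R : (ℕ →₀ ℕ) → Prop} (hPQ : ∀ e e', P e → Q e' → R (e + e')) {a b : UC p s}
    (ha : Sup P a) (hb : Sup Q b) : Sup R (a * b) := by
  classical
  intro m hm
  obtain ⟨x, hx, y, hy, rfl⟩ := Finset.mem_add.1 (support_mul a b hm)
  rw [map_add]
  exact hPQ _ _ (ha x hx) (hb y hy)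

omit [Fact p.Prime] in
/-- Supports under the cosimplicial maps. -/
theorem Sup.ucmap {n m : ℕ} {P : (ℕ →₀ ℕ) → Prop} (α : Fin (m + 1) → Fin (n + 1)) {z : UC p m}
    (hz : Sup P z) : Sup P (UC.map α z) :=
  hz.map (UC.map α : UC p m →ₐ[ZMod p] UC p n).toRingHom.toAddMonoidHom
    fun _ _ h => UC.map_MH α h

omit [Fact p.Prime] in
/-- Supports under cup products. -/
theorem Sup.cup {P Q R : (ℕ →₀ ℕ) → Prop} (hPQ : ∀ e e', P e → Q e' → R (e + e')) {a b n : ℕ}
    (h : a + b = n) {x : UC p a} {y : UC p b} (hx : Sup P x) (hy : Sup Q y) :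
    Sup R (UC.cup h x y) := (hx.ucmap _).mul hPQ (hy.ucmap _)

omit [Fact p.Prime] in
/-- an element all of whose monomials have impossible multidegree is zero -/
theorem Sup.eq_zero {P : (ℕ →₀ ℕ) → Prop} {z : UC p s} (hz : Sup P z) (h : ∀ e, ¬ P e) :
    z = 0 := by
  rw [← support_eq_empty, Finset.eq_empty_iff_forall_notMem]
  intro m hm
  exact h _ (hz m hm)

end Vale.Agent.P257.V4.A
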