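import Mathlib.Algebra.BigOperators.Fin
import Mathlib.Algebra.MvPolynomial.Eval
import Mathlib.RingTheory.MvPolynomial.WeightedHomogeneous
import Mathlib.Algebra.CharP.Algebra
import Mathlib.Algebra.CharP.Lemmas
import Mathlib.Algebra.Field.ZMod
import Mathlib.Algebra.Order.Antidiag.Nat
import Mathlib.Algebra.BigOperators.NatAntidiagonal
import Mathlib.Algebra.Group.MinimalAxioms
import Mathlib.Tactic.Ring

/-!
# P257, V(4): the cobar complex of `P_* = F_p[t_1, t_2, ...]` in homogeneous coordinates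

`Ga p B` is the group of sequences `a : ℕ → B` with `a 0 = 1` and
`(a * b)_n = ∑ a_i b_{n-i}^{p^i}` (`B` an `F_p`-algebra); it is the group of strict automorphisms
`∑ a_i x^{p^i}` of the additive group.

`Ch p n = F_p[(i,k) : i < n, k]` is the ring of functions on chains `(g_0 = 1, g_1, …, g_n)`;
the variable `(i,k)` is the coefficient `k+1` of `g_{i+1}`; it has weight `1 + p + … + p^k`.
The format is the one of `Vale.Agent.P251.F.Cob`.
-/

namespace Vale.Agent.P257.V4.A

variable (p : ℕ)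

/-- Sequences with first term `1`. -/
@[ext] structure Ga (B : Type) [CommRing B] where
  /-- the coefficients -/
  a : ℕ → B
  zero' : a 0 = 1

section powers

variable {p}
variable {B : Type} [CommRing B] [Algebra (ZMod p) B]

theorem natCast_p_eq_zero : (p : B) = 0 := by
  have h : algebraMap (ZMod p) B (p : ZMod p) = 0 := by
    rw [ZMod.natCast_self, map_zero]
  rwa [map_natCast] at h

theorem add_pow_p [Fact p.Prime] (x y : B) : (x + y) ^ p = x ^ p + y ^ p := by
  nontriviality B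
  have : CharP B p := (Algebra.charP_iff (ZMod p) B p).mp inferInstance
  exact add_pow_char x y p

theorem add_pow_pow [Fact p.Prime] (k : ℕ) (x y : B) :
    (x + y) ^ (p ^ k) = x ^ (p ^ k) + y ^ (p ^ k) := by
  induction k generalizing x y with
  | zero => simp
  | succ k ih => rw [pow_succ, pow_mul, ih, add_pow_p, pow_mul, pow_mul]

/-- The `p ^ k`-power map as an additive homomorphism. -/
def frobHom [Fact p.Prime] (B : Type) [CommRing B] [Algebra (ZMod p) B] (k : ℕ) : B →+ B where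
  toFun x := x ^ (p ^ k)
  map_zero' := zero_pow (pow_ne_zero _ (Fact.out : p.Prime).ne_zero)
  map_add' := add_pow_pow k

@[simp] theorem frobHom_apply [Fact p.Prime] (k : ℕ) (x : B) :
    frobHom (p := p) B k x = x ^ (p ^ k) := rfl

theorem sum_pow_pow [Fact p.Prime] {ι : Type} (s : Finset ι) (f : ι → B) (k : ℕ) :
    (∑ i ∈ s, f i) ^ (p ^ k) = ∑ i ∈ s, f i ^ (p ^ k) :=
  map_sum (frobHom (p := p) B k) f s

end powers

namespace Ga

variable {p} [Fact p.Prime] {B C : Type} [CommRing B] [Algebra (ZMod p) B] [CommRing C]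
  [Algebra (ZMod p) C]

/-- The product: composition of additive power series. -/
def mul (p : ℕ) [Fact p.Prime] {B : Type} [CommRing B] (x y : Ga B) : Ga B where
  a n := ∑ ij ∈ Finset.antidiagonal n, x.a ij.1 * y.a ij.2 ^ (p ^ ij.1)
  zero' := by simp [x.zero', y.zero']

/-- The unit. -/
def one (B : Type) [CommRing B] : Ga B where
  a n := if n = 0 then 1 else 0
  zero' := if_pos rfl

end Ga

/-- The group of strict additive series over the `F_p`-algebra `B` (a copy of `Ga B`, with `p`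
recorded in the type). -/
def G (p : ℕ) (B : Type) [CommRing B] : Type := Ga B

namespace G

variable {p : ℕ} {B C : Type} [CommRing B] [CommRing C]

/-- the coefficients -/
def a (x : G p B) : ℕ → B := Ga.a x

@[simp] theorem a_zero (x : G p B) : x.a 0 = 1 := Ga.zero' x

/-- The series with coefficients `1, f 0, f 1, …`. -/
def mk (f : ℕ → B) : G p B := (⟨fun n => Nat.casesOn n 1 f, rfl⟩ : Ga B)

@[simp] theorem mk_a_succ (f : ℕ → B) (n : ℕ) : (mk (p := p) f).a (n + 1) = f n := rfl

@[ext] theorem ext {x y : G p B} (h : ∀ n, x.a n = y.a n) : x = y := Ga.ext (funext h)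

theorem ext_succ {x y : G p B} (h : ∀ n, x.a (n + 1) = y.a (n + 1)) : x = y := by
  ext n
  cases n with
  | zero => rw [a_zero, a_zero]
  | succ n => exact h n

theorem mk_eta (x : G p B) : mk (fun n => x.a (n + 1)) = x := ext_succ fun _ => rfl

variable [Fact p.Prime]

instance : Mul (G p B) := ⟨Ga.mul p⟩
instance : One (G p B) := ⟨Ga.one B⟩

theorem mul_a (x y : G p B) (n : ℕ) :
    (x * y).a n = ∑ ij ∈ Finset.antidiagonal n, x.a ij.1 * y.a ij.2 ^ (p ^ ij.1) := rfl

theorem one_a (n : ℕ) : (1 : G p B).a n = if n = 0 then 1 else 0 := rfl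

@[simp] theorem one_a_succ (n : ℕ) : (1 : G p B).a (n + 1) = 0 := rfl

theorem mul_a_one (x y : G p B) : (x * y).a 1 = x.a 1 + y.a 1 := by
  rw [mul_a, Finset.Nat.antidiagonal_succ]
  simp
  ring

/-- The coefficients of a left inverse. -/
noncomputable def invAux (x : G p B) : ℕ → B
  | 0 => 1
  | n + 1 => - ∑ i : Fin (n + 1), invAux x i * x.a (n + 1 - i) ^ (p ^ (i : ℕ))
decreasing_by exact i.2

noncomputable instance : Inv (G p B) :=
  ⟨fun x => (⟨invAux x, by rw [invAux]⟩ : Ga B)⟩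

theorem inv_a_zero (x : G p B) : (x⁻¹).a 0 = 1 := a_zero _

theorem inv_a_succ (x : G p B) (n : ℕ) :
    (x⁻¹).a (n + 1) = - ∑ i : Fin (n + 1), (x⁻¹).a i * x.a (n + 1 - i) ^ (p ^ (i : ℕ)) := by
  change invAux x (n + 1) = _
  rw [invAux]
  rfl

theorem inv_mul' (x : G p B) : x⁻¹ * x = 1 := by
  apply ext_succ
  intro n
  rw [mul_a, Finset.Nat.sum_antidiagonal_eq_sum_range_succ
    (fun i j => (x⁻¹).a i * x.a j ^ (p ^ i)), Finset.sum_range_succ, Nat.sub_self, a_zero,
    one_pow, mul_one, inv_a_succ, Finset.sum_range, one_a_succ, add_neg_cancel]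

variable [Algebra (ZMod p) B]

theorem mul_assoc' (x y z : G p B) : x * y * z = x * (y * z) := by
  ext n
  rw [mul_a, mul_a]
  have h1 : ∀ ij ∈ Finset.antidiagonal n, (x * y).a ij.1 * z.a ij.2 ^ (p ^ ij.1) =
      ∑ kl ∈ Finset.antidiagonal ij.1, x.a kl.1 * y.a kl.2 ^ (p ^ kl.1) *
        z.a ij.2 ^ (p ^ (kl.1 + kl.2)) := by
    intro ij _
    rw [mul_a, Finset.sum_mul]
    refine Finset.sum_congr rfl fun kl hkl => ?_
    rw [Finset.mem_antidiagonal.1 hkl]
  have h2 : ∀ ij ∈ Finset.antidiagonal n, x.a ij.1 * (y * z).a ij.2 ^ (p ^ ij.1) =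
      ∑ kl ∈ Finset.antidiagonal ij.2, x.a ij.1 * y.a kl.1 ^ (p ^ ij.1) *
        z.a kl.2 ^ (p ^ (ij.1 + kl.1)) := by
    intro ij _
    rw [mul_a, sum_pow_pow, Finset.mul_sum]
    refine Finset.sum_congr rfl fun kl _ => ?_
    rw [mul_pow, ← pow_mul, ← pow_add, add_comm kl.1 ij.1, mul_assoc]
  rw [Finset.sum_congr rfl h1, Finset.sum_congr rfl h2]
  rw [Finset.sum_sigma', Finset.sum_sigma']
  refine Finset.sum_nbij' (fun t => ⟨(t.2.1, t.2.2 + t.1.2), (t.2.2, t.1.2)⟩)
    (fun t => ⟨(t.1.1 + t.2.1, t.2.2), (t.1.1, t.2.1)⟩) ?_ ?_ ?_ ?_ ?_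
  · rintro ⟨⟨i, j⟩, ⟨k, l⟩⟩ h
    simp only [Finset.mem_sigma, Finset.mem_antidiagonal] at h ⊢
    exact ⟨by omega, by trivial⟩
  · rintro ⟨⟨i, j⟩, ⟨k, l⟩⟩ h
    simp only [Finset.mem_sigma, Finset.mem_antidiagonal] at h ⊢
    exact ⟨by omega, by trivial⟩
  · rintro ⟨⟨i, j⟩, ⟨k, l⟩⟩ h
    simp only [Finset.mem_sigma, Finset.mem_antidiagonal] at h
    obtain ⟨-, rfl⟩ := h
    rfl
  · rintro ⟨⟨i, j⟩, ⟨k, l⟩⟩ h
    simp only [Finset.mem_sigma, Finset.mem_antidiagonal] at h
    obtain ⟨-, rfl⟩ := h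
    rfl
  · rintro ⟨⟨i, j⟩, ⟨k, l⟩⟩ _
    rfl

omit [Algebra (ZMod p) B] in
theorem one_mul' (x : G p B) : 1 * x = x := by
  apply ext_succ
  intro n
  rw [mul_a, Finset.Nat.antidiagonal_succ]
  simp

noncomputable instance : Group (G p B) :=
  Group.ofLeftAxioms mul_assoc' one_mul' inv_mul'

/-- Base change. -/
def map (φ : B →+* C) (x : G p B) : G p C := (⟨fun n => φ (x.a n), by
  change φ (x.a 0) = 1
  rw [a_zero, map_one]⟩ : Ga C)

omit [Fact p.Prime] [Algebra (ZMod p) B] in
@[simp] theorem map_a (φ : B →+* C) (x : G p B) (n : ℕ) : (x.map φ).a n = φ (x.a n) := rfl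

omit [Algebra (ZMod p) B] in
theorem map_mul (φ : B →+* C) (x y : G p B) : (x * y).map φ = x.map φ * y.map φ := by
  ext n
  rw [map_a, mul_a, mul_a, map_sum]
  refine Finset.sum_congr rfl fun ij _ => ?_
  rw [_root_.map_mul, map_pow, map_a, map_a]

omit [Algebra (ZMod p) B] in
theorem map_one (φ : B →+* C) : (1 : G p B).map φ = 1 := by
  apply ext_succ
  intro n
  rw [map_a, one_a_succ, one_a_succ, map_zero]

variable [Algebra (ZMod p) C]

theorem map_inv (φ : B →+* C) (x : G p B) : (x⁻¹).map φ = (x.map φ)⁻¹ := by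
  rw [← mul_left_inj (x.map φ), ← map_mul, inv_mul_cancel, inv_mul_cancel, map_one]

end G

/-! ### chains and their functions -/

variable [Fact p.Prime]

/-- A chain `(g_0 = 1, g_1, …, g_n)`. -/
@[ext] structure Chain (n : ℕ) (B : Type) [CommRing B] where
  /-- the vertices -/
  g : Fin (n + 1) → G p B
  zero : g 0 = 1

/-- The ring of functions on chains of length `n`. -/
abbrev Ch (n : ℕ) : Type := MvPolynomial (Fin n × ℕ) (ZMod p)

namespace Chain

variable {p} {B C : Type} [CommRing B] [Algebra (ZMod p) B] [CommRing C] [Algebra (ZMod p) C]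
  {n m l : ℕ}

/-- base change of chains -/
def map (φ : B →+* C) (c : Chain p n B) : Chain p n C where
  g i := (c.g i).map φ
  zero := by rw [c.zero, G.map_one]

omit [Algebra (ZMod p) B] [Algebra (ZMod p) C] in
@[simp] theorem map_g (φ : B →+* C) (c : Chain p n B) (i : Fin (n + 1)) :
    (c.map φ).g i = (c.g i).map φ := rfl

/-- The restriction of a chain along a map `[m] → [n]` of index sets. -/
noncomputable def res (α : Fin (m + 1) → Fin (n + 1)) (c : Chain p n B) : Chain p m B where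
  g i := c.g (α i) * (c.g (α 0))⁻¹
  zero := mul_inv_cancel _

@[simp] theorem res_g (α : Fin (m + 1) → Fin (n + 1)) (c : Chain p n B) (i : Fin (m + 1)) :
    (c.res α).g i = c.g (α i) * (c.g (α 0))⁻¹ := rfl

theorem res_id (c : Chain p n B) : c.res id = c := by
  ext1
  funext i
  rw [res_g, id, id, c.zero, inv_one, mul_one]

theorem res_res (α : Fin (m + 1) → Fin (n + 1)) (β : Fin (l + 1) → Fin (m + 1))
    (c : Chain p n B) : (c.res α).res β = c.res (α ∘ β) := by
  ext1
  funext i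
  rw [res_g, res_g, res_g, res_g, mul_inv_rev, inv_inv, mul_assoc, inv_mul_cancel_left]
  rfl

theorem map_res (φ : B →+* C) (α : Fin (m + 1) → Fin (n + 1)) (c : Chain p n B) :
    (c.res α).map φ = (c.map φ).res α := by
  ext1
  funext i
  rw [map_g, res_g, res_g, G.map_mul, G.map_inv]
  rfl

end Chain

namespace Ch

variable {p} {B C : Type} [CommRing B] [Algebra (ZMod p) B] [CommRing C] [Algebra (ZMod p) C]
  {n m l : ℕ}

/-- The universal chain over `Ch p n`. -/
noncomputable def univ (p : ℕ) [Fact p.Prime] (n : ℕ) : Chain p n (Ch p n) where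
  g := Fin.cons 1 fun i => G.mk fun k => MvPolynomial.X (i, k)
  zero := Fin.cons_zero _ _

theorem univ_g_zero : (univ p n).g 0 = 1 := (univ p n).zero

@[simp] theorem univ_g_succ (i : Fin n) :
    (univ p n).g i.succ = G.mk fun k => MvPolynomial.X (i, k) := by
  unfold univ
  exact Fin.cons_succ (α := fun _ => G p (Ch p n)) 1 (fun i => G.mk fun k => MvPolynomial.X (i, k)) i

/-- Evaluation of functions on a chain. -/
noncomputable def ev (c : Chain p n B) : Ch p n →+* B :=
  MvPolynomial.eval₂Hom (algebraMap (ZMod p) B) fun ik => (c.g ik.1.succ).a (ik.2 + 1)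

@[simp] theorem ev_X (c : Chain p n B) (ik : Fin n × ℕ) :
    ev c (MvPolynomial.X ik) = (c.g ik.1.succ).a (ik.2 + 1) := by
  simp [ev]

@[simp] theorem ev_C (c : Chain p n B) (x : ZMod p) :
    ev c (MvPolynomial.C x) = algebraMap (ZMod p) B x := by
  simp [ev]

theorem hom_ext {φ ψ : Ch p n →+* B}
    (h : ∀ ik, φ (MvPolynomial.X ik) = ψ (MvPolynomial.X ik)) : φ = ψ :=
  MvPolynomial.ringHom_ext (fun a => by
    rw [← RingHom.comp_apply, ← RingHom.comp_apply]
    exact congrArg (fun f : ZMod p →+* B => f a) (Subsingleton.elim _ _)) h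

@[simp] theorem univ_map_ev (c : Chain p n B) : (univ p n).map (ev c) = c := by
  ext1
  funext i
  refine Fin.cases ?_ (fun i => ?_) i
  · rw [Chain.map_g, c.zero, univ_g_zero, G.map_one]
  · rw [Chain.map_g, univ_g_succ]
    apply G.ext_succ
    intro k
    rw [G.map_a, G.mk_a_succ, ev_X]

theorem ev_map (φ : B →+* C) (c : Chain p n B) (x : Ch p n) : ev (c.map φ) x = φ (ev c x) := by
  have : ev (c.map φ) = φ.comp (ev c) := hom_ext fun ik => by simp
  rw [this, RingHom.comp_apply]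

@[simp] theorem ev_univ (x : Ch p n) : ev (univ p n) x = x := by
  have : ev (univ p n) = RingHom.id (Ch p n) := hom_ext fun ik => by simp
  rw [this, RingHom.id_apply]

/-- Ring homomorphisms out of `Ch p n` are the same as chains. -/
noncomputable def equiv : (Ch p n →+* B) ≃ Chain p n B where
  toFun φ := (univ p n).map φ
  invFun c := ev c
  left_inv φ := RingHom.ext fun x => by
    change ev ((univ p n).map φ) x = φ x
    rw [ev_map, ev_univ]
  right_inv c := univ_map_ev c

/-- Extensionality of functions on chains. -/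
theorem ext_ev {x y : Ch p n}
    (h : ∀ (B : Type) [CommRing B] [Algebra (ZMod p) B] (c : Chain p n B), ev c x = ev c y) :
    x = y := by
  have := h _ (univ p n)
  rwa [ev_univ, ev_univ] at this

/-- The cosimplicial structure. -/
noncomputable def map (α : Fin (m + 1) → Fin (n + 1)) : Ch p m →+* Ch p n :=
  ev ((univ p n).res α)

@[simp] theorem ev_map_res (α : Fin (m + 1) → Fin (n + 1)) (c : Chain p n B) (x : Ch p m) :
    ev c (map α x) = ev (c.res α) x := by
  rw [map, ← ev_map, Chain.map_res, univ_map_ev]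

@[simp] theorem map_id (x : Ch p n) : map id x = x := by
  apply ext_ev
  intro B _ _ c
  rw [ev_map_res, Chain.res_id]

theorem map_map (α : Fin (m + 1) → Fin (n + 1)) (β : Fin (l + 1) → Fin (m + 1)) (x : Ch p l) :
    map α (map β x) = map (α ∘ β) x := by
  apply ext_ev
  intro B _ _ c
  rw [ev_map_res, ev_map_res, ev_map_res, Chain.res_res]

/-- The differential `d = ∑ (-1)^i d^i`. -/
noncomputable def d (n : ℕ) : Ch p n →+ Ch p (n + 1) :=
  ∑ i : Fin (n + 2), ((-1 : ℤ) ^ (i : ℕ)) • (map (i.succAbove) : Ch p n →+* Ch p (n + 1)).toAddMonoidHom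

theorem d_apply (x : Ch p n) :
    d n x = ∑ i : Fin (n + 2), ((-1 : ℤ) ^ (i : ℕ)) • map i.succAbove x := by
  simp [d, AddMonoidHom.finsetSum_apply]

theorem ev_d (c : Chain p (n + 1) B) (x : Ch p n) :
    ev c (d n x) = ∑ i : Fin (n + 2), ((-1 : ℤ) ^ (i : ℕ)) • ev (c.res i.succAbove) x := by
  rw [d_apply, map_sum]
  refine Finset.sum_congr rfl fun i _ => ?_
  rw [map_zsmul, ev_map_res]

theorem parity_aux {n : ℕ} (i : Fin (n + 3)) (j : Fin (n + 2)) :
    ((i.succAbove j : Fin (n + 3)) : ℕ) + ((j.predAbove i : Fin (n + 2)) : ℕ) + 1 = i + j ∨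
    ((i.succAbove j : Fin (n + 3)) : ℕ) + ((j.predAbove i : Fin (n + 2)) : ℕ) = i + j + 1 := by
  simp only [Fin.succAbove, Fin.predAbove, Fin.lt_def, Fin.val_castSucc, apply_dite Fin.val,
    Fin.val_pred, Fin.coe_castPred, dite_eq_ite, apply_ite Fin.val, Fin.val_succ]
  split_ifs <;> omega

theorem d_d (x : Ch p n) : d (n + 1) (d n x) = 0 := by
  rw [d_apply]
  simp only [d_apply, map_sum, map_zsmul, map_map, Finset.smul_sum, smul_smul]
  rw [← Finset.sum_product' (f := fun (i : Fin (n + 3)) (j : Fin (n + 2)) =>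
    ((-1 : ℤ) ^ (i : ℕ) * (-1) ^ (j : ℕ)) • map (i.succAbove ∘ j.succAbove) x)]
  refine Finset.sum_involution (fun ij _ => (ij.1.succAbove ij.2, ij.2.predAbove ij.1))
    ?_ ?_ (fun _ _ => Finset.mem_univ _) ?_
  · rintro ⟨i, j⟩ -
    have e : (i.succAbove j).succAbove ∘ (j.predAbove i).succAbove =
        i.succAbove ∘ j.succAbove := by
      funext k
      exact Fin.succAbove_succAbove_succAbove_predAbove i j k
    dsimp only
    rw [e, ← add_smul, ← pow_add, ← pow_add]
    have : ((-1 : ℤ) ^ ((i : ℕ) + j) + (-1) ^ (((i.succAbove j : Fin (n + 3)) : ℕ) +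
        ((j.predAbove i : Fin (n + 2)) : ℕ))) = 0 := by
      rcases parity_aux i j with h | h
      · rw [← h, pow_succ]
        ring
      · rw [h, pow_succ]
        ring
    rw [this, zero_smul]
  · rintro ⟨i, j⟩ - - h
    have := congrArg Prod.fst h
    exact Fin.succAbove_ne i j this
  · rintro ⟨i, j⟩ -
    refine Prod.ext ?_ ?_
    · exact Fin.succAbove_succAbove_predAbove i j
    · dsimp only
      apply Fin.ext
      simp only [Fin.succAbove, Fin.predAbove, Fin.lt_def, Fin.val_castSucc, apply_dite Fin.val,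
        Fin.val_pred, Fin.coe_castPred, dite_eq_ite, apply_ite Fin.val, Fin.val_succ]
      split_ifs <;> omega

/-! ### weights -/

/-- The numbers `N_k = 1 + p + … + p^{k-1}` (`|v_k| = q N_k`, weight of `t_k`). -/
def N (p k : ℕ) : ℕ := ∑ j ∈ Finset.range k, p ^ j

/-- The weight of the variable `(i,k)` is `N_{k+1}`. -/
def vwt (p : ℕ) (n : ℕ) : Fin n × ℕ → ℕ := fun ik => N p (ik.2 + 1)

/-- `x` is homogeneous of weight `D`. -/
def IsWt (D : ℕ) (x : Ch p n) : Prop := MvPolynomial.IsWeightedHomogeneous (vwt p n) x D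

/-! ### vanishing -/

/-- `z` is a coboundary. -/
def IsCobdy : ∀ {s : ℕ}, Ch p s → Prop
  | 0, z => z = 0
  | s + 1, z => ∃ y : Ch p s, d s y = z

/-- `Ext_P^s_D = 0`: every cocycle of degree `s` and weight `D` is a coboundary. -/
def Van (p : ℕ) [Fact p.Prime] (s D : ℕ) : Prop :=
  ∀ z : Ch p s, IsWt D z → d s z = 0 → IsCobdy z

/-! ### cup product -/

/-- The inclusion of the first `a+1` vertices. -/
def front {a n : ℕ} (h : a ≤ n) : Fin (a + 1) → Fin (n + 1) := fun i => ⟨i, by omega⟩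

/-- The inclusion of the last `b+1` vertices. -/
def back {b n : ℕ} (h : b ≤ n) : Fin (b + 1) → Fin (n + 1) := fun i => ⟨n - b + i, by omega⟩

/-- The cup product `(x ∪ y)(g_0,…,g_{a+b}) = x(g_0,…,g_a) y(g_a,…,g_{a+b})`, in any `Ch p n` with
`a + b = n`. -/
noncomputable def cup {a b n : ℕ} (h : a + b = n) (x : Ch p a) (y : Ch p b) : Ch p n :=
  map (front (by omega)) x * map (back (by omega)) y

theorem ev_cup {a b n : ℕ} (h : a + b = n) (c : Chain p n B) (x : Ch p a) (y : Ch p b) :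
    ev c (cup h x y) = ev (c.res (front (by omega))) x * ev (c.res (back (by omega))) y := by
  rw [cup, _root_.map_mul, ev_map_res, ev_map_res]

/-! ### the standard cochains -/

/-- `[t_k]` (`t_0 = 1`). -/
noncomputable def t (p : ℕ) [Fact p.Prime] (k : ℕ) : Ch p 1 := ((univ p 1).g 1).a k

/-- `h_{n,i} = [t_n^{p^i}]`. -/
noncomputable def h (p : ℕ) [Fact p.Prime] (n i : ℕ) : Ch p 1 := t p n ^ (p ^ i)

/-- `b_0 = ∑_{0<j<p} (binom(p,j)/p) [t_1^j | t_1^{p-j}]`. -/
noncomputable def b0 (p : ℕ) [Fact p.Prime] : Ch p 2 :=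
  ∑ j ∈ Finset.Ioo 0 p, ((p.choose j / p : ℕ) : ℤ) • cup rfl (t p 1 ^ j) (t p 1 ^ (p - j))

/-- Cup powers of `b_0` multiplied on the right: `x ∪ b_0^k`. -/
noncomputable def mulb0 : ∀ (k : ℕ) {s : ℕ}, Ch p s → Ch p (s + 2 * k)
  | 0, _, x => x
  | k + 1, _, x => cup (by omega) (mulb0 k x) (b0 p)

/-- Cup powers of `b_0` multiplied on the left: `b_0^k ∪ x` (canonical form). -/
noncomputable def b0mul : ∀ (k : ℕ) {s : ℕ}, Ch p s → Ch p (s + 2 * k)
  | 0, _, x => x
  | k + 1, s, x => cup (show 2 + (s + 2 * k) = s + 2 * (k + 1) by omega) (b0 p) (b0mul k x)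

end Ch

end Vale.Agent.P257.V4.A
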