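import Vale.Agent.P257.V4.A.UDefs
import Vale.Agent.P257.V4.A.Defs

/-!
# P257, part A: basic facts on the unitriangular model

Closure properties of `InJ` and `MH`, the comparison map `phi : UC p s → Ch p s`.
-/

namespace Vale.Agent.P257.V4.A

open MvPolynomial Finset

variable {p s n m l : ℕ}

/-! ### `InJ` -/

namespace InJ

theorem zero : InJ (0 : UC p s) := by
  intro m hm
  rw [support_zero] at hm
  simp at hm

theorem add {a b : UC p s} (ha : InJ a) (hb : InJ b) : InJ (a + b) := by
  classical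
  intro m hm
  rcases Finset.mem_union.1 (support_add hm) with h | h
  · exact ha m h
  · exact hb m h

theorem neg {a : UC p s} (ha : InJ a) : InJ (-a) := by
  intro m hm
  exact ha m (by rwa [support_neg] at hm)

theorem sub {a b : UC p s} (ha : InJ a) (hb : InJ b) : InJ (a - b) := by
  rw [sub_eq_add_neg]
  exact ha.add hb.neg

theorem smul {a : UC p s} (ha : InJ a) (c : ZMod p) : InJ (c • a) := fun m hm =>
  ha m (support_smul hm)

theorem mul_right {a : UC p s} (ha : InJ a) (b : UC p s) : InJ (a * b) := by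
  classical
  intro m hm
  obtain ⟨x, hx, y, -, rfl⟩ := Finset.mem_add.1 (support_mul a b hm)
  obtain ⟨v, hv⟩ := ha x hx
  exact ⟨v, hv.trans (by rw [Finsupp.add_apply]; omega)⟩

theorem mul_left {b : UC p s} (hb : InJ b) (a : UC p s) : InJ (a * b) := by
  rw [mul_comm]
  exact hb.mul_right a

theorem sum {ι : Type*} {t : Finset ι} {f : ι → UC p s} (h : ∀ i ∈ t, InJ (f i)) :
    InJ (∑ i ∈ t, f i) := by
  classical
  induction t using Finset.induction_on with
  | empty =>
    rw [Finset.sum_empty]
    exact zero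
  | insert a t ha ih =>
    rw [Finset.sum_insert ha]
    exact (h a (Finset.mem_insert_self _ _)).add
      (ih fun i hi => h i (Finset.mem_insert_of_mem hi))

theorem of_sub {a b : UC p s} (h : InJ (a - b)) (hb : InJ b) : InJ a := by
  have := h.add hb
  rwa [sub_add_cancel] at this

theorem congr_sub {a b : UC p s} (h : InJ (a - b)) : InJ a ↔ InJ b :=
  ⟨fun ha => by
    have := ha.sub h
    rwa [sub_sub_cancel] at this, fun hb => h.of_sub hb⟩

theorem pow_char [Fact p.Prime] {f : UC p s} (hf : (0 : (Fin s × (ℕ × ℕ)) →₀ ℕ) ∉ f.support) :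
    InJ (f ^ p) := by
  classical
  rw [← expand_zmod]
  intro m hm
  obtain ⟨x, hx, rfl⟩ := Finset.mem_image.1 (support_expand_subset f hm)
  have hx0 : x ≠ 0 := by
    rintro rfl
    exact hf hx
  obtain ⟨v, hv⟩ := Finsupp.ne_iff.1 hx0
  refine ⟨v, ?_⟩
  rw [Finsupp.smul_apply, smul_eq_mul]
  exact Nat.le_mul_of_pos_right p (Nat.pos_of_ne_zero hv)

theorem component {a : UC p s} (ha : InJ a) (e : ℕ →₀ ℕ) :
    InJ (weightedHomogeneousComponent mw e a) := by
  classical
  intro m hm
  refine ha m ?_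
  rw [support_weightedHomogeneousComponent, Finset.mem_filter] at hm
  exact hm.1

end InJ

theorem inJ_iff_mem {z : UC p s} : InJ z ↔
    z ∈ Ideal.span (Set.range fun v : Fin s × (ℕ × ℕ) => (X v : UC p s) ^ p) := by
  classical
  constructor
  · intro h
    rw [← support_sum_monomial_coeff z]
    refine Ideal.sum_mem _ fun m hm => ?_
    obtain ⟨v, hv⟩ := h m hm
    have hm' : m = Finsupp.single v p + (m - Finsupp.single v p) :=
      (add_tsub_cancel_of_le (Finsupp.single_le_iff.2 hv)).symm
    rw [hm', monomial_single_add]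
    exact Ideal.mul_mem_right _ _ (Ideal.subset_span ⟨v, rfl⟩)
  · intro h
    refine Submodule.span_induction ?_ InJ.zero (fun a b _ _ ha hb => ha.add hb)
      (fun a b _ hb => by
        rw [smul_eq_mul]
        exact hb.mul_left a) h
    rintro _ ⟨v, rfl⟩ m hm
    change m ∈ ((X v : UC p s) ^ p).support at hm
    rw [X_pow_eq_monomial] at hm
    have := Finset.mem_singleton.1 (support_monomial_subset hm)
    subst this
    exact ⟨v, by rw [Finsupp.single_eq_same]⟩

/-! ### multidegrees -/

/-- the interval `[i, i+n)` as a multidegree -/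
noncomputable def itw (i n : ℕ) : ℕ →₀ ℕ := ∑ l ∈ range n, Finsupp.single (i + l) 1

theorem itw_zero (i : ℕ) : itw i 0 = 0 := by simp [itw]

theorem itv_eq (i k : ℕ) : itv i k = itw i (k + 1) := rfl

theorem itw_add (i a b : ℕ) : itw i a + itw (i + a) b = itw i (a + b) := by
  rw [itw, itw, itw, Finset.sum_range_add]
  simp only [add_assoc]

theorem itw_apply (i n j : ℕ) : itw i n j = if i ≤ j ∧ j < i + n then 1 else 0 := by
  classical
  rw [itw, Finsupp.finsetSum_apply]
  simp only [Finsupp.single_apply]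
  split_ifs with h
  · rw [Finset.sum_eq_single (j - i)]
    · rw [if_pos (by omega)]
    · intro b _ hb
      rw [if_neg (by omega)]
    · intro hb
      exact absurd (Finset.mem_range.2 (by omega)) hb
  · refine Finset.sum_eq_zero fun l hl => ?_
    rw [Finset.mem_range] at hl
    rw [if_neg (by omega)]

theorem itv_apply (i k j : ℕ) : itv i k j = if i ≤ j ∧ j ≤ i + k then 1 else 0 := by
  rw [itv_eq, itw_apply]
  simp only [← add_assoc, Nat.lt_succ_iff]

theorem mw_ne_zero (v : Fin s × (ℕ × ℕ)) : mw v ≠ 0 := by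
  intro h
  have := DFunLike.congr_fun h v.2.1
  rw [mw, itv_apply, if_pos ⟨le_rfl, by omega⟩, Finsupp.zero_apply] at this
  exact one_ne_zero this

namespace MH

variable {e e' : ℕ →₀ ℕ} {a b : UC p s}

theorem zero (e : ℕ →₀ ℕ) : MH e (0 : UC p s) := isWeightedHomogeneous_zero _ _ _

theorem one : MH 0 (1 : UC p s) := isWeightedHomogeneous_one _ _

theorem add (ha : MH e a) (hb : MH e b) : MH e (a + b) := IsWeightedHomogeneous.add ha hb

theorem neg (ha : MH e a) : MH e (-a) := IsWeightedHomogeneous.neg ha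

theorem sub (ha : MH e a) (hb : MH e b) : MH e (a - b) := IsWeightedHomogeneous.sub ha hb

theorem smul (ha : MH e a) (c : ZMod p) : MH e (c • a) := by
  rw [smul_eq_C_mul]
  exact IsWeightedHomogeneous.C_mul ha c

theorem mul (ha : MH e a) (hb : MH e' b) : MH (e + e') (a * b) := IsWeightedHomogeneous.mul ha hb

theorem pow (ha : MH e a) (k : ℕ) : MH (k • e) (a ^ k) := IsWeightedHomogeneous.pow ha k

theorem sum {ι : Type*} {t : Finset ι} {f : ι → UC p s} (h : ∀ i ∈ t, MH e (f i)) :
    MH e (∑ i ∈ t, f i) := IsWeightedHomogeneous.sum t f e h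

theorem X (v : Fin s × (ℕ × ℕ)) : MH (mw v) (MvPolynomial.X v : UC p s) :=
  isWeightedHomogeneous_X _ _ _

theorem component (z : UC p s) (e : ℕ →₀ ℕ) : MH e (weightedHomogeneousComponent mw e z) :=
  weightedHomogeneousComponent_isWeightedHomogeneous e z

theorem zero_notMem_support (ha : MH e a) (he : e ≠ 0) :
    (0 : (Fin s × (ℕ × ℕ)) →₀ ℕ) ∉ a.support := by
  intro h
  have := ha (mem_support_iff.1 h)
  rw [map_zero] at this
  exact he this.symm

/-- Homogeneity under substitutions. -/
theorem aeval_of {f : Fin s × (ℕ × ℕ) → UC p n} (hf : ∀ v, MH (mw v) (f v)) (ha : MH e a) :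
    MH e (aeval f a) := by
  classical
  rw [← support_sum_monomial_coeff a, map_sum]
  refine MH.sum fun x hx => ?_
  rw [aeval_monomial]
  have hx' : Finsupp.weight mw x = e := ha (mem_support_iff.1 hx)
  have h1 : MH (∑ v ∈ x.support, x v • mw v) (∏ v ∈ x.support, f v ^ x v) :=
    IsWeightedHomogeneous.prod _ _ _ fun v _ => (hf v).pow (x v)
  have h2 : ∑ v ∈ x.support, x v • mw v = e := by
    rw [← hx', Finsupp.weight_apply, Finsupp.sum]
  rw [h2] at h1
  rw [Finsupp.prod]
  have h3 := h1.smul (coeff x a)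
  rwa [Algebra.smul_def] at h3

end MH

/-- All entries are homogeneous. -/
def HomU (u : Un (UC p s)) : Prop := ∀ i n, MH (itw i n) (u.e i n)

theorem HomU.one : HomU (1 : Un (UC p s)) := by
  intro i n
  rw [Un.one_e]
  split_ifs with h
  · rw [h, itw_zero]
    exact MH.one
  · exact MH.zero _

theorem HomU.mul {u v : Un (UC p s)} (hu : HomU u) (hv : HomU v) : HomU (u * v) := by
  intro i n
  rw [Un.mul_e]
  refine MH.sum fun x hx => ?_
  rw [HasAntidiagonal.mem_antidiagonal] at hx
  have := (hu i x.1).mul (hv (i + x.1) x.2)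
  rwa [itw_add, hx] at this

theorem HomU.inv {u : Un (UC p s)} (hu : HomU u) : HomU u⁻¹ := by
  intro i n
  rw [Un.inv_e]
  induction n using Nat.strong_induction_on with
  | _ n ih =>
    rcases n with _ | n
    · rw [Un.invE, itw_zero]
      exact MH.one
    · rw [Un.invE]
      refine (MH.sum fun l _ => ?_).neg
      have := (ih l l.2).mul (hu (i + l) (n + 1 - l))
      rwa [itw_add, Nat.add_sub_cancel' l.2.le] at this

theorem HomU.univ (r : Fin (n + 1)) : HomU ((UC.univ p n).g r) := by
  refine Fin.cases ?_ (fun r => ?_) r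
  · rw [UC.univ_g_zero]
    exact HomU.one
  · rw [UC.univ_g_succ]
    intro i k
    rcases k with _ | k
    · rw [Un.e_zero, itw_zero]
      exact MH.one
    · rw [Un.mk'_e_succ]
      exact MH.X (r, (i, k))

namespace UC

theorem map_MH (α : Fin (m + 1) → Fin (n + 1)) {e : ℕ →₀ ℕ} {z : UC p m} (hz : MH e z) :
    MH e (map α z) := by
  refine MH.aeval_of (fun v => ?_) hz
  exact ((HomU.univ _).mul (HomU.univ _).inv) v.2.1 (v.2.2 + 1)

theorem map_InJ [Fact p.Prime] (α : Fin (m + 1) → Fin (n + 1)) {z : UC p m} (hz : InJ z) :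
    InJ (map α z) := by
  rw [inJ_iff_mem] at hz
  refine Submodule.span_induction ?_ ?_ (fun a b _ _ ha hb => ?_) (fun a b _ hb => ?_) hz
  · rintro _ ⟨v, rfl⟩
    rw [map_pow]
    exact InJ.pow_char ((map_MH α (MH.X v)).zero_notMem_support (mw_ne_zero v))
  · rw [map_zero]
    exact InJ.zero
  · rw [map_add]
    exact ha.add hb
  · rw [smul_eq_mul, map_mul]
    exact hb.mul_left _

theorem d_MH {e : ℕ →₀ ℕ} {z : UC p n} (hz : MH e z) : MH e (d n z) := by
  rw [d_apply]
  exact MH.sum fun i _ => (map_MH _ hz).smul _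

theorem d_InJ [Fact p.Prime] {z : UC p n} (hz : InJ z) : InJ (d n z) := by
  rw [d_apply]
  exact InJ.sum fun i _ => (map_InJ _ hz).smul _

theorem d_d (x : UC p n) : d (n + 1) (d n x) = 0 := by
  rw [d_apply]
  simp only [d_apply, map_sum, map_smul, map_map, Finset.smul_sum, smul_smul]
  rw [← Finset.sum_product' (f := fun (i : Fin (n + 3)) (j : Fin (n + 2)) =>
    ((-1 : ZMod p) ^ (i : ℕ) * (-1) ^ (j : ℕ)) • map (i.succAbove ∘ j.succAbove) x)]
  refine Finset.sum_involution (fun ij _ => (ij.1.succAbove ij.2, ij.2.predAbove ij.1))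
    ?_ ?_ (fun _ _ => Finset.mem_univ _) ?_
  · rintro ⟨i, j⟩ -
    have e : (i.succAbove j).succAbove ∘ (j.predAbove i).succAbove =
        i.succAbove ∘ j.succAbove := by
      funext k
      exact Fin.succAbove_succAbove_succAbove_predAbove i j k
    dsimp only
    rw [e, ← add_smul, ← pow_add, ← pow_add]
    have : ((-1 : ZMod p) ^ ((i : ℕ) + j) + (-1) ^ (((i.succAbove j : Fin (n + 3)) : ℕ) +
        ((j.predAbove i : Fin (n + 2)) : ℕ))) = 0 := by
      rcases Ch.parity_aux i j with h | h
      · rw [← h, pow_succ]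
        ring
      · rw [h, pow_succ]
        ring
    rw [this, zero_smul]
  · rintro ⟨i, j⟩ - - h
    have := congrArg Prod.fst h
    exact Fin.succAbove_ne i j this
  · rintro ⟨i, j⟩ -
    refine Prod.ext ?_ ?_
    · exact Fin.succAbove_succAbove_predAbove i j
    · dsimp only
      apply Fin.ext
      simp only [Fin.succAbove, Fin.predAbove, Fin.lt_def, Fin.val_castSucc, apply_dite Fin.val,
        Fin.val_pred, Fin.coe_castPred, dite_eq_ite, apply_ite Fin.val, Fin.val_succ]
      split_ifs <;> omega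

end UC

/-! ### components -/

/-- the component of multidegree `e` -/
noncomputable def comp {s : ℕ} (e : ℕ →₀ ℕ) : UC p s →ₗ[ZMod p] UC p s :=
  weightedHomogeneousComponent mw e

theorem comp_MH (e : ℕ →₀ ℕ) (z : UC p s) : MH e (comp e z) := MH.component z e

theorem comp_InJ {z : UC p s} (hz : InJ z) (e : ℕ →₀ ℕ) : InJ (comp e z) := hz.component e

theorem comp_of_MH {e : ℕ →₀ ℕ} {z : UC p s} (hz : MH e z) : comp e z = z :=
  IsWeightedHomogeneous.weightedHomogeneousComponent_same hz

theorem comp_of_MH_ne {e e' : ℕ →₀ ℕ} {z : UC p s} (hz : MH e z) (h : e ≠ e') :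
    comp e' z = 0 :=
  IsWeightedHomogeneous.weightedHomogeneousComponent_ne e' hz h.symm

theorem coeff_comp (e : ℕ →₀ ℕ) (z : UC p s) (x : (Fin s × (ℕ × ℕ)) →₀ ℕ)
    [Decidable (Finsupp.weight mw x = e)] :
    coeff x (comp e z) = if Finsupp.weight mw x = e then coeff x z else 0 := by
  classical
  rw [comp, coeff_weightedHomogeneousComponent]
  congr

theorem sum_comp {z : UC p s} (T : Finset (ℕ →₀ ℕ))
    (hT : ∀ x ∈ z.support, Finsupp.weight mw x ∈ T) : ∑ e ∈ T, comp e z = z := by
  classical
  ext x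
  rw [coeff_sum]
  simp only [coeff_comp]
  rw [Finset.sum_ite_eq]
  split_ifs with h
  · rfl
  · by_contra hne
    exact h (hT x (mem_support_iff.2 fun h0 => hne h0.symm))

theorem comp_sum {T : Finset (ℕ →₀ ℕ)} {f : (ℕ →₀ ℕ) → UC p s} (hf : ∀ e' ∈ T, MH e' (f e'))
    {e : ℕ →₀ ℕ} : comp e (∑ e' ∈ T, f e') = if e ∈ T then f e else 0 := by
  classical
  rw [map_sum]
  split_ifs with h
  · rw [Finset.sum_eq_single e]
    · exact comp_of_MH (hf e h)
    · intro e' he' hne
      exact comp_of_MH_ne (hf e' he') hne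
    · intro h'
      exact absurd h h'
  · refine Finset.sum_eq_zero fun e' he' => comp_of_MH_ne (hf e' he') ?_
    rintro rfl
    exact h he'

theorem comp_map (α : Fin (m + 1) → Fin (n + 1)) (z : UC p m) (e : ℕ →₀ ℕ) :
    comp e (UC.map α z) = UC.map α (comp e z) := by
  classical
  have hz := sum_comp (z := z) (insert e (z.support.image (Finsupp.weight mw)))
    fun x hx => Finset.mem_insert_of_mem (Finset.mem_image_of_mem _ hx)
  conv_lhs => rw [← hz]
  rw [map_sum, comp_sum (fun e' _ => UC.map_MH α (comp_MH e' z)),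
    if_pos (Finset.mem_insert_self _ _)]

theorem comp_d (z : UC p n) (e : ℕ →₀ ℕ) : comp e (UC.d n z) = UC.d n (comp e z) := by
  rw [UC.d_apply, UC.d_apply, map_sum]
  refine Finset.sum_congr rfl fun i _ => ?_
  rw [map_smul, comp_map]

end Vale.Agent.P257.V4.A
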