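import Vale.Agent.P257.V4.A.CasI
import Vale.Agent.P257.V4.A.UBasic

/-!
# P257, V(4), block A2: from finite to infinite unitriangular matrices

`casMain_of_core`: the finite form `CasCore p N` (all `N`) gives the vanishing statement
`VanA p s e` for the infinite model `UC p s`.
-/

namespace Vale.Agent.P257.V4.A.Cas

open Matrix MvPolynomial Finset

variable {N : ℕ}

/-- the finite block of an infinite unitriangular matrix -/
def fin (N : ℕ) {B : Type} [CommRing B] (a : Un B) : Mt N B :=
  Matrix.of fun i j => if i ≤ j then a.e i (j - i : ℕ) else 0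

section

variable {B C : Type} [CommRing B] [CommRing C]

theorem fin_le (a : Un B) {i j : Fin N} (h : i ≤ j) : fin N a i j = a.e i (j - i : ℕ) := by
  rw [fin, Matrix.of_apply, if_pos h]

theorem fin_uni (a : Un B) : Uni (fin N a) := by
  constructor
  · intro i
    rw [fin_le a le_rfl, Nat.sub_self, a.e_zero]
  · intro i j h
    rw [fin, Matrix.of_apply, if_neg (not_le.2 h)]

theorem fin_mul (a b : Un B) : fin N (a * b) = fin N a * fin N b := by
  refine Uni.ext (fin_uni _) ((fin_uni a).mul (fin_uni b)) fun i j h => ?_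
  rw [fin_le _ h.le, Un.mul_e, Finset.Nat.sum_antidiagonal_eq_sum_range_succ
    (fun x y => a.e i x * b.e (i + x) y), Matrix.mul_apply]
  have h1 : ∀ l ∈ Finset.univ, fin N a i l * fin N b l j =
      if ((i : ℕ) ≤ l ∧ (l : ℕ) ≤ j) then a.e i (l - i : ℕ) * b.e l (j - l : ℕ) else 0 := by
    intro l _
    rw [fin, fin, Matrix.of_apply, Matrix.of_apply]
    by_cases h2 : i ≤ l
    · by_cases h3 : l ≤ j
      · rw [if_pos h2, if_pos h3, if_pos ⟨h2, h3⟩]
      · rw [if_neg h3, mul_zero, if_neg (fun h4 => h3 h4.2)]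
    · rw [if_neg h2, zero_mul, if_neg (fun h4 => h2 h4.1)]
  rw [Finset.sum_congr rfl h1, ← Finset.sum_filter]
  refine Finset.sum_nbij' (fun x => (⟨min ((i : ℕ) + x) (j : ℕ),
    lt_of_le_of_lt (min_le_right _ _) j.2⟩ : Fin N)) (fun l => (l : ℕ) - i) ?_ ?_ ?_ ?_ ?_
  · intro x hx
    rw [Finset.mem_range] at hx
    rw [Finset.mem_filter]
    refine ⟨Finset.mem_univ _, ?_, ?_⟩ <;> simp only <;> omega
  · intro l hl
    rw [Finset.mem_filter] at hl
    rw [Finset.mem_range]
    omega
  · intro x hx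
    rw [Finset.mem_range] at hx
    simp only
    omega
  · intro l hl
    rw [Finset.mem_filter] at hl
    apply Fin.ext
    simp only
    omega
  · intro x hx
    rw [Finset.mem_range] at hx
    have e1 : min ((i : ℕ) + x) (j : ℕ) = i + x := by omega
    simp only [e1]
    rw [show (i : ℕ) + x - i = x by omega, show (j : ℕ) - (i + x) = (j - i : ℕ) - x by omega]

theorem fin_one : fin N (1 : Un B) = 1 := by
  refine Uni.ext (fin_uni _) Uni.one fun i j h => ?_
  rw [fin_le _ h.le, Un.one_e, if_neg (by have := Fin.lt_def.1 h; omega), Matrix.one_apply_ne h.ne]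

theorem fin_inv (a : Un B) : fin N a⁻¹ = (fin N a)⁻¹ := by
  refine (fin_uni a).eq_inv ?_
  rw [← fin_mul, mul_inv_cancel, fin_one]

theorem fin_map (f : B →+* C) (a : Un B) : (fin N a).map f = fin N (Un.mapHom f a) := by
  ext i j
  rw [Matrix.map_apply, fin, fin, Matrix.of_apply, Matrix.of_apply]
  split_ifs
  · rfl
  · exact map_zero f

end

variable {p s n m : ℕ}

/-- the place `(i,j)` as a variable of `UC` -/
def emf (N s : ℕ) (v : Fin s × Ix N) : Fin s × (ℕ × ℕ) :=
  (v.1, ((v.2.1.1 : ℕ), (v.2.1.2 : ℕ) - v.2.1.1 - 1))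

theorem emf_injective : Function.Injective (emf N s) := by
  rintro ⟨r, ⟨⟨i, j⟩, h⟩⟩ ⟨r', ⟨⟨i', j'⟩, h'⟩⟩ hh
  simp only [emf, Prod.mk.injEq] at hh
  obtain ⟨h1, h2, h3⟩ := hh
  have h4 := Fin.lt_def.1 h
  have h5 := Fin.lt_def.1 h'
  simp only at h4 h5
  have h6 : j = j' := Fin.ext (by omega)
  have h7 : i = i' := Fin.ext h2
  subst h1 h6 h7
  rfl

/-- the inclusion of the finite model -/
noncomputable def em (N p s : ℕ) : Pol (Fin s) N (ZMod p) →ₐ[ZMod p] UC p s :=
  rename (emf N s)

theorem em_U (r : Fin s) :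
    (U r : Mt N (Pol (Fin s) N (ZMod p))).map (em N p s) = fin N ((UC.univ p s).g r.succ) := by
  refine Uni.ext ((U_uni r).map (em N p s).toRingHom) (fin_uni _) fun i j h => ?_
  rw [Matrix.map_apply, U_apply_lt r h, fin_le _ h.le, UC.univ_g_succ]
  have h1 := Fin.lt_def.1 h
  obtain ⟨k, hk⟩ : ∃ k, (j : ℕ) - i = k + 1 := ⟨j - i - 1, by omega⟩
  rw [hk, Un.mk'_e_succ]
  change (em N p s) (X (r, ⟨(i, j), h⟩)) = _
  rw [em, rename_X, emf]
  simp only
  rw [hk, Nat.add_sub_cancel]

theorem em_UU (r : Fin (s + 1)) :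
    (UU N (ZMod p) s r).map (em N p s) = fin N ((UC.univ p s).g r) := by
  refine Fin.cases ?_ (fun r => ?_) r
  · rw [UU_zero, UC.univ_g_zero, fin_one]
    exact Matrix.map_one _ (map_zero _) (map_one _)
  · rw [UU_succ, em_U]

theorem em_fmap (α : Fin (m + 1) → Fin (n + 1)) (x : Pol (Fin m) N (ZMod p)) :
    em N p n (fmap N (ZMod p) α x) = UC.map α (em N p m x) := by
  have : (em N p n).comp (fmap N (ZMod p) α) = (UC.map (p := p) α).comp (em N p m) := by
    refine hom_ext fun a => ?_
    have h1 : (U a : Mt N (Pol (Fin m) N (ZMod p))).map ((em N p n).comp (fmap N (ZMod p) α)) =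
        ((U a : Mt N (Pol (Fin m) N (ZMod p))).map (fmap N (ZMod p) α)).map (em N p n) := by
      rw [Matrix.map_map]
      rfl
    have h2 : (U a : Mt N (Pol (Fin m) N (ZMod p))).map ((UC.map (p := p) α).comp (em N p m)) =
        ((U a : Mt N (Pol (Fin m) N (ZMod p))).map (em N p m)).map (UC.map (p := p) α) := by
      rw [Matrix.map_map]
      rfl
    rw [h1, h2, em_U, fmap, evA_U (fun a => ((UU_uni n _).mul (UU_uni n _).inv))]
    have h3 := map_mul' (em N p n).toRingHom (UU N (ZMod p) n (α a.succ))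
      (UU N (ZMod p) n (α 0))⁻¹
    have h4 := (UU_uni (N := N) (k := ZMod p) n (α 0)).map_inv (em N p n).toRingHom
    change ((UU N (ZMod p) n (α a.succ)) * (UU N (ZMod p) n (α 0))⁻¹).map
      (em N p n).toRingHom = (fin N ((UC.univ p m).g a.succ)).map (UC.map (p := p) α).toRingHom
    rw [h3, h4]
    change (UU N (ZMod p) n (α a.succ)).map (em N p n) *
      ((UU N (ZMod p) n (α 0)).map (em N p n))⁻¹ = _
    rw [em_UU, em_UU, ← fin_inv, ← fin_mul, fin_map]
    congr 1
    have h5 := UC.univ_map_ev (p := p) ((UC.univ p n).res α)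
    have h6 := congrArg (fun c => c.g a.succ) h5
    simp only [UChain.map_g, UChain.res_g] at h6
    exact h6.symm
  exact DFunLike.congr_fun this x

theorem em_fd (x : Pol (Fin n) N (ZMod p)) :
    em N p (n + 1) (fd N (ZMod p) n x) = UC.d n (em N p n x) := by
  rw [UC.d_apply, fd, LinearMap.sum_apply, map_sum]
  refine Finset.sum_congr rfl fun i _ => ?_
  rw [LinearMap.smul_apply, map_smul]
  congr 1
  exact em_fmap _ x

theorem mw_emf (v : Fin s × Ix N) : mw (emf N s v) = fw v := rfl

theorem weight_mapDomain (d : (Fin s × Ix N) →₀ ℕ) :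
    Finsupp.weight mw (d.mapDomain (emf N s)) = Finsupp.weight fw d := by
  rw [Finsupp.weight_apply, Finsupp.weight_apply, Finsupp.sum_mapDomain_index
    (h := fun i c => c • mw i) (fun _ => zero_smul _ _) (fun _ _ _ => add_smul _ _ _)]
  rfl

theorem inJ_em [hp : Fact p.Prime] (x : Pol (Fin s) N (ZMod p)) : InJ (em N p s x) ↔ JF p x := by
  classical
  constructor
  · intro h d hd
    have h1 : coeff (d.mapDomain (emf N s)) (em N p s x) = coeff d x :=
      coeff_rename_mapDomain _ emf_injective _ _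
    obtain ⟨v, hv⟩ := h (d.mapDomain (emf N s)) (by
      rw [mem_support_iff, h1]
      exact mem_support_iff.1 hd)
    by_cases h2 : v ∈ Set.range (emf N s)
    · obtain ⟨w, rfl⟩ := h2
      rw [Finsupp.mapDomain_apply emf_injective] at hv
      exact ⟨w, hv⟩
    · rw [Finsupp.mapDomain_of_notMem_range _ _ h2] at hv
      exact absurd hv (not_le.2 hp.out.pos)
  · intro h d hd
    rw [em, support_rename_of_injective emf_injective, Finset.mem_image] at hd
    obtain ⟨d', hd', rfl⟩ := hd
    obtain ⟨v, hv⟩ := h d' hd'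
    refine ⟨emf N s v, ?_⟩
    rwa [Finsupp.mapDomain_apply emf_injective]

theorem exists_em {e : ℕ →₀ ℕ} (he : ∀ i, N ≤ i + 1 → e i = 0) {z : UC p s} (hz : MH e z) :
    ∃ q : Pol (Fin s) N (ZMod p), em N p s q = z ∧ IsWeightedHomogeneous fw q e := by
  classical
  obtain ⟨q, hq⟩ := exists_rename_eq_of_vars_subset_range z (emf N s) emf_injective (by
    intro v hv
    obtain ⟨d, hd, hv⟩ := mem_vars_iff_mem_support v |>.1 hv
    obtain ⟨r, i, k⟩ := v
    have h1 : Finsupp.weight mw d = e := hz (mem_support_iff.1 hd)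
    have h2 : 1 ≤ e (i + k) := by
      rw [← h1, Finsupp.weight_apply, Finsupp.sum, Finsupp.finsetSum_apply]
      refine le_trans ?_ (Finset.single_le_sum (f := fun w => (d w • mw w) (i + k))
        (fun _ _ => Nat.zero_le _) hv)
      rw [Finsupp.smul_apply, mw, itv_apply, if_pos ⟨by simp, le_rfl⟩, smul_eq_mul, mul_one]
      exact Nat.pos_of_ne_zero (Finsupp.mem_support_iff.1 hv)
    have h3 : i + k + 1 < N := by
      by_contra h4
      have := he (i + k) (by omega)
      omega
    refine ⟨(r, ⟨(⟨i, by omega⟩, ⟨i + k + 1, h3⟩), ?_⟩), ?_⟩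
    · rw [Fin.lt_def]
      simp only
      omega
    · simp only [emf, Prod.mk.injEq, true_and]
      omega)
  refine ⟨q, hq, ?_⟩
  intro d hd
  rw [← weight_mapDomain]
  refine hz ?_
  rw [← hq, coeff_rename_mapDomain _ emf_injective]
  exact hd

/-- (A2) for the infinite model from the finite ones. -/
theorem casMain_of_core [Fact p.Prime] (h : ∀ N, CasCore p N) : CasMain p := by
  intro s e hQ
  cases s with
  | zero =>
    intro z hz _ d hd
    exfalso
    have h1 : Finsupp.weight mw d = e := hz (mem_support_iff.1 hd)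
    have h2 : d = 0 := by
      ext v
      exact v.1.elim0
    rw [h2, map_zero] at h1
    apply hQ
    rw [← h1, Qe, Finsupp.sum_zero_index, Int.cast_zero]
  | succ s =>
    intro z hz hdz
    obtain ⟨N, hN⟩ : ∃ N, ∀ i, N ≤ i + 1 → e i = 0 := by
      refine ⟨e.support.sup id + 2, fun i hi => ?_⟩
      by_contra h0
      have := Finset.le_sup (f := id) (Finsupp.mem_support_iff.2 h0)
      simp only [id] at this
      omega
    obtain ⟨q, rfl, hq⟩ := exists_em hN hz
    rw [← em_fd, inJ_em] at hdz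
    obtain ⟨y, hy⟩ := h N s e hN hQ q hq hdz
    rw [← inJ_em, map_sub, em_fd] at hy
    refine ⟨comp e (em N p s y), comp_MH _ _, ?_⟩
    have := comp_InJ hy e
    rwa [map_sub, comp_of_MH hz, comp_d] at this

end Vale.Agent.P257.V4.A.Cas
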