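import Vale.Agent.P257.V4.A.Cas7
import Vale.Agent.P257.V4.A.CasT

/-!
# P257, V(4), block A2: the Casimir vanishing theorem

`H^s(A)_e = 0` for the first Frobenius kernel of the unitriangular groups, `p` odd, whenever
`∑ e_k - ∑ e_k ^ 2 + ∑ e_k e_{k+1}` is not `0` in `F_p`.
-/

namespace Vale.Agent.P257.V4.A.Cas

variable {p : ℕ} [Fact p.Prime]

/-- (A2) -/
theorem casMain (hp : p ≠ 2) : CasMain p := casMain_of_core fun N => casCore hp N

/-- (A2), unfolded. -/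
theorem vanA_of_Qe (hp : p ≠ 2) (s : ℕ) (e : ℕ →₀ ℕ) (hQ : ((Qe e : ℤ) : ZMod p) ≠ 0) :
    VanA p s e :=
  casMain hp s e hQ

end Vale.Agent.P257.V4.A.Cas
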