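import Mathlib.LinearAlgebra.Matrix.NonsingularInverse
import Mathlib.LinearAlgebra.Matrix.Block
import Mathlib.Algebra.MvPolynomial.Derivation
import Mathlib.RingTheory.Derivation.Lie
import Mathlib.Tactic.Ring
import Mathlib.Tactic.Abel
import Mathlib.Tactic.NoncommRing

/-!
# P257, V(4), block A2: matrices and vector fields

Unitriangular matrices, the infinitesimal action `u ↦ (u E u⁻¹)_+ u` of all matrices `E` on them,
and its commutator formula.
-/

namespace Vale.Agent.P257.V4.A.Cas

open Matrix

/-- Square matrices. -/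
abbrev Mt (N : ℕ) (R : Type*) := Matrix (Fin N) (Fin N) R

variable {N : ℕ}

section mat

variable {R S : Type*} [CommRing R] [CommRing S]

/-- Unitriangular (upper) matrices. -/
structure Uni (M : Mt N R) : Prop where
  diag : ∀ i, M i i = 1
  low : ∀ i j, j < i → M i j = 0

/-- Strictly upper triangular. -/
def IsUp (M : Mt N R) : Prop := ∀ i j, ¬ i < j → M i j = 0

/-- Lower triangular (diagonal allowed). -/
def IsLow (M : Mt N R) : Prop := ∀ i j, i < j → M i j = 0

/-- The strictly upper part. -/
def up (M : Mt N R) : Mt N R := Matrix.of fun i j => if i < j then M i j else 0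

theorem up_apply (M : Mt N R) (i j : Fin N) : up M i j = if i < j then M i j else 0 := rfl

theorem up_isUp (M : Mt N R) : IsUp (up M) := fun i j h => by rw [up_apply, if_neg h]

theorem up_of_isUp {M : Mt N R} (h : IsUp M) : up M = M := by
  ext i j
  rw [up_apply]
  split_ifs with hij
  · rfl
  · exact (h i j hij).symm

theorem up_of_isLow {M : Mt N R} (h : IsLow M) : up M = 0 := by
  ext i j
  rw [up_apply]
  split_ifs with hij
  · exact h i j hij
  · rfl

theorem sub_up_isLow (M : Mt N R) : IsLow (M - up M) := fun i j h => by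
  rw [Matrix.sub_apply, up_apply, if_pos h, sub_self]

theorem up_add (M M' : Mt N R) : up (M + M') = up M + up M' := by
  ext i j
  simp only [up_apply, Matrix.add_apply]
  split_ifs <;> simp

theorem up_neg (M : Mt N R) : up (-M) = -up M := by
  ext i j
  simp only [up_apply, Matrix.neg_apply]
  split_ifs <;> simp

theorem up_sub (M M' : Mt N R) : up (M - M') = up M - up M' := by
  rw [sub_eq_add_neg, up_add, up_neg, ← sub_eq_add_neg]

theorem up_smul (c : R) (M : Mt N R) : up (c • M) = c • up M := by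
  ext i j
  simp only [up_apply, Matrix.smul_apply]
  split_ifs <;> simp

theorem up_zero : up (0 : Mt N R) = 0 := by
  ext i j
  simp [up_apply]

theorem IsUp.add {M M' : Mt N R} (h : IsUp M) (h' : IsUp M') : IsUp (M + M') := fun i j hij => by
  rw [Matrix.add_apply, h i j hij, h' i j hij, add_zero]

theorem IsUp.sub {M M' : Mt N R} (h : IsUp M) (h' : IsUp M') : IsUp (M - M') := fun i j hij => by
  rw [Matrix.sub_apply, h i j hij, h' i j hij, sub_zero]

theorem IsUp.mul {M M' : Mt N R} (h : IsUp M) (h' : IsUp M') : IsUp (M * M') := fun i j hij => by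
  rw [Matrix.mul_apply]
  refine Finset.sum_eq_zero fun k _ => ?_
  by_cases hik : i < k
  · rw [h' k j (fun hkj => hij (hik.trans hkj)), mul_zero]
  · rw [h i k hik, zero_mul]

theorem IsLow.mul {M M' : Mt N R} (h : IsLow M) (h' : IsLow M') : IsLow (M * M') :=
  fun i j hij => by
  rw [Matrix.mul_apply]
  refine Finset.sum_eq_zero fun k _ => ?_
  by_cases hik : i < k
  · rw [h i k hik, zero_mul]
  · rw [h' k j (lt_of_le_of_lt (not_lt.1 hik) hij), mul_zero]

theorem IsLow.sub {M M' : Mt N R} (h : IsLow M) (h' : IsLow M') : IsLow (M - M') :=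
  fun i j hij => by
  rw [Matrix.sub_apply, h i j hij, h' i j hij, sub_zero]

theorem IsUp.mul_uni {M u : Mt N R} (h : IsUp M) (hu : Uni u) : IsUp (M * u) := fun i j hij => by
  rw [Matrix.mul_apply]
  refine Finset.sum_eq_zero fun k _ => ?_
  by_cases hik : i < k
  · rw [hu.low k j (lt_of_le_of_lt (not_lt.1 hij) hik), mul_zero]
  · rw [h i k hik, zero_mul]

theorem IsUp.uni_mul {M u : Mt N R} (h : IsUp M) (hu : Uni u) : IsUp (u * M) := fun i j hij => by
  rw [Matrix.mul_apply]
  refine Finset.sum_eq_zero fun k _ => ?_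
  by_cases hkj : k < j
  · rw [hu.low i k (lt_of_lt_of_le hkj (not_lt.1 hij)), zero_mul]
  · rw [h k j hkj, mul_zero]

theorem Uni.one : Uni (1 : Mt N R) :=
  ⟨fun i => Matrix.one_apply_eq i, fun _ _ h => Matrix.one_apply_ne' (ne_of_lt h)⟩

theorem Uni.mul {u v : Mt N R} (hu : Uni u) (hv : Uni v) : Uni (u * v) := by
  constructor
  · intro i
    rw [Matrix.mul_apply, Finset.sum_eq_single i]
    · rw [hu.diag, hv.diag, mul_one]
    · intro k _ hk
      rcases lt_or_gt_of_ne hk with h | h
      · rw [hu.low i k h, zero_mul]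
      · rw [hv.low k i h, mul_zero]
    · exact fun h => absurd (Finset.mem_univ _) h
  · intro i j hij
    rw [Matrix.mul_apply]
    refine Finset.sum_eq_zero fun k _ => ?_
    by_cases hik : k < i
    · rw [hu.low i k hik, zero_mul]
    · rw [hv.low k j (lt_of_lt_of_le hij (not_lt.1 hik)), mul_zero]

theorem Uni.map {u : Mt N R} (hu : Uni u) (φ : R →+* S) : Uni (u.map φ) :=
  ⟨fun i => by rw [Matrix.map_apply, hu.diag, map_one],
    fun i j h => by rw [Matrix.map_apply, hu.low i j h, map_zero]⟩

theorem Uni.blockTriangular {u : Mt N R} (hu : Uni u) : u.BlockTriangular id :=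
  fun i j h => hu.low i j h

theorem Uni.det {u : Mt N R} (hu : Uni u) : u.det = 1 := by
  rw [Matrix.det_of_isUpperTriangular hu.blockTriangular]
  exact Finset.prod_eq_one fun i _ => hu.diag i

theorem Uni.isUnit_det {u : Mt N R} (hu : Uni u) : IsUnit u.det := by
  rw [hu.det]
  exact isUnit_one

theorem Uni.mul_inv {u : Mt N R} (hu : Uni u) : u * u⁻¹ = 1 := Matrix.mul_nonsing_inv u hu.isUnit_det

theorem Uni.inv_mul {u : Mt N R} (hu : Uni u) : u⁻¹ * u = 1 := Matrix.nonsing_inv_mul u hu.isUnit_det

theorem Uni.inv {u : Mt N R} (hu : Uni u) : Uni u⁻¹ := by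
  have hbt : (u⁻¹).BlockTriangular id := by
    have : Invertible u := Matrix.invertibleOfIsUnitDet u hu.isUnit_det
    exact Matrix.blockTriangular_inv_of_blockTriangular hu.blockTriangular
  refine ⟨fun i => ?_, fun i j h => hbt h⟩
  have h := congrFun (congrFun hu.mul_inv i) i
  rw [Matrix.mul_apply, Finset.sum_eq_single i, hu.diag, one_mul, Matrix.one_apply_eq] at h
  · exact h
  · intro k _ hk
    rcases lt_or_gt_of_ne hk with h | h
    · rw [hu.low i k h, zero_mul]
    · rw [hbt h, mul_zero]
  · exact fun h => absurd (Finset.mem_univ _) h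

theorem Uni.inv_inv {u : Mt N R} (hu : Uni u) : u⁻¹⁻¹ = u := Matrix.nonsing_inv_nonsing_inv u hu.isUnit_det

theorem Uni.eq_inv {u v : Mt N R} (hu : Uni u) (h : u * v = 1) : v = u⁻¹ := by
  rw [← one_mul v, ← hu.inv_mul, Matrix.mul_assoc, h, Matrix.mul_one]

theorem Uni.mul_inv_rev {u v : Mt N R} (hu : Uni u) (hv : Uni v) : (u * v)⁻¹ = v⁻¹ * u⁻¹ := by
  symm
  apply (hu.mul hv).eq_inv
  rw [Matrix.mul_assoc, ← Matrix.mul_assoc v, hv.mul_inv, Matrix.one_mul, hu.mul_inv]

theorem one_inv : (1 : Mt N R)⁻¹ = 1 := inv_one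

theorem map_mul' (φ : R →+* S) (M M' : Mt N R) : (M * M').map φ = M.map φ * M'.map φ :=
  Matrix.map_mul

theorem Uni.map_inv {u : Mt N R} (hu : Uni u) (φ : R →+* S) : (u⁻¹).map φ = (u.map φ)⁻¹ := by
  apply (hu.map φ).eq_inv
  rw [← map_mul', hu.mul_inv]
  exact Matrix.map_one _ (map_zero φ) (map_one φ)

theorem up_map (φ : R →+* S) (M : Mt N R) : (up M).map φ = up (M.map φ) := by
  ext i j
  simp only [Matrix.map_apply, up_apply]
  split_ifs
  · rfl
  · exact map_zero φ

/-- The vector field of `E` at `u`. -/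
noncomputable def V (u E : Mt N R) : Mt N R := up (u * E * u⁻¹) * u

theorem V_isUp {u : Mt N R} (hu : Uni u) (E : Mt N R) : IsUp (V u E) := (up_isUp _).mul_uni hu

theorem V_add (u E F : Mt N R) : V u (E + F) = V u E + V u F := by
  simp only [V, Matrix.mul_add, Matrix.add_mul, up_add]

theorem V_sub (u E F : Mt N R) : V u (E - F) = V u E - V u F := by
  simp only [V, Matrix.mul_sub, Matrix.sub_mul, up_sub]

theorem V_smul (u : Mt N R) (c : R) (E : Mt N R) : V u (c • E) = c • V u E := by
  simp only [V, Matrix.mul_smul, Matrix.smul_mul, up_smul]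

theorem V_map {u : Mt N R} (hu : Uni u) (E : Mt N R) (φ : R →+* S) :
    (V u E).map φ = V (u.map φ) (E.map φ) := by
  simp only [V, map_mul', up_map, hu.map_inv]

/-- Right translation. -/
theorem V_mul {u g : Mt N R} (hu : Uni u) (hg : Uni g) (E : Mt N R) :
    V (u * g) E = V u (g * E * g⁻¹) * g := by
  simp only [V, hu.mul_inv_rev hg, Matrix.mul_assoc]

theorem V_up {u E : Mt N R} (hu : Uni u) (hE : IsUp E) : V u E = u * E := by
  rw [V, up_of_isUp ((hE.uni_mul hu).mul_uni hu.inv), Matrix.mul_assoc, hu.inv_mul, Matrix.mul_one]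

/-- The vector field of a diagonal matrix. -/
theorem V_diag {u E : Mt N R} (hu : Uni u) (hE : ∀ i j, i ≠ j → E i j = 0) :
    V u E = u * E - E * u := by
  have h1 : up (u * E * u⁻¹) = u * E * u⁻¹ - E := by
    have h2 : IsUp (u * E * u⁻¹ - E) := by
      have h3 : u * E * u⁻¹ - E = (u * E - E * u) * u⁻¹ := by
        rw [Matrix.sub_mul, Matrix.mul_assoc E, hu.mul_inv, Matrix.mul_one]
      rw [h3]
      refine IsUp.mul_uni ?_ hu.inv
      intro i j hij
      rw [Matrix.sub_apply, Matrix.mul_apply, Matrix.mul_apply, Finset.sum_eq_single j,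
        Finset.sum_eq_single i]
      · rcases lt_or_eq_of_le (not_lt.1 hij) with h | h
        · rw [hu.low i j h, zero_mul, mul_zero, sub_zero]
        · subst h
          rw [hu.diag, one_mul, mul_one, sub_self]
      · intro k _ hk
        rw [hE i k hk.symm, zero_mul]
      · exact fun h => absurd (Finset.mem_univ _) h
      · intro k _ hk
        rw [hE k j hk, mul_zero]
      · exact fun h => absurd (Finset.mem_univ _) h
    have h4 : IsLow E := fun i j h => hE i j h.ne
    have h5 := up_of_isUp h2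
    rw [up_sub, up_of_isLow h4, sub_zero] at h5
    exact h5
  rw [V, h1, Matrix.sub_mul, Matrix.mul_assoc, hu.inv_mul, Matrix.mul_one]

/-- The key identity behind the commutator formula. -/
theorem up_up_bracket (X Y : Mt N R) :
    up (X * up Y - up Y * X) - up (Y * up X - up X * Y) =
      up (X * Y - Y * X) + (up X * up Y - up Y * up X) := by
  have h1 : up (X * Y - Y * X) + (up X * up Y - up Y * up X) =
      up (X * Y - Y * X + (up X * up Y - up Y * up X)) := by
    rw [up_add, up_of_isUp (((up_isUp X).mul (up_isUp Y)).sub ((up_isUp Y).mul (up_isUp X)))]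
  have h2 : up (X * up Y - up Y * X) - up (Y * up X - up X * Y) =
      up (X * up Y - up Y * X - (Y * up X - up X * Y)) := (up_sub _ _).symm
  have h3 : IsLow ((X - up X) * (Y - up Y) - (Y - up Y) * (X - up X)) :=
    ((sub_up_isLow X).mul (sub_up_isLow Y)).sub ((sub_up_isLow Y).mul (sub_up_isLow X))
  have h4 : X * up Y - up Y * X - (Y * up X - up X * Y) =
      X * Y - Y * X + (up X * up Y - up Y * up X) -
        ((X - up X) * (Y - up Y) - (Y - up Y) * (X - up X)) := by
    noncomm_ring
  rw [h1, h2, h4, up_sub, up_of_isLow h3, sub_zero]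

/-- Derivatives of matrices. -/
theorem der_mul {k A : Type*} [CommRing k] [CommRing A] [Algebra k A] (D : Derivation k A A)
    (M M' : Mt N A) : (M * M').map D = M.map D * M' + M * M'.map D := by
  ext i j
  simp only [Matrix.map_apply, Matrix.mul_apply, Matrix.add_apply, map_sum, Derivation.leibniz,
    smul_eq_mul, ← Finset.sum_add_distrib]
  refine Finset.sum_congr rfl fun l _ => ?_
  ring

theorem der_one {k A : Type*} [CommRing k] [CommRing A] [Algebra k A] (D : Derivation k A A) :
    (1 : Mt N A).map D = 0 := by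
  ext i j
  rw [Matrix.map_apply, Matrix.one_apply]
  split_ifs <;> simp

theorem der_sub {k A : Type*} [CommRing k] [CommRing A] [Algebra k A] (D : Derivation k A A)
    (M M' : Mt N A) : (M - M').map D = M.map D - M'.map D := by
  ext i j
  simp

theorem der_inv {k A : Type*} [CommRing k] [CommRing A] [Algebra k A] (D : Derivation k A A)
    {u : Mt N A} (hu : Uni u) : (u⁻¹).map D = -(u⁻¹ * u.map D * u⁻¹) := by
  have h := der_mul D u u⁻¹
  rw [hu.mul_inv, der_one] at h
  have h2 : u * (u⁻¹).map D = -(u.map D * u⁻¹) := by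
    rw [eq_neg_iff_add_eq_zero, add_comm]
    exact h.symm
  calc (u⁻¹).map D = u⁻¹ * (u * (u⁻¹).map D) := by
        rw [← Matrix.mul_assoc, hu.inv_mul, Matrix.one_mul]
    _ = _ := by rw [h2, Matrix.mul_neg, Matrix.mul_assoc]

theorem der_up {k A : Type*} [CommRing k] [CommRing A] [Algebra k A] (D : Derivation k A A)
    (M : Mt N A) : (up M).map D = up (M.map D) := by
  ext i j
  simp only [Matrix.map_apply, up_apply]
  split_ifs
  · rfl
  · exact map_zero D

/-- Derivative of a vector field along another one. -/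
theorem der_V {k A : Type*} [CommRing k] [CommRing A] [Algebra k A] (D : Derivation k A A)
    {u E F : Mt N A} (hu : Uni u) (hF : F.map D = 0) (hD : u.map D = V u E) :
    (V u F).map D = (up (up (u * E * u⁻¹) * (u * F * u⁻¹) - (u * F * u⁻¹) * up (u * E * u⁻¹)) +
      up (u * F * u⁻¹) * up (u * E * u⁻¹)) * u := by
  rw [V, der_mul, der_up, der_mul, der_mul, der_inv D hu, hF, hD, Matrix.mul_zero, add_zero, V,
    Matrix.add_mul]
  congr 1
  · congr 2
    simp only [Matrix.mul_assoc, Matrix.mul_neg, hu.mul_inv, Matrix.mul_one, ← sub_eq_add_neg]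
  · simp only [Matrix.mul_assoc]

/-- The commutator formula for the vector fields. -/
theorem der_bracket {k A : Type*} [CommRing k] [CommRing A] [Algebra k A] (D D' : Derivation k A A)
    {u E F : Mt N A} (hu : Uni u) (hE : E.map D' = 0) (hF : F.map D = 0) (hD : u.map D = V u E)
    (hD' : u.map D' = V u F) :
    (u.map D').map D - (u.map D).map D' = V u (E * F - F * E) := by
  rw [hD, hD', der_V D hu hF hD, der_V D' hu hE hD', ← Matrix.sub_mul, V]
  congr 1
  have h := up_up_bracket (u * F * u⁻¹) (u * E * u⁻¹)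
  have h1 : u * (E * F - F * E) * u⁻¹ =
      -(u * F * u⁻¹ * (u * E * u⁻¹) - u * E * u⁻¹ * (u * F * u⁻¹)) := by
    have h2 : ∀ P Q : Mt N A, u * P * u⁻¹ * (u * Q * u⁻¹) = u * (P * Q) * u⁻¹ := by
      intro P Q
      calc u * P * u⁻¹ * (u * Q * u⁻¹) = u * P * (u⁻¹ * u) * Q * u⁻¹ := by
            simp only [Matrix.mul_assoc]
        _ = _ := by rw [hu.inv_mul, Matrix.mul_one]; simp only [Matrix.mul_assoc]
    rw [h2, h2, neg_sub, Matrix.mul_sub, Matrix.sub_mul]
  rw [h1, up_neg, eq_sub_of_add_eq h.symm, up_sub, up_sub, up_sub, up_sub]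
  abel

end mat

end Vale.Agent.P257.V4.A.Cas
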