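import Vale.Agent.P257.V4.A.Cas1
import Mathlib.Algebra.MvPolynomial.Rename
import Mathlib.Data.Matrix.Basis

/-!
# P257, V(4), block A2: functions on tuples of unitriangular matrices

`Pol σ N k` = polynomial functions on families `(u_a)`, `a : σ`, of unitriangular matrices of size
`N`.  The derivation `Dv w E` moves the matrices `u_a` with `w a` along the vector field of `E`;
`Cz w` is the Casimir operator.
-/

namespace Vale.Agent.P257.V4.A.Cas

open Matrix MvPolynomial

/-- Positions above the diagonal. -/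
abbrev Ix (N : ℕ) := {q : Fin N × Fin N // q.1 < q.2}

/-- Functions on families of unitriangular matrices. -/
abbrev Pol (σ : Type*) (N : ℕ) (k : Type*) [CommRing k] := MvPolynomial (σ × Ix N) k

variable {σ τ : Type*} {N : ℕ} {k : Type*} [CommRing k] {B : Type*} [CommRing B] [Algebra k B]

/-- The generic matrix in slot `a`. -/
noncomputable def U (a : σ) : Mt N (Pol σ N k) :=
  Matrix.of fun i j => if h : i < j then X (a, ⟨(i, j), h⟩) else if i = j then 1 else 0

theorem U_apply_lt (a : σ) {i j : Fin N} (h : i < j) :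
    (U a : Mt N (Pol σ N k)) i j = X (a, ⟨(i, j), h⟩) := by
  rw [U, Matrix.of_apply, dif_pos h]

theorem U_uni (a : σ) : Uni (U a : Mt N (Pol σ N k)) := by
  constructor
  · intro i
    rw [U, Matrix.of_apply, dif_neg (lt_irrefl i), if_pos rfl]
  · intro i j h
    rw [U, Matrix.of_apply, dif_neg h.asymm, if_neg h.ne']

theorem Uni.ext {R : Type*} [CommRing R] {M M' : Mt N R} (h : Uni M) (h' : Uni M')
    (H : ∀ i j, i < j → M i j = M' i j) : M = M' := by
  ext i j
  rcases lt_trichotomy i j with hij | hij | hij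
  · exact H i j hij
  · subst hij
    rw [h.diag, h'.diag]
  · rw [h.low i j hij, h'.low i j hij]

theorem IsUp.ext {R : Type*} [CommRing R] {M M' : Mt N R} (h : IsUp M) (h' : IsUp M')
    (H : ∀ i j, i < j → M i j = M' i j) : M = M' := by
  ext i j
  by_cases hij : i < j
  · exact H i j hij
  · rw [h i j hij, h' i j hij]

/-- Evaluation at a family of matrices. -/
noncomputable def evA (k : Type*) [CommRing k] {B : Type*} [CommRing B] [Algebra k B]
    (M : σ → Mt N B) : Pol σ N k →ₐ[k] B :=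
  aeval fun v => M v.1 v.2.1.1 v.2.1.2

theorem evA_U {M : σ → Mt N B} (hM : ∀ a, Uni (M a)) (a : σ) :
    (U a : Mt N (Pol σ N k)).map (evA k M) = M a := by
  refine Uni.ext ((U_uni a).map (evA k M).toRingHom) (hM a) fun i j h => ?_
  rw [Matrix.map_apply, U_apply_lt a h, evA, aeval_X]

theorem hom_ext {φ ψ : Pol σ N k →ₐ[k] B} (h : ∀ a, (U a).map φ = (U a).map ψ) : φ = ψ := by
  refine MvPolynomial.algHom_ext fun v => ?_
  obtain ⟨a, ⟨⟨i, j⟩, hij⟩⟩ := v
  have := congrFun (congrFun (h a) i) j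
  rwa [Matrix.map_apply, Matrix.map_apply, U_apply_lt a hij] at this

/-- Two derivations intertwined by a homomorphism. -/
theorem comm_ext (φ : Pol σ N k →ₐ[k] B) (D₁ : Derivation k (Pol σ N k) (Pol σ N k))
    (D₂ : Derivation k B B) (h : ∀ a, ((U a).map D₁).map φ = ((U a).map φ).map D₂)
    (x : Pol σ N k) : φ (D₁ x) = D₂ (φ x) := by
  induction x using MvPolynomial.induction_on with
  | C r =>
    rw [← algebraMap_eq, D₁.map_algebraMap, AlgHom.commutes, D₂.map_algebraMap, map_zero]
  | add x y hx hy => rw [map_add, map_add, map_add, map_add, hx, hy]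
  | mul_X x v hx =>
    have hv : φ (D₁ (X v)) = D₂ (φ (X v)) := by
      obtain ⟨a, ⟨⟨i, j⟩, hij⟩⟩ := v
      have := congrFun (congrFun (h a) i) j
      rwa [Matrix.map_apply, Matrix.map_apply, Matrix.map_apply, Matrix.map_apply,
        U_apply_lt a hij] at this
    rw [D₁.leibniz, map_mul, D₂.leibniz, map_add, smul_eq_mul, smul_eq_mul, smul_eq_mul,
      smul_eq_mul, map_mul, map_mul, hx, hv]

theorem der_ext {D₁ D₂ : Derivation k (Pol σ N k) (Pol σ N k)}
    (h : ∀ a, (U a).map D₁ = (U a).map D₂) : D₁ = D₂ := by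
  refine Derivation.ext fun x => ?_
  have := comm_ext (AlgHom.id k (Pol σ N k)) D₁ D₂ (fun a => ?_) x
  · exact this
  · rw [h a]
    rfl

/-- Renaming of the slots. -/
noncomputable def rn (f : σ → τ) : Pol σ N k →ₐ[k] Pol τ N k := rename (Prod.map f id)

theorem rn_U (f : σ → τ) (a : σ) :
    (U a : Mt N (Pol σ N k)).map (rn f) = U (f a) := by
  refine Uni.ext ((U_uni a).map (rn f).toRingHom) (U_uni _) fun i j h => ?_
  rw [Matrix.map_apply, U_apply_lt a h, rn, rename_X, U_apply_lt _ h]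
  rfl

/-- The derivation which moves the slots `a` with `w a`. -/
noncomputable def Dv (w : σ → Bool) (E : Mt N (Pol σ N k)) :
    Derivation k (Pol σ N k) (Pol σ N k) :=
  mkDerivation k fun v => if w v.1 then V (U v.1) E v.2.1.1 v.2.1.2 else 0

theorem der_uni_isUp (D : Derivation k B B) {u : Mt N B} (hu : Uni u) : IsUp (u.map D) := by
  intro i j h
  rw [Matrix.map_apply]
  rcases lt_or_eq_of_le (not_lt.1 h) with h | h
  · rw [hu.low i j h, map_zero]
  · subst h
    rw [hu.diag, D.map_one_eq_zero]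

theorem Dv_U (w : σ → Bool) (E : Mt N (Pol σ N k)) (a : σ) :
    (U a).map (Dv w E) = if w a then V (U a) E else 0 := by
  refine IsUp.ext (der_uni_isUp _ (U_uni a)) ?_ fun i j h => ?_
  · split_ifs
    · exact V_isUp (U_uni a) E
    · exact fun _ _ _ => rfl
  · rw [Matrix.map_apply, U_apply_lt a h, Dv, mkDerivation_X]
    dsimp only
    split_ifs <;> rfl

theorem Dv_add (w : σ → Bool) (E F : Mt N (Pol σ N k)) : Dv w (E + F) = Dv w E + Dv w F := by
  apply MvPolynomial.derivation_ext
  intro v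
  rw [Derivation.add_apply, Dv, Dv, Dv, mkDerivation_X, mkDerivation_X, mkDerivation_X, V_add]
  split_ifs
  · rfl
  · rw [add_zero]

theorem Dv_sub (w : σ → Bool) (E F : Mt N (Pol σ N k)) : Dv w (E - F) = Dv w E - Dv w F := by
  apply MvPolynomial.derivation_ext
  intro v
  rw [Derivation.sub_apply, Dv, Dv, Dv, mkDerivation_X, mkDerivation_X, mkDerivation_X, V_sub]
  split_ifs
  · rfl
  · rw [sub_zero]

theorem Dv_smul (w : σ → Bool) (c : Pol σ N k) (E : Mt N (Pol σ N k)) :
    Dv w (c • E) = c • Dv w E := by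
  apply MvPolynomial.derivation_ext
  intro v
  rw [Derivation.smul_apply, Dv, Dv, mkDerivation_X, mkDerivation_X, V_smul]
  split_ifs
  · rfl
  · rw [smul_zero]

theorem Dv_zero (w : σ → Bool) : Dv w (0 : Mt N (Pol σ N k)) = 0 := by
  have := Dv_smul w (0 : Pol σ N k) (0 : Mt N (Pol σ N k))
  rwa [zero_smul, zero_smul] at this

theorem Dv_sum {ι : Type*} (w : σ → Bool) (s : Finset ι) (E : ι → Mt N (Pol σ N k)) :
    Dv w (∑ i ∈ s, E i) = ∑ i ∈ s, Dv w (E i) := by
  classical
  induction s using Finset.induction_on with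
  | empty => rw [Finset.sum_empty, Finset.sum_empty, Dv_zero]
  | insert i s hi ih => rw [Finset.sum_insert hi, Finset.sum_insert hi, Dv_add, ih]

/-- Matrix units. -/
abbrev Es (i j : Fin N) : Mt N B := Matrix.single i j 1

theorem Es_map {B' : Type*} [CommRing B'] (φ : B →+* B') (i j : Fin N) :
    (Es i j : Mt N B).map φ = Es i j := by
  ext a b
  simp only [Es, Matrix.map_apply, Matrix.single_apply]
  split_ifs <;> simp

theorem Es_der (D : Derivation k B B) (i j : Fin N) : (Es i j : Mt N B).map D = 0 := by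
  ext a b
  simp only [Es, Matrix.map_apply, Matrix.single_apply]
  split_ifs <;> simp

theorem Dv_expand (w : σ → Bool) (E : Mt N (Pol σ N k)) :
    Dv w E = ∑ i, ∑ j, E i j • Dv w (Es i j) := by
  conv_lhs => rw [Matrix.matrix_eq_sum_single E]
  rw [Dv_sum]
  refine Finset.sum_congr rfl fun i _ => ?_
  rw [Dv_sum]
  refine Finset.sum_congr rfl fun j _ => ?_
  rw [← Dv_smul, Matrix.smul_single, smul_eq_mul, mul_one]

/-- Commutators of the vector fields. -/
theorem Dv_bracket (w : σ → Bool) (i j i' j' : Fin N) (x : Pol σ N k) :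
    Dv w (Es i j) (Dv w (Es i' j') x) - Dv w (Es i' j') (Dv w (Es i j) x) =
      Dv w (Es i j * Es i' j' - Es i' j' * Es i j : Mt N (Pol σ N k)) x := by
  rw [← Derivation.commutator_apply]
  congr 1
  refine der_ext fun a => ?_
  rw [Dv_U]
  have h1 : (U a : Mt N (Pol σ N k)).map
      (⁅(Dv w (Es i j) : Derivation k (Pol σ N k) (Pol σ N k)),
        (Dv w (Es i' j') : Derivation k (Pol σ N k) (Pol σ N k))⁆ :
        Derivation k (Pol σ N k) (Pol σ N k)) =
      ((U a : Mt N (Pol σ N k)).map (Dv w (Es i' j'))).map (Dv w (Es i j)) -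
        ((U a : Mt N (Pol σ N k)).map (Dv w (Es i j))).map (Dv w (Es i' j')) := by
    ext b c
    simp only [Matrix.map_apply, Matrix.sub_apply, Derivation.commutator_apply]
  rw [h1]
  have h2 := Dv_U w (Es i j : Mt N (Pol σ N k)) a
  have h3 := Dv_U w (Es i' j' : Mt N (Pol σ N k)) a
  split_ifs with h
  · rw [if_pos h] at h2 h3
    exact der_bracket (Dv w (Es i j)) (Dv w (Es i' j')) (U_uni a)
      (Es_der (Dv w (Es i' j')) i j) (Es_der (Dv w (Es i j)) i' j') h2 h3
  · rw [if_neg h] at h2 h3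
    rw [h2, h3]
    ext b c
    simp

/-- The Casimir operator. -/
noncomputable def Cz (w : σ → Bool) : Pol σ N k →ₗ[k] Pol σ N k :=
  ∑ i : Fin N, ∑ j : Fin N, (Dv w (Es i j)).toLinearMap ∘ₗ (Dv w (Es j i)).toLinearMap

theorem Cz_apply (w : σ → Bool) (x : Pol σ N k) :
    Cz w x = ∑ i : Fin N, ∑ j : Fin N, Dv w (Es i j) (Dv w (Es j i) x) := by
  simp [Cz, LinearMap.sum_apply]

theorem rn_Dv (f : σ → τ) (w : τ → Bool) (E : Mt N (Pol σ N k)) (x : Pol σ N k) :
    rn f (Dv (w ∘ f) E x) = Dv w (E.map (rn f)) (rn f x) := by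
  refine comm_ext (rn f) (Dv (w ∘ f) E) (Dv w (E.map (rn f))) (fun a => ?_) x
  rw [Dv_U, rn_U, Dv_U, Function.comp_apply]
  split_ifs
  · have h := V_map (U_uni a) E (rn f : Pol σ N k →ₐ[k] Pol τ N k).toRingHom
    have h2 : (U a : Mt N (Pol σ N k)).map (rn f : Pol σ N k →ₐ[k] Pol τ N k).toRingHom =
        U (f a) := rn_U f a
    rw [h2] at h
    exact h
  · ext b c
    simp

theorem rn_Cz (f : σ → τ) (w : τ → Bool) (x : Pol σ N k) :
    Cz w (rn f x) = rn f (Cz (w ∘ f) x) := by
  rw [Cz_apply, Cz_apply, map_sum]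
  refine Finset.sum_congr rfl fun i _ => ?_
  rw [map_sum]
  refine Finset.sum_congr rfl fun j _ => ?_
  have h : ∀ i j : Fin N, (Es i j : Mt N (Pol σ N k)).map (rn f : Pol σ N k →ₐ[k] Pol τ N k) =
      Es i j := fun i j => Es_map (rn f : Pol σ N k →ₐ[k] Pol τ N k).toRingHom i j
  rw [rn_Dv, rn_Dv, h, h]

end Vale.Agent.P257.V4.A.Cas
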