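import Vale.Agent.P257.V4.A.Cas2
import Mathlib.Algebra.BigOperators.Intervals

/-!
# P257, V(4), block A2: the simplicial homotopy

Functions on families `(u_q)`, `q : ℕ`, and one spare slot `none`.  With the cofaces `dl b`, the
codegeneracies `sg a` and the partial Casimir operators `Cz (ww m)` (vertices `≥ m`),
`HH (n+1) ∘ dd (n+2) + dd (n+1) ∘ HH n = Cz (ww 0) - Cz (ww (n+1))`.
-/

namespace Vale.Agent.P257.V4.A.Cas

open Matrix MvPolynomial

variable {N : ℕ} {k : Type*} [CommRing k]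

/-- the slots `≥ m` -/
def ww (m : ℕ) : Option ℕ → Bool
  | none => false
  | some q => decide (m ≤ q)

/-- skip `b` -/
def sk (b : ℕ) : Option ℕ → Option ℕ
  | none => none
  | some q => some (if q < b then q else q + 1)

/-- repeat `a` -/
def pd (a : ℕ) : Option ℕ → Option ℕ
  | none => none
  | some q => some (if q ≤ a then q else q - 1)

theorem ww_sk_lt {a b : ℕ} (h : a < b) : ww (a + 1) ∘ sk b = ww (a + 1) := by
  funext q
  cases q with
  | none => rfl
  | some q =>
    change decide _ = decide _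
    rw [decide_eq_decide]
    split_ifs <;> omega

theorem ww_sk_ge {a b : ℕ} (h : b ≤ a) : ww (a + 1) ∘ sk b = ww a := by
  funext q
  cases q with
  | none => rfl
  | some q =>
    change decide _ = decide _
    rw [decide_eq_decide]
    split_ifs <;> omega

theorem pd_sk_self (a : ℕ) : pd a ∘ sk a = id := by
  funext q
  cases q with
  | none => rfl
  | some q =>
    change some _ = some q
    congr 1
    split_ifs <;> omega

theorem pd_sk_succ (a : ℕ) : pd a ∘ sk (a + 1) = id := by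
  funext q
  cases q with
  | none => rfl
  | some q =>
    change some _ = some q
    congr 1
    split_ifs <;> omega

theorem pd_sk_lt {a b : ℕ} (h : b ≤ a) : pd (a + 1) ∘ sk b = sk b ∘ pd a := by
  funext q
  cases q with
  | none => rfl
  | some q =>
    change some _ = some _
    congr 1
    split_ifs <;> omega

theorem pd_sk_gt {a b : ℕ} (h : a < b) : pd a ∘ sk (b + 1) = sk b ∘ pd a := by
  funext q
  cases q with
  | none => rfl
  | some q =>
    change some _ = some _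
    congr 1
    split_ifs <;> omega

/-- coface -/
noncomputable def dl (b : ℕ) : Pol (Option ℕ) N k →ₐ[k] Pol (Option ℕ) N k := rn (sk b)

/-- codegeneracy -/
noncomputable def sg (a : ℕ) : Pol (Option ℕ) N k →ₐ[k] Pol (Option ℕ) N k := rn (pd a)

theorem rn_rn {σ τ ρ : Type*} (f : σ → τ) (g : τ → ρ) (x : Pol σ N k) :
    rn g (rn f x) = rn (g ∘ f) x := by
  simp only [rn, rename_rename]
  rfl

theorem rn_id {σ : Type*} (x : Pol σ N k) : rn id x = x := by
  have : (Prod.map id id : σ × Ix N → σ × Ix N) = id := rfl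
  simp only [rn, this, rename_id_apply]

theorem sg_dl_self (a : ℕ) (x : Pol (Option ℕ) N k) : sg a (dl a x) = x := by
  rw [sg, dl, rn_rn, pd_sk_self, rn_id]

theorem sg_dl_succ (a : ℕ) (x : Pol (Option ℕ) N k) : sg a (dl (a + 1) x) = x := by
  rw [sg, dl, rn_rn, pd_sk_succ, rn_id]

theorem sg_dl_lt {a b : ℕ} (h : b ≤ a) (x : Pol (Option ℕ) N k) :
    sg (a + 1) (dl b x) = dl b (sg a x) := by
  rw [sg, dl, rn_rn, pd_sk_lt h, sg, rn_rn]

theorem sg_dl_gt {a b : ℕ} (h : a < b) (x : Pol (Option ℕ) N k) :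
    sg a (dl (b + 1) x) = dl b (sg a x) := by
  rw [sg, dl, rn_rn, pd_sk_gt h, dl, rn_rn]

theorem Cz_dl_lt {a b : ℕ} (h : a < b) (x : Pol (Option ℕ) N k) :
    Cz (ww (a + 1)) (dl b x) = dl b (Cz (ww (a + 1)) x) := by
  rw [dl, rn_Cz, ww_sk_lt h]

theorem Cz_dl_ge {a b : ℕ} (h : b ≤ a) (x : Pol (Option ℕ) N k) :
    Cz (ww (a + 1)) (dl b x) = dl b (Cz (ww a) x) := by
  rw [dl, rn_Cz, ww_sk_ge h]

/-- the differential with `n` cofaces -/
noncomputable def dd (n : ℕ) : Pol (Option ℕ) N k →ₗ[k] Pol (Option ℕ) N k :=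
  ∑ b ∈ Finset.range n, (-1 : k) ^ b • (dl b).toLinearMap

/-- the homotopy -/
noncomputable def HH (n : ℕ) : Pol (Option ℕ) N k →ₗ[k] Pol (Option ℕ) N k :=
  ∑ a ∈ Finset.range n, (-1 : k) ^ a • ((sg a).toLinearMap ∘ₗ Cz (ww (a + 1)))

theorem dd_apply (n : ℕ) (x : Pol (Option ℕ) N k) :
    dd n x = ∑ b ∈ Finset.range n, (-1 : k) ^ b • dl b x := by
  simp [dd, LinearMap.sum_apply]

theorem HH_apply (n : ℕ) (x : Pol (Option ℕ) N k) :
    HH n x = ∑ a ∈ Finset.range n, (-1 : k) ^ a • sg a (Cz (ww (a + 1)) x) := by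
  simp [HH, LinearMap.sum_apply]

theorem HH_dd (n : ℕ) (x : Pol (Option ℕ) N k) :
    HH (n + 1) (dd (n + 2) x) + dd (n + 1) (HH n x) = Cz (ww 0) x - Cz (ww (n + 1)) x := by
  -- the basic terms
  set G : ℕ → ℕ → Pol (Option ℕ) N k := fun a b =>
    (-1 : k) ^ (a + b) • dl b (sg a (Cz (ww (a + 1)) x)) with hG
  have h1 : dd (n + 1) (HH n x) = ∑ a ∈ Finset.range n, ∑ b ∈ Finset.range (n + 1), G a b := by
    rw [HH_apply, map_sum]
    refine Finset.sum_congr rfl fun a _ => ?_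
    rw [map_smul, dd_apply, Finset.smul_sum]
    refine Finset.sum_congr rfl fun b _ => ?_
    rw [smul_smul, ← pow_add]
  have h2 : ∀ a, a < n + 1 → sg a (Cz (ww (a + 1)) (dd (n + 2) x)) =
      ∑ b ∈ Finset.range (n + 2), (-1 : k) ^ b • sg a (Cz (ww (a + 1)) (dl b x)) := by
    intro a _
    rw [dd_apply, map_sum, map_sum]
    refine Finset.sum_congr rfl fun b _ => ?_
    rw [map_smul, map_smul]
  have h3 : ∀ a, a < n + 1 → (-1 : k) ^ a • sg a (Cz (ww (a + 1)) (dd (n + 2) x)) =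
      (∑ b ∈ Finset.range a, (-1 : k) ^ (a + b) • dl b (sg (a - 1) (Cz (ww a) x))) +
      (Cz (ww a) x - Cz (ww (a + 1)) x) -
      ∑ b ∈ Finset.Ico (a + 1) (n + 1), G a b := by
    intro a ha
    rw [h2 a ha, Finset.smul_sum]
    rw [← Finset.sum_range_add_sum_Ico _ (show a ≤ n + 2 by omega),
      Finset.sum_eq_sum_Ico_succ_bot (show a < n + 2 by omega),
      Finset.sum_eq_sum_Ico_succ_bot (show a + 1 < n + 2 by omega)]
    have e1 : ∑ b ∈ Finset.range a, (-1 : k) ^ a • (-1 : k) ^ b •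
        sg a (Cz (ww (a + 1)) (dl b x)) =
        ∑ b ∈ Finset.range a, (-1 : k) ^ (a + b) • dl b (sg (a - 1) (Cz (ww a) x)) := by
      refine Finset.sum_congr rfl fun b hb => ?_
      have hb' := Finset.mem_range.1 hb
      obtain ⟨a', rfl⟩ : ∃ a', a = a' + 1 := ⟨a - 1, by omega⟩
      rw [Cz_dl_ge hb'.le, sg_dl_lt (by omega), smul_smul, ← pow_add, Nat.add_sub_cancel]
    have e2 : (-1 : k) ^ a • (-1 : k) ^ a • sg a (Cz (ww (a + 1)) (dl a x)) = Cz (ww a) x := by
      rw [Cz_dl_ge le_rfl, sg_dl_self, smul_smul, ← mul_pow, neg_one_mul, neg_neg, one_pow,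
        one_smul]
    have e3 : (-1 : k) ^ a • (-1 : k) ^ (a + 1) • sg a (Cz (ww (a + 1)) (dl (a + 1) x)) =
        - Cz (ww (a + 1)) x := by
      rw [Cz_dl_lt (Nat.lt_succ_self a), sg_dl_succ, smul_smul, pow_succ, ← mul_assoc, ← mul_pow,
        neg_one_mul, neg_neg, one_pow, one_mul, neg_one_smul]
    have e4 : ∑ b ∈ Finset.Ico (a + 1 + 1) (n + 2), (-1 : k) ^ a • (-1 : k) ^ b •
        sg a (Cz (ww (a + 1)) (dl b x)) = - ∑ b ∈ Finset.Ico (a + 1) (n + 1), G a b := by
      rw [show n + 2 = (n + 1) + 1 from rfl, ← Finset.sum_Ico_add', ← Finset.sum_neg_distrib]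
      refine Finset.sum_congr rfl fun b hb => ?_
      have hb' := (Finset.mem_Ico.1 hb).1
      rw [Cz_dl_lt (by omega), sg_dl_gt (by omega), smul_smul, ← pow_add, hG]
      dsimp only
      rw [← add_assoc, pow_succ, mul_neg_one, neg_smul]
    rw [e1, e2, e3, e4]
    abel
  have h4 : HH (n + 1) (dd (n + 2) x) = ∑ a ∈ Finset.range (n + 1),
      ((∑ b ∈ Finset.range a, (-1 : k) ^ (a + b) • dl b (sg (a - 1) (Cz (ww a) x))) +
      (Cz (ww a) x - Cz (ww (a + 1)) x) -
      ∑ b ∈ Finset.Ico (a + 1) (n + 1), G a b) := by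
    rw [HH_apply]
    exact Finset.sum_congr rfl fun a ha => h3 a (Finset.mem_range.1 ha)
  rw [h4, Finset.sum_sub_distrib, Finset.sum_add_distrib, Finset.sum_range_sub', h1]
  have h5 : ∑ a ∈ Finset.range (n + 1),
      (∑ b ∈ Finset.range a, (-1 : k) ^ (a + b) • dl b (sg (a - 1) (Cz (ww a) x))) =
      - ∑ a ∈ Finset.range n, ∑ b ∈ Finset.range (a + 1), G a b := by
    rw [Finset.sum_range_succ', Finset.range_zero, Finset.sum_empty, add_zero,
      ← Finset.sum_neg_distrib]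
    refine Finset.sum_congr rfl fun a _ => ?_
    rw [← Finset.sum_neg_distrib]
    refine Finset.sum_congr rfl fun b _ => ?_
    rw [hG]
    dsimp only
    rw [Nat.add_sub_cancel, show a + 1 + b = (a + b) + 1 by omega, pow_succ, mul_neg_one, neg_smul]
  have h6 : ∑ a ∈ Finset.range (n + 1), ∑ b ∈ Finset.Ico (a + 1) (n + 1), G a b =
      ∑ a ∈ Finset.range n, ∑ b ∈ Finset.Ico (a + 1) (n + 1), G a b := by
    rw [Finset.sum_range_succ, Finset.Ico_self, Finset.sum_empty, add_zero]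
  have h7 : ∑ a ∈ Finset.range n, ∑ b ∈ Finset.range (n + 1), G a b =
      (∑ a ∈ Finset.range n, ∑ b ∈ Finset.range (a + 1), G a b) +
      ∑ a ∈ Finset.range n, ∑ b ∈ Finset.Ico (a + 1) (n + 1), G a b := by
    rw [← Finset.sum_add_distrib]
    refine Finset.sum_congr rfl fun a ha => ?_
    have := Finset.mem_range.1 ha
    rw [Finset.sum_range_add_sum_Ico _ (by omega)]
  rw [h5, h6, h7]
  abel

end Vale.Agent.P257.V4.A.Cas
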