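import Mathlib

/-!
# P257, part A: the unitriangular model

`Un B` is the group of infinite unitriangular matrices over `B`; `e i n` is the entry in place
`(i, i+n)`. `UC p s` is the ring of functions on `s+1`-tuples `u 0 = 1, u 1, …, u s` of such matrices
(homogeneous coordinates, as in the model `Ch` of the cobar complex).
-/

namespace Vale.Agent.P257.V4.A

open MvPolynomial Finset

/-- infinite unitriangular matrices; `e i n` is the entry `(i, i+n)` -/
@[ext] structure Un (B : Type) [CommRing B] where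
  /-- entries -/
  e : ℕ → ℕ → B
  e_zero : ∀ i, e i 0 = 1

namespace Un

variable {B C : Type} [CommRing B] [CommRing C]

/-- the matrix with given entries above the diagonal -/
def mk' (c : ℕ → ℕ → B) : Un B where
  e i n := if n = 0 then 1 else c i (n - 1)
  e_zero _ := if_pos rfl

@[simp] theorem mk'_e_succ (c : ℕ → ℕ → B) (i n : ℕ) : (mk' c).e i (n + 1) = c i n := by
  simp [mk']

instance : One (Un B) := ⟨⟨fun _ n => if n = 0 then 1 else 0, fun _ => if_pos rfl⟩⟩

theorem one_e (i n : ℕ) : (1 : Un B).e i n = if n = 0 then 1 else 0 := rfl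

@[simp] theorem one_e_succ (i n : ℕ) : (1 : Un B).e i (n + 1) = 0 := by
  simp [one_e]

instance : Mul (Un B) := ⟨fun a b =>
  ⟨fun i n => ∑ x ∈ antidiagonal n, a.e i x.1 * b.e (i + x.1) x.2,
    fun i => by simp [a.e_zero, b.e_zero]⟩⟩

theorem mul_e (a b : Un B) (i n : ℕ) :
    (a * b).e i n = ∑ x ∈ antidiagonal n, a.e i x.1 * b.e (i + x.1) x.2 := rfl

protected theorem mul_assoc (a b c : Un B) : a * b * c = a * (b * c) := by
  ext i n
  simp only [mul_e, Finset.sum_mul, Finset.mul_sum, Finset.sum_sigma']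
  apply Finset.sum_nbij' (fun ⟨⟨_i, j⟩, ⟨k, l⟩⟩ => ⟨(k, l + j), (l, j)⟩)
    (fun ⟨⟨i, _j⟩, ⟨k, l⟩⟩ => ⟨(i + k, l), (i, k)⟩) <;>
    aesop (add simp [add_assoc, mul_assoc])

protected theorem one_mul (a : Un B) : 1 * a = a := by
  ext i n
  rw [mul_e, Finset.sum_eq_single (0, n)]
  · simp [one_e]
  · rintro ⟨x, y⟩ hx hne
    rw [HasAntidiagonal.mem_antidiagonal] at hx
    have hx0 : x ≠ 0 := by
      rintro rfl
      apply hne
      simp at hx
      rw [hx]
    simp [one_e, hx0]
  · intro h
    exact absurd (HasAntidiagonal.mem_antidiagonal.2 (by simp)) h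

/-- entries of the inverse -/
def invE (a : Un B) (i : ℕ) : ℕ → B
  | 0 => 1
  | n + 1 => - ∑ l : Fin (n + 1), invE a i l * a.e (i + l) (n + 1 - l)

instance : Inv (Un B) := ⟨fun a => ⟨invE a, fun i => by rw [invE]⟩⟩

theorem inv_e (a : Un B) (i n : ℕ) : (a⁻¹).e i n = invE a i n := rfl

protected theorem inv_mul (a : Un B) : a⁻¹ * a = 1 := by
  ext i n
  rcases n with _ | n
  · rw [Un.e_zero, Un.e_zero]
  · rw [mul_e, Finset.Nat.sum_antidiagonal_eq_sum_range_succ
      (fun x y => (a⁻¹).e i x * a.e (i + x) y), Finset.sum_range_succ, one_e_succ, Nat.sub_self,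
      a.e_zero, mul_one, inv_e a i (n + 1), invE, ← Finset.sum_range (n := n + 1)
      (fun l => invE a i l * a.e (i + l) (n + 1 - l))]
    exact add_neg_cancel _

instance : Group (Un B) :=
  Group.ofLeftAxioms Un.mul_assoc Un.one_mul Un.inv_mul

/-- base change -/
def mapHom (f : B →+* C) : Un B →* Un C where
  toFun a := ⟨fun i n => f (a.e i n), fun i => by rw [a.e_zero, map_one]⟩
  map_one' := by
    ext i n
    change f (if n = 0 then 1 else 0) = if n = 0 then 1 else 0
    split_ifs <;> simp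
  map_mul' a b := by
    ext i n
    change f (∑ x ∈ antidiagonal n, a.e i x.1 * b.e (i + x.1) x.2) = _
    rw [map_sum]
    exact Finset.sum_congr rfl fun x _ => map_mul f _ _

@[simp] theorem mapHom_e (f : B →+* C) (a : Un B) (i n : ℕ) :
    (mapHom f a).e i n = f (a.e i n) := rfl

theorem mapHom_id (a : Un B) : mapHom (RingHom.id B) a = a := rfl

end Un

/-- A chain `u 0 = 1, …, u n` of unitriangular matrices. -/
@[ext] structure UChain (n : ℕ) (B : Type) [CommRing B] where
  /-- the matrices -/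
  g : Fin (n + 1) → Un B
  zero : g 0 = 1

namespace UChain

variable {B C : Type} [CommRing B] [CommRing C] {n m l : ℕ}

/-- base change -/
def map (f : B →+* C) (c : UChain n B) : UChain n C :=
  ⟨fun i => Un.mapHom f (c.g i), by rw [c.zero, map_one]⟩

@[simp] theorem map_g (f : B →+* C) (c : UChain n B) (i : Fin (n + 1)) :
    (c.map f).g i = Un.mapHom f (c.g i) := rfl

/-- restriction along `[m] → [n]` -/
def res (α : Fin (m + 1) → Fin (n + 1)) (c : UChain n B) : UChain m B :=
  ⟨fun i => c.g (α i) * (c.g (α 0))⁻¹, mul_inv_cancel _⟩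

@[simp] theorem res_g (α : Fin (m + 1) → Fin (n + 1)) (c : UChain n B) (i : Fin (m + 1)) :
    (c.res α).g i = c.g (α i) * (c.g (α 0))⁻¹ := rfl

theorem res_id (c : UChain n B) : c.res id = c := by
  ext1
  funext i
  rw [res_g, id, id, c.zero, inv_one, mul_one]

theorem res_res (α : Fin (m + 1) → Fin (n + 1)) (β : Fin (l + 1) → Fin (m + 1))
    (c : UChain n B) : (c.res α).res β = c.res (α ∘ β) := by
  ext1
  funext i
  rw [res_g, res_g, res_g, res_g, mul_inv_rev, inv_inv, mul_assoc, inv_mul_cancel_left]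
  rfl

theorem map_res (f : B →+* C) (α : Fin (m + 1) → Fin (n + 1)) (c : UChain n B) :
    (c.res α).map f = (c.map f).res α := by
  ext1
  funext i
  rw [map_g, res_g, res_g, map_mul, map_inv]
  rfl

end UChain

/-- Functions on chains of unitriangular matrices: the variable `(r,(i,k))` is the entry
`(i, i+k+1)` of `u (r+1)`. -/
abbrev UC (p s : ℕ) : Type := MvPolynomial (Fin s × (ℕ × ℕ)) (ZMod p)

namespace UC

variable {p : ℕ} {n m l : ℕ} {B C : Type} [CommRing B] [CommRing C] [Algebra (ZMod p) B]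
  [Algebra (ZMod p) C]

/-- the universal chain -/
noncomputable def univ (p n : ℕ) : UChain n (UC p n) where
  g := Fin.cons 1 fun r => Un.mk' fun i k => X (r, (i, k))
  zero := Fin.cons_zero _ _

theorem univ_g_zero : (univ p n).g 0 = 1 := (univ p n).zero

@[simp] theorem univ_g_succ (r : Fin n) :
    (univ p n).g r.succ = Un.mk' fun i k => X (r, (i, k)) := by
  unfold univ
  exact Fin.cons_succ (α := fun _ => Un (UC p n)) 1
    (fun r => Un.mk' fun i k => X (r, (i, k))) r

/-- evaluation on a chain -/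
noncomputable def ev (c : UChain n B) : UC p n →ₐ[ZMod p] B :=
  aeval fun v => (c.g v.1.succ).e v.2.1 (v.2.2 + 1)

@[simp] theorem ev_X (c : UChain n B) (v : Fin n × (ℕ × ℕ)) :
    (ev c : UC p n →ₐ[ZMod p] B) (X v) = (c.g v.1.succ).e v.2.1 (v.2.2 + 1) := by
  rw [ev, aeval_X]

theorem univ_map_ev (c : UChain n B) : (univ p n).map (ev c).toRingHom = c := by
  ext1
  funext r
  refine Fin.cases ?_ (fun r => ?_) r
  · rw [UChain.map_g, c.zero, univ_g_zero, map_one]
  · rw [UChain.map_g, univ_g_succ]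
    ext i k
    rcases k with _ | k
    · rw [Un.e_zero, Un.e_zero]
    · rw [Un.mapHom_e, Un.mk'_e_succ]
      exact ev_X c (r, (i, k))

theorem ev_univ (x : UC p n) : ev (univ p n) x = x := by
  have : (ev (univ p n) : UC p n →ₐ[ZMod p] UC p n) = AlgHom.id _ _ := by
    refine MvPolynomial.algHom_ext fun v => ?_
    rw [ev_X, univ_g_succ, Un.mk'_e_succ]
    rfl
  rw [this, AlgHom.id_apply]

theorem ev_map (f : B →ₐ[ZMod p] C) (c : UChain n B) (x : UC p n) :
    ev (c.map f.toRingHom) x = f (ev c x) := by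
  have : (ev (c.map f.toRingHom) : UC p n →ₐ[ZMod p] C) = f.comp (ev c) := by
    refine MvPolynomial.algHom_ext fun v => ?_
    rw [ev_X, AlgHom.comp_apply, ev_X]
    rfl
  rw [this, AlgHom.comp_apply]

/-- pull-back of functions along `[m] → [n]` -/
noncomputable def map (α : Fin (m + 1) → Fin (n + 1)) : UC p m →ₐ[ZMod p] UC p n :=
  ev ((univ p n).res α)

theorem map_X (α : Fin (m + 1) → Fin (n + 1)) (r : Fin m) (i k : ℕ) :
    (map α : UC p m →ₐ[ZMod p] UC p n) (X (r, (i, k))) =
      ((univ p n).g (α r.succ) * ((univ p n).g (α 0))⁻¹).e i (k + 1) := by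
  rw [map, ev_X, UChain.res_g]

theorem ev_res (α : Fin (m + 1) → Fin (n + 1)) (c : UChain n B) (x : UC p m) :
    ev (c.res α) x = ev c (map α x) := by
  rw [map, ← ev_map, UChain.map_res, univ_map_ev]

theorem map_map (α : Fin (m + 1) → Fin (n + 1)) (β : Fin (l + 1) → Fin (m + 1)) (x : UC p l) :
    map α (map β x) = map (α ∘ β) x := by
  rw [map, ← ev_res, UChain.res_res]
  rfl

/-- the cobar differential -/
noncomputable def d (n : ℕ) : UC p n →ₗ[ZMod p] UC p (n + 1) :=
  ∑ i : Fin (n + 2), (-1 : ZMod p) ^ (i : ℕ) • (map (Fin.succAbove i)).toLinearMap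

theorem d_apply (x : UC p n) :
    d n x = ∑ i : Fin (n + 2), (-1 : ZMod p) ^ (i : ℕ) • map (Fin.succAbove i) x := by
  simp [d]

end UC

/-! ## multidegrees -/

/-- the interval `[i, i+k]` as a multidegree -/
noncomputable def itv (i k : ℕ) : ℕ →₀ ℕ := ∑ l ∈ range (k + 1), Finsupp.single (i + l) 1

/-- the multidegree of a variable -/
noncomputable def mw {s : ℕ} (v : Fin s × (ℕ × ℕ)) : ℕ →₀ ℕ := itv v.2.1 v.2.2

/-- homogeneous of multidegree `e` -/
def MH {p s : ℕ} (e : ℕ →₀ ℕ) (z : UC p s) : Prop := IsWeightedHomogeneous mw z e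

/-- membership in the ideal generated by the `p`-th powers of the variables -/
def InJ {p s : ℕ} (z : UC p s) : Prop := ∀ m ∈ z.support, ∃ v, p ≤ m v

/-- Vanishing of the cohomology of the first Frobenius kernel in degree `s`, multidegree `e`. -/
def VanA (p : ℕ) : ℕ → (ℕ →₀ ℕ) → Prop
  | 0, e => ∀ z : UC p 0, MH e z → InJ (UC.d 0 z) → InJ z
  | s + 1, e => ∀ z : UC p (s + 1), MH e z → InJ (UC.d (s + 1) z) →
      ∃ y : UC p s, MH e y ∧ InJ (z - UC.d s y)

end Vale.Agent.P257.V4.A
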