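import Vale.Agent.P257.V4.A.Cas2
import Vale.Agent.P257.V4.A.UDefs

/-!
# P257, V(4), block A2: the finite model

`Pol (Fin s) N k` with the differential `fd` is the analogue of `UC p s` for unitriangular matrices
of finite size `N` (homogeneous coordinates, first vertex `1`).
-/

namespace Vale.Agent.P257.V4.A.Cas

open Matrix MvPolynomial

variable {N : ℕ} {k : Type*} [CommRing k]

/-- the vertices `1, U 0, …, U (s-1)` of the universal chain -/
noncomputable def UU (N : ℕ) (k : Type*) [CommRing k] (s : ℕ) :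
    Fin (s + 1) → Mt N (Pol (Fin s) N k) :=
  Fin.cons 1 fun r => U r

@[simp] theorem UU_zero (s : ℕ) : UU N k s 0 = 1 := rfl

@[simp] theorem UU_succ (s : ℕ) (r : Fin s) : UU N k s r.succ = U r := rfl

theorem UU_uni (s : ℕ) (r : Fin (s + 1)) : Uni (UU N k s r) := by
  refine Fin.cases ?_ (fun r => ?_) r
  · exact Uni.one
  · exact U_uni r

/-- pull-back of functions along `[m] → [n]` -/
noncomputable def fmap (N : ℕ) (k : Type*) [CommRing k] {m n : ℕ} (α : Fin (m + 1) → Fin (n + 1)) :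
    Pol (Fin m) N k →ₐ[k] Pol (Fin n) N k :=
  evA k fun r : Fin m => UU N k n (α r.succ) * (UU N k n (α 0))⁻¹

/-- the differential -/
noncomputable def fd (N : ℕ) (k : Type*) [CommRing k] (n : ℕ) :
    Pol (Fin n) N k →ₗ[k] Pol (Fin (n + 1)) N k :=
  ∑ i : Fin (n + 2), (-1 : k) ^ (i : ℕ) • (fmap N k (Fin.succAbove i)).toLinearMap

/-- the multidegree of the variable in place `(i,j)`: the interval `[i, j-1]` -/
noncomputable def fw {s : ℕ} (v : Fin s × Ix N) : ℕ →₀ ℕ :=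
  itv v.2.1.1 (v.2.1.2 - v.2.1.1 - 1)

/-- membership in the ideal generated by the `p`-th powers of the variables -/
def JF (p : ℕ) {s : ℕ} (z : Pol (Fin s) N (ZMod p)) : Prop := ∀ m ∈ z.support, ∃ v, p ≤ m v

/-- The Casimir form `∑ e_k - ∑ e_k^2 + ∑ e_k e_{k+1}`. -/
noncomputable def Qe (e : ℕ →₀ ℕ) : ℤ :=
  e.sum fun i m => (m : ℤ) - (m : ℤ) ^ 2 + (m : ℤ) * (e (i + 1) : ℤ)

/-- The finite form of (A2), for positive degrees. -/
def CasCore (p N : ℕ) : Prop :=
  ∀ (s : ℕ) (e : ℕ →₀ ℕ), (∀ i, N ≤ i + 1 → e i = 0) → ((Qe e : ℤ) : ZMod p) ≠ 0 →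
    ∀ x : Pol (Fin (s + 1)) N (ZMod p), IsWeightedHomogeneous fw x e →
      JF p (fd N (ZMod p) (s + 1) x) →
        ∃ z : Pol (Fin s) N (ZMod p), JF p (x - fd N (ZMod p) s z)

/-- The aim: (A2) in the frozen form. -/
def CasMain (p : ℕ) : Prop :=
  ∀ (s : ℕ) (e : ℕ →₀ ℕ), ((Qe e : ℤ) : ZMod p) ≠ 0 → VanA p s e

end Vale.Agent.P257.V4.A.Cas
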