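import Vale.Agent.P257.V4.A.Cas3
import Vale.Agent.P257.V4.A.CasI

/-!
# P257, V(4), block A2: right invariance

The generic right translation `psi` commutes with the Casimir operators; consequently the homotopy
`HH` descends to the model `Pol (Fin s) N k` (vertex `0` normalised to `1`).
-/

namespace Vale.Agent.P257.V4.A.Cas

open Matrix MvPolynomial

variable {N : ℕ} {k : Type*} [CommRing k] {σ τ : Type*} {B : Type*} [CommRing B] [Algebra k B]

section homs

theorem mapA_mul (φ : B →ₐ[k] B) (M M' : Mt N B) : (M * M').map φ = M.map φ * M'.map φ :=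
  map_mul' (φ : B →+* B) M M'

theorem mA_mul {C : Type*} [CommRing C] [Algebra k C] (φ : B →ₐ[k] C) (M M' : Mt N B) :
    (M * M').map φ = M.map φ * M'.map φ :=
  map_mul' (φ : B →+* C) M M'

theorem mA_inv {C : Type*} [CommRing C] [Algebra k C] (φ : B →ₐ[k] C) {u : Mt N B} (hu : Uni u) :
    (u⁻¹).map φ = (u.map φ)⁻¹ :=
  hu.map_inv (φ : B →+* C)

theorem mA_one {C : Type*} [CommRing C] [Algebra k C] (φ : B →ₐ[k] C) :
    (1 : Mt N B).map φ = 1 :=
  Matrix.map_one _ (map_zero φ) (map_one φ)

theorem mA_uni {C : Type*} [CommRing C] [Algebra k C] (φ : B →ₐ[k] C) {u : Mt N B} (hu : Uni u) :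
    Uni (u.map φ) :=
  hu.map (φ : B →+* C)

theorem mA_V {C : Type*} [CommRing C] [Algebra k C] (φ : B →ₐ[k] C) {u : Mt N B} (hu : Uni u)
    (E : Mt N B) : (V u E).map φ = V (u.map φ) (E.map φ) :=
  V_map hu E (φ : B →+* C)

theorem mA_Es {C : Type*} [CommRing C] [Algebra k C] (φ : B →ₐ[k] C) (i j : Fin N) :
    (Es i j : Mt N B).map φ = Es i j :=
  Es_map (φ : B →+* C) i j

theorem mA_comp {C D : Type*} [CommRing C] [Algebra k C] [CommRing D] [Algebra k D]
    (φ : B →ₐ[k] C) (χ : C →ₐ[k] D) (M : Mt N B) :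
    M.map (χ.comp φ) = (M.map φ).map χ := rfl

end homs

/-- The generic right translation. -/
noncomputable def psi : Pol (Option ℕ) N k →ₐ[k] Pol (Option ℕ) N k :=
  evA k fun a => match a with
    | none => U none
    | some q => U (some q) * U none

theorem psi_fam_uni (a : Option ℕ) : Uni (match a with
    | none => (U none : Mt N (Pol (Option ℕ) N k))
    | some q => U (some q) * U none) := by
  cases a with
  | none => exact U_uni _
  | some q => exact (U_uni _).mul (U_uni _)

theorem psi_none : (U none : Mt N (Pol (Option ℕ) N k)).map psi = U none :=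
  evA_U psi_fam_uni none

theorem psi_some (q : ℕ) :
    (U (some q) : Mt N (Pol (Option ℕ) N k)).map psi = U (some q) * U none :=
  evA_U psi_fam_uni (some q)

theorem psi_Dv {w : Option ℕ → Bool} (hw : w none = false) (E : Mt N (Pol (Option ℕ) N k))
    (x : Pol (Option ℕ) N k) :
    psi (Dv w E x) = Dv w (U none * E.map psi * (U none)⁻¹) (psi x) := by
  refine comm_ext psi (Dv w E) (Dv w (U none * E.map psi * (U none)⁻¹)) (fun a => ?_) x
  cases a with
  | none =>
    rw [psi_none, Dv_U, Dv_U, hw]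
    ext i j
    simp
  | some q =>
    rw [psi_some, der_mul, Dv_U, Dv_U, Dv_U, hw]
    by_cases h : w (some q) = true
    · rw [if_pos h, if_pos h, mA_V psi (U_uni _), psi_some, V_mul (U_uni _) (U_uni _)]
      simp
    · rw [if_neg h, if_neg h]
      ext i j
      simp

/-- entries of a conjugate of a matrix unit -/
theorem conj_Es (g h : Mt N B) (i j b c : Fin N) :
    (g * (Es i j : Mt N B) * h : Mt N B) b c = g b i * h j c := by
  rw [Matrix.mul_apply, Finset.sum_eq_single j]
  · rw [Matrix.mul_apply, Finset.sum_eq_single i]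
    · simp [Es]
    · intro l _ hl
      simp [Es, hl.symm]
    · exact fun h => absurd (Finset.mem_univ _) h
  · intro l _ hl
    rw [Matrix.mul_apply, Finset.sum_eq_zero, zero_mul]
    intro l' _
    simp [Es, hl.symm]
  · exact fun h => absurd (Finset.mem_univ _) h

theorem Dv_none_zero {w : Option ℕ → Bool} (hw : w none = false) (E : Mt N (Pol (Option ℕ) N k)) :
    (U none : Mt N (Pol (Option ℕ) N k)).map (Dv w E) = 0 := by
  rw [Dv_U, hw]
  simp

theorem der_sum_apply {ι : Type*} (s : Finset ι) (D : ι → Derivation k B B) (x : B) :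
    (∑ i ∈ s, D i) x = ∑ i ∈ s, D i x := by
  classical
  induction s using Finset.induction_on with
  | empty => rw [Finset.sum_empty, Finset.sum_empty, Derivation.zero_apply]
  | insert i s hi ih => rw [Finset.sum_insert hi, Finset.sum_insert hi, Derivation.add_apply, ih]

theorem Dv_expand_apply (w : σ → Bool) (E : Mt N (Pol σ N k)) (x : Pol σ N k) :
    Dv w E x = ∑ i, ∑ j, E i j * Dv w (Es i j) x := by
  rw [Dv_expand w E, der_sum_apply]
  refine Finset.sum_congr rfl fun i _ => ?_
  rw [der_sum_apply]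
  refine Finset.sum_congr rfl fun j _ => ?_
  rw [Derivation.smul_apply, smul_eq_mul]

/-- Composition of two vector fields with coefficients which are constant along them. -/
theorem Dv_Dv {w : σ → Bool} {E F : Mt N (Pol σ N k)}
    (hF : ∀ b c : Fin N, F.map (Dv w (Es b c)) = 0) (x : Pol σ N k) :
    Dv w E (Dv w F x) = ∑ b, ∑ c, ∑ b', ∑ c',
      (E b c * F b' c') * Dv w (Es b c) (Dv w (Es b' c') x) := by
  rw [Dv_expand_apply w E]
  refine Finset.sum_congr rfl fun b _ => ?_
  refine Finset.sum_congr rfl fun c _ => ?_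
  rw [Dv_expand_apply w F, map_sum, Finset.mul_sum]
  refine Finset.sum_congr rfl fun b' _ => ?_
  rw [map_sum, Finset.mul_sum]
  refine Finset.sum_congr rfl fun c' _ => ?_
  have h : Dv w (Es b c) (F b' c') = 0 := congrFun (congrFun (hF b c) b') c'
  rw [Derivation.leibniz, h, smul_zero, add_zero, smul_eq_mul, mul_assoc]

theorem sum_rot {T M : Type*} [Fintype T] [AddCommMonoid M] (R : T → T → T → M) :
    ∑ i, ∑ j, ∑ b, R i j b = ∑ b, ∑ i, ∑ j, R i j b := by
  rw [Finset.sum_comm]
  refine Eq.trans (Finset.sum_congr rfl fun j _ => Finset.sum_comm) ?_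
  rw [Finset.sum_comm]
  exact Finset.sum_congr rfl fun b _ => Finset.sum_comm

theorem psi_Cz {w : Option ℕ → Bool} (hw : w none = false) (x : Pol (Option ℕ) N k) :
    psi (Cz w x) = Cz w (psi x) := by
  set g : Mt N (Pol (Option ℕ) N k) := U none with hg
  have hgu : Uni g := U_uni none
  have hg0 : ∀ b c : Fin N, g.map (Dv w (Es b c)) = 0 := fun b c => Dv_none_zero hw _
  have hgi0 : ∀ b c : Fin N, (g⁻¹).map (Dv w (Es b c)) = 0 := fun b c => by
    rw [der_inv _ hgu, hg0, Matrix.mul_zero, Matrix.zero_mul, neg_zero]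
  have hF : ∀ i j b c : Fin N, (g * Es i j * g⁻¹).map (Dv w (Es b c)) = 0 := fun i j b c => by
    rw [der_mul, der_mul, hg0, hgi0, Es_der]
    simp
  have h1 : psi (Cz w x) = ∑ i : Fin N, ∑ j : Fin N, ∑ b : Fin N, ∑ c : Fin N, ∑ b' : Fin N,
      ∑ c' : Fin N, ((g b i * g⁻¹ j c) * (g b' j * g⁻¹ i c')) *
        Dv w (Es b c) (Dv w (Es b' c') (psi x)) := by
    rw [Cz_apply, map_sum]
    refine Finset.sum_congr rfl fun i _ => ?_
    rw [map_sum]
    refine Finset.sum_congr rfl fun j _ => ?_
    rw [psi_Dv hw, psi_Dv hw, mA_Es, mA_Es, ← hg, Dv_Dv (hF j i)]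
    simp only [conj_Es]
  have h2 : ∀ b c b' c' : Fin N, ∑ i : Fin N, ∑ j : Fin N,
      ((g b i * g⁻¹ j c) * (g b' j * g⁻¹ i c')) = (if b = c' then 1 else 0) *
        (if b' = c then 1 else 0) := by
    intro b c b' c'
    have e1 : ∑ i, g b i * g⁻¹ i c' = if b = c' then 1 else 0 := by
      rw [← Matrix.mul_apply, hgu.mul_inv, Matrix.one_apply]
    have e2 : ∑ j, g b' j * g⁻¹ j c = if b' = c then 1 else 0 := by
      rw [← Matrix.mul_apply, hgu.mul_inv, Matrix.one_apply]
    rw [← e1, ← e2, Finset.sum_mul_sum]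
    refine Finset.sum_congr rfl fun i _ => Finset.sum_congr rfl fun j _ => ?_
    ring
  rw [h1, Cz_apply, sum_rot]
  refine Finset.sum_congr rfl fun b _ => ?_
  rw [sum_rot]
  refine Finset.sum_congr rfl fun c _ => ?_
  rw [sum_rot, Finset.sum_eq_single c]
  · rw [sum_rot, Finset.sum_eq_single b]
    · simp only [← Finset.sum_mul]
      rw [h2 b c c b, if_pos rfl, if_pos rfl, one_mul, one_mul]
    · intro c' _ hc'
      simp only [← Finset.sum_mul]
      rw [h2 b c c c', if_neg (Ne.symm hc'), zero_mul, zero_mul]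
    · exact fun h => absurd (Finset.mem_univ _) h
  · intro b' _ hb'
    rw [sum_rot, Finset.sum_eq_zero]
    intro c' _
    simp only [← Finset.sum_mul]
    rw [h2 b c b' c', if_neg hb', mul_zero, zero_mul]
  · exact fun h => absurd (Finset.mem_univ _) h


end Vale.Agent.P257.V4.A.Cas
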