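import Vale.Agent.P257.V4.A.Cas4

/-!
# P257, V(4), block A2: the homotopy on the finite model

`hh s ∘ fd` and `fd ∘ hh` add up to the Casimir operator.
-/

namespace Vale.Agent.P257.V4.A.Cas

open Matrix MvPolynomial

variable {N : ℕ} {k : Type*} [CommRing k]

/-- the slots `0, …, m` -/
def im (m : ℕ) : Fin (m + 1) → Option ℕ := fun r => some r

/-- The inclusion of the finite model as right-invariant functions. -/
noncomputable def iot (N : ℕ) (k : Type*) [CommRing k] (s : ℕ) :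
    Pol (Fin s) N k →ₐ[k] Pol (Option ℕ) N k :=
  evA k fun r : Fin s => U (some (r.val + 1)) * (U (some 0))⁻¹

/-- The normalisation `u_0 = 1`. -/
noncomputable def nuu (N : ℕ) (k : Type*) [CommRing k] (s : ℕ) :
    Pol (Option ℕ) N k →ₐ[k] Pol (Fin s) N k :=
  evA k fun a : Option ℕ => match a with
    | none => 1
    | some 0 => 1
    | some (q + 1) => if h : q < s then U ⟨q, h⟩ else 1

theorem iot_U (s : ℕ) (r : Fin s) :
    (U r : Mt N (Pol (Fin s) N k)).map (iot N k s) = U (some (r.val + 1)) * (U (some 0))⁻¹ :=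
  evA_U (M := fun r : Fin s => (U (some (r.val + 1)) * (U (some 0))⁻¹ : Mt N (Pol (Option ℕ) N k)))
    (fun _ => (U_uni _).mul (U_uni _).inv) r

theorem nuu_fam_uni (s : ℕ) (a : Option ℕ) : Uni (match a with
    | none => (1 : Mt N (Pol (Fin s) N k))
    | some 0 => 1
    | some (q + 1) => if h : q < s then U ⟨q, h⟩ else 1) := by
  match a with
  | none => exact Uni.one
  | some 0 => exact Uni.one
  | some (q + 1) =>
    by_cases h : q < s
    · simp only [h, dite_true]
      exact U_uni _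
    · simp only [h, dite_false]
      exact Uni.one

theorem nuu_zero (s : ℕ) : (U (some 0) : Mt N (Pol (Option ℕ) N k)).map (nuu N k s) = 1 :=
  evA_U (nuu_fam_uni s) (some 0)

theorem nuu_succ (s q : ℕ) (h : q < s) :
    (U (some (q + 1)) : Mt N (Pol (Option ℕ) N k)).map (nuu N k s) = U ⟨q, h⟩ := by
  refine (evA_U (k := k) (nuu_fam_uni (N := N) (k := k) s) (some (q + 1))).trans ?_
  simp only [h, dite_true]

theorem nuu_iot (s : ℕ) (x : Pol (Fin s) N k) : nuu N k s (iot N k s x) = x := by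
  have h : (nuu N k s).comp (iot N k s) = AlgHom.id k _ := by
    refine hom_ext fun r => ?_
    rw [mA_comp, iot_U, mA_mul, mA_inv _ (U_uni _), nuu_zero, nuu_succ s r r.2, inv_one, mul_one]
    rfl
  exact congrArg (fun φ : Pol (Fin s) N k →ₐ[k] Pol (Fin s) N k => φ x) h

theorem psi_iot (s : ℕ) (x : Pol (Fin s) N k) : psi (iot N k s x) = iot N k s x := by
  have h : (psi : Pol (Option ℕ) N k →ₐ[k] _).comp (iot N k s) = iot N k s := by
    refine hom_ext fun r => ?_
    rw [mA_comp, iot_U, mA_mul, mA_inv _ (U_uni _), psi_some, psi_some,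
      (U_uni _).mul_inv_rev (U_uni _), Matrix.mul_assoc, ← Matrix.mul_assoc (U none),
      (U_uni _).mul_inv, Matrix.one_mul]
  exact congrArg (fun φ : Pol (Fin s) N k →ₐ[k] Pol (Option ℕ) N k => φ x) h

theorem psi_sg (a : ℕ) (x : Pol (Option ℕ) N k) : psi (sg a x) = sg a (psi x) := by
  have h : (psi : Pol (Option ℕ) N k →ₐ[k] _).comp (sg a) = (sg a).comp psi := by
    refine hom_ext fun r => ?_
    rw [mA_comp, mA_comp, sg, rn_U]
    cases r with
    | none => rw [psi_none, rn_U]; exact psi_none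
    | some q => rw [psi_some, mA_mul, rn_U, rn_U]; exact psi_some _
  exact congrArg (fun φ : Pol (Option ℕ) N k →ₐ[k] Pol (Option ℕ) N k => φ x) h

theorem psi_HH (n : ℕ) (x : Pol (Option ℕ) N k) : psi (HH n x) = HH n (psi x) := by
  rw [HH_apply, HH_apply, map_sum]
  refine Finset.sum_congr rfl fun a _ => ?_
  rw [map_smul, psi_sg, psi_Cz rfl]

/-- substitute `(U 0)⁻¹` for the spare matrix -/
noncomputable def chi : Pol (Option ℕ) N k →ₐ[k] Pol (Option ℕ) N k :=
  evA k fun a => match a with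
    | none => (U (some 0))⁻¹
    | some q => U (some q)

theorem chi_fam_uni (a : Option ℕ) : Uni (match a with
    | none => ((U (some 0))⁻¹ : Mt N (Pol (Option ℕ) N k))
    | some q => U (some q)) := by
  cases a with
  | none => exact (U_uni _).inv
  | some q => exact U_uni _

theorem chi_none : (U none : Mt N (Pol (Option ℕ) N k)).map chi = (U (some 0))⁻¹ :=
  evA_U chi_fam_uni none

theorem chi_some (q : ℕ) :
    (U (some q) : Mt N (Pol (Option ℕ) N k)).map chi = U (some q) :=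
  evA_U chi_fam_uni (some q)

theorem chi_rn_im (m : ℕ) (y : Pol (Fin (m + 1)) N k) : chi (rn (im m) y) = rn (im m) y := by
  have h : (chi : Pol (Option ℕ) N k →ₐ[k] _).comp (rn (im m)) = rn (im m) := by
    refine hom_ext fun r => ?_
    rw [mA_comp, rn_U]
    exact chi_some _
  exact congrArg (fun φ : Pol (Fin (m + 1)) N k →ₐ[k] Pol (Option ℕ) N k => φ y) h

theorem iot_nuu_rn_im (m : ℕ) (y : Pol (Fin (m + 1)) N k) :
    iot N k m (nuu N k m (rn (im m) y)) = chi (psi (rn (im m) y)) := by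
  have h : ((iot N k m).comp (nuu N k m)).comp (rn (im m)) =
      ((chi : Pol (Option ℕ) N k →ₐ[k] _).comp psi).comp (rn (im m)) := by
    refine hom_ext fun r => ?_
    rw [mA_comp, mA_comp, rn_U, mA_comp, mA_comp, rn_U, im, psi_some, mA_mul, chi_some, chi_none]
    obtain ⟨r, hr⟩ := r
    cases r with
    | zero => rw [nuu_zero, mA_one, (U_uni _).mul_inv]
    | succ r => rw [nuu_succ m r (by omega), iot_U]
  exact congrArg (fun φ : Pol (Fin (m + 1)) N k →ₐ[k] Pol (Option ℕ) N k => φ y) h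

/-- functions of the slots `0, …, m` -/
def ImS (m : ℕ) (F : Pol (Option ℕ) N k) : Prop := ∃ y : Pol (Fin (m + 1)) N k, F = rn (im m) y

theorem ImS.add {m : ℕ} {F G : Pol (Option ℕ) N k} (hF : ImS m F) (hG : ImS m G) :
    ImS m (F + G) := by
  obtain ⟨x, rfl⟩ := hF
  obtain ⟨y, rfl⟩ := hG
  exact ⟨x + y, (map_add _ _ _).symm⟩

theorem ImS.smul {m : ℕ} {F : Pol (Option ℕ) N k} (hF : ImS m F) (c : k) : ImS m (c • F) := by
  obtain ⟨x, rfl⟩ := hF
  exact ⟨c • x, (map_smul _ _ _).symm⟩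

theorem ImS.zero (m : ℕ) : ImS m (0 : Pol (Option ℕ) N k) := ⟨0, (map_zero _).symm⟩

theorem ImS.sum {m : ℕ} {ι : Type*} (s : Finset ι) {F : ι → Pol (Option ℕ) N k}
    (h : ∀ i ∈ s, ImS m (F i)) : ImS m (∑ i ∈ s, F i) := by
  classical
  induction s using Finset.induction_on with
  | empty => rw [Finset.sum_empty]; exact ImS.zero m
  | insert i s hi ih =>
    rw [Finset.sum_insert hi]
    exact (h i (Finset.mem_insert_self _ _)).add
      (ih fun j hj => h j (Finset.mem_insert_of_mem hj))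

theorem ImS.Cz {m : ℕ} {F : Pol (Option ℕ) N k} (hF : ImS m F) (w : Option ℕ → Bool) :
    ImS m (Cas.Cz w F) := by
  obtain ⟨x, rfl⟩ := hF
  exact ⟨_, rn_Cz _ _ _⟩

/-- the degeneracy on `Fin` -/
def pf (m a : ℕ) : Fin (m + 2) → Fin (m + 1) := fun r =>
  if h : r.val ≤ a ∧ r.val < m + 1 then ⟨r.val, h.2⟩ else ⟨r.val - 1, by omega⟩

theorem ImS.sg {m a : ℕ} (ha : a ≤ m) {F : Pol (Option ℕ) N k} (hF : ImS (m + 1) F) :
    ImS m (Cas.sg a F) := by
  obtain ⟨x, rfl⟩ := hF
  refine ⟨rn (pf m a) x, ?_⟩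
  rw [Cas.sg, rn_rn, rn_rn]
  congr 1
  have : pd a ∘ im (m + 1) = im m ∘ pf m a := by
    funext r
    change some _ = some _
    congr 1
    have := r.2
    unfold pf
    by_cases h : r.val ≤ a
    · rw [if_pos h, dif_pos ⟨h, by omega⟩]
    · rw [if_neg h, dif_neg (fun hh => h hh.1)]
  rw [this]

theorem ImS.HH {m : ℕ} {F : Pol (Option ℕ) N k} (hF : ImS (m + 1) F) :
    ImS m (Cas.HH (m + 1) F) := by
  rw [HH_apply]
  refine ImS.sum _ fun a ha => ?_
  exact ((hF.Cz _).sg (by have := Finset.mem_range.1 ha; omega)).smul _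

theorem ImS.iot (s : ℕ) (x : Pol (Fin s) N k) : ImS s (Cas.iot N k s x) := by
  refine ⟨evA k (fun r : Fin s => U r.succ * (U (0 : Fin (s + 1)))⁻¹) x, ?_⟩
  have h : Cas.iot N k s = (rn (im s)).comp
      (evA k (fun r : Fin s => (U r.succ * (U (0 : Fin (s + 1)))⁻¹ :
        Mt N (Pol (Fin (s + 1)) N k)))) := by
    refine hom_ext fun r => ?_
    rw [mA_comp, iot_U, evA_U (fun _ => (U_uni _).mul (U_uni _).inv), mA_mul,
      mA_inv _ (U_uni _), rn_U, rn_U]
    rfl
  rw [h]
  rfl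

theorem iot_nuu {m : ℕ} {F : Pol (Option ℕ) N k} (hF : ImS m F) (hp : psi F = F) :
    iot N k m (nuu N k m F) = F := by
  obtain ⟨x, rfl⟩ := hF
  rw [iot_nuu_rn_im, hp, chi_rn_im]

theorem Cz_eq_zero {m : ℕ} {F : Pol (Option ℕ) N k} (hF : ImS m F) :
    Cz (ww (m + 1)) F = 0 := by
  obtain ⟨x, rfl⟩ := hF
  rw [rn_Cz]
  have : ww (m + 1) ∘ im m = fun _ => false := by
    funext r
    change decide _ = false
    rw [decide_eq_false_iff_not]
    have := r.2
    omega
  rw [this, Cz_apply]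
  have h0 : ∀ E : Mt N (Pol (Fin (m + 1)) N k), Dv (fun _ => false) E = 0 := by
    intro E
    refine der_ext fun a => ?_
    rw [Dv_U]
    ext i j
    simp
  simp [h0]

/-- The homotopy on the finite model. -/
noncomputable def hh (N : ℕ) (k : Type*) [CommRing k] (s : ℕ) :
    Pol (Fin (s + 1)) N k →ₗ[k] Pol (Fin s) N k :=
  (nuu N k s).toLinearMap ∘ₗ HH (s + 1) ∘ₗ (iot N k (s + 1)).toLinearMap

theorem iot_hh (s : ℕ) (x : Pol (Fin (s + 1)) N k) :
    iot N k s (hh N k s x) = HH (s + 1) (iot N k (s + 1) x) := by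
  have h : psi (HH (s + 1) (iot N k (s + 1) x)) = HH (s + 1) (iot N k (s + 1) x) := by
    rw [psi_HH, psi_iot]
  exact iot_nuu (ImS.iot _ _).HH h

theorem UU_iot (s : ℕ) (i : Fin (s + 1)) :
    (UU N k s i).map (iot N k s) = U (some i.val) * (U (some 0))⁻¹ := by
  refine Fin.cases ?_ (fun r => ?_) i
  · rw [UU_zero, mA_one]
    exact ((U_uni _).mul_inv).symm
  · rw [UU_succ, iot_U]
    rfl

theorem fmap_U {m n : ℕ} (α : Fin (m + 1) → Fin (n + 1)) (r : Fin m) :
    (U r : Mt N (Pol (Fin m) N k)).map (fmap N k α) =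
      UU N k n (α r.succ) * (UU N k n (α 0))⁻¹ :=
  evA_U (M := fun r : Fin m => UU N k n (α r.succ) * (UU N k n (α 0))⁻¹)
    (fun _ => (UU_uni _ _).mul (UU_uni _ _).inv) r

theorem dl_iot (s : ℕ) (b : Fin (s + 2)) (x : Pol (Fin s) N k) :
    dl b.val (iot N k s x) = iot N k (s + 1) (fmap N k b.succAbove x) := by
  have hv : ∀ i : Fin (s + 1), sk b.val (some i.val) = some (b.succAbove i).val := by
    intro i
    change some _ = some _
    congr 1
    unfold Fin.succAbove
    by_cases h : i.val < b.val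
    · have h' : i.castSucc < b := h
      rw [if_pos h, if_pos h']
      rfl
    · have h' : ¬ i.castSucc < b := h
      rw [if_neg h, if_neg h']
      rfl
  have h : (dl b.val).comp (iot N k s) = (iot N k (s + 1)).comp (fmap N k b.succAbove) := by
    refine hom_ext fun r => ?_
    rw [mA_comp, mA_comp, iot_U, fmap_U, mA_mul, mA_inv _ (U_uni _), mA_mul,
      mA_inv _ (UU_uni _ _), UU_iot, UU_iot, dl, rn_U, rn_U,
      (U_uni _).mul_inv_rev (U_uni _).inv, (U_uni _).inv_inv, Matrix.mul_assoc,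
      ← Matrix.mul_assoc _ _ ((U _)⁻¹), (U_uni _).inv_mul, Matrix.one_mul]
    have h1 := hv r.succ
    have h2 := hv 0
    rw [show (some (r.val + 1) : Option ℕ) = some (r.succ.val) from rfl, h1,
      show (some 0 : Option ℕ) = some ((0 : Fin (s + 1)).val) from rfl, h2]
  exact congrArg (fun φ : Pol (Fin s) N k →ₐ[k] Pol (Option ℕ) N k => φ x) h

theorem fd_apply (n : ℕ) (x : Pol (Fin n) N k) :
    fd N k n x = ∑ i : Fin (n + 2), (-1 : k) ^ (i : ℕ) • fmap N k (Fin.succAbove i) x := by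
  simp [fd, LinearMap.sum_apply]

theorem dd_iot (s : ℕ) (x : Pol (Fin s) N k) :
    dd (s + 2) (iot N k s x) = iot N k (s + 1) (fd N k s x) := by
  rw [dd_apply, fd_apply, map_sum, Finset.sum_range]
  refine Finset.sum_congr rfl fun b _ => ?_
  rw [map_smul, dl_iot]

/-- The homotopy formula on the finite model. -/
theorem hh_fd (s : ℕ) (x : Pol (Fin (s + 1)) N k) :
    hh N k (s + 1) (fd N k (s + 1) x) + fd N k s (hh N k s x) =
      nuu N k (s + 1) (Cz (ww 0) (iot N k (s + 1) x)) := by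
  rw [← nuu_iot (s + 1) (hh N k (s + 1) (fd N k (s + 1) x) + fd N k s (hh N k s x)), map_add,
    iot_hh, ← dd_iot, ← dd_iot, iot_hh, HH_dd, Cz_eq_zero (ImS.iot _ _), sub_zero]

end Vale.Agent.P257.V4.A.Cas
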