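import Vale.Agent.P257.V4.A.Cas5

/-!
# P257, V(4), block A2: the eigenvalue of the Casimir operator
-/

namespace Vale.Agent.P257.V4.A.Cas

open Matrix MvPolynomial

variable {N : ℕ} {k : Type*} [CommRing k]

/-- the vector field on right-invariant functions: derivative of `iot` -/
theorem der_iot_U (D : Derivation k (Pol (Option ℕ) N k) (Pol (Option ℕ) N k)) (s : ℕ) (r : Fin s)
    {E : Mt N (Pol (Option ℕ) N k)} (hD : ∀ q : ℕ, (U (some q)).map D = V (U (some q)) E) :
    ((U r : Mt N (Pol (Fin s) N k)).map (iot N k s)).map D =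
      V (U (some (r.val + 1))) E * (U (some 0))⁻¹ -
        U (some (r.val + 1)) * (U (some 0))⁻¹ * V (U (some 0)) E * (U (some 0))⁻¹ := by
  rw [iot_U, der_mul, der_inv _ (U_uni _), hD, hD, Matrix.mul_neg, ← sub_eq_add_neg]
  simp only [Matrix.mul_assoc]

theorem Dv_some {E : Mt N (Pol (Option ℕ) N k)} (q : ℕ) :
    (U (some q)).map (Dv (ww 0) E) = V (U (some q)) E := by
  rw [Dv_U]
  simp [ww]

theorem Dv_up_iot {i j : Fin N} (h : i < j) (s : ℕ) (x : Pol (Fin s) N k) :
    Dv (ww 0) (Es i j) (iot N k s x) = 0 := by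
  have hE : IsUp (Es i j : Mt N (Pol (Option ℕ) N k)) := by
    intro a b hab
    simp only [Es, Matrix.single_apply]
    rw [if_neg]
    rintro ⟨rfl, rfl⟩
    exact hab h
  have := comm_ext (iot N k s) 0 (Dv (ww 0) (Es i j)) (fun r => ?_) x
  · rw [← this, Derivation.zero_apply, map_zero]
  · rw [der_iot_U (Dv (ww 0) (Es i j)) s r (fun q => Dv_some q), V_up (U_uni _) hE,
      V_up (U_uni _) hE]
    have e1 : U (some (r.val + 1)) * (U (some 0))⁻¹ * (U (some 0) * Es i j) * (U (some 0))⁻¹ =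
        (U (some (r.val + 1)) * Es i j * (U (some 0))⁻¹ : Mt N (Pol (Option ℕ) N k)) := by
      calc U (some (r.val + 1)) * (U (some 0))⁻¹ * (U (some 0) * Es i j) * (U (some 0))⁻¹
          = U (some (r.val + 1)) * ((U (some 0))⁻¹ * U (some 0)) * Es i j * (U (some 0))⁻¹ := by
            simp only [Matrix.mul_assoc]
        _ = _ := by rw [(U_uni _).inv_mul, Matrix.mul_one]
    rw [e1, sub_self]
    ext a b
    simp

/-- the derivation with `X v ↦ c v • X v` -/
noncomputable def Tc {ι : Type*} (c : ι → k) :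
    Derivation k (MvPolynomial ι k) (MvPolynomial ι k) :=
  mkDerivation k fun v => c v • X v

theorem Tc_X {ι : Type*} (c : ι → k) (v : ι) : Tc c (X v) = c v • X v := mkDerivation_X _ _ _

theorem Tc_monomial {ι : Type*} (w : ι → ℕ →₀ ℕ) (φ : (ℕ →₀ ℕ) →+ k) (m : ι →₀ ℕ) :
    Tc (fun v => φ (w v)) (monomial m 1) = φ (Finsupp.weight w m) • monomial m 1 := by
  induction m using Finsupp.induction_linear with
  | zero =>
    rw [map_zero, map_zero, zero_smul, show (monomial (0 : ι →₀ ℕ) (1 : k)) = 1 from rfl,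
      Derivation.map_one_eq_zero]
  | add f g hf hg =>
    have : (monomial (f + g) (1 : k)) = monomial f 1 * monomial g 1 := by
      rw [monomial_mul, one_mul]
    rw [this, Derivation.leibniz, hf, hg, map_add, map_add, smul_eq_mul, smul_eq_mul, add_smul,
      mul_smul_comm, mul_smul_comm, mul_comm (monomial g (1 : k)), add_comm]
  | single v n =>
    have : (monomial (Finsupp.single v n) (1 : k)) = X v ^ n := by
      rw [X_pow_eq_monomial]
    rw [this, Derivation.leibniz_pow, Tc_X, Finsupp.weight_single, map_nsmul]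
    cases n with
    | zero => simp
    | succ n =>
      rw [Nat.add_sub_cancel, smul_eq_mul, mul_smul_comm, ← pow_succ, smul_assoc]

theorem Tc_apply {ι : Type*} {w : ι → ℕ →₀ ℕ} (φ : (ℕ →₀ ℕ) →+ k) {x : MvPolynomial ι k}
    {e : ℕ →₀ ℕ} (hx : IsWeightedHomogeneous w x e) : Tc (fun v => φ (w v)) x = φ e • x := by
  have h1 : Tc (fun v => φ (w v)) x =
      ∑ m ∈ x.support, Tc (fun v => φ (w v)) (monomial m (coeff m x)) := by
    conv_lhs => rw [x.as_sum]
    rw [map_sum]
  rw [h1]
  conv_rhs => rw [x.as_sum, Finset.smul_sum]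
  refine Finset.sum_congr rfl fun m hm => ?_
  have hm' : Finsupp.weight w m = e := hx (mem_support_iff.1 hm)
  have h2 : monomial m (coeff m x) = coeff m x • monomial m 1 := by
    rw [smul_monomial, smul_eq_mul, mul_one]
  rw [h2, Derivation.map_smul, Tc_monomial, hm', smul_comm]

/-- `e ↦ e_{i-1} - e_i` -/
noncomputable def lam (k : Type*) [CommRing k] (i : ℕ) : (ℕ →₀ ℕ) →+ k where
  toFun e := (if i = 0 then 0 else (e (i - 1) : k)) - (e i : k)
  map_zero' := by simp
  map_add' e e' := by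
    simp only [Finsupp.add_apply, Nat.cast_add]
    split_ifs <;> ring

theorem lam_apply (i : ℕ) (e : ℕ →₀ ℕ) :
    lam k i e = (if i = 0 then 0 else (e (i - 1) : k)) - (e i : k) := rfl

theorem itv_apply (a n l : ℕ) : itv a n l = if a ≤ l ∧ l ≤ a + n then 1 else 0 := by
  rw [itv, Finsupp.finsetSum_apply]
  simp only [Finsupp.single_apply]
  by_cases h : a ≤ l ∧ l ≤ a + n
  · rw [if_pos h, Finset.sum_eq_single (l - a)]
    · rw [if_pos (by omega)]
    · intro b _ hb
      rw [if_neg (by omega)]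
    · intro hb
      exact absurd (Finset.mem_range.2 (by omega)) hb
  · rw [if_neg h]
    refine Finset.sum_eq_zero fun b hb => ?_
    have := Finset.mem_range.1 hb
    rw [if_neg (by omega)]

theorem lam_fw {s : ℕ} (i : Fin N) (v : Fin s × Ix N) :
    lam k i.val (fw v) = (if v.2.1.2 = i then 1 else 0) - (if v.2.1.1 = i then 1 else 0) := by
  obtain ⟨r, ⟨⟨a, b⟩, hab⟩⟩ := v
  have hab' : a.val < b.val := hab
  rw [lam_apply, fw, itv_apply, itv_apply]
  simp only [Fin.ext_iff]
  split_ifs <;> first | (exfalso; omega) | simp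

/-- matrix identity used for the diagonal fields -/
theorem mat_aux1 {R : Type*} [CommRing R] (A E : Mt N R) {B : Mt N R} (hB : Uni B) :
    A * B⁻¹ * (B * E - E * B) * B⁻¹ = A * E * B⁻¹ - A * B⁻¹ * E := by
  rw [Matrix.mul_sub, Matrix.sub_mul]
  congr 1
  · calc A * B⁻¹ * (B * E) * B⁻¹ = A * (B⁻¹ * B) * E * B⁻¹ := by simp only [Matrix.mul_assoc]
      _ = _ := by rw [hB.inv_mul, Matrix.mul_one]
  · calc A * B⁻¹ * (E * B) * B⁻¹ = A * B⁻¹ * E * (B * B⁻¹) := by simp only [Matrix.mul_assoc]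
      _ = _ := by rw [hB.mul_inv, Matrix.mul_one]

theorem mat_aux2 {R : Type*} [CommRing R] (A E : Mt N R) {B : Mt N R} (hB : Uni B) :
    A * B⁻¹ * E - E * (A * B⁻¹) =
      (A * E - E * A) * B⁻¹ - A * B⁻¹ * (B * E - E * B) * B⁻¹ := by
  rw [mat_aux1 A E hB, Matrix.sub_mul, Matrix.mul_assoc E A]
  abel

theorem mul_Es_apply {R : Type*} [CommRing R] (M : Mt N R) (i a b : Fin N) :
    (M * (Es i i : Mt N R) : Mt N R) a b = if b = i then M a b else 0 := by
  rw [Matrix.mul_apply, Finset.sum_eq_single i]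
  · by_cases hb : b = i
    · subst hb
      simp [Es]
    · simp [Es, hb, Ne.symm hb]
  · intro c _ hc
    simp [Es, Ne.symm hc]
  · exact fun h => absurd (Finset.mem_univ _) h

theorem Es_mul_apply {R : Type*} [CommRing R] (M : Mt N R) (i a b : Fin N) :
    ((Es i i : Mt N R) * M : Mt N R) a b = if a = i then M a b else 0 := by
  rw [Matrix.mul_apply, Finset.sum_eq_single i]
  · by_cases ha : a = i
    · subst ha
      simp [Es]
    · simp [Es, ha, Ne.symm ha]
  · intro c _ hc
    simp [Es, Ne.symm hc]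
  · exact fun h => absurd (Finset.mem_univ _) h

theorem Es_diag {R : Type*} [CommRing R] (i a b : Fin N) (hab : a ≠ b) :
    (Es i i : Mt N R) a b = 0 := by
  simp only [Es, Matrix.single_apply]
  rw [if_neg]
  rintro ⟨rfl, rfl⟩
  exact hab rfl

theorem Tc_U (s : ℕ) (i : Fin N) (r : Fin s) :
    (U r : Mt N (Pol (Fin s) N k)).map (Tc (fun v : Fin s × Ix N => lam k i.val (fw v))) =
      U r * Es i i - Es i i * U r := by
  refine IsUp.ext (der_uni_isUp _ (U_uni r)) ?_ fun a b h => ?_
  · have h2 := V_isUp (U_uni r) (Es i i : Mt N (Pol (Fin s) N k))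
    rwa [V_diag (U_uni r) (Es_diag i)] at h2
  · rw [Matrix.map_apply, U_apply_lt r h, Tc_X, lam_fw, Matrix.sub_apply, mul_Es_apply,
      Es_mul_apply, U_apply_lt r h]
    dsimp only
    split_ifs <;> simp

theorem mA_sub {B C : Type*} [CommRing B] [Algebra k B] [CommRing C] [Algebra k C]
    (φ : B →ₐ[k] C) (M M' : Mt N B) : (M - M').map φ = M.map φ - M'.map φ := by
  ext a b
  simp

theorem Dv_diag_iot (i : Fin N) (s : ℕ) (x : Pol (Fin s) N k) :
    Dv (ww 0) (Es i i) (iot N k s x) =
      iot N k s (Tc (fun v : Fin s × Ix N => lam k i.val (fw v)) x) := by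
  refine (comm_ext (iot N k s) _ (Dv (ww 0) (Es i i)) (fun r => ?_) x).symm
  rw [Tc_U, der_iot_U (Dv (ww 0) (Es i i)) s r (fun q => Dv_some q), V_diag (U_uni _) (Es_diag i),
    V_diag (U_uni _) (Es_diag i), mA_sub, mA_mul, mA_mul, mA_Es, iot_U]
  exact mat_aux2 _ _ (U_uni _)

/-- the coefficients of the Casimir operator -/
noncomputable def cc (l : ℕ → k) (i j : ℕ) : k :=
  if i = j then l i ^ 2 else if i < j then l i - l j else 0

theorem Cz_iot (s : ℕ) (x : Pol (Fin s) N k) (e : ℕ →₀ ℕ) (hx : IsWeightedHomogeneous fw x e) :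
    Cz (ww 0) (iot N k s x) =
      (∑ i : Fin N, ∑ j : Fin N, cc (fun l => lam k l e) i.val j.val) • iot N k s x := by
  have hd : ∀ i : Fin N, Dv (ww 0) (Es i i) (iot N k s x) = lam k i.val e • iot N k s x := by
    intro i
    rw [Dv_diag_iot, Tc_apply (w := fw) (lam k i.val) hx, map_smul]
  rw [Cz_apply, Finset.sum_smul]
  refine Finset.sum_congr rfl fun i _ => ?_
  rw [Finset.sum_smul]
  refine Finset.sum_congr rfl fun j _ => ?_
  rcases lt_trichotomy i j with h | h | h
  · have hb := Dv_bracket (ww 0) i j j i (iot N k s x)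
    rw [Dv_up_iot h, map_zero, sub_zero] at hb
    rw [hb]
    have e1 : (Es i j * Es j i - Es j i * Es i j : Mt N (Pol (Option ℕ) N k)) =
        Es i i - Es j j := by
      simp only [Es, Matrix.single_mul_single_same, mul_one]
    have h1 : (i.val : ℕ) ≠ j.val := fun hh => h.ne (Fin.ext hh)
    rw [e1, Dv_sub, Derivation.sub_apply, hd, hd, cc, if_neg h1, if_pos (show i.val < j.val from h),
      sub_smul]
  · subst h
    rw [hd, Derivation.map_smul, hd, smul_smul, cc, if_pos rfl, sq]
  · have h1 : (i.val : ℕ) ≠ j.val := fun hh => h.ne' (Fin.ext hh)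
    rw [Dv_up_iot h, map_zero, cc, if_neg h1, if_neg (not_lt.2 (le_of_lt (show j.val < i.val from h))),
      zero_smul]

/-! ### the number -/

theorem cc_sum_succ (l : ℕ → k) (n : ℕ) :
    ∑ i ∈ Finset.range (n + 1), ∑ j ∈ Finset.range (n + 1), cc l i j =
      (∑ i ∈ Finset.range n, ∑ j ∈ Finset.range n, cc l i j) +
        (∑ i ∈ Finset.range n, l i) - n * l n + l n ^ 2 := by
  rw [Finset.sum_range_succ]
  have h1 : ∑ i ∈ Finset.range n, ∑ j ∈ Finset.range (n + 1), cc l i j =
      (∑ i ∈ Finset.range n, ∑ j ∈ Finset.range n, cc l i j) +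
        ((∑ i ∈ Finset.range n, l i) - n * l n) := by
    have h2 : (n : k) * l n = ∑ _i ∈ Finset.range n, l n := by
      rw [Finset.sum_const, Finset.card_range, nsmul_eq_mul]
    rw [h2, ← Finset.sum_sub_distrib, ← Finset.sum_add_distrib]
    refine Finset.sum_congr rfl fun i hi => ?_
    have := Finset.mem_range.1 hi
    rw [Finset.sum_range_succ, cc, if_neg (show i ≠ n by omega), if_pos this]
  have h3 : ∑ j ∈ Finset.range (n + 1), cc l n j = l n ^ 2 := by
    rw [Finset.sum_range_succ, cc, if_pos rfl, Finset.sum_eq_zero, zero_add]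
    intro j hj
    have := Finset.mem_range.1 hj
    rw [cc, if_neg (by omega), if_neg (by omega)]
  rw [h1, h3]
  ring

theorem lam_sum (E : ℕ → k) (n : ℕ) :
    ∑ i ∈ Finset.range n, ((if i = 0 then 0 else E (i - 1)) - E i) =
      - (if n = 0 then 0 else E (n - 1)) := by
  induction n with
  | zero => simp
  | succ n ih =>
    rw [Finset.sum_range_succ, ih, if_neg (Nat.succ_ne_zero n), Nat.add_sub_cancel]
    ring

theorem cc_sum (E : ℕ → k) (n : ℕ) :
    ∑ i ∈ Finset.range n, ∑ j ∈ Finset.range n,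
      cc (fun i => (if i = 0 then 0 else E (i - 1)) - E i) i j =
      2 * ∑ i ∈ Finset.range n, (E i ^ 2 - E i * E (i + 1) - E i) +
        ((n + 1) * (if n = 0 then 0 else E (n - 1)) - (if n = 0 then 0 else E (n - 1)) ^ 2 +
          2 * (if n = 0 then 0 else E (n - 1)) * E n) := by
  induction n with
  | zero => simp
  | succ n ih =>
    rw [cc_sum_succ, ih, lam_sum, Finset.sum_range_succ (fun i => E i ^ 2 - E i * E (i + 1) - E i),
      if_neg (Nat.succ_ne_zero n), Nat.add_sub_cancel]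
    push_cast
    ring

theorem cc_Qe (N : ℕ) (e : ℕ →₀ ℕ) (he : ∀ i, N ≤ i + 1 → e i = 0) :
    ∑ i : Fin N, ∑ j : Fin N, cc (fun l => lam k l e) i.val j.val = -2 * ((Qe e : ℤ) : k) := by
  have h1 : ∑ i : Fin N, ∑ j : Fin N, cc (fun l => lam k l e) i.val j.val =
      ∑ i ∈ Finset.range N, ∑ j ∈ Finset.range N,
        cc (fun i => (if i = 0 then 0 else ((e (i - 1) : ℕ) : k)) - (e i : k)) i j := by
    rw [Finset.sum_range]
    refine Finset.sum_congr rfl fun i _ => ?_
    rw [Finset.sum_range]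
    rfl
  have h2 : (if N = 0 then (0 : k) else ((e (N - 1) : ℕ) : k)) = 0 := by
    split_ifs with h
    · rfl
    · rw [he (N - 1) (by omega), Nat.cast_zero]
  have h3 : ((Qe e : ℤ) : k) =
      ∑ i ∈ Finset.range N, ((e i : k) - (e i : k) ^ 2 + (e i : k) * (e (i + 1) : k)) := by
    rw [Qe, Finsupp.sum_of_support_subset e (s := Finset.range N)]
    · push_cast
      rfl
    · intro i hi
      rw [Finset.mem_range]
      by_contra hh
      exact (Finsupp.mem_support_iff.1 hi) (he i (by omega))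
    · intro i _
      simp
  rw [h1, cc_sum (fun i => ((e i : ℕ) : k)) N, h2, h3, Finset.mul_sum, Finset.mul_sum]
  rw [mul_zero, mul_zero, zero_mul, add_zero, zero_pow two_ne_zero, sub_zero, add_zero]
  refine Finset.sum_congr rfl fun i _ => ?_
  ring

end Vale.Agent.P257.V4.A.Cas
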