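import Vale.Agent.P257.V4.A.Cas6

/-!
# P257, V(4), block A2: the ideal of `p`-th powers and the vanishing theorem (finite model)
-/

namespace Vale.Agent.P257.V4.A.Cas

open Matrix MvPolynomial

variable {N : ℕ} {σ τ : Type*} (p : ℕ)

/-- the ideal of the `p`-th powers of the variables -/
noncomputable def JJ (σ : Type*) (N : ℕ) : Ideal (Pol σ N (ZMod p)) :=
  Ideal.span (Set.range fun v : σ × Ix N => (X v : Pol σ N (ZMod p)) ^ p)

variable {p}

theorem JF_iff {s : ℕ} (z : Pol (Fin s) N (ZMod p)) : JF p z ↔ z ∈ JJ p (Fin s) N := by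
  have h : (Set.range fun v : Fin s × Ix N => (X v : Pol (Fin s) N (ZMod p)) ^ p) =
      (fun m => monomial m (1 : ZMod p)) '' (Set.range fun v : Fin s × Ix N =>
        Finsupp.single v p) := by
    rw [← Set.range_comp]
    refine congrArg Set.range (funext fun v => ?_)
    rw [Function.comp_apply, X_pow_eq_monomial]
  rw [JJ, h, mem_ideal_span_monomial_image]
  refine forall_congr' fun m => forall_congr' fun _ => ?_
  constructor
  · rintro ⟨v, hv⟩
    exact ⟨Finsupp.single v p, ⟨v, rfl⟩, Finsupp.single_le_iff.2 hv⟩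
  · rintro ⟨_, ⟨v, rfl⟩, hv⟩
    exact ⟨v, Finsupp.single_le_iff.1 hv⟩

variable [Fact p.Prime]

theorem pow_mem_JJ (f : Pol σ N (ZMod p)) (hf : constantCoeff f = 0) : f ^ p ∈ JJ p σ N := by
  rw [f.as_sum, sum_pow_char p]
  refine Ideal.sum_mem _ fun m hm => ?_
  have hm0 : m ≠ 0 := by
    rintro rfl
    exact (mem_support_iff.1 hm) (by rwa [constantCoeff_eq] at hf)
  obtain ⟨v, hv⟩ : ∃ v, m v ≠ 0 := by
    by_contra hh
    push Not at hh
    exact hm0 (Finsupp.ext hh)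
  have h1 : monomial m (coeff m f) = X v * monomial (m - Finsupp.single v 1) (coeff m f) := by
    rw [X, monomial_mul, one_mul, add_tsub_cancel_of_le]
    exact Finsupp.single_le_iff.2 (Nat.one_le_iff_ne_zero.2 hv)
  rw [h1, mul_pow]
  exact Ideal.mul_mem_right _ _ (Ideal.subset_span ⟨v, rfl⟩)

theorem JJ_hom (φ : Pol σ N (ZMod p) →ₐ[ZMod p] Pol τ N (ZMod p))
    (h : ∀ v, constantCoeff (φ (X v)) = 0) {x : Pol σ N (ZMod p)} (hx : x ∈ JJ p σ N) :
    φ x ∈ JJ p τ N := by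
  have h1 : JJ p σ N ≤ Ideal.comap φ (JJ p τ N) := by
    rw [JJ, Ideal.span_le]
    rintro _ ⟨v, rfl⟩
    change φ (X v ^ p) ∈ JJ p τ N
    rw [map_pow]
    exact pow_mem_JJ _ (h v)
  exact h1 hx

theorem JJ_der (D : Derivation (ZMod p) (Pol σ N (ZMod p)) (Pol σ N (ZMod p)))
    {x : Pol σ N (ZMod p)} (hx : x ∈ JJ p σ N) : D x ∈ JJ p σ N := by
  refine Submodule.span_induction (p := fun x _ => D x ∈ JJ p σ N) ?_ ?_ ?_ ?_ hx
  · rintro _ ⟨v, rfl⟩
    have h0 : (p : Pol σ N (ZMod p)) = 0 := CharP.cast_eq_zero _ p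
    have : D (X v ^ p) = 0 := by
      rw [Derivation.leibniz_pow, nsmul_eq_mul, h0, zero_mul]
    rw [this]
    exact Ideal.zero_mem _
  · rw [map_zero]
    exact Ideal.zero_mem _
  · intro x y _ _ hx hy
    rw [map_add]
    exact Ideal.add_mem _ hx hy
  · intro a x hx' hx
    rw [smul_eq_mul, Derivation.leibniz, smul_eq_mul, smul_eq_mul]
    exact Ideal.add_mem _ (Ideal.mul_mem_left _ _ hx) (Ideal.mul_mem_right _ _ hx')

theorem JJ_smul (c : ZMod p) {x : Pol σ N (ZMod p)} (hx : x ∈ JJ p σ N) : c • x ∈ JJ p σ N := by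
  rw [smul_eq_C_mul]
  exact Ideal.mul_mem_left _ _ hx

theorem JJ_Cz (w : σ → Bool) {x : Pol σ N (ZMod p)} (hx : x ∈ JJ p σ N) : Cz w x ∈ JJ p σ N := by
  rw [Cz_apply]
  exact Ideal.sum_mem _ fun i _ => Ideal.sum_mem _ fun j _ => JJ_der _ (JJ_der _ hx)

theorem JJ_sg (a : ℕ) {x : Pol (Option ℕ) N (ZMod p)} (hx : x ∈ JJ p (Option ℕ) N) :
    sg a x ∈ JJ p (Option ℕ) N := by
  refine JJ_hom _ (fun v => ?_) hx
  rw [sg, rn, rename_X, constantCoeff_X]

theorem JJ_HH (n : ℕ) {x : Pol (Option ℕ) N (ZMod p)} (hx : x ∈ JJ p (Option ℕ) N) :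
    HH n x ∈ JJ p (Option ℕ) N := by
  rw [HH_apply]
  exact Ideal.sum_mem _ fun a _ => JJ_smul _ (JJ_sg a (JJ_Cz _ hx))

theorem U_cc (a : σ) :
    (U a : Mt N (Pol σ N (ZMod p))).map (constantCoeff : Pol σ N (ZMod p) →+* ZMod p) = 1 := by
  refine Uni.ext ((U_uni a).map _) Uni.one fun i j h => ?_
  rw [Matrix.map_apply, U_apply_lt a h, constantCoeff_X, Matrix.one_apply_ne h.ne]

theorem cc_X {B : Type*} [CommRing B] [Algebra (ZMod p) B] (φ : Pol σ N (ZMod p) →ₐ[ZMod p] B)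
    (κ : B →+* ZMod p) (h : ∀ a, ((U a).map φ).map κ = 1) (v : σ × Ix N) : κ (φ (X v)) = 0 := by
  obtain ⟨a, ⟨⟨i, j⟩, hij⟩⟩ := v
  have h1 := congrFun (congrFun (h a) i) j
  rw [Matrix.map_apply, Matrix.map_apply, U_apply_lt a hij, Matrix.one_apply_ne hij.ne] at h1
  exact h1

theorem JJ_iot (s : ℕ) {x : Pol (Fin s) N (ZMod p)} (hx : x ∈ JJ p (Fin s) N) :
    iot N (ZMod p) s x ∈ JJ p (Option ℕ) N := by
  refine JJ_hom _ (cc_X _ (constantCoeff : Pol (Option ℕ) N (ZMod p) →+* ZMod p) fun r => ?_) hx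
  rw [iot_U, map_mul', (U_uni _).map_inv, U_cc, U_cc, inv_one, mul_one]

theorem JJ_nuu (s : ℕ) {x : Pol (Option ℕ) N (ZMod p)} (hx : x ∈ JJ p (Option ℕ) N) :
    nuu N (ZMod p) s x ∈ JJ p (Fin s) N := by
  refine JJ_hom _ (cc_X _ (constantCoeff : Pol (Fin s) N (ZMod p) →+* ZMod p) fun a => ?_) hx
  rw [nuu, evA_U (nuu_fam_uni s)]
  have h1 : (1 : Mt N (Pol (Fin s) N (ZMod p))).map
      (constantCoeff : Pol (Fin s) N (ZMod p) →+* ZMod p) = 1 :=
    Matrix.map_one _ (map_zero _) (map_one _)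
  match a with
  | none => exact h1
  | some 0 => exact h1
  | some (q + 1) =>
    by_cases h : q < s
    · simp only [h, dite_true]
      exact U_cc _
    · simp only [h, dite_false]
      exact h1

theorem JJ_hh (s : ℕ) {x : Pol (Fin (s + 1)) N (ZMod p)} (hx : x ∈ JJ p (Fin (s + 1)) N) :
    hh N (ZMod p) s x ∈ JJ p (Fin s) N :=
  JJ_nuu _ (JJ_HH _ (JJ_iot _ hx))

/-- (A2), finite model. -/
theorem casCore (hp : p ≠ 2) (N : ℕ) : CasCore p N := by
  intro s e he hQ x hx hd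
  rw [JF_iff] at hd
  have h2 : (2 : ZMod p) ≠ 0 := by
    intro h
    have h' : ((2 : ℕ) : ZMod p) = 0 := by exact_mod_cast h
    rw [ZMod.natCast_eq_zero_iff] at h'
    exact hp ((Nat.prime_dvd_prime_iff_eq (Fact.out : p.Prime) Nat.prime_two).1 h')
  set c : ZMod p := -2 * ((Qe e : ℤ) : ZMod p) with hc
  have hc0 : c ≠ 0 := mul_ne_zero (neg_ne_zero.2 h2) hQ
  have hf := hh_fd (N := N) (k := ZMod p) s x
  rw [Cz_iot (s + 1) x e hx, cc_Qe N e he, map_smul, nuu_iot] at hf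
  refine ⟨c⁻¹ • hh N (ZMod p) s x, ?_⟩
  rw [JF_iff]
  have h3 : x - fd N (ZMod p) s (c⁻¹ • hh N (ZMod p) s x) =
      c⁻¹ • hh N (ZMod p) (s + 1) (fd N (ZMod p) (s + 1) x) := by
    have h4 : x = c⁻¹ • (c • x) := by rw [smul_smul, inv_mul_cancel₀ hc0, one_smul]
    have h5 : hh N (ZMod p) (s + 1) (fd N (ZMod p) (s + 1) x) =
        c • x - fd N (ZMod p) s (hh N (ZMod p) s x) := by
      rw [hc, ← hf, add_sub_cancel_right]
    rw [h5, smul_sub, ← h4, map_smul]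
  rw [h3]
  exact JJ_smul _ (JJ_hh _ hd)

end Vale.Agent.P257.V4.A.Cas
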