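import Vale.Agent.P257.V4.A.Defs
import Mathlib.RingTheory.Polynomial.Basic
import Mathlib.Algebra.MvPolynomial.Basic
import Mathlib.Tactic.LinearCombination
import Mathlib.FieldTheory.Finite.Basic
import Mathlib.Data.Nat.Choose.Sum
import Mathlib.Data.Nat.Choose.Dvd

/-!
# P257, V(4), part A: the cup product of the cobar complex `Ch p n`

Leibniz rule, associativity, reversal of chains, the cocycles `t_1^{p^i}`, `b_i = b_0^{(p^i)}`.
-/

namespace Vale.Agent.P257.V4.A

namespace Ch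

variable {p : ℕ} [Fact p.Prime] {B : Type} [CommRing B] [Algebra (ZMod p) B]

/-! ### bilinearity, associativity, unit -/

theorem cup_add_left {a b n : ℕ} (h : a + b = n) (x x' : Ch p a) (y : Ch p b) :
    cup h (x + x') y = cup h x y + cup h x' y := by
  unfold cup; rw [map_add, add_mul]

theorem cup_add_right {a b n : ℕ} (h : a + b = n) (x : Ch p a) (y y' : Ch p b) :
    cup h x (y + y') = cup h x y + cup h x y' := by
  unfold cup; rw [map_add, mul_add]

@[simp] theorem cup_zero_left {a b n : ℕ} (h : a + b = n) (y : Ch p b) :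
    cup h (0 : Ch p a) y = 0 := by
  unfold cup; rw [map_zero, zero_mul]

@[simp] theorem cup_zero_right {a b n : ℕ} (h : a + b = n) (x : Ch p a) :
    cup h x (0 : Ch p b) = 0 := by
  unfold cup; rw [map_zero, mul_zero]

theorem cup_neg_left {a b n : ℕ} (h : a + b = n) (x : Ch p a) (y : Ch p b) :
    cup h (-x) y = - cup h x y := by
  unfold cup; rw [map_neg, neg_mul]

theorem cup_neg_right {a b n : ℕ} (h : a + b = n) (x : Ch p a) (y : Ch p b) :
    cup h x (-y) = - cup h x y := by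
  unfold cup; rw [map_neg, mul_neg]

theorem cup_sub_left {a b n : ℕ} (h : a + b = n) (x x' : Ch p a) (y : Ch p b) :
    cup h (x - x') y = cup h x y - cup h x' y := by
  rw [sub_eq_add_neg, cup_add_left, cup_neg_left, ← sub_eq_add_neg]

theorem cup_sub_right {a b n : ℕ} (h : a + b = n) (x : Ch p a) (y y' : Ch p b) :
    cup h x (y - y') = cup h x y - cup h x y' := by
  rw [sub_eq_add_neg, cup_add_right, cup_neg_right, ← sub_eq_add_neg]

theorem cup_zsmul_left {a b n : ℕ} (h : a + b = n) (k : ℤ) (x : Ch p a) (y : Ch p b) :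
    cup h (k • x) y = k • cup h x y := by
  unfold cup; rw [map_zsmul, smul_mul_assoc]

theorem cup_zsmul_right {a b n : ℕ} (h : a + b = n) (k : ℤ) (x : Ch p a) (y : Ch p b) :
    cup h x (k • y) = k • cup h x y := by
  unfold cup; rw [map_zsmul, mul_smul_comm]

theorem cup_sum_left {ι : Type} {a b n : ℕ} (h : a + b = n) (S : Finset ι) (x : ι → Ch p a)
    (y : Ch p b) : cup h (∑ i ∈ S, x i) y = ∑ i ∈ S, cup h (x i) y := by
  unfold cup; rw [map_sum, Finset.sum_mul]

theorem cup_sum_right {ι : Type} {a b n : ℕ} (h : a + b = n) (S : Finset ι) (x : Ch p a)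
    (y : ι → Ch p b) : cup h x (∑ i ∈ S, y i) = ∑ i ∈ S, cup h x (y i) := by
  unfold cup; rw [map_sum, Finset.mul_sum]

theorem cup_assoc {a b c ab bc n : ℕ} (h1 : a + b = ab) (h2 : ab + c = n) (h3 : b + c = bc)
    (h4 : a + bc = n) (x : Ch p a) (y : Ch p b) (z : Ch p c) :
    cup h2 (cup h1 x y) z = cup h4 x (cup h3 y z) := by
  unfold cup
  rw [map_mul, map_mul, map_map, map_map, map_map, map_map, mul_assoc]
  have e1 : (front (by omega : ab ≤ n)) ∘ (front (by omega : a ≤ ab)) =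
      front (by omega : a ≤ n) := by
    funext i; rfl
  have e2 : (front (by omega : ab ≤ n)) ∘ (back (by omega : b ≤ ab)) =
      (back (by omega : bc ≤ n)) ∘ (front (by omega : b ≤ bc)) := by
    funext i; apply Fin.ext; simp only [front, back, Function.comp]; omega
  have e3 : (back (by omega : bc ≤ n)) ∘ (back (by omega : c ≤ bc)) =
      back (by omega : c ≤ n) := by
    funext i; apply Fin.ext; simp only [back, Function.comp]; omega
  rw [e1, e2, e3]

theorem cup_one_left {n : ℕ} (h : 0 + n = n) (x : Ch p n) : cup h (1 : Ch p 0) x = x := by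
  unfold cup
  have : back (by omega : n ≤ n) = id := by
    funext i; apply Fin.ext; simp only [back, id]; omega
  rw [map_one, one_mul, this, map_id]

theorem cup_one_right {n : ℕ} (h : n + 0 = n) (x : Ch p n) : cup h x (1 : Ch p 0) = x := by
  unfold cup
  have : front (by omega : n ≤ n) = id := by
    funext i; rfl
  rw [map_one, mul_one, this, map_id]

/-! ### the Leibniz rule -/

theorem map_congr {m n : ℕ} {α β : Fin (m + 1) → Fin (n + 1)}
    (h : ∀ k, ((α k : Fin (n + 1)) : ℕ) = ((β k : Fin (n + 1)) : ℕ)) (x : Ch p m) :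
    map α x = map β x := by
  have : α = β := funext fun k => Fin.ext (h k)
  rw [this]

theorem val_front {a n : ℕ} (h : a ≤ n) (k : Fin (a + 1)) :
    ((front h k : Fin (n + 1)) : ℕ) = k := rfl

theorem val_back {b n : ℕ} (h : b ≤ n) (k : Fin (b + 1)) :
    ((back h k : Fin (n + 1)) : ℕ) = n - b + k := rfl

theorem val_succAbove' {n : ℕ} (i : Fin (n + 1)) (k : Fin n) :
    ((i.succAbove k : Fin (n + 1)) : ℕ) = if (k : ℕ) < i then (k : ℕ) else k + 1 := by
  simp only [Fin.succAbove, Fin.lt_def, Fin.val_castSucc, apply_ite Fin.val, Fin.val_succ]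

/-- The terms of the left family. -/
theorem leib_aux1 {a b : ℕ} (i : Fin (a + b + 2)) (i' : Fin (a + 2)) (hi : (i : ℕ) = i')
    (hi' : (i' : ℕ) ≤ a) (x : Ch p a) (y : Ch p b) :
    map i.succAbove (cup (rfl : a + b = a + b) x y) =
      map (front (by omega : a + 1 ≤ a + b + 1) ∘ i'.succAbove) x *
          map (back (by omega : b ≤ a + b + 1)) y := by
  rw [cup, map_mul, map_map, map_map]
  refine congrArg₂ (· * ·) (map_congr (fun k => ?_) x) (map_congr (fun k => ?_) y)
  · simp only [Function.comp, val_front, val_succAbove', hi]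
  · simp only [Function.comp, val_back, val_succAbove', hi]
    split_ifs <;> omega

/-- The terms of the right family. -/
theorem leib_aux2 {a b : ℕ} (i : Fin (a + b + 2)) (j : Fin (b + 2)) (hi : (i : ℕ) = a + j)
    (hj : 1 ≤ (j : ℕ)) (x : Ch p a) (y : Ch p b) :
    map i.succAbove (cup (rfl : a + b = a + b) x y) =
      map (front (by omega : a ≤ a + b + 1)) x *
          map (back (by omega : b + 1 ≤ a + b + 1) ∘ j.succAbove) y := by
  rw [cup, map_mul, map_map, map_map]
  refine congrArg₂ (· * ·) (map_congr (fun k => ?_) x) (map_congr (fun k => ?_) y)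
  · simp only [Function.comp, val_front, val_succAbove', hi]
    have := k.2
    split_ifs <;> omega
  · simp only [Function.comp, val_back, val_succAbove', hi]
    have := k.2
    split_ifs <;> omega

theorem d_cup_aux1 {a b : ℕ} (x : Ch p a) (y : Ch p b) :
    d (a + b) (cup rfl x y) =
      (∑ i : Fin (a + 1), ((-1 : ℤ) ^ (i : ℕ)) •
        (map (front (by omega : a + 1 ≤ a + b + 1) ∘ (i.castSucc).succAbove) x *
          map (back (by omega : b ≤ a + b + 1)) y)) +
      ∑ j : Fin (b + 1), ((-1 : ℤ) ^ (a + 1 + (j : ℕ))) •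
        (map (front (by omega : a ≤ a + b + 1)) x *
          map (back (by omega : b + 1 ≤ a + b + 1) ∘ (j.succ).succAbove) y) := by
  rw [d_apply]
  have hc : (a + 1) + (b + 1) = a + b + 2 := by omega
  rw [← Fin.sum_congr' _ hc, Fin.sum_univ_add]
  refine congrArg₂ (· + ·) (Finset.sum_congr rfl fun i _ => ?_)
    (Finset.sum_congr rfl fun j _ => ?_)
  · rw [leib_aux1 _ i.castSucc (by simp) (by have := i.2; simp; omega)]
    simp
  · rw [leib_aux2 _ j.succ (by simp; omega) (by simp)]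
    simp

theorem d_cup_aux2 {a b : ℕ} (x : Ch p a) (y : Ch p b) :
    cup (show (a + 1) + b = a + b + 1 by omega) (d a x) y =
      (∑ i : Fin (a + 1), ((-1 : ℤ) ^ (i : ℕ)) •
        (map (front (by omega : a + 1 ≤ a + b + 1) ∘ (i.castSucc).succAbove) x *
          map (back (by omega : b ≤ a + b + 1)) y)) +
      ((-1 : ℤ) ^ (a + 1)) • (map (front (by omega : a ≤ a + b + 1)) x *
          map (back (by omega : b ≤ a + b + 1)) y) := by
  rw [cup, d_apply, map_sum, Finset.sum_mul, Fin.sum_univ_castSucc]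
  refine congrArg₂ (· + ·) (Finset.sum_congr rfl fun i _ => ?_) ?_
  · rw [map_zsmul, map_map, smul_mul_assoc, Fin.val_castSucc]
  · rw [map_zsmul, map_map, smul_mul_assoc, Fin.val_last]
    refine congrArg (fun z => ((-1 : ℤ) ^ (a + 1)) • (z * _)) (map_congr (fun k => ?_) x)
    have := k.2
    simp only [Function.comp, val_front, val_succAbove', Fin.val_last]
    split_ifs
    omega

theorem d_cup_aux3 {a b : ℕ} (x : Ch p a) (y : Ch p b) :
    cup (show a + (b + 1) = a + b + 1 by omega) x (d b y) =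
      (map (front (by omega : a ≤ a + b + 1)) x *
          map (back (by omega : b ≤ a + b + 1)) y) +
      ∑ j : Fin (b + 1), ((-1 : ℤ) ^ (1 + (j : ℕ))) •
        (map (front (by omega : a ≤ a + b + 1)) x *
          map (back (by omega : b + 1 ≤ a + b + 1) ∘ (j.succ).succAbove) y) := by
  rw [cup, d_apply, map_sum, Finset.mul_sum, Fin.sum_univ_succ]
  refine congrArg₂ (· + ·) ?_ (Finset.sum_congr rfl fun j _ => ?_)
  · rw [map_zsmul, map_map, mul_smul_comm, Fin.val_zero, pow_zero, one_smul]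
    refine congrArg (fun z => _ * z) (map_congr (fun k => ?_) y)
    simp only [Function.comp, val_back, val_succAbove', Fin.val_zero, not_lt_zero, if_false]
    omega
  · rw [map_zsmul, map_map, mul_smul_comm, Fin.val_succ, add_comm (j : ℕ) 1]

/-- The Leibniz rule. -/
theorem d_cup {a b n : ℕ} (h : a + b = n) (x : Ch p a) (y : Ch p b) :
    d n (cup h x y) = cup (show (a + 1) + b = n + 1 by omega) (d a x) y +
      ((-1 : ℤ) ^ a) • cup (show a + (b + 1) = n + 1 by omega) x (d b y) := by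
  subst h
  rw [d_cup_aux1, d_cup_aux2, d_cup_aux3, smul_add, Finset.smul_sum]
  simp only [smul_smul, ← pow_add, add_assoc]
  have hz : ∀ w : Ch p (a + b + 1), ((-1 : ℤ) ^ (a + 1)) • w + (((-1 : ℤ) ^ a) • w) = 0 := by
    intro w
    rw [← add_smul, pow_succ]
    simp
  rw [← add_assoc (((-1 : ℤ) ^ (a + 1)) • _) (((-1 : ℤ) ^ a) • _), hz, zero_add]

/-! ### coboundaries -/

theorem isCobdy_zero {s : ℕ} : IsCobdy (0 : Ch p s) := by
  cases s with
  | zero => exact rfl
  | succ s => exact ⟨0, map_zero _⟩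

theorem IsCobdy.add {s : ℕ} {x y : Ch p s} (hx : IsCobdy x) (hy : IsCobdy y) :
    IsCobdy (x + y) := by
  cases s with
  | zero =>
    change x = 0 at hx
    change y = 0 at hy
    change x + y = 0
    rw [hx, hy, add_zero]
  | succ s =>
    obtain ⟨u, rfl⟩ := hx
    obtain ⟨v, rfl⟩ := hy
    exact ⟨u + v, map_add _ _ _⟩

theorem IsCobdy.zsmul {s : ℕ} {x : Ch p s} (hx : IsCobdy x) (k : ℤ) : IsCobdy (k • x) := by
  cases s with
  | zero =>
    change x = 0 at hx
    change k • x = 0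
    rw [hx, smul_zero]
  | succ s =>
    obtain ⟨u, rfl⟩ := hx
    exact ⟨k • u, map_zsmul _ _ _⟩

theorem IsCobdy.neg {s : ℕ} {x : Ch p s} (hx : IsCobdy x) : IsCobdy (-x) := by
  have := hx.zsmul (-1)
  rwa [neg_smul, one_smul] at this

theorem IsCobdy.sub {s : ℕ} {x y : Ch p s} (hx : IsCobdy x) (hy : IsCobdy y) :
    IsCobdy (x - y) := by
  rw [sub_eq_add_neg]
  exact hx.add hy.neg

theorem IsCobdy.d_eq_zero {s : ℕ} {x : Ch p s} (hx : IsCobdy x) : d s x = 0 := by
  cases s with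
  | zero =>
    change x = 0 at hx
    rw [hx, map_zero]
  | succ s =>
    obtain ⟨u, rfl⟩ := hx
    exact d_d u

/-- coboundary times cocycle -/
theorem IsCobdy.cup_left {a b n : ℕ} (h : a + b = n) {x : Ch p a} {y : Ch p b} (hx : IsCobdy x)
    (hy : d b y = 0) : IsCobdy (cup h x y) := by
  cases a with
  | zero =>
    change x = 0 at hx
    rw [hx, cup_zero_left]
    exact isCobdy_zero
  | succ a =>
    obtain ⟨u, rfl⟩ := hx
    cases n with
    | zero => omega
    | succ n =>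
      refine ⟨cup (by omega) u y, ?_⟩
      rw [d_cup, hy, cup_zero_right, smul_zero, add_zero]

/-- cocycle times coboundary -/
theorem IsCobdy.cup_right {a b n : ℕ} (h : a + b = n) {x : Ch p a} {y : Ch p b}
    (hx : d a x = 0) (hy : IsCobdy y) : IsCobdy (cup h x y) := by
  cases b with
  | zero =>
    change y = 0 at hy
    rw [hy, cup_zero_right]
    exact isCobdy_zero
  | succ b =>
    obtain ⟨u, rfl⟩ := hy
    cases n with
    | zero => omega
    | succ n =>
      refine ⟨((-1 : ℤ) ^ a) • cup (by omega) x u, ?_⟩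
      rw [map_zsmul, d_cup, hx, cup_zero_left, zero_add, smul_smul, ← mul_pow]
      simp

/-- The cup product of cocycles is a cocycle. -/
theorem d_cup_eq_zero {a b n : ℕ} (h : a + b = n) {x : Ch p a} {y : Ch p b}
    (hx : d a x = 0) (hy : d b y = 0) : d n (cup h x y) = 0 := by
  rw [d_cup, hx, hy, cup_zero_left, cup_zero_right, smul_zero, add_zero]

/-! ### reversal -/

/-- Reversal of chains. -/
noncomputable def rev (p : ℕ) [Fact p.Prime] (n : ℕ) : Ch p n →+* Ch p n := map Fin.rev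

@[simp] theorem rev_rev {n : ℕ} (x : Ch p n) : rev p n (rev p n x) = x := by
  rw [rev, map_map]
  have : (Fin.rev : Fin (n + 1) → Fin (n + 1)) ∘ Fin.rev = id := by
    funext i
    exact Fin.rev_rev i
  rw [this, map_id]

theorem ev_rev {n : ℕ} (c : Chain p n B) (x : Ch p n) :
    ev c (rev p n x) = ev (c.res Fin.rev) x := by
  rw [rev, ev_map_res]

theorem rev_cup {a b n : ℕ} (h : a + b = n) (x : Ch p a) (y : Ch p b) :
    rev p n (cup h x y) = cup (show b + a = n by omega) (rev p b y) (rev p a x) := by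
  unfold cup rev
  rw [map_mul, map_map, map_map, map_map, map_map, mul_comm]
  refine congrArg₂ (· * ·) (map_congr (fun k => ?_) y) (map_congr (fun k => ?_) x)
  · have := k.2
    simp only [Function.comp, val_front, val_back, Fin.val_rev]
    omega
  · have := k.2
    simp only [Function.comp, val_front, val_back, Fin.val_rev]
    omega

theorem d_rev {n : ℕ} (x : Ch p n) :
    d n (rev p n x) = ((-1 : ℤ) ^ (n + 1)) • rev p (n + 1) (d n x) := by
  rw [d_apply, d_apply, map_sum, Finset.smul_sum]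
  rw [← Equiv.sum_comp (Fin.revPerm : Equiv.Perm (Fin (n + 2)))]
  refine Finset.sum_congr rfl fun i _ => ?_
  rw [map_zsmul, smul_smul, rev, rev, map_map, map_map, Fin.revPerm_apply]
  have e : (Fin.rev i).succAbove ∘ Fin.rev = Fin.rev ∘ i.succAbove := by
    funext k
    simp only [Function.comp]
    rw [Fin.rev_succAbove]
  rw [e]
  congr 1
  rw [Fin.val_rev, ← pow_add]
  have : n + 1 + (i : ℕ) = (n + 2 - ((i : ℕ) + 1)) + 2 * i := by
    have := i.2
    omega
  rw [this, pow_add _ _ (2 * (i : ℕ)), pow_mul]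
  simp

theorem d_rev_eq_zero {n : ℕ} {x : Ch p n} (hx : d n x = 0) : d n (rev p n x) = 0 := by
  rw [d_rev, hx, map_zero, smul_zero]

theorem IsCobdy.rev {n : ℕ} {x : Ch p n} (hx : IsCobdy x) : IsCobdy (rev p n x) := by
  cases n with
  | zero =>
    change x = 0 at hx
    change Ch.rev p 0 x = 0
    rw [hx, map_zero]
  | succ n =>
    obtain ⟨u, rfl⟩ := hx
    refine ⟨((-1 : ℤ) ^ (n + 1)) • Ch.rev p n u, ?_⟩
    rw [map_zsmul, d_rev, smul_smul, ← mul_pow]
    simp

theorem isCobdy_rev {n : ℕ} {x : Ch p n} : IsCobdy (rev p n x) ↔ IsCobdy x :=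
  ⟨fun h => by simpa using h.rev, IsCobdy.rev⟩

/-! ### Frobenius -/

theorem map_frob {m n : ℕ} (α : Fin (m + 1) → Fin (n + 1)) (x : Ch p m) (k : ℕ) :
    map α (x ^ (p ^ k)) = map α x ^ (p ^ k) := map_pow _ _ _

theorem d_frob {n : ℕ} (x : Ch p n) (k : ℕ) : d n (x ^ (p ^ k)) = d n x ^ (p ^ k) := by
  have h : ∀ y : Ch p (n + 1), y ^ (p ^ k) = frobHom (p := p) (Ch p (n + 1)) k y := fun _ => rfl
  rw [d_apply, d_apply, h, map_sum]
  refine Finset.sum_congr rfl fun i _ => ?_
  rw [map_pow, map_zsmul, frobHom_apply]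

theorem cup_frob {a b n : ℕ} (h : a + b = n) (x : Ch p a) (y : Ch p b) (k : ℕ) :
    cup h (x ^ (p ^ k)) (y ^ (p ^ k)) = cup h x y ^ (p ^ k) := by
  unfold cup
  rw [map_pow, map_pow, mul_pow]

/-! ### `t_1` -/

theorem G_inv_a_one (x : G p B) : (x⁻¹).a 1 = - x.a 1 := by
  have h := congrArg (fun z : G p B => z.a 1) (inv_mul_cancel x)
  simp only [G.mul_a_one, G.one_a_succ 0] at h
  exact eq_neg_of_add_eq_zero_left h

theorem ev_t (c : Chain p 1 B) (k : ℕ) : ev c (t p k) = (c.g 1).a k := by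
  have h := congrArg (fun z : Chain p 1 B => (z.g 1).a k) (univ_map_ev c)
  simp only [Chain.map_g, G.map_a] at h
  exact h

theorem d_t_one : d 1 (t p 1) = 0 := by
  apply ext_ev
  intro B _ _ c
  rw [ev_d, map_zero]
  simp only [ev_t, Chain.res_g, G.mul_a_one, G_inv_a_one]
  rw [Fin.sum_univ_three]
  simp [Fin.succAbove, Fin.lt_def, c.zero]

/-- `h_{1,i}` is a cocycle. -/
theorem d_h_one (i : ℕ) : d 1 (h p 1 i) = 0 := by
  rw [h, d_frob, d_t_one, zero_pow (pow_ne_zero _ (Fact.out : p.Prime).ne_zero)]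

theorem rev_t_one : rev p 1 (t p 1) = - t p 1 := by
  apply ext_ev
  intro B _ _ c
  rw [ev_rev, map_neg, ev_t, ev_t, Chain.res_g, G.mul_a_one, G_inv_a_one]
  have h0 : c.g (Fin.rev 1) = 1 := c.zero
  have h1 : c.g (Fin.rev 0) = c.g 1 := rfl
  rw [h0, h1, G.one_a_succ 0, zero_add]

theorem neg_one_pow_p : ((-1 : B)) ^ p = -1 := by
  have h := (frobHom (p := p) B 1).map_neg 1
  simpa using h

theorem neg_pow_pow_p (x : B) (k : ℕ) : (-x) ^ (p ^ k) = - x ^ (p ^ k) :=
  (frobHom (p := p) B k).map_neg x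

theorem rev_h_one (i : ℕ) : rev p 1 (h p 1 i) = - h p 1 i := by
  rw [h, map_pow, rev_t_one, neg_pow_pow_p]

/-! ### the cocycles `b_i` -/

/-- `((x + y)^p - x^p - y^p) / p`. -/
def Phi (p : ℕ) {R : Type} [CommRing R] (x y : R) : R :=
  ∑ j ∈ Finset.Ioo 0 p, ((p.choose j / p : ℕ) : ℤ) • (x ^ j * y ^ (p - j))

omit [Fact p.Prime] in
theorem map_Phi {R S : Type} [CommRing R] [CommRing S] (f : R →+* S) (x y : R) :
    f (Phi p x y) = Phi p (f x) (f y) := by
  simp [Phi, map_sum]

theorem p_mul_Phi {R : Type} [CommRing R] (x y : R) :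
    (p : R) * Phi p x y = (x + y) ^ p - x ^ p - y ^ p := by
  have hp : p.Prime := Fact.out
  obtain ⟨m, hm⟩ : ∃ m, p = m + 1 := ⟨p - 1, by have := hp.pos; omega⟩
  have e : (x + y) ^ p = x ^ p + y ^ p + ∑ j ∈ Finset.Ioo 0 p, x ^ j * y ^ (p - j) *
      (p.choose j : R) := by
    rw [add_pow, Finset.sum_range_succ, Nat.choose_self, Nat.sub_self]
    have : Finset.range p = insert 0 (Finset.Ioo 0 p) := by
      ext j
      simp only [Finset.mem_range, Finset.mem_insert, Finset.mem_Ioo]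
      have := hp.pos
      omega
    rw [this, Finset.sum_insert (by simp)]
    simp
    ring
  rw [e, Phi, Finset.mul_sum]
  rw [show ∀ a b c : R, a + b + c - a - b = c from fun a b c => by ring]
  refine Finset.sum_congr rfl fun j hj => ?_
  rw [Finset.mem_Ioo] at hj
  have hd : p ∣ p.choose j := Nat.Prime.dvd_choose_self hp (by omega) hj.2
  have : (p.choose j : R) = (p : R) * ((p.choose j / p : ℕ) : R) := by
    rw [← Nat.cast_mul, Nat.mul_div_cancel' hd]
  rw [this]
  simp only [zsmul_eq_mul, Int.cast_natCast]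
  ring

open MvPolynomial in
/-- The cocycle identity of `Phi`. -/
theorem Phi_cocycle {R : Type} [CommRing R] (x y z : R) :
    Phi p y z - Phi p (x + y) z + Phi p x (y + z) - Phi p x y = 0 := by
  have key : (Phi p (X 1) (X 2) - Phi p (X 0 + X 1) (X 2) + Phi p (X 0) (X 1 + X 2)
      - Phi p (X 0) (X 1) : MvPolynomial (Fin 3) ℤ) = 0 := by
    have hp : (p : MvPolynomial (Fin 3) ℤ) ≠ 0 := by
      have : p ≠ 0 := (Fact.out : p.Prime).ne_zero
      exact_mod_cast this
    apply mul_left_cancel₀ hp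
    rw [mul_zero]
    simp only [mul_sub, mul_add, p_mul_Phi]
    ring
  have h := congrArg (MvPolynomial.eval₂Hom (Int.castRingHom R) ![x, y, z]) key
  rw [map_sub, map_add, map_sub, map_zero, map_Phi, map_Phi, map_Phi, map_Phi] at h
  simpa only [map_add, MvPolynomial.coe_eval₂Hom, MvPolynomial.eval₂_X, Matrix.cons_val_zero,
    Matrix.cons_val_one, Matrix.cons_val] using h

theorem Phi_comm {R : Type} [CommRing R] (x y : R) : Phi p x y = Phi p y x := by
  have hp : p.Prime := Fact.out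
  unfold Phi
  refine Finset.sum_nbij' (fun j => p - j) (fun j => p - j) ?_ ?_ ?_ ?_ ?_
  · intro j hj
    simp only [Finset.mem_Ioo] at hj ⊢
    omega
  · intro j hj
    simp only [Finset.mem_Ioo] at hj ⊢
    omega
  · intro j hj
    simp only [Finset.mem_Ioo] at hj
    omega
  · intro j hj
    simp only [Finset.mem_Ioo] at hj
    omega
  · intro j hj
    simp only [Finset.mem_Ioo] at hj
    rw [Nat.choose_symm (by omega), Nat.sub_sub_self (by omega), mul_comm]

theorem Phi_neg (x y : B) : Phi p (-x) (-y) = - Phi p x y := by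
  unfold Phi
  rw [← Finset.sum_neg_distrib]
  refine Finset.sum_congr rfl fun j hj => ?_
  simp only [Finset.mem_Ioo] at hj
  rw [← smul_neg]
  congr 1
  have e : (-x) ^ j * (-y) ^ (p - j) = (-1) ^ (j + (p - j)) * (x ^ j * y ^ (p - j)) := by
    rw [neg_pow x, neg_pow y, pow_add]
    ring
  rw [e, Nat.add_sub_cancel' (by omega), neg_one_pow_p]
  ring

theorem ev_b0 (c : Chain p 2 B) :
    ev c (b0 p) = Phi p ((c.g 1).a 1) ((c.g 2).a 1 - (c.g 1).a 1) := by
  unfold b0 Phi
  rw [map_sum]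
  refine Finset.sum_congr rfl fun j _ => ?_
  rw [map_zsmul, ev_cup, map_pow, map_pow, ev_t, ev_t, Chain.res_g, Chain.res_g,
    G.mul_a_one, G.mul_a_one, G_inv_a_one, G_inv_a_one]
  have h0 : c.g (front (by omega : 1 ≤ 2) 0) = 1 := c.zero
  have h1 : c.g (front (by omega : 1 ≤ 2) 1) = c.g 1 := rfl
  have h2 : c.g (back (by omega : 1 ≤ 2) 0) = c.g 1 := rfl
  have h3 : c.g (back (by omega : 1 ≤ 2) 1) = c.g 2 := rfl
  rw [h0, h1, h2, h3, G.one_a_succ 0, neg_zero, add_zero, ← sub_eq_add_neg]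

/-- `b_0` is a cocycle. -/
theorem d_b0 : d 2 (b0 p) = 0 := by
  apply ext_ev
  intro B _ _ c
  rw [ev_d, map_zero]
  simp only [ev_b0, Chain.res_g, G.mul_a_one, G_inv_a_one]
  rw [Fin.sum_univ_four]
  have e00 : (0 : Fin 4).succAbove (0 : Fin 3) = 1 := rfl
  have e01 : (0 : Fin 4).succAbove (1 : Fin 3) = 2 := rfl
  have e02 : (0 : Fin 4).succAbove (2 : Fin 3) = 3 := rfl
  have e10 : (1 : Fin 4).succAbove (0 : Fin 3) = 0 := rfl
  have e11 : (1 : Fin 4).succAbove (1 : Fin 3) = 2 := rfl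
  have e12 : (1 : Fin 4).succAbove (2 : Fin 3) = 3 := rfl
  have e20 : (2 : Fin 4).succAbove (0 : Fin 3) = 0 := rfl
  have e21 : (2 : Fin 4).succAbove (1 : Fin 3) = 1 := rfl
  have e22 : (2 : Fin 4).succAbove (2 : Fin 3) = 3 := rfl
  have e30 : (3 : Fin 4).succAbove (0 : Fin 3) = 0 := rfl
  have e31 : (3 : Fin 4).succAbove (1 : Fin 3) = 1 := rfl
  have e32 : (3 : Fin 4).succAbove (2 : Fin 3) = 2 := rfl
  have s0 : ((0 : Fin 4) : ℕ) = 0 := rfl
  have s1 : ((1 : Fin 4) : ℕ) = 1 := rfl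
  have s2 : ((2 : Fin 4) : ℕ) = 2 := rfl
  have s3 : ((3 : Fin 4) : ℕ) = 3 := rfl
  have z0 : (c.g 0).a 1 = 0 := by rw [c.zero, G.one_a_succ 0]
  rw [s0, s1, s2, s3, e00, e01, e02, e10, e11, e12, e20, e21, e22, e30, e31, e32, z0]
  have h := Phi_cocycle (p := p) ((c.g 1).a 1) ((c.g 2).a 1 - (c.g 1).a 1)
    ((c.g 3).a 1 - (c.g 2).a 1)
  simp only [neg_zero, add_zero, pow_zero, pow_one, one_smul, neg_smul]
  have a1 : (c.g 3).a 1 + -(c.g 1).a 1 - ((c.g 2).a 1 + -(c.g 1).a 1) =
    (c.g 3).a 1 - (c.g 2).a 1 := by ring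
  have a2 : (c.g 2).a 1 + -(c.g 1).a 1 = (c.g 2).a 1 - (c.g 1).a 1 := by ring
  have a3 : (c.g 1).a 1 + ((c.g 2).a 1 - (c.g 1).a 1) = (c.g 2).a 1 := by ring
  have a4 : (c.g 2).a 1 - (c.g 1).a 1 + ((c.g 3).a 1 - (c.g 2).a 1) =
    (c.g 3).a 1 - (c.g 1).a 1 := by ring
  rw [a3, a4] at h
  rw [a1, a2]
  linear_combination h

theorem rev_b0 : rev p 2 (b0 p) = - b0 p := by
  apply ext_ev
  intro B _ _ c
  rw [ev_rev, map_neg, ev_b0, ev_b0]
  simp only [Chain.res_g, G.mul_a_one, G_inv_a_one]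
  have h0 : c.g (Fin.rev 2) = 1 := c.zero
  have h1 : c.g (Fin.rev 1) = c.g 1 := rfl
  have h2 : c.g (Fin.rev 0) = c.g 2 := rfl
  rw [h0, h1, h2, G.one_a_succ 0, ← Phi_neg, Phi_comm]
  congr 1 <;> ring

/-- `b_i = b_{1,i}`: the `p^i`-th power of `b_0` in the ring `Ch p 2`, i.e. the cochain
`∑ (binom(p,j)/p) [t_1^{p^i j} | t_1^{p^i (p-j)}]`. -/
noncomputable def bb (p : ℕ) [Fact p.Prime] (i : ℕ) : Ch p 2 := b0 p ^ (p ^ i)

@[simp] theorem bb_zero : bb p 0 = b0 p := by rw [bb, pow_zero, pow_one]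

theorem zmod_pow_pow (a : ZMod p) (k : ℕ) : a ^ (p ^ k) = a := by
  induction k with
  | zero => simp
  | succ k ih => rw [pow_succ, pow_mul, ih, ZMod.pow_card]

theorem natCast_smul_pow (m k : ℕ) (x : B) :
    (((m : ℤ)) • x) ^ (p ^ k) = (m : ℤ) • x ^ (p ^ k) := by
  have h : ((m : ℤ)) • x = algebraMap (ZMod p) B (m : ZMod p) * x := by
    rw [map_natCast, zsmul_eq_mul, Int.cast_natCast]
  have h' : ((m : ℤ)) • x ^ (p ^ k) = algebraMap (ZMod p) B (m : ZMod p) * x ^ (p ^ k) := by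
    rw [map_natCast, zsmul_eq_mul, Int.cast_natCast]
  rw [h, h', mul_pow, ← map_pow, zmod_pow_pow]

theorem bb_eq (i : ℕ) : bb p i = ∑ j ∈ Finset.Ioo 0 p, ((p.choose j / p : ℕ) : ℤ) •
    cup rfl ((t p 1 ^ (p ^ i)) ^ j) ((t p 1 ^ (p ^ i)) ^ (p - j)) := by
  rw [bb, b0, sum_pow_pow]
  refine Finset.sum_congr rfl fun j _ => ?_
  rw [natCast_smul_pow, ← cup_frob, ← pow_mul, ← pow_mul, ← pow_mul, ← pow_mul,
    mul_comm j, mul_comm (p - j)]

theorem d_bb (i : ℕ) : d 2 (bb p i) = 0 := by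
  rw [bb, d_frob, d_b0, zero_pow (pow_ne_zero _ (Fact.out : p.Prime).ne_zero)]

theorem rev_bb (i : ℕ) : rev p 2 (bb p i) = - bb p i := by
  rw [bb, map_pow, rev_b0, neg_pow_pow_p]

/-! ### powers of `b_0` -/

theorem b0mul_add (k : ℕ) {s : ℕ} (x y : Ch p s) : b0mul k (x + y) = b0mul k x + b0mul k y := by
  induction k with
  | zero => rfl
  | succ k ih => rw [b0mul, ih, cup_add_right]; rfl

theorem b0mul_zsmul (k : ℕ) {s : ℕ} (m : ℤ) (x : Ch p s) :
    b0mul k (m • x) = m • b0mul k x := by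
  induction k with
  | zero => rfl
  | succ k ih => rw [b0mul, ih, cup_zsmul_right]; rfl

theorem b0mul_neg (k : ℕ) {s : ℕ} (x : Ch p s) : b0mul k (-x) = - b0mul k x := by
  induction k with
  | zero => rfl
  | succ k ih => rw [b0mul, ih, cup_neg_right]; rfl

theorem b0mul_sub (k : ℕ) {s : ℕ} (x y : Ch p s) : b0mul k (x - y) = b0mul k x - b0mul k y := by
  rw [sub_eq_add_neg, b0mul_add, b0mul_neg, ← sub_eq_add_neg]

theorem d_b0mul (k : ℕ) {s : ℕ} {x : Ch p s} (hx : d s x = 0) : d _ (b0mul k x) = 0 := by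
  induction k with
  | zero => exact hx
  | succ k ih => exact d_cup_eq_zero _ d_b0 ih

theorem IsCobdy.b0mul (k : ℕ) {s : ℕ} {x : Ch p s} (hx : IsCobdy x) :
    IsCobdy (b0mul k x) := by
  induction k with
  | zero => exact hx
  | succ k ih => exact IsCobdy.cup_right _ d_b0 ih

theorem d_mulb0 (k : ℕ) {s : ℕ} {x : Ch p s} (hx : d s x = 0) : d _ (mulb0 k x) = 0 := by
  induction k with
  | zero => exact hx
  | succ k ih => exact d_cup_eq_zero _ ih d_b0

theorem IsCobdy.mulb0 (k : ℕ) {s : ℕ} {x : Ch p s} (hx : IsCobdy x) :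
    IsCobdy (mulb0 k x) := by
  induction k with
  | zero => exact hx
  | succ k ih => exact IsCobdy.cup_left _ ih d_b0

theorem rev_mulb0 (k : ℕ) {s : ℕ} (x : Ch p s) :
    rev p _ (mulb0 k x) = ((-1 : ℤ) ^ k) • Ch.b0mul k (rev p s x) := by
  induction k with
  | zero => rw [pow_zero, one_smul]; rfl
  | succ k ih =>
    rw [Ch.mulb0, rev_cup, ih, rev_b0, cup_neg_left, cup_zsmul_right, Ch.b0mul, pow_succ,
      mul_neg, mul_one, neg_smul]

theorem rev_b0mul (k : ℕ) {s : ℕ} (x : Ch p s) :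
    rev p _ (Ch.b0mul k x) = ((-1 : ℤ) ^ k) • Ch.mulb0 k (rev p s x) := by
  induction k with
  | zero => rw [pow_zero, one_smul]; rfl
  | succ k ih =>
    rw [Ch.b0mul, rev_cup, ih, rev_b0, cup_neg_right, cup_zsmul_left, Ch.mulb0, pow_succ,
      mul_neg, mul_one, neg_smul]

end Ch

end Vale.Agent.P257.V4.A
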