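import Vale.Agent.P257.V4.A.HTow
import Vale.Agent.P257.V4.A.Cup

/-!
# P257 / V4, part A: division by `b_j` (block CHAIN, helper898)

`chain_step`: if there is no monomial without the letter `t_1^{p^j}` at `(s+2, w)` and at
`(s+1, w - p^j)`, then every cocycle of degree `s+2` and weight `w` is `b_j ∪ c` plus a coboundary.
-/

open MvPolynomial

namespace Vale.Agent.P257.V4.A.H

open Ch ML

variable {p : ℕ} [Fact p.Prime]

/-! ### additive coordinates of the vertices -/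

/-- the first coefficient of a vertex -/
noncomputable def uv (n : ℕ) (v : Fin (n + 1)) : Ch p n := ((univ p n).g v).a 1

theorem map_uv {m n : ℕ} (α : Fin (m + 1) → Fin (n + 1)) (v : Fin (m + 1)) :
    Ch.map α (uv m v : Ch p m) = uv n (α v) - uv n (α 0) := by
  have h : ∀ c : Chain p m (Ch p n), ev c (uv m v) = (c.g v).a 1 := by
    intro c
    have h := congrArg (fun z : Chain p m (Ch p n) => (z.g v).a 1) (univ_map_ev c)
    simp only [Chain.map_g, G.map_a] at h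
    exact h
  rw [Ch.map, h, Chain.res_g, G.mul_a_one, G_inv_a_one, ← sub_eq_add_neg]
  rfl

theorem uv_zero (n : ℕ) : (uv n 0 : Ch p n) = 0 := by
  rw [uv, univ_g_zero, G.one_a_succ]

theorem uv_last (s : ℕ) : (uv (s + 1) (Fin.last (s + 1)) : Ch p (s + 1)) = X (zv s 0) := by
  rw [uv, show (Fin.last (s + 1)) = (Fin.last s).succ from rfl, univ_g_succ, G.mk_a_succ]

theorem tau_eq (j s : ℕ) : tau p 0 j s = uv (s + 1) (Fin.last (s + 1)) ^ (p ^ j) := by
  rw [uv_last, tau]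

/-- the vertex number 1 -/
abbrev v1 (n : ℕ) : Fin (n + 2) := Fin.succ 0

/-- the vertex number 2 -/
abbrev v2 (n : ℕ) : Fin (n + 3) := Fin.succ (Fin.succ 0)

theorem sub_pow_pow {n : ℕ} (x y : Ch p n) (k : ℕ) : (x - y) ^ (p ^ k) = x ^ (p ^ k) - y ^ (p ^ k) :=
  (frobHom (p := p) (Ch p n) k).map_sub x y

/-- `A = a_1(g_1)^{p^j}` -/
noncomputable def Ae (j s : ℕ) : Ch p (s + 2) := uv (s + 2) (v1 (s + 1)) ^ (p ^ j)

theorem cof_zero_tau (j s : ℕ) :
    cof s 0 (tau p 0 j s) = tau p 0 j (s + 1) - Ae j s := by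
  rw [tau_eq, tau_eq, Ae, cof, map_pow, map_uv, sub_pow_pow]
  congr 1

theorem cof_succ_tau (j s : ℕ) (i : Fin (s + 1)) :
    cof s i.succ (tau p 0 j s) = tau p 0 j (s + 1) := by
  rw [tau_eq, tau_eq, cof, map_pow, map_uv]
  have h1 : (i.succ.castSucc.succAbove (0 : Fin (s + 2)) : Fin (s + 3)) = 0 := by
    apply Fin.ext
    simp only [Fin.succAbove, Fin.lt_def, Fin.val_castSucc, apply_ite Fin.val, Fin.val_succ,
      Fin.val_zero]
    split_ifs
    · rfl
    · omega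
  have h2 : (i.succ.castSucc.succAbove (Fin.last (s + 1)) : Fin (s + 3)) = Fin.last (s + 2) := by
    apply Fin.ext
    simp only [Fin.succAbove, Fin.lt_def, Fin.val_castSucc, apply_ite Fin.val, Fin.val_succ,
      Fin.val_last]
    have := i.2
    split_ifs
    · omega
    · rfl
  rw [h1, h2, uv_zero, sub_zero]

/-! ### the derivative of `Phi` -/

theorem Dig_of_FR {j s : ℕ} {x : Ch p (s + 1)} (hx : x ∈ FR p 0 s) : Dig 0 j x := by
  intro e he
  rw [hx e he 0 le_rfl]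
  simp

theorem choose_aux {m : ℕ} (hm : m < p - 1) :
    (p.choose (m + 1) / p) * (m + 1) = (p - 1).choose m := by
  have hp : p.Prime := Fact.out
  have hpp : p - 1 + 1 = p := pred_add_one
  have h1 : p * (p - 1).choose m = p.choose (m + 1) * (m + 1) := by
    have := Nat.add_one_mul_choose_eq (p - 1) m
    rwa [hpp] at this
  have hd : p ∣ p.choose (m + 1) := Nat.Prime.dvd_choose_self hp (by omega) (by omega)
  obtain ⟨q, hq⟩ := hd
  rw [hq, Nat.mul_div_cancel_left _ hp.pos]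
  rw [hq, mul_assoc] at h1
  exact (Nat.eq_of_mul_eq_mul_left hp.pos h1).symm

theorem Phi_eq_range {R : Type} [CommRing R] (x y : R) : Phi p x y =
    ∑ m ∈ Finset.range (p - 1), ((p.choose (m + 1) / p : ℕ) : ℤ) • (x ^ (m + 1) * y ^ (p - 1 - m)) := by
  have hp : p.Prime := Fact.out
  unfold Phi
  refine Finset.sum_nbij' (fun i => i - 1) (fun m => m + 1) ?_ ?_ ?_ ?_ ?_
  · intro i hi
    simp only [Finset.mem_Ioo, Finset.mem_range] at hi ⊢
    omega
  · intro i hi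
    simp only [Finset.mem_Ioo, Finset.mem_range] at hi ⊢
    omega
  · intro i hi
    simp only [Finset.mem_Ioo] at hi
    omega
  · intro i _
    omega
  · intro i hi
    simp only [Finset.mem_Ioo] at hi
    have e1 : i - 1 + 1 = i := by omega
    have e2 : p - 1 - (i - 1) = p - i := by omega
    rw [e1, e2]

theorem Dop_Phi {j s : ℕ} {A F : Ch p (s + 1)} (hA : A ∈ FR p 0 s) (hF : F ∈ FR p 0 s) :
    Dop 0 j s (Phi p (tau p 0 j s) (-A) * F) =
      ((tau p 0 j s - A) ^ (p - 1) - tau p 0 j s ^ (p - 1)) * F := by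
  have h1 : ∀ m : ℕ, (-A) ^ (p - 1 - m) * F ∈ FR p 0 s := fun m =>
    Subring.mul_mem _ (Subring.pow_mem _ (Subring.neg_mem _ hA) _) hF
  rw [Phi_eq_range, Finset.sum_mul, map_sum, sub_eq_add_neg (tau p 0 j s) A, add_pow,
    Finset.sum_range_succ, Nat.sub_self, pow_zero, Nat.choose_self, Nat.cast_one, mul_one, mul_one,
    add_sub_cancel_right, Finset.sum_mul]
  refine Finset.sum_congr rfl fun m hm => ?_
  rw [smul_mul_assoc, map_zsmul, mul_assoc, Dop_tau_mul (Dig_of_FR (h1 m)), zsmul_eq_mul,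
    ← choose_aux (Finset.mem_range.1 hm)]
  generalize p.choose (m + 1) / p = q
  push_cast
  ring

theorem Phi_mem {N : CS p} {j s : ℕ} {A F : Ch p (s + 1)} (hA : A ∈ FR p 0 s) (hF : F ∈ FR p 0 s)
    (hN : ∀ x ∈ FR p 0 s, x ∈ N s) :
    Phi p (tau p 0 j s) (-A) * F ∈ Ext N 0 j s := by
  have h1 : ∀ m : ℕ, (-A) ^ (p - 1 - m) * F ∈ FR p 0 s := fun m =>
    Subring.mul_mem _ (Subring.pow_mem _ (Subring.neg_mem _ hA) _) hF
  rw [Phi_eq_range, Finset.sum_mul]
  refine AddSubgroup.sum_mem _ fun m hm => ?_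
  rw [smul_mul_assoc, mul_assoc]
  refine AddSubgroup.zsmul_mem _ (tau_mul_mem_Tr ?_ (hN _ (h1 m))) _
  have := Finset.mem_range.1 hm
  omega

/-! ### the coboundary of `τ^{p-1} c` -/

theorem dE_tau_dl (j s m : ℕ) {c : Ch p s} (hc : d s c = 0) :
    dE s (tau p 0 j s ^ m * dl s c) =
      ((tau p 0 j (s + 1) - Ae j s) ^ m - tau p 0 j (s + 1) ^ m) * cof s 0 (dl s c) := by
  have h1 : dE s (dl s c) = 0 := by rw [dE_dl, hc, map_zero]
  rw [dE_apply, Fin.sum_univ_succ] at h1 ⊢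
  simp only [Fin.val_zero, pow_zero, one_smul, map_mul, map_pow, cof_zero_tau, cof_succ_tau] at h1 ⊢
  have h2 : ∑ i : Fin (s + 1), ((-1 : ℤ) ^ ((i.succ : Fin (s + 2)) : ℕ)) •
      (tau p 0 j (s + 1) ^ m * cof s i.succ (dl s c)) =
      tau p 0 j (s + 1) ^ m * ∑ i : Fin (s + 1), ((-1 : ℤ) ^ ((i.succ : Fin (s + 2)) : ℕ)) •
        cof s i.succ (dl s c) := by
    rw [Finset.mul_sum]
    exact Finset.sum_congr rfl fun i _ => (mul_smul_comm _ _ _).symm
  rw [h2, eq_neg_of_add_eq_zero_right h1]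
  ring

/-! ### the coboundary of `Phi(τ, -A) c` -/

theorem succAbove_succ_zero {n : ℕ} (i : Fin (n + 1)) :
    (i.succ.succAbove (0 : Fin (n + 1)) : Fin (n + 2)) = 0 := by
  apply Fin.ext
  simp only [Fin.succAbove, Fin.lt_def, Fin.val_castSucc, apply_ite Fin.val, Fin.val_succ,
    Fin.val_zero]
  split_ifs
  · rfl
  · omega

theorem cof_comm (s : ℕ) (i : Fin (s + 2)) (x : Ch p (s + 1)) :
    cof (s + 1) i.succ (cof s 0 x) = cof (s + 1) 0 (cof s i x) := by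
  rw [cof, cof, cof, cof, Ch.map_map, Ch.map_map]
  congr 2
  funext k
  simp only [Function.comp_apply]
  apply Fin.ext
  simp only [Fin.succAbove, Fin.lt_def, Fin.val_castSucc, apply_ite Fin.val, Fin.val_succ,
    Fin.val_zero]
  have := i.2
  have := k.2
  split_ifs <;> omega

theorem cof_zero_Ae (j s : ℕ) : cof (s + 1) 0 (Ae j s : Ch p (s + 2)) =
    uv (s + 3) (v2 (s + 1)) ^ (p ^ j) - Ae j (s + 1) := by
  rw [Ae, cof, map_pow, map_uv, sub_pow_pow]
  congr 1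

theorem cof_one_Ae (j s : ℕ) : cof (s + 1) (v1 (s + 1)) (Ae j s : Ch p (s + 2)) =
    uv (s + 3) (v2 (s + 1)) ^ (p ^ j) := by
  rw [Ae, cof, map_pow, map_uv]
  have h1 : ((v1 (s + 1)).castSucc.succAbove (0 : Fin (s + 3)) : Fin (s + 4)) = 0 := rfl
  have h2 : ((v1 (s + 1)).castSucc.succAbove (v1 (s + 1)) : Fin (s + 4)) = v2 (s + 1) := rfl
  rw [h1, h2, uv_zero, sub_zero]

theorem cof_succ_succ_Ae (j s : ℕ) (i : Fin (s + 1)) :
    cof (s + 1) i.succ.succ (Ae j s : Ch p (s + 2)) = Ae j (s + 1) := by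
  rw [Ae, cof, map_pow, map_uv, Ae]
  have h1 : (i.succ.succ.castSucc.succAbove (0 : Fin (s + 3)) : Fin (s + 4)) = 0 := by
    apply Fin.ext
    simp only [Fin.succAbove, Fin.lt_def, Fin.val_castSucc, apply_ite Fin.val, Fin.val_succ,
      Fin.val_zero]
    split_ifs
    · rfl
    · omega
  have h2 : (i.succ.succ.castSucc.succAbove (v1 (s + 1)) : Fin (s + 4)) = v1 (s + 2) := by
    apply Fin.ext
    simp only [Fin.succAbove, Fin.lt_def, Fin.val_castSucc, apply_ite Fin.val, Fin.val_succ,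
      Fin.val_zero]
    split_ifs
    · rfl
    · omega
  rw [h1, h2, uv_zero, sub_zero]

theorem dE_Phi (j s : ℕ) {c : Ch p s} (hc : d s c = 0) :
    dE (s + 1) (Phi p (tau p 0 j (s + 1)) (-Ae j s) * cof s 0 (dl s c)) =
      - (Phi p (Ae j (s + 1)) (uv (s + 3) (v2 (s + 1)) ^ (p ^ j) - Ae j (s + 1)) *
        cof (s + 1) 0 (cof s 0 (dl s c))) := by
  have h0 : dE s (dl s c) = 0 := by rw [dE_dl, hc, map_zero]
  rw [dE_apply, Fin.sum_univ_succ] at h0
  have h1 := congrArg (cof (s + 1) 0) h0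
  rw [map_add, map_zsmul, map_sum, map_zero, Fin.val_zero, pow_zero, one_smul] at h1
  simp only [map_zsmul] at h1
  rw [dE_apply, Fin.sum_univ_succ, Fin.sum_univ_succ]
  simp only [Fin.val_zero, Fin.val_succ, pow_zero, one_smul, zero_add, pow_one, map_mul, map_Phi,
    map_neg, cof_zero_tau, cof_succ_tau, cof_zero_Ae, cof_one_Ae, cof_succ_succ_Ae]
  have h2 : cof (s + 1) (v1 (s + 1)) (cof s 0 (dl s c)) = cof (s + 1) 0 (cof s 0 (dl s c)) :=
    cof_comm s 0 _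
  rw [h2]
  have h3 : ∑ i : Fin (s + 1), ((-1 : ℤ) ^ ((i : ℕ) + 1 + 1)) •
      (Phi p (tau p 0 j (s + 1 + 1)) (-Ae j (s + 1)) *
        cof (s + 1) i.succ.succ (cof s 0 (dl s c))) =
      Phi p (tau p 0 j (s + 1 + 1)) (-Ae j (s + 1)) * - ∑ i : Fin (s + 1),
        ((-1 : ℤ) ^ ((i.succ : Fin (s + 2)) : ℕ)) • cof (s + 1) 0 (cof s i.succ (dl s c)) := by
    rw [← Finset.sum_neg_distrib, Finset.mul_sum]
    refine Finset.sum_congr rfl fun i _ => ?_
    rw [cof_comm, Fin.val_succ, pow_succ, mul_neg_one, neg_smul, mul_neg, mul_smul_comm]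
  rw [h3, eq_neg_of_add_eq_zero_right h1, neg_neg]
  have h4 := Phi_cocycle (p := p) (tau p 0 j (s + 1 + 1)) (-Ae j (s + 1))
    (-(uv (s + 3) (v2 (s + 1)) ^ (p ^ j) - Ae j (s + 1)))
  rw [Phi_neg] at h4
  have h5 : -Ae j (s + 1) + -(uv (s + 3) (v2 (s + 1)) ^ (p ^ j) - Ae j (s + 1)) =
      -(uv (s + 3) (v2 (s + 1)) ^ (p ^ j) : Ch p (s + 3)) := by ring
  rw [h5, ← sub_eq_add_neg (tau p 0 j (s + 1 + 1)) (Ae j (s + 1))] at h4
  linear_combination (cof (s + 1) 0 (cof s 0 (dl s c))) * (-h4)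

/-! ### the cocycle `b_j` -/

theorem Phi_frob {n : ℕ} (x y : Ch p n) (j : ℕ) :
    Phi p x y ^ (p ^ j) = Phi p (x ^ (p ^ j)) (y ^ (p ^ j)) := by
  unfold Phi
  rw [sum_pow_pow]
  refine Finset.sum_congr rfl fun i _ => ?_
  rw [natCast_smul_pow, mul_pow, ← pow_mul, ← pow_mul, ← pow_mul, ← pow_mul, mul_comm i,
    mul_comm (p - i)]

theorem b0_eq_Phi : b0 p = Phi p (uv 2 1) (uv 2 2 - uv 2 1) := by
  have h := ev_b0 (univ p 2)
  rwa [ev_univ] at h

theorem map_bb {n : ℕ} (α : Fin (2 + 1) → Fin (n + 1)) (h0 : α 0 = 0) (j : ℕ) :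
    Ch.map α (bb p j) = Phi p (uv n (α 1) ^ (p ^ j)) (uv n (α 2) ^ (p ^ j) - uv n (α 1) ^ (p ^ j)) := by
  rw [bb, map_pow, b0_eq_Phi, map_Phi, map_sub, map_uv, map_uv, h0, uv_zero, sub_zero, sub_zero,
    Phi_frob, sub_pow_pow]

theorem dl_cup_bb (j s : ℕ) (h : 2 + s = s + 2) (c : Ch p s) : dl (s + 2) (cup h (bb p j) c) =
    Phi p (Ae j (s + 1)) (uv (s + 3) (v2 (s + 1)) ^ (p ^ j) - Ae j (s + 1)) *
        cof (s + 1) 0 (cof s 0 (dl s c)) := by
  rw [cup, map_mul]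
  have hα0 : (Fin.castSucc ∘ front (by omega : 2 ≤ s + 2) : Fin (2 + 1) → Fin (s + 3 + 1)) 0 = 0 :=
    Fin.ext rfl
  have hα1 : (Fin.castSucc ∘ front (by omega : 2 ≤ s + 2) : Fin (2 + 1) → Fin (s + 3 + 1)) 1 =
    v1 (s + 2) := Fin.ext rfl
  have hα2 : (Fin.castSucc ∘ front (by omega : 2 ≤ s + 2) : Fin (2 + 1) → Fin (s + 3 + 1)) 2 =
    v2 (s + 1) := Fin.ext rfl
  refine congrArg₂ (· * ·) ?_ ?_
  · rw [dl, Ch.map_map, map_bb _ hα0, hα1, hα2, Ae]
  · rw [dl, dl, cof, cof, Ch.map_map, Ch.map_map, Ch.map_map]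
    congr 2
    funext k
    apply Fin.ext
    simp only [Function.comp_apply, Fin.succAbove, Fin.lt_def, Fin.val_castSucc,
      apply_ite Fin.val, Fin.val_succ, Fin.val_zero, val_back]
    split_ifs <;> omega

/-! ### the chain step -/

theorem chain_step {j s w : ℕ} (h0 : NoMonoIn {a | a ≠ (0, j)} p (s + 2) w)
    (h1 : p ^ j ≤ w → NoMonoIn {a | a ≠ (0, j)} p (s + 1) (w - p ^ j)) (h : 2 + s = s + 2)
    {x : Ch p (s + 2)} (hx : IsWt w x) (hd : d (s + 2) x = 0) :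
    ∃ c : Ch p s, d s c = 0 ∧ (p ^ (j + 1) ≤ w → IsWt (w - p ^ (j + 1)) c) ∧
      (w < p ^ (j + 1) → c = 0) ∧ IsCobdy (x - cup h (bb p j) c) := by
  set K := w + j + 1 with hKdef
  have hK : w < p ^ K := lt_of_lt_of_le (Nat.lt_pow_self (Fact.out : p.Prime).one_lt)
    (Nat.pow_le_pow_right (Fact.out : p.Prime).pos (by omega))
  have hK' : w < p ^ K * Ch.N p (0 + 1) := by rwa [zero_add, N_one, mul_one]
  have hjK : j < K := by omega
  have e1 : p ^ j * Ch.N p (0 + 1) = p ^ j := by rw [zero_add, N_one, mul_one]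
  have e2 : p * (p ^ j * Ch.N p (0 + 1)) = p ^ (j + 1) := by rw [e1, pow_succ, mul_comm]
  have hN := stepData_M (p := p) (l := 0) hjK
  have hFR : ∀ {n : ℕ}, ∀ y ∈ FR p 0 n, y ∈ M p 0 K n := fun y hy => FR_le_MS hy
  obtain ⟨a, ha, c, hc, hax, hdc, hD, hcw, hc0⟩ := step_top hN (s := s) (w := w)
    (V_T_of_noMono hjK h0) (by
      rw [e1]
      exact fun hw => V_T_of_noMono hjK (h1 hw)) (x := dl (s + 2) x) (hFR _ (dl_mem_FR _ x))
    (map_isWt _ hx) (by rw [dE_dl, hd, map_zero])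
  rw [e2] at hcw hc0
  -- `c` is constant
  have hc' : ∃ c' : Ch p s, dl s c' = c := by
    by_cases hw : p ^ (j + 1) ≤ w
    · refine exists_dl (mem_FR_of_mem_MS ?_ (hcw hw) hc)
      omega
    · exact ⟨0, by rw [map_zero, hc0 (by omega)]⟩
  obtain ⟨c', rfl⟩ := hc'
  have hdc' : d s c' = 0 := dl_injective _ (by rw [← dE_dl, hdc, map_zero])
  have hc0' : w < p ^ (j + 1) → c' = 0 := fun hw => dl_injective _ (by rw [hc0 hw, map_zero])
  have hcw' : p ^ (j + 1) ≤ w → IsWt (w - p ^ (j + 1)) c' := fun hw => isWt_of_dl (hcw hw)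
  -- the weight of `b_j ∪ c`
  have hcup : IsWt w (cup h (bb p j) c') := by
    by_cases hw : p ^ (j + 1) ≤ w
    · refine (cup_isWt h (b0_isWt.pow (p ^ j)) (hcw' hw)).cast ?_
      rw [← pow_succ, Nat.add_sub_cancel' hw]
    · rw [hc0' (by omega), cup_zero_right]
      exact isWt_zero _
  -- the correction term
  have hA : (Ae j s : Ch p (s + 2)) ∈ FR p 0 (s + 1) := by
    refine Subring.pow_mem _ (univ_mem_FR (s := s + 1) ?_ 1) _
    intro hh
    have := congrArg Fin.val hh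
    simp only [Fin.val_succ, Fin.val_zero, Fin.val_last] at this
    omega
  have hF : cof s 0 (dl s c') ∈ FR p 0 (s + 1) := by
    rw [cof_dl]
    exact dl_mem_FR _ _
  have hΨ := Phi_mem (N := M p 0 K) (j := j) hA hF hFR
  have hDΨ := Dop_Phi (j := j) hA hF
  set Ψ := Phi p (tau p 0 j (s + 1)) (-Ae j s) * cof s 0 (dl s c') with hΨdef
  have hE : dE (s + 1) Ψ = - dl (s + 2) (cup h (bb p j) c') := by
    rw [hΨdef, dE_Phi j s hdc', dl_cup_bb]
  have h3 : a - Ψ ∈ M p 0 K (s + 1) := by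
    refine mem_of_Dop_eq_zero hN (AddSubgroup.sub_mem _ ha hΨ) ?_
    rw [map_sub, hD, hDΨ, dE_tau_dl j s _ hdc', sub_self]
  obtain ⟨y, hy⟩ := exists_dl (mem_FR_of_mem_MS hK' (comp_isWt w _) (hN.comp_mem _ w _ h3))
  refine ⟨-c', by rw [map_neg, hdc', neg_zero], fun hw => (hcw' hw).neg,
    fun hw => by rw [hc0' hw, neg_zero], y, dl_injective _ ?_⟩
  have h4 : comp (s + 3) w (dl (s + 2) x) = dl (s + 2) x := comp_same (map_isWt _ hx)
  have h5 : comp (s + 3) w (dl (s + 2) (cup h (bb p j) c')) = dl (s + 2) (cup h (bb p j) c') :=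
    comp_same (map_isWt _ hcup)
  rw [← dE_dl, hy, ← comp_dE, map_sub, hax, hE, sub_neg_eq_add, map_add, h4, h5, cup_neg_right,
    sub_neg_eq_add, map_add]

end Vale.Agent.P257.V4.A.H
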