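import Vale.Agent.P257.V4.A.Defs

/-!
# P257, V(4): the outputs of part A (frozen statements), `q = 2p - 2`

All statements are about the cobar complex `Ch p s` of `P_* = F_p[t_1, t_2, …]`, `N_i = N p i`.
-/

namespace Vale.Agent.P257.V4.A

open Ch

/-- No cohomology below the diagonal. -/
def OutLow (p : ℕ) [Fact p.Prime] : Prop :=
  ∀ s D : ℕ, D < s → Van p s D

/-- The obstruction groups for `v_1, v_2, v_3`. -/
def OutV (p : ℕ) [Fact p.Prime] : Prop :=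
  ∀ n : ℕ, 1 ≤ n → n ≤ 3 → ∀ l : ℕ, 1 ≤ l → Van p ((2 * p - 2) * l + 1) (N p n + l)

/-- The obstruction groups for the pairings `V(n) ⊗ V(n) → V(n)`, `n ≤ 3`. -/
def OutMu (p : ℕ) [Fact p.Prime] : Prop :=
  ∀ S T : Finset ℕ, S ⊆ Finset.range 4 → T ⊆ Finset.range 4 → S.Nonempty →
    ∀ l s : ℕ, 1 ≤ s → s + (S.card + T.card) = (2 * p - 2) * l + 1 →
      Van p s (∑ i ∈ S, N p i + ∑ i ∈ T, N p i + l)

/-- The obstruction groups for `v_4` (all but `l = 1` and `l = p`). -/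
def OutV4 (p : ℕ) [Fact p.Prime] : Prop :=
  ∀ l : ℕ, 2 ≤ l → l ≠ p → Van p ((2 * p - 2) * l + 1) (N p 4 + l)

/-- (F2) Multiplication by `h_{1,4}` is injective on `Ext^{2p-1}_{N_4+1}`. -/
def OutF2 (p : ℕ) [Fact p.Prime] : Prop :=
  ∀ (s : ℕ) (_ : s = 2 * p - 1) (z : Ch p s), IsWt (N p 4 + 1) z → d s z = 0 →
    IsCobdy (cup (show 1 + s = s + 1 by omega) (h p 1 4) z) → IsCobdy z

/-- (F6) `Ext^{qp+1}_{N_4+p} = b_0^{p^2-p-2} Ext^5_{2p^2+4p+1}`. -/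
def OutF6 (p : ℕ) [Fact p.Prime] : Prop :=
  ∀ z : Ch p (5 + 2 * (p ^ 2 - p - 2)), IsWt (N p 4 + p) z → d _ z = 0 →
    ∃ y : Ch p 5, IsWt (2 * p ^ 2 + 4 * p + 1) y ∧ d 5 y = 0 ∧
      IsCobdy (z - b0mul (p ^ 2 - p - 2) y)

/-- The obstruction groups for realising `Ext^5_{2p^2+4p+1}`. -/
def OutT4a (p : ℕ) [Fact p.Prime] : Prop :=
  ∀ l : ℕ, 1 ≤ l → Van p (6 + (2 * p - 2) * l) (2 * p ^ 2 + 4 * p + 1 + l)

/-- The groups containing `α_1 y` (`l = 0` is (F5)). -/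
def OutT4b (p : ℕ) [Fact p.Prime] : Prop :=
  ∀ l : ℕ, Van p (6 + (2 * p - 2) * l) (2 * p ^ 2 + 4 * p + 2 + l)

/-- All outputs of part A. -/
structure Out (p : ℕ) [Fact p.Prime] : Prop where
  low : OutLow p
  v : OutV p
  mu : OutMu p
  v4 : OutV4 p
  f2 : OutF2 p
  f6 : OutF6 p
  t4a : OutT4a p
  t4b : OutT4b p

/-- The target of part A. -/
def OutStmt : Prop := ∀ (p : ℕ) [Fact p.Prime], 11 ≤ p → Out p

end Vale.Agent.P257.V4.A
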