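import Vale.Agent.P257.V4.A.Chain
import Vale.Agent.P257.V4.A.Out

/-!
# P257 / V4, part A: iterated division by `b_j` (block CHAIN, helper898)
-/

open MvPolynomial

namespace Vale.Agent.P257.V4.A.H

open Ch ML

variable {p : ℕ} [Fact p.Prime]

/-- all letters but `t_1^{p^j}` -/
def TL (j : ℕ) : Set (ℕ × ℕ) := {a | a ≠ (0, j)}

theorem noMonoIn_TL_iff {j q s D : ℕ} : NoMonoIn (TL j) q s D ↔
    ∀ m : Mono, (0, j) ∉ m.H → m.B (0, j) = 0 → m.s = s → m.deg q ≠ D := by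
  constructor
  · intro h m h1 h2
    refine h m ⟨fun a ha hc => h1 (hc ▸ ha), fun a ha hc => ha (hc ▸ h2)⟩
  · intro h m hm
    refine h m (fun hc => hm.1 _ hc rfl) ?_
    by_contra hc
    exact hm.2 _ hc rfl

/-- The iterated chain lemma for `b_0`. -/
theorem chain_b0 {s₀ w₀ k : ℕ}
    (h0 : ∀ i < k, NoMonoIn (TL 0) p (s₀ + 2 * (i + 1)) (w₀ + p * (i + 1)))
    (h1 : ∀ i < k, NoMonoIn (TL 0) p (s₀ + 2 * i + 1) (w₀ + p * (i + 1) - 1))
    {z : Ch p (s₀ + 2 * k)} (hz : IsWt (w₀ + p * k) z) (hd : d _ z = 0) :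
    ∃ y : Ch p s₀, IsWt w₀ y ∧ d s₀ y = 0 ∧ IsCobdy (z - b0mul k y) := by
  induction k with
  | zero => exact ⟨z, hz, hd, by simpa [b0mul] using isCobdy_zero⟩
  | succ k ih =>
    have e : w₀ + p * (k + 1) - p ^ (0 + 1) = w₀ + p * k := by
      rw [zero_add, pow_one, mul_add, mul_one, ← add_assoc, Nat.add_sub_cancel]
    obtain ⟨c, hc, hcw, -, hcb⟩ := chain_step (j := 0) (s := s₀ + 2 * k) (w := w₀ + p * (k + 1))
      (h0 k (Nat.lt_succ_self k)) (fun _ => by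
        rw [pow_zero]
        exact h1 k (Nat.lt_succ_self k)) (by omega) hz hd
    have hcw := (hcw (by
      rw [zero_add, pow_one, mul_add, mul_one]
      omega)).cast e
    obtain ⟨y, hyw, hy, hyb⟩ := ih (fun i hi => h0 i (by omega)) (fun i hi => h1 i (by omega)) hcw hc
    refine ⟨y, hyw, hy, ?_⟩
    have h2 := hcb.add (IsCobdy.cup_right (show 2 + (s₀ + 2 * k) = s₀ + 2 * (k + 1) by omega)
      (d_bb 0) hyb)
    rw [cup_sub_right, bb_zero, sub_add_sub_cancel] at h2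
    exact h2

/-- Vanishing propagates along the chains of `b_j`. -/
theorem van_chain {j s₀ w₀ k : ℕ}
    (h0 : ∀ i < k, NoMonoIn (TL j) p (s₀ + 2 * (i + 1)) (w₀ + p ^ (j + 1) * (i + 1)))
    (h1 : ∀ i < k, NoMonoIn (TL j) p (s₀ + 2 * i + 1) (w₀ + p ^ (j + 1) * (i + 1) - p ^ j))
    (hV : Van p s₀ w₀) : Van p (s₀ + 2 * k) (w₀ + p ^ (j + 1) * k) := by
  induction k with
  | zero => exact hV
  | succ k ih =>
    intro z hz hd
    have e : w₀ + p ^ (j + 1) * (k + 1) - p ^ (j + 1) = w₀ + p ^ (j + 1) * k := by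
      rw [mul_add, mul_one, ← add_assoc, Nat.add_sub_cancel]
    obtain ⟨c, hc, hcw, -, hcb⟩ := chain_step (j := j) (s := s₀ + 2 * k)
      (w := w₀ + p ^ (j + 1) * (k + 1)) (h0 k (Nat.lt_succ_self k))
      (fun _ => h1 k (Nat.lt_succ_self k)) (by omega) hz hd
    have hcw := (hcw (by
      rw [mul_add, mul_one]
      omega)).cast e
    have h3 := ih (fun i hi => h0 i (by omega)) (fun i hi => h1 i (by omega)) c hcw hc
    have h2 := hcb.add (IsCobdy.cup_right (show 2 + (s₀ + 2 * k) = s₀ + 2 * (k + 1) by omega)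
      (d_bb j) h3)
    rw [sub_add_cancel] at h2
    exact h2

/-- (F6) from the two lists of monomials without `t_1`. -/
theorem outF6_of
    (h0 : ∀ i < p ^ 2 - p - 2, NoMonoIn (TL 0) p (5 + 2 * (i + 1))
      (2 * p ^ 2 + 4 * p + 1 + p * (i + 1)))
    (h1 : ∀ i < p ^ 2 - p - 2, NoMonoIn (TL 0) p (5 + 2 * i + 1)
      (2 * p ^ 2 + 4 * p + 1 + p * (i + 1) - 1)) : OutF6 p := by
  intro z hz hd
  have hp : 2 ≤ p := (Fact.out : p.Prime).two_le
  refine chain_b0 h0 h1 (hz.cast ?_) hd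
  have h2 : p ^ 2 - p - 2 + (p + 2) = p ^ 2 := by
    have : p + 2 ≤ p ^ 2 := by nlinarith
    omega
  have h3 : p * (p ^ 2 - p - 2) + p * (p + 2) = p * p ^ 2 := by rw [← mul_add, h2]
  have h4 : Ch.N p 4 = 1 + p + p ^ 2 + p ^ 3 := by
    simp [Ch.N, Finset.sum_range_succ]
  rw [h4]
  nlinarith

/-- the chain step in the form with `TL`, for reference: `b_j` in front -/
theorem chain_step' {j s w : ℕ} (h0 : NoMonoIn (TL j) p (s + 2) w)
    (h1 : p ^ j ≤ w → NoMonoIn (TL j) p (s + 1) (w - p ^ j)) (h : 2 + s = s + 2)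
    {x : Ch p (s + 2)} (hx : IsWt w x) (hd : d (s + 2) x = 0) :
    ∃ c : Ch p s, d s c = 0 ∧ (p ^ (j + 1) ≤ w → IsWt (w - p ^ (j + 1)) c) ∧
      (w < p ^ (j + 1) → c = 0) ∧ IsCobdy (x - cup h (bb p j) c) :=
  chain_step h0 h1 h hx hd

end Vale.Agent.P257.V4.A.H
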