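import Mathlib

/-!
# P257 / V(4), part A: monomials (block monomial lists, helper717)

A letter `(k, i) : ℕ × ℕ` stands for `t_{k+1}^(p^i)` (so no side condition is needed); its weight
is `p^i (1 + p + ... + p^k)` and it occupies the positions `i, i+1, .., i+k`.
An `E_1`-monomial is a finite set `H` of letters (exterior generators `h`, one cohomological
degree each, weight of the letter) together with multiplicities `B` (polynomial generators `b`,
two cohomological degrees each, `p` times the weight of the letter).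
-/

namespace Vale.Agent.P257.V4.A.ML

open Finset

/-- `NN p n = 1 + p + ... + p^(n-1)`. -/
def NN (p n : ℕ) : ℕ := ∑ j ∈ range n, p ^ j

/-- Weight of the letter `(k, i)`, i.e. of `t_{k+1}^(p^i)`. -/
def lw (p : ℕ) (a : ℕ × ℕ) : ℕ := p ^ a.2 * NN p (a.1 + 1)

/-- An `E_1`-monomial. -/
structure Mono where
  /-- the exterior letters -/
  H : Finset (ℕ × ℕ)
  /-- the multiplicities of the polynomial letters -/
  B : (ℕ × ℕ) →₀ ℕ

namespace Mono

/-- number of polynomial factors -/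
def nb (m : Mono) : ℕ := m.B.sum fun _ c => c

/-- cohomological degree -/
def s (m : Mono) : ℕ := m.H.card + 2 * m.nb

/-- internal degree (in units of `q`) -/
def deg (p : ℕ) (m : Mono) : ℕ := ∑ a ∈ m.H, lw p a + m.B.sum fun a c => c * (p * lw p a)

/-- number of exterior letters covering the position `k` -/
def hcov (m : Mono) (k : ℕ) : ℕ := (m.H.filter fun a => a.2 ≤ k ∧ k ≤ a.2 + a.1).card

/-- number of polynomial letters covering the position `k` -/
def bcov (m : Mono) (k : ℕ) : ℕ := m.B.sum fun a c => if a.2 ≤ k ∧ k ≤ a.2 + a.1 then c else 0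

/-- multidegree -/
def e (p : ℕ) (m : Mono) (k : ℕ) : ℕ := m.hcov k + p * m.bcov k

/-- all letters of `m` lie in `L` -/
def Inside (m : Mono) (L : Set (ℕ × ℕ)) : Prop := (∀ a ∈ m.H, a ∈ L) ∧ ∀ a, m.B a ≠ 0 → a ∈ L

end Mono

/-- There is no monomial of bidegree `(s, D)`. -/
def NoMono (p s D : ℕ) : Prop := ∀ m : Mono, m.s = s → m.deg p ≠ D

/-- There is no monomial of bidegree `(s, D)` with all letters in `L`. -/
def NoMonoIn (L : Set (ℕ × ℕ)) (p s D : ℕ) : Prop :=
  ∀ m : Mono, m.Inside L → m.s = s → m.deg p ≠ D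

theorem NN_zero (p : ℕ) : NN p 0 = 0 := by simp [NN]
theorem NN_one (p : ℕ) : NN p 1 = 1 := by simp [NN]
theorem NN_succ (p n : ℕ) : NN p (n + 1) = NN p n + p ^ n := by simp [NN, sum_range_succ]
theorem NN_two (p : ℕ) : NN p 2 = 1 + p := by simp [NN, sum_range_succ]
theorem NN_three (p : ℕ) : NN p 3 = 1 + p + p ^ 2 := by simp [NN, sum_range_succ]
theorem NN_four (p : ℕ) : NN p 4 = 1 + p + p ^ 2 + p ^ 3 := by simp [NN, sum_range_succ]
theorem NN_five (p : ℕ) : NN p 5 = 1 + p + p ^ 2 + p ^ 3 + p ^ 4 := by simp [NN, sum_range_succ]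

theorem NN_geom (p n : ℕ) : NN p n * (p - 1 : ℤ) = (p : ℤ) ^ n - 1 := by
  unfold NN
  push_cast
  exact geom_sum_mul _ _

theorem pow_le_NN (p n : ℕ) : p ^ n ≤ NN p (n + 1) := by rw [NN_succ]; omega

theorem pow_le_lw (p : ℕ) (a : ℕ × ℕ) : p ^ (a.1 + a.2) ≤ lw p a := by
  unfold lw
  rw [pow_add, mul_comm]
  exact Nat.mul_le_mul_left _ (pow_le_NN p a.1)

theorem lw_pos {p : ℕ} (hp : 0 < p) (a : ℕ × ℕ) : 0 < lw p a :=
  lt_of_lt_of_le (Nat.pow_pos hp) (pow_le_lw p a)

theorem noMono_iff (p s D : ℕ) : NoMono p s D ↔ NoMonoIn Set.univ p s D := by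
  constructor
  · intro h m _ h1; exact h m h1
  · intro h m h1; exact h m ⟨fun _ _ => trivial, fun _ _ => trivial⟩ h1

theorem NoMonoIn.mono {L L' : Set (ℕ × ℕ)} (h : L ⊆ L') {p s D : ℕ} (h' : NoMonoIn L' p s D) :
    NoMonoIn L p s D := by
  intro m hm h1
  exact h' m ⟨fun a ha => h (hm.1 a ha), fun a ha => h (hm.2 a ha)⟩ h1

/-- Every factor of a monomial of degree `D` has degree at most `D`. -/
theorem Mono.lw_le_of_mem {p : ℕ} {m : Mono} {a : ℕ × ℕ} (ha : a ∈ m.H) : lw p a ≤ m.deg p := by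
  unfold Mono.deg
  have := single_le_sum (f := fun a => lw p a) (fun _ _ => Nat.zero_le _) ha
  exact le_trans this (Nat.le_add_right _ _)

theorem Mono.mul_lw_le_of_ne {p : ℕ} {m : Mono} {a : ℕ × ℕ} (ha : m.B a ≠ 0) :
    m.B a * (p * lw p a) ≤ m.deg p := by
  unfold Mono.deg Finsupp.sum
  have := single_le_sum (f := fun a => m.B a * (p * lw p a)) (fun _ _ => Nat.zero_le _)
    (Finsupp.mem_support_iff.2 ha)
  exact le_trans this (Nat.le_add_left _ _)

/-- Only letters of small weight matter. -/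
theorem noMono_of_small {p s D : ℕ} (L : Set (ℕ × ℕ)) (hL : ∀ a, lw p a ≤ D → a ∈ L)
    (hp : 0 < p) (h : NoMonoIn L p s D) : NoMono p s D := by
  intro m hs hD
  refine h m ⟨fun a ha => hL a (hD ▸ Mono.lw_le_of_mem ha), fun a ha => hL a ?_⟩ hs hD
  have h1 := Mono.mul_lw_le_of_ne (p := p) ha
  rw [hD] at h1
  have h2 : lw p a ≤ p * lw p a := Nat.le_mul_of_pos_left _ hp
  have h3 : p * lw p a ≤ m.B a * (p * lw p a) := Nat.le_mul_of_pos_left _ (Nat.pos_of_ne_zero ha)
  omega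

/-! ### The recursion used by the step lemma -/

/-- add one exterior letter -/
def Mono.addH (m : Mono) (a : ℕ × ℕ) : Mono := ⟨insert a m.H, m.B⟩

/-- multiply by the polynomial letter `b_a` -/
noncomputable def Mono.addB (m : Mono) (a : ℕ × ℕ) : Mono := ⟨m.H, m.B + Finsupp.single a 1⟩

theorem Mono.addB_nb (m : Mono) (a : ℕ × ℕ) : (m.addB a).nb = m.nb + 1 := by
  unfold Mono.addB Mono.nb
  rw [Finsupp.sum_add_index' (fun _ => rfl) (fun _ _ _ => rfl)]
  simp

theorem Mono.addB_s (m : Mono) (a : ℕ × ℕ) : (m.addB a).s = m.s + 2 := by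
  unfold Mono.s
  rw [Mono.addB_nb]
  simp only [Mono.addB]
  ring

theorem Mono.addB_deg (p : ℕ) (m : Mono) (a : ℕ × ℕ) :
    (m.addB a).deg p = m.deg p + p * lw p a := by
  unfold Mono.addB Mono.deg
  rw [Finsupp.sum_add_index' (fun _ => by simp) (fun _ _ _ => by ring)]
  simp
  ring

theorem Mono.addH_s (m : Mono) {a : ℕ × ℕ} (ha : a ∉ m.H) : (m.addH a).s = m.s + 1 := by
  unfold Mono.s Mono.addH Mono.nb
  simp only
  rw [card_insert_of_notMem ha]
  ring

theorem Mono.addH_deg (p : ℕ) (m : Mono) {a : ℕ × ℕ} (ha : a ∉ m.H) :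
    (m.addH a).deg p = m.deg p + lw p a := by
  unfold Mono.addH Mono.deg
  simp only
  rw [sum_insert ha]
  ring

theorem NoMonoIn.of_insert {L : Set (ℕ × ℕ)} {a : ℕ × ℕ} {p s D : ℕ}
    (h : NoMonoIn (insert a L) p s D) : NoMonoIn L p s D :=
  h.mono (Set.subset_insert a L)

theorem NoMonoIn.of_insert_h {L : Set (ℕ × ℕ)} {a : ℕ × ℕ} (haL : a ∉ L) {p s D : ℕ}
    (h : NoMonoIn (insert a L) p (s + 1) (D + lw p a)) : NoMonoIn L p s D := by
  intro m hm hs hD
  have ha : a ∉ m.H := fun h1 => haL (hm.1 a h1)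
  refine h (m.addH a) ⟨?_, ?_⟩ (by rw [Mono.addH_s m ha, hs]) (by rw [Mono.addH_deg p m ha, hD])
  · intro c hc
    simp only [Mono.addH, Finset.mem_insert] at hc
    rcases hc with rfl | hc
    · exact Set.mem_insert _ _
    · exact Set.mem_insert_of_mem _ (hm.1 c hc)
  · intro c hc
    exact Set.mem_insert_of_mem _ (hm.2 c hc)

theorem NoMonoIn.of_insert_b {L : Set (ℕ × ℕ)} {a : ℕ × ℕ} (haL : a ∈ L) {p s D : ℕ}
    (h : NoMonoIn L p (s + 2) (D + p * lw p a)) : NoMonoIn L p s D := by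
  intro m hm hs hD
  refine h (m.addB a) ⟨hm.1, ?_⟩ (by rw [Mono.addB_s, hs]) (by rw [Mono.addB_deg, hD])
  intro c hc
  by_cases hca : c = a
  · rw [hca]; exact haL
  · refine hm.2 c ?_
    intro h0
    apply hc
    simp [Mono.addB, h0, Ne.symm hca]

end Vale.Agent.P257.V4.A.ML
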