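import Vale.Agent.P257.V4.A.Out
import Vale.Agent.P257.V4.A.Cup
import Vale.Agent.P257.V4.A.Wt
import Vale.Agent.P257.V4.A.Mono

/-!
# P257, V(4): assembly of part A from the outputs of its blocks

Blocks: engine (no monomial, no cohomology), chain lemmas for `b_0` and `b_1`, monomial lists,
three special groups, injectivity of `h_{1,4}`.
-/

namespace Vale.Agent.P257.V4.A

open Ch

/-- The engine: no monomial of bidegree `(s, D)`, no cohomology. -/
def EngineStmt (p : ℕ) [Fact p.Prime] : Prop :=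
  ∀ s D : ℕ, ML.NoMono p s D → Van p s D

/-- No monomial of bidegree `(s, D)` without factors `h_{1,j}`, `b_{1,j}`. -/
def NoMonoT (p j s D : ℕ) : Prop :=
  ∀ m : ML.Mono, (0, j) ∉ m.H → m.B (0, j) = 0 → m.s = s → m.deg p ≠ D

/-- The chain lemma: if there is no `T_j`-monomial in bidegrees `(s + 2, D + p^{j+1})` and
`(s + 1, D + p^{j+1} - p^j)` then `b_j` times `Ext^s_D` is all of `Ext^{s+2}_{D+p^{j+1}}`. -/
def ChainStmt (p j : ℕ) [Fact p.Prime] : Prop :=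
  ∀ s D : ℕ, NoMonoT p j (s + 2) (D + p ^ (j + 1)) →
    NoMonoT p j (s + 1) (D + p ^ (j + 1) - p ^ j) →
    ∀ x : Ch p (s + 2), IsWt (D + p ^ (j + 1)) x → d (s + 2) x = 0 →
      ∃ c : Ch p s, IsWt D c ∧ d s c = 0 ∧
        IsCobdy (x - cup (show 2 + s = s + 2 by omega) (bb p j) c)

/-- `Van` transported along an equality of the degrees. -/
theorem van_cast {p : ℕ} [Fact p.Prime] {s s' D D' : ℕ} (h : Van p s D) (hs : s = s')
    (hD : D = D') : Van p s' D' := by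
  subst hs; subst hD; exact h

/-- Propagation of vanishing along a chain. -/
theorem chain_van {p : ℕ} [Fact p.Prime] {j : ℕ} (hc : ChainStmt p j) {s D : ℕ} (K : ℕ)
    (h1 : ∀ k < K, NoMonoT p j (s + 2 * (k + 1)) (D + p ^ (j + 1) * (k + 1)))
    (h2 : ∀ k < K, NoMonoT p j (s + 2 * k + 1) (D + p ^ (j + 1) * (k + 1) - p ^ j))
    (h0 : Van p s D) : Van p (s + 2 * K) (D + p ^ (j + 1) * K) := by
  induction K with
  | zero => exact h0
  | succ K ih =>
    have ih' := ih (fun k hk => h1 k (by omega)) (fun k hk => h2 k (by omega))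
    have a1 := h1 K (by omega)
    have a2 := h2 K (by omega)
    have e1 : s + 2 * (K + 1) = (s + 2 * K) + 2 := by ring
    have e2 : D + p ^ (j + 1) * (K + 1) = (D + p ^ (j + 1) * K) + p ^ (j + 1) := by ring
    rw [e1, e2] at a1
    rw [e2] at a2
    refine van_cast ?_ e1.symm e2.symm
    intro z hz hdz
    obtain ⟨c, hc1, hc2, hc3⟩ := hc (s + 2 * K) _ a1 a2 z hz hdz
    have h3 : IsCobdy (cup (show 2 + (s + 2 * K) = s + 2 * K + 2 by omega) (bb p j) c) :=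
      IsCobdy.cup_right _ (d_bb j) (ih' c hc1 hc2)
    have h4 := hc3.add h3
    rwa [sub_add_cancel] at h4

/-- Iteration of the chain lemma for `b_0`. -/
theorem chain_b0mul {p : ℕ} [Fact p.Prime] (hc : ChainStmt p 0) {s D : ℕ} (K : ℕ)
    (h1 : ∀ k < K, NoMonoT p 0 (s + 2 * (k + 1)) (D + p * (k + 1)))
    (h2 : ∀ k < K, NoMonoT p 0 (s + 2 * k + 1) (D + p * (k + 1) - 1)) :
    ∀ z : Ch p (s + 2 * K), IsWt (D + p * K) z → d _ z = 0 →
      ∃ y : Ch p s, IsWt D y ∧ d s y = 0 ∧ IsCobdy (z - b0mul K y) := by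
  induction K with
  | zero =>
    intro z hz hdz
    refine ⟨z, hz, hdz, ?_⟩
    have e : z - b0mul 0 z = 0 := sub_self _
    rw [e]
    exact isCobdy_zero
  | succ K ih =>
    intro z hz hdz
    have ih' := ih (fun k hk => h1 k (by omega)) (fun k hk => h2 k (by omega))
    have a1 := h1 K (by omega)
    have a2 := h2 K (by omega)
    have e2 : D + p * (K + 1) = (D + p * K) + p ^ (0 + 1) := by ring
    have a1' : NoMonoT p 0 ((s + 2 * K) + 2) ((D + p * K) + p ^ (0 + 1)) := by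
      rw [← e2]; exact a1
    have a2' : NoMonoT p 0 ((s + 2 * K) + 1) ((D + p * K) + p ^ (0 + 1) - p ^ 0) := by
      rw [← e2, pow_zero]; exact a2
    obtain ⟨c, hc1, hc2, hc3⟩ := hc (s + 2 * K) (D + p * K) a1' a2' z (hz.cast e2) hdz
    obtain ⟨y, hy1, hy2, hy3⟩ := ih' c hc1 hc2
    refine ⟨y, hy1, hy2, ?_⟩
    have h3 : IsCobdy (cup (show 2 + (s + 2 * K) = s + 2 * (K + 1) by omega) (b0 p)
        (c - b0mul K y)) := IsCobdy.cup_right _ d_b0 hy3
    have h4 := hc3.add h3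
    rw [bb_zero] at h4
    rw [cup_sub_right] at h4
    have e : z - cup (show 2 + (s + 2 * K) = s + 2 * K + 2 by omega) (b0 p) c +
        (cup (show 2 + (s + 2 * K) = s + 2 * (K + 1) by omega) (b0 p) c -
          cup (show 2 + (s + 2 * K) = s + 2 * (K + 1) by omega) (b0 p) (b0mul K y)) =
        z - b0mul (K + 1) y := by
      rw [b0mul]
      exact sub_add_sub_cancel _ _ _
    rw [← e]
    exact h4

/-- The six families of emptiness statements along the three chains. -/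
structure ChainLists (p : ℕ) : Prop where
  /-- `l = p`, `b_0` -/
  a1 : ∀ k < p ^ 2 - p - 2, NoMonoT p 0 (5 + 2 * (k + 1)) (2 * p ^ 2 + 4 * p + 1 + p * (k + 1))
  a2 : ∀ k < p ^ 2 - p - 2, NoMonoT p 0 (5 + 2 * k + 1) (2 * p ^ 2 + 4 * p + 1 + p * (k + 1) - 1)
  /-- `l = p - 1`, `b_0` -/
  b1 : ∀ k < p ^ 2 - 2 * p - 2, NoMonoT p 0 (7 + 2 * (k + 1)) (3 * p ^ 2 + 4 * p + p * (k + 1))
  b2 : ∀ k < p ^ 2 - 2 * p - 2, NoMonoT p 0 (7 + 2 * k + 1) (3 * p ^ 2 + 4 * p + p * (k + 1) - 1)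
  /-- `l = 2`, `b_0` -/
  c1 : ∀ k < p - 2, NoMonoT p 0 (2 * p + 1 + 2 * (k + 1)) (p ^ 3 + 3 * p + 3 + p * (k + 1))
  c2 : ∀ k < p - 2, NoMonoT p 0 (2 * p + 1 + 2 * k + 1) (p ^ 3 + 3 * p + 3 + p * (k + 1) - 1)
  /-- `l = 2`, `b_1` -/
  d1 : ∀ k < p - 2, NoMonoT p 1 (5 + 2 * (k + 1)) (2 * p ^ 2 + 3 * p + 3 + p ^ 2 * (k + 1))
  d2 : ∀ k < p - 2, NoMonoT p 1 (5 + 2 * k + 1) (2 * p ^ 2 + 3 * p + 3 + p ^ 2 * (k + 1) - p)

/-- The emptiness lists. -/
structure EmptyLists (p : ℕ) : Prop where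
  low : ∀ s D : ℕ, D < s → ML.NoMono p s D
  v : ∀ n : ℕ, 1 ≤ n → n ≤ 3 → ∀ l : ℕ, 1 ≤ l →
    ML.NoMono p ((2 * p - 2) * l + 1) (ML.NN p n + l)
  mu : ∀ S T : Finset ℕ, S ⊆ Finset.range 4 → T ⊆ Finset.range 4 → S.Nonempty →
    ∀ l s : ℕ, 1 ≤ s → s + (S.card + T.card) = (2 * p - 2) * l + 1 →
      ML.NoMono p s (∑ i ∈ S, ML.NN p i + ∑ i ∈ T, ML.NN p i + l)
  v4 : ∀ l : ℕ, 3 ≤ l → l ≠ p - 1 → l ≠ p →
    ML.NoMono p ((2 * p - 2) * l + 1) (ML.NN p 4 + l)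
  t4a : ∀ l : ℕ, 1 ≤ l → ML.NoMono p (6 + (2 * p - 2) * l) (2 * p ^ 2 + 4 * p + 1 + l)
  t4b : ∀ l : ℕ, 1 ≤ l → ML.NoMono p (6 + (2 * p - 2) * l) (2 * p ^ 2 + 4 * p + 2 + l)

/-- All inputs of the assembly of part A. -/
structure Inputs (p : ℕ) [Fact p.Prime] : Prop where
  engine : EngineStmt p
  chain0 : ChainStmt p 0
  chain1 : ChainStmt p 1
  lists : EmptyLists p
  clists : ChainLists p
  f3 : Van p 5 (2 * p ^ 2 + 3 * p + 3)
  f4 : Van p 7 (3 * p ^ 2 + 4 * p)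
  f5 : Van p 6 (2 * p ^ 2 + 4 * p + 2)
  f2 : OutF2 p

theorem NN_eq_N (p n : ℕ) : ML.NN p n = N p n := rfl

theorem N_four (p : ℕ) : N p 4 = 1 + p + p ^ 2 + p ^ 3 := by
  simp [N, Finset.sum_range_succ]

/-- Assembly of part A. -/
theorem out_of_inputs {p : ℕ} [Fact p.Prime] (hp : 11 ≤ p) (I : Inputs p) : Out p where
  low s D h := I.engine _ _ (I.lists.low s D h)
  v n h1 h2 l hl := I.engine _ _ (I.lists.v n h1 h2 l hl)
  mu S T hS hT hne l s h1 h2 := I.engine _ _ (I.lists.mu S T hS hT hne l s h1 h2)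
  v4 := by
    intro l hl hlp
    by_cases h2 : l = 2
    · subst h2
      have d2 : ∀ k < p - 2, NoMonoT p 1 (5 + 2 * k + 1)
          (2 * p ^ 2 + 3 * p + 3 + p ^ (1 + 1) * (k + 1) - p ^ 1) := by
        simpa using I.clists.d2
      have s1 := chain_van I.chain1 (p - 2) I.clists.d1 d2 I.f3
      obtain ⟨q, rfl⟩ : ∃ q, p = q + 2 := ⟨p - 2, by omega⟩
      have e1 : 5 + 2 * (q + 2 - 2) = 2 * (q + 2) + 1 := by omega
      have e2 : 2 * (q + 2) ^ 2 + 3 * (q + 2) + 3 + (q + 2) ^ (1 + 1) * (q + 2 - 2) =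
          (q + 2) ^ 3 + 3 * (q + 2) + 3 := by
        rw [Nat.add_sub_cancel]; ring
      have s2 := van_cast s1 e1 e2
      have c1 : ∀ k < q + 2 - 2, NoMonoT (q + 2) 0 (2 * (q + 2) + 1 + 2 * (k + 1))
          ((q + 2) ^ 3 + 3 * (q + 2) + 3 + (q + 2) ^ (0 + 1) * (k + 1)) := by
        simpa using I.clists.c1
      have c2 : ∀ k < q + 2 - 2, NoMonoT (q + 2) 0 (2 * (q + 2) + 1 + 2 * k + 1)
          ((q + 2) ^ 3 + 3 * (q + 2) + 3 + (q + 2) ^ (0 + 1) * (k + 1) - (q + 2) ^ 0) := by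
        simpa using I.clists.c2
      have s3 := chain_van I.chain0 (q + 2 - 2) c1 c2 s2
      refine van_cast s3 ?_ ?_
      · omega
      · rw [N_four, Nat.add_sub_cancel]; ring
    by_cases h3 : l = p - 1
    · subst h3
      have b1 : ∀ k < p ^ 2 - 2 * p - 2, NoMonoT p 0 (7 + 2 * (k + 1))
          (3 * p ^ 2 + 4 * p + p ^ (0 + 1) * (k + 1)) := by
        simpa using I.clists.b1
      have b2 : ∀ k < p ^ 2 - 2 * p - 2, NoMonoT p 0 (7 + 2 * k + 1)
          (3 * p ^ 2 + 4 * p + p ^ (0 + 1) * (k + 1) - p ^ 0) := by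
        simpa using I.clists.b2
      have s1 := chain_van I.chain0 (p ^ 2 - 2 * p - 2) b1 b2 I.f4
      obtain ⟨q, rfl⟩ : ∃ q, p = q + 3 := ⟨p - 3, by omega⟩
      have e : (q + 3) ^ 2 - 2 * (q + 3) - 2 = q ^ 2 + 4 * q + 1 := by
        have : (q + 3) ^ 2 = (q ^ 2 + 4 * q + 1) + 2 * (q + 3) + 2 := by ring
        omega
      rw [e] at s1
      refine van_cast s1 ?_ ?_
      · have : 2 * (q + 3) - 2 = 2 * q + 4 := by omega
        rw [this]
        have : q + 3 - 1 = q + 2 := by omega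
        rw [this]
        ring
      · have : q + 3 - 1 = q + 2 := by omega
        rw [N_four, this]
        ring
    · exact I.engine _ _ (I.lists.v4 l (by omega) h3 hlp)
  f2 := I.f2
  f6 := by
    intro z hz hdz
    have e : 2 * p ^ 2 + 4 * p + 1 + p * (p ^ 2 - p - 2) = N p 4 + p := by
      obtain ⟨q, rfl⟩ : ∃ q, p = q + 2 := ⟨p - 2, by omega⟩
      have e' : (q + 2) ^ 2 - (q + 2) - 2 = q ^ 2 + 3 * q := by
        have : (q + 2) ^ 2 = (q ^ 2 + 3 * q) + (q + 2) + 2 := by ring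
        omega
      rw [e', N_four]
      ring
    exact chain_b0mul I.chain0 (p ^ 2 - p - 2) I.clists.a1 I.clists.a2 z (hz.cast e.symm) hdz
  t4a l hl := I.engine _ _ (I.lists.t4a l hl)
  t4b := by
    intro l
    rcases Nat.eq_zero_or_pos l with rfl | hl
    · exact I.f5
    · exact I.engine _ _ (I.lists.t4b l hl)

end Vale.Agent.P257.V4.A
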