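import Vale.Agent.P257.V4.A.ChainIt
import Vale.Agent.P257.V4.A.FinalS

/-!
# P257 / V4, part A: engine and chain in the form of `FinalS` (helper898)
-/

namespace Vale.Agent.P257.V4.A.H

open Ch ML

variable {p : ℕ} [Fact p.Prime]

theorem engineStmt : EngineStmt p := fun _ _ h => van_of_noMono h

theorem chainStmt (j : ℕ) : ChainStmt p j := by
  intro s D h1 h2 x hx hd
  obtain ⟨c, hc, hcw, -, hcb⟩ := chain_step (noMonoIn_TL_iff.2 h1)
    (fun _ => noMonoIn_TL_iff.2 h2) (by omega) hx hd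
  exact ⟨c, (hcw (Nat.le_add_left _ _)).cast (Nat.add_sub_cancel _ _), hc, hcb⟩

end Vale.Agent.P257.V4.A.H
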