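import Vale.Agent.P257.V4.A.Cup
import Mathlib.Tactic.Abel
import Mathlib.Tactic.LinearCombination
import Mathlib.Tactic.Group
import Mathlib.Data.Nat.Choose.Dvd
import Mathlib.Data.Nat.Choose.Sum
import Mathlib.Tactic.IntervalCases
import Mathlib.Algebra.MvPolynomial.CommRing

/-!
# P257, V(4), part A: commutation of cup products in `Ch p s` with cocycles of degree 1 and 2

Values of cochains on sequences of group elements: `vl x u` is the value of `x` at the chain
`(u 0, …, u s)` (up to right translation).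
-/

namespace Vale.Agent.P257.V4.A

open Finset

variable {p : ℕ} [Fact p.Prime]

namespace Ch

section vl

variable {B : Type} [CommRing B] [Algebra (ZMod p) B] {s m n a b : ℕ}

/-- the chain with vertices `u 0, …, u s` up to right translation -/
noncomputable def chN (s : ℕ) (u : ℕ → G p B) : Chain p s B where
  g i := u i * (u 0)⁻¹
  zero := mul_inv_cancel _

/-- the value of a cochain on a sequence of group elements -/
noncomputable def vl (x : Ch p s) (u : ℕ → G p B) : B := ev (chN s u) x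

theorem vl_congr (x : Ch p s) {u v : ℕ → G p B} (h : ∀ i ≤ s, u i = v i) : vl x u = vl x v := by
  have : chN s u = chN s v := by
    ext1
    funext i
    change u i * (u 0)⁻¹ = v i * (v 0)⁻¹
    rw [h i (by omega), h 0 (by omega)]
  rw [vl, vl, this]

theorem vl_mul_right (x : Ch p s) (u : ℕ → G p B) (g : G p B) :
    vl x (fun i => u i * g) = vl x u := by
  have : chN s (fun i => u i * g) = chN s u := by
    ext1
    funext i
    change u i * g * (u 0 * g)⁻¹ = u i * (u 0)⁻¹
    group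
  rw [vl, vl, this]

@[simp] theorem vl_add (x y : Ch p s) (u : ℕ → G p B) : vl (x + y) u = vl x u + vl y u :=
  _root_.map_add _ _ _
@[simp] theorem vl_sub (x y : Ch p s) (u : ℕ → G p B) : vl (x - y) u = vl x u - vl y u :=
  _root_.map_sub _ _ _
@[simp] theorem vl_neg (x : Ch p s) (u : ℕ → G p B) : vl (-x) u = -vl x u :=
  _root_.map_neg _ _
@[simp] theorem vl_zero (u : ℕ → G p B) : vl (0 : Ch p s) u = 0 :=
  _root_.map_zero _
@[simp] theorem vl_one (u : ℕ → G p B) : vl (1 : Ch p s) u = 1 :=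
  _root_.map_one _
@[simp] theorem vl_mul (x y : Ch p s) (u : ℕ → G p B) : vl (x * y) u = vl x u * vl y u :=
  _root_.map_mul _ _ _
@[simp] theorem vl_pow (x : Ch p s) (k : ℕ) (u : ℕ → G p B) : vl (x ^ k) u = vl x u ^ k :=
  _root_.map_pow _ _ _
@[simp] theorem vl_zsmul (k : ℤ) (x : Ch p s) (u : ℕ → G p B) : vl (k • x) u = k • vl x u :=
  _root_.map_zsmul _ _ _
theorem vl_sum {ι : Type} (t : Finset ι) (f : ι → Ch p s) (u : ℕ → G p B) :
    vl (∑ i ∈ t, f i) u = ∑ i ∈ t, vl (f i) u :=
  _root_.map_sum _ _ _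

theorem ev_eq_vl (c : Chain p s B) (x : Ch p s) :
    ev c x = vl x (fun i => if h : i < s + 1 then c.g ⟨i, h⟩ else 1) := by
  have : c = chN s (fun i => if h : i < s + 1 then c.g ⟨i, h⟩ else 1) := by
    ext1
    funext i
    change c.g i = (if h : (i : ℕ) < s + 1 then c.g ⟨i, h⟩ else 1) *
      (if h : 0 < s + 1 then c.g ⟨0, h⟩ else 1)⁻¹
    rw [dif_pos i.2, dif_pos (Nat.succ_pos s)]
    have : c.g ⟨0, Nat.succ_pos s⟩ = 1 := c.zero
    rw [this, inv_one, mul_one]
  rw [vl, ← this]

theorem ext_vl {x y : Ch p s}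
    (h : ∀ (B : Type) [CommRing B] [Algebra (ZMod p) B] (u : ℕ → G p B), vl x u = vl y u) :
    x = y := by
  apply ext_ev
  intro B _ _ c
  rw [ev_eq_vl, ev_eq_vl, h]

theorem vl_map (α : Fin (m + 1) → Fin (n + 1)) (a : ℕ → ℕ) (ha : ∀ i : Fin (m + 1), a i = α i)
    (x : Ch p m) (u : ℕ → G p B) : vl (map α x) u = vl x (fun i => u (a i)) := by
  have : (chN n u).res α = chN m (fun i => u (a i)) := by
    ext1
    funext i
    change u (α i) * (u 0)⁻¹ * (u (α 0) * (u 0)⁻¹)⁻¹ = u (a i) * (u (a 0))⁻¹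
    have h0 : a 0 = α 0 := ha 0
    rw [ha i, h0]
    group
  rw [vl, ev_map_res, vl, this]

/-- the injection of `ℕ` which omits `i` -/
def om (i k : ℕ) : ℕ := if k < i then k else k + 1

theorem om_lt {i k : ℕ} (h : k < i) : om i k = k := if_pos h
theorem om_ge {i k : ℕ} (h : i ≤ k) : om i k = k + 1 := if_neg (by omega)

theorem vl_d (x : Ch p s) (u : ℕ → G p B) :
    vl (d s x) u = ∑ i ∈ range (s + 2), (-1 : ℤ) ^ i • vl x (fun k => u (om i k)) := by
  rw [d_apply, vl_sum, Finset.sum_range]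
  refine Finset.sum_congr rfl fun i _ => ?_
  rw [vl_zsmul]
  congr 1
  apply vl_map
  intro k
  rw [Fin.succAbove, om]
  simp only [Fin.lt_def, Fin.val_castSucc]
  split_ifs <;> rfl

theorem vl_cup (h : a + b = n) (x : Ch p a) (y : Ch p b) (u : ℕ → G p B) :
    vl (cup h x y) u = vl x u * vl y (fun k => u (a + k)) := by
  have h1 : vl (map (front (show a ≤ n by omega)) x) u = vl x u :=
    vl_map (front (show a ≤ n by omega)) (fun i => i) (fun _ => rfl) x u
  have h2 : vl (map (back (show b ≤ n by omega)) y) u = vl y (fun k => u (a + k)) := by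
    apply vl_map _ (fun i => a + i)
    intro i
    change a + (i : ℕ) = n - b + i
    omega
  rw [cup, vl_mul, h1, h2]

end vl

section comm

variable {m n s : ℕ}

/-- Restriction along the map of vertices given by `a : ℕ → ℕ` (cut off at `n`). -/
noncomputable def mapN (n : ℕ) (a : ℕ → ℕ) (x : Ch p m) : Ch p n :=
  map (fun i : Fin (m + 1) => ⟨min (a i) n, by omega⟩) x

theorem vl_mapN {B : Type} [CommRing B] [Algebra (ZMod p) B] (a : ℕ → ℕ) (x : Ch p m)
    (u : ℕ → G p B) (h : ∀ i ≤ m, a i ≤ n) :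
    vl (mapN n a x) u = vl x (fun i => u (a i)) := by
  rw [mapN, vl_map _ (fun i => min (a i) n) (fun _ => rfl)]
  refine vl_congr _ fun i hi => ?_
  rw [min_eq_left (h i hi)]

/-- value of a 1-cochain -/
noncomputable def v1 {B : Type} [CommRing B] [Algebra (ZMod p) B] (x : Ch p 1) (a b : G p B) : B :=
  vl x (fun k => if k = 0 then a else b)

/-- value of a 2-cochain -/
noncomputable def v2 {B : Type} [CommRing B] [Algebra (ZMod p) B] (x : Ch p 2) (a b c : G p B) :
    B :=
  vl x (fun k => if k = 0 then a else if k = 1 then b else c)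

section

variable {B : Type} [CommRing B] [Algebra (ZMod p) B]

theorem vl_eq_v1 (x : Ch p 1) (u : ℕ → G p B) : vl x u = v1 x (u 0) (u 1) := by
  refine vl_congr _ fun i hi => ?_
  interval_cases i <;> rfl

theorem vl_eq_v2 (x : Ch p 2) (u : ℕ → G p B) : vl x u = v2 x (u 0) (u 1) (u 2) := by
  refine vl_congr _ fun i hi => ?_
  interval_cases i <;> rfl

theorem v1_cocycle {x : Ch p 1} (hx : d 1 x = 0) (a b c : G p B) :
    v1 x b c - v1 x a c + v1 x a b = 0 := by
  have h : vl (d 1 x) (fun k => if k = 0 then a else if k = 1 then b else c) = 0 := by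
    rw [hx, vl_zero]
  rw [vl_d] at h
  simp only [Finset.sum_range_succ, Finset.sum_range_zero, vl_eq_v1] at h
  simpa [om, ← sub_eq_add_neg] using h

theorem v2_cocycle {x : Ch p 2} (hx : d 2 x = 0) (a b c e : G p B) :
    v2 x b c e - v2 x a c e + v2 x a b e - v2 x a b c = 0 := by
  have h : vl (d 2 x) (fun k => if k = 0 then a else if k = 1 then b else
      if k = 2 then c else e) = 0 := by
    rw [hx, vl_zero]
  rw [vl_d] at h
  simp only [Finset.sum_range_succ, Finset.sum_range_zero, vl_eq_v2] at h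
  simpa [om, ← sub_eq_add_neg, pow_succ] using h

end

theorem sgn_smul {B : Type} [CommRing B] (k : ℕ) (b : B) :
    (-1 : ℤ) ^ k • b = (-1 : B) ^ k * b := by
  simp

/-- Commutation with a primitive element. -/
theorem comm_one {x : Ch p 1} (hx : d 1 x = 0) (z : Ch p s) :
    d s (mapN s (fun k => if k = 0 then 0 else s) x * z) =
      - cup (show 1 + s = s + 1 by omega) x z + (-1 : ℤ) ^ s • cup rfl z x +
      mapN (s + 1) (fun k => if k = 0 then 0 else s + 1) x * d s z := by
  apply ext_vl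
  intro B _ _ u
  have hX : ∀ v : ℕ → G p B, vl (mapN s (fun k => if k = 0 then 0 else s) x) v =
      v1 x (v 0) (v s) := by
    intro v
    rw [vl_mapN _ _ _ (by intro i _; split_ifs <;> omega), vl_eq_v1]
    simp
  have hX' : vl (mapN (s + 1) (fun k => if k = 0 then 0 else s + 1) x) u =
      v1 x (u 0) (u (s + 1)) := by
    rw [vl_mapN _ _ _ (by intro i _; split_ifs <;> omega), vl_eq_v1]
    simp
  rw [vl_add, vl_add, vl_neg, vl_zsmul, vl_mul, hX', vl_d, vl_d, vl_cup, vl_cup]
  simp only [vl_mul, hX]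
  rw [Finset.sum_range_succ, Finset.sum_range_succ', Finset.sum_range_succ _ (s + 1),
    Finset.sum_range_succ' _ s]
  have e1 : ∀ j ∈ range s, (-1 : ℤ) ^ (j + 1) • (v1 x (u (om (j + 1) 0)) (u (om (j + 1) s)) *
      vl z (fun k => u (om (j + 1) k))) = v1 x (u 0) (u (s + 1)) *
      ((-1 : ℤ) ^ (j + 1) • vl z (fun k => u (om (j + 1) k))) := by
    intro j hj
    rw [mem_range] at hj
    rw [om_lt (by omega), om_ge (by omega), mul_smul_comm]
  rw [Finset.sum_congr rfl e1, ← Finset.mul_sum]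
  have e2 : vl z (fun k => u (om (s + 1) k)) = vl z u := vl_congr _ fun i hi => by
    rw [om_lt (by omega)]
  have e3 : (fun k => u (om 0 k)) = fun k => u (1 + k) := by
    funext k
    rw [om_ge (by omega), add_comm]
  rw [e2, e3, vl_eq_v1 x u, vl_eq_v1 x (fun k => u (s + k)), om_ge (Nat.zero_le 0),
    om_ge (Nat.zero_le s), om_lt (show 0 < s + 1 by omega), om_lt (show s < s + 1 by omega)]
  have c1 := v1_cocycle hx (u 0) (u 1) (u (s + 1))
  have c2 := v1_cocycle hx (u 0) (u s) (u (s + 1))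
  generalize ∑ j ∈ range s, (-1 : ℤ) ^ (j + 1) • vl z (fun k => u (om (j + 1) k)) = S
  simp only [sgn_smul, pow_zero, zero_add, pow_succ, Nat.add_zero]
  linear_combination (vl z fun k => u (1 + k)) * c1 - (-1 : B) ^ s * (vl z u) * c2

/-- The cochain `x(0, s, s+1) z(0, …, s)`. -/
noncomputable def wA (x : Ch p 2) (z : Ch p s) : Ch p (s + 1) :=
  mapN (s + 1) (fun k => if k = 0 then 0 else if k = 1 then s else s + 1) x *
    mapN (s + 1) (fun k => k) z

/-- The cochain `x(0, 1, s+1) z(1, …, s+1)`. -/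
noncomputable def wB (x : Ch p 2) (z : Ch p s) : Ch p (s + 1) :=
  mapN (s + 1) (fun k => if k = 0 then 0 else if k = 1 then 1 else s + 1) x *
    mapN (s + 1) (fun k => 1 + k) z

/-- Commutation with a cocycle of degree `2`. -/
theorem comm_two {x : Ch p 2} (hx : d 2 x = 0) {z : Ch p s} (hz : d s z = 0) :
    d (s + 1) (wB x z - (-1 : ℤ) ^ s • wA x z) =
      cup (show 2 + s = s + 2 by omega) x z - cup rfl z x := by
  apply ext_vl
  intro B _ _ u
  have hA : ∀ v : ℕ → G p B, vl (wA x z) v = v2 x (v 0) (v s) (v (s + 1)) * vl z v := by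
    intro v
    rw [wA, vl_mul, vl_mapN _ _ _ (by intro i _; split_ifs <;> omega),
      vl_mapN _ _ _ (by intro i _; omega), vl_eq_v2]
    simp
  have hB : ∀ v : ℕ → G p B, vl (wB x z) v = v2 x (v 0) (v 1) (v (s + 1)) *
      vl z (fun k => v (1 + k)) := by
    intro v
    rw [wB, vl_mul, vl_mapN _ _ _ (by intro i _; split_ifs <;> omega),
      vl_mapN _ _ _ (by intro i _; omega), vl_eq_v2]
    simp
  have hzA : vl (d s z) u = 0 := by rw [hz, vl_zero]
  have hzB : vl (d s z) (fun k => u (1 + k)) = 0 := by rw [hz, vl_zero]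
  rw [vl_d, Finset.sum_range_succ, Finset.sum_range_succ'] at hzA hzB
  rw [_root_.map_sub, _root_.map_zsmul, vl_sub, vl_zsmul, vl_sub, vl_d, vl_d, vl_cup, vl_cup]
  simp only [hA, hB]
  rw [Finset.sum_range_succ _ (s + 2), Finset.sum_range_succ' _ (s + 1),
    Finset.sum_range_succ' _ s, Finset.sum_range_succ _ (s + 2), Finset.sum_range_succ _ (s + 1),
    Finset.sum_range_succ' _ s]
  have eA : ∀ j ∈ range s, (-1 : ℤ) ^ (j + 1) • (v2 x (u (om (j + 1) 0)) (u (om (j + 1) s))
      (u (om (j + 1) (s + 1))) * vl z (fun k => u (om (j + 1) k))) =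
      v2 x (u 0) (u (s + 1)) (u (s + 2)) *
      ((-1 : ℤ) ^ (j + 1) • vl z (fun k => u (om (j + 1) k))) := by
    intro j hj
    rw [mem_range] at hj
    rw [om_lt (by omega), om_ge (by omega), om_ge (by omega), mul_smul_comm]
  have eB : ∀ j ∈ range s, (-1 : ℤ) ^ (j + 1 + 1) • (v2 x (u (om (j + 1 + 1) 0))
      (u (om (j + 1 + 1) 1)) (u (om (j + 1 + 1) (s + 1))) *
      vl z (fun k => u (om (j + 1 + 1) (1 + k)))) =
      - (v2 x (u 0) (u 1) (u (s + 2)) *
      ((-1 : ℤ) ^ (j + 1) • vl z (fun k => u (1 + om (j + 1) k)))) := by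
    intro j hj
    rw [mem_range] at hj
    rw [om_lt (by omega), om_lt (by omega), om_ge (by omega), pow_succ _ (j + 1), mul_neg_one,
      neg_smul, mul_smul_comm]
    congr 5
    funext k
    congr 1
    unfold om
    split_ifs <;> omega
  rw [Finset.sum_congr rfl eA, Finset.sum_congr rfl eB, ← Finset.mul_sum,
    Finset.sum_neg_distrib, ← Finset.mul_sum]
  have z0 : vl z (fun k => u (om (s + 1) k)) = vl z u := vl_congr _ fun i hi => by
    rw [om_lt (by omega)]
  have z0' : vl z (fun k => u (om (s + 2) k)) = vl z u := vl_congr _ fun i hi => by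
    rw [om_lt (by omega)]
  have z1 : (fun k => u (om 0 k)) = fun k => u (1 + k) := by
    funext k
    rw [om_ge (by omega), add_comm]
  have z1' : vl z (fun k => u (1 + om (s + 1) k)) = vl z (fun k => u (1 + k)) :=
    vl_congr _ fun i hi => by rw [om_lt (by omega)]
  have z1'' : vl z (fun k => u (om (s + 2) (1 + k))) = vl z (fun k => u (1 + k)) :=
    vl_congr _ fun i hi => by rw [om_lt (by omega)]
  have z2 : (fun k => u (1 + om 0 k)) = fun k => u (2 + k) := by
    funext k
    rw [om_ge (by omega)]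
    congr 1
    omega
  have z2' : (fun k => u (om 0 (1 + k))) = fun k => u (2 + k) := by
    funext k
    rw [om_ge (by omega)]
    congr 1
    omega
  have z2'' : (fun k => u (om (0 + 1) (1 + k))) = fun k => u (2 + k) := by
    funext k
    rw [om_ge (by omega)]
    congr 1
    omega
  rw [z0, z1] at hzA
  rw [z1', z2] at hzB
  rw [z0, z0', z1, z1'', z2', z2'', vl_eq_v2 x u, vl_eq_v2 x (fun k => u (s + k))]
  have c1 := v2_cocycle hx (u 0) (u 1) (u 2) (u (s + 2))
  have c2 := v2_cocycle hx (u 0) (u 1) (u (s + 1)) (u (s + 2))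
  have c3 := v2_cocycle hx (u 0) (u s) (u (s + 1)) (u (s + 2))
  have o1 : om 0 0 = 1 := rfl
  have o2 : om 0 1 = 2 := rfl
  have o3 : om 0 s = s + 1 := om_ge (by omega)
  have o4 : om 0 (s + 1) = s + 2 := om_ge (by omega)
  have o5 : om (0 + 1) 0 = 0 := rfl
  have o6 : om (0 + 1) 1 = 2 := rfl
  have o7 : om (0 + 1) (s + 1) = s + 2 := om_ge (by omega)
  have o8 : om (s + 1) 0 = 0 := om_lt (by omega)
  have o9 : om (s + 1) s = s := om_lt (by omega)
  have o10 : om (s + 1) (s + 1) = s + 2 := om_ge (by omega)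
  have o11 : om (s + 2) 0 = 0 := om_lt (by omega)
  have o12 : om (s + 2) 1 = 1 := om_lt (by omega)
  have o13 : om (s + 2) s = s := om_lt (by omega)
  have o14 : om (s + 2) (s + 1) = s + 1 := om_lt (by omega)
  rw [o1, o2, o3, o4, o5, o6, o7, o8, o9, o10, o11, o12, o13, o14]
  generalize ∑ j ∈ range s, (-1 : ℤ) ^ (j + 1) • vl z (fun k => u (om (j + 1) k)) = SA at hzA ⊢
  generalize ∑ j ∈ range s, (-1 : ℤ) ^ (j + 1) • vl z (fun k => u (1 + om (j + 1) k)) = SB
    at hzB ⊢
  simp only [sgn_smul] at hzA hzB ⊢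
  simp only [pow_zero, zero_add, pow_succ, Nat.add_zero, one_mul] at hzA hzB ⊢
  have he : (-1 : B) ^ s * (-1 : B) ^ s = 1 := by
    rw [← mul_pow, neg_one_mul, neg_neg, one_pow]
  generalize (-1 : B) ^ s = e at *
  linear_combination (vl z fun k => u (2 + k)) * c1 - v2 x (u 0) (u 1) (u (s + 2)) * hzB -
    e * (vl z fun k => u (1 + k)) * c2 - e * v2 x (u 0) (u (s + 1)) (u (s + 2)) * hzA +
    vl z u * c3 + vl z u * (v2 x (u 0) (u s) (u (s + 2)) - v2 x (u 0) (u s) (u (s + 1)) -
      v2 x (u 0) (u (s + 1)) (u (s + 2))) * he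

end comm

section cobdy

variable {n s : ℕ}

/-- `x ∪ z` is cohomologous to `(-1)^s z ∪ x` for a `1`-cocycle `x` and an `s`-cocycle `z`. -/
theorem isCobdy_comm_one {x : Ch p 1} (hx : d 1 x = 0) {z : Ch p s} (hz : d s z = 0)
    (h : 1 + s = n) (h' : s + 1 = n) :
    IsCobdy (cup h x z - (-1 : ℤ) ^ s • cup h' z x) := by
  subst h'
  refine ⟨-(mapN s (fun k => if k = 0 then 0 else s) x * z), ?_⟩
  rw [_root_.map_neg, comm_one hx, hz, mul_zero]
  abel

/-- `x ∪ z` is cohomologous to `z ∪ x` for a `2`-cocycle `x` and an `s`-cocycle `z`. -/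
theorem isCobdy_comm_two {x : Ch p 2} (hx : d 2 x = 0) {z : Ch p s} (hz : d s z = 0)
    (h : 2 + s = n) (h' : s + 2 = n) :
    IsCobdy (cup h x z - cup h' z x) := by
  subst h'
  exact ⟨_, comm_two hx hz⟩

end cobdy

section mulb0

variable {s : ℕ}

/-- Multiplication by `b_0^k` on the right and on the left agree on cocycles. -/
theorem isCobdy_mulb0_sub_b0mul (k : ℕ) {x : Ch p s} (hx : d s x = 0) :
    IsCobdy (Ch.mulb0 k x - Ch.b0mul k x) := by
  induction k with
  | zero =>
    change IsCobdy (x - x)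
    rw [sub_self]
    exact isCobdy_zero
  | succ k ih =>
    have h1 : IsCobdy (cup (by omega) (b0 p) (Ch.mulb0 k x) - Ch.mulb0 (k + 1) x) :=
      isCobdy_comm_two d_b0 (d_mulb0 k hx) (by omega) (by omega)
    have h2 : IsCobdy (cup (show 2 + (s + 2 * k) = s + 2 * (k + 1) by omega) (b0 p)
        (Ch.mulb0 k x - Ch.b0mul k x)) := IsCobdy.cup_right _ d_b0 ih
    rw [cup_sub_right] at h2
    have h3 := h2.sub h1
    have e : cup (show 2 + (s + 2 * k) = s + 2 * (k + 1) by omega) (b0 p) (Ch.mulb0 k x) -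
        cup (show 2 + (s + 2 * k) = s + 2 * (k + 1) by omega) (b0 p) (Ch.b0mul k x) -
        (cup (show 2 + (s + 2 * k) = s + 2 * (k + 1) by omega) (b0 p) (Ch.mulb0 k x) -
          Ch.mulb0 (k + 1) x) = Ch.mulb0 (k + 1) x - Ch.b0mul (k + 1) x := by
      rw [Ch.b0mul]
      abel
    rw [e] at h3
    exact h3

end mulb0

end Ch

end Vale.Agent.P257.V4.A
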