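import Vale.Agent.P257.V4.A.DvCup

/-!
# P257, V(4): division by `b_τ` in the multigraded engine

`Rel p S τ s e e1 w z`: the connecting relation of the letter `τ` between a cocycle `w` of
`E(S)^s` and a cocycle `z` of `E(S)^(s+2)` of multidegree `e` (`e1 = e - τ`):
there are `α`, `β` in `E(S + τ)` with `z ≡ dE α`, `∂ α ≡ dE β`, `∂^(p-1) β ≡ w`.
-/

namespace Vale.Agent.P257.V4.A.DV

open MvPolynomial MG

variable {p : ℕ} [Fact p.Prime] {S : Finset (ℕ × ℕ)} {τ : ℕ × ℕ}

/-- The connecting relation of the letter `τ`. -/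
def Rel (p : ℕ) (S : Finset (ℕ × ℕ)) (τ : ℕ × ℕ) (s : ℕ) (e e1 : ℕ →₀ ℕ) (w : UC p (s + 1))
    (z : UC p (s + 3)) : Prop :=
  ∃ (α : UC p (s + 2)) (β : UC p (s + 1)), Dep (ES (insert τ S) (s + 1)) α ∧
    Dep (ES (insert τ S) s) β ∧ MH e α ∧ MH e1 β ∧ InJ (z - dE (s + 1) α) ∧
    InJ (pderiv (Fin.last (s + 1), τ) α - dE s β) ∧
    InJ (w - (pderiv (Fin.last s, τ))^[p - 1] β)

/-! ### linearity -/

omit [Fact p.Prime] in
theorem iter_add {s : ℕ} (v : Fin s × (ℕ × ℕ)) (k : ℕ) (a b : UC p s) :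
    (pderiv v)^[k] (a + b) = (pderiv v)^[k] a + (pderiv v)^[k] b := by
  induction k with
  | zero => rfl
  | succ k ih => rw [Function.iterate_succ_apply', ih, map_add, Function.iterate_succ_apply',
      Function.iterate_succ_apply']

theorem iter_smul {s : ℕ} (v : Fin s × (ℕ × ℕ)) (k : ℕ) (c : ZMod p) (a : UC p s) :
    (pderiv v)^[k] (c • a) = c • (pderiv v)^[k] a := by
  induction k with
  | zero => rfl
  | succ k ih => rw [Function.iterate_succ_apply', ih, Derivation.map_smul,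
      Function.iterate_succ_apply']

theorem iter_zero {s : ℕ} (v : Fin s × (ℕ × ℕ)) (k : ℕ) :
    (pderiv v)^[k] (0 : UC p s) = 0 := by
  have := iter_smul v k 0 (0 : UC p s)
  rwa [zero_smul, zero_smul] at this

omit [Fact p.Prime] in
theorem dep_add {n : ℕ} {σ : Set (Fin n × (ℕ × ℕ))} {f g : UC p n} (hf : Dep σ f)
    (hg : Dep σ g) : Dep σ (f + g) := dep_iff.2 (add_mem (dep_iff.1 hf) (dep_iff.1 hg))

theorem dep_smul {n : ℕ} {σ : Set (Fin n × (ℕ × ℕ))} {f : UC p n} (hf : Dep σ f) (c : ZMod p) :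
    Dep σ (c • f) := dep_iff.2 (Subalgebra.smul_mem _ (dep_iff.1 hf) c)

omit [Fact p.Prime] in
theorem dep_zero {n : ℕ} {σ : Set (Fin n × (ℕ × ℕ))} : Dep σ (0 : UC p n) :=
  dep_iff.2 (zero_mem _)

section lin

variable {s n : ℕ} {e e1 e2 : ℕ →₀ ℕ} {w w' : UC p (s + 1)} {z z' : UC p (s + 3)}

theorem Rel.add (h : Rel p S τ s e e1 w z) (h' : Rel p S τ s e e1 w' z') :
    Rel p S τ s e e1 (w + w') (z + z') := by
  obtain ⟨α, β, a1, a2, a3, a4, a5, a6, a7⟩ := h
  obtain ⟨α', β', b1, b2, b3, b4, b5, b6, b7⟩ := h'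
  refine ⟨α + α', β + β', dep_add a1 b1, dep_add a2 b2, a3.add b3, a4.add b4, ?_, ?_, ?_⟩
  · have := a5.add b5
    rwa [sub_add_sub_comm, ← map_add] at this
  · have := a6.add b6
    rwa [sub_add_sub_comm, ← map_add, ← map_add] at this
  · have := a7.add b7
    rwa [sub_add_sub_comm, ← iter_add] at this

theorem Rel.smul (c : ZMod p) (h : Rel p S τ s e e1 w z) :
    Rel p S τ s e e1 (c • w) (c • z) := by
  obtain ⟨α, β, a1, a2, a3, a4, a5, a6, a7⟩ := h
  refine ⟨c • α, c • β, dep_smul a1 c, dep_smul a2 c, a3.smul c, a4.smul c, ?_, ?_, ?_⟩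
  · have := a5.smul c
    rwa [smul_sub, ← map_smul] at this
  · have := a6.smul c
    rwa [smul_sub, ← Derivation.map_smul, ← map_smul] at this
  · have := a7.smul c
    rwa [smul_sub, ← iter_smul] at this

theorem Rel.neg (h : Rel p S τ s e e1 w z) : Rel p S τ s e e1 (-w) (-z) := by
  have := h.smul (-1)
  rwa [neg_smul, one_smul, neg_smul, one_smul] at this

theorem Rel.sub (h : Rel p S τ s e e1 w z) (h' : Rel p S τ s e e1 w' z') :
    Rel p S τ s e e1 (w - w') (z - z') := by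
  rw [sub_eq_add_neg, sub_eq_add_neg]
  exact h.add h'.neg

theorem Rel.zero : Rel p S τ s e e1 0 0 := by
  refine ⟨0, 0, dep_zero, dep_zero, MH.zero _, MH.zero _, ?_, ?_, ?_⟩
  · rw [map_zero, sub_zero]
    exact InJ.zero
  · rw [map_zero, map_zero, sub_zero]
    exact InJ.zero
  · rw [iter_zero, sub_zero]
    exact InJ.zero

theorem Rel.sum {ι : Type} (t : Finset ι) (f : ι → UC p (s + 1)) (g : ι → UC p (s + 3))
    (h : ∀ i ∈ t, Rel p S τ s e e1 (f i) (g i)) :
    Rel p S τ s e e1 (∑ i ∈ t, f i) (∑ i ∈ t, g i) := by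
  classical
  induction t using Finset.induction_on with
  | empty =>
    rw [Finset.sum_empty, Finset.sum_empty]
    exact Rel.zero
  | insert a t ha ih =>
    rw [Finset.sum_insert ha, Finset.sum_insert ha]
    exact (h a (Finset.mem_insert_self _ _)).add
      (ih fun i hi => h i (Finset.mem_insert_of_mem hi))

theorem Rel.congr (h : Rel p S τ s e e1 w z) (hw : InJ (w' - w)) (hz : InJ (z' - z)) :
    Rel p S τ s e e1 w' z' := by
  obtain ⟨α, β, a1, a2, a3, a4, a5, a6, a7⟩ := h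
  refine ⟨α, β, a1, a2, a3, a4, ?_, a6, ?_⟩
  · have := hz.add a5
    rwa [sub_add_sub_cancel] at this
  · have := hw.add a7
    rwa [sub_add_sub_cancel] at this

/-! ### existence -/

/-- Every cocycle of `E(S)` which is a coboundary in `E(S + τ)` is related to a cocycle. -/
theorem Rel.of_bd (hS : Row S) (hτ : τ ∉ S) (he : e = e1 + itv τ.1 τ.2)
    (he1 : e1 = e2 + (p - 1) • itv τ.1 τ.2) (hz : Dep (ES S (s + 2)) z)
    (hB : Bd (insert τ S) (s + 2) e z) (h1 : V p (insert τ S) (s + 1) e1) :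
    ∃ w : UC p (s + 1), Dep (ES S s) w ∧ MH e2 w ∧ InJ (dE s w) ∧ Rel p S τ s e e1 w z := by
  obtain ⟨α, hα1, hα2, hα3⟩ := hB
  have haM : MH e1 (pderiv (Fin.last (s + 1), τ) α) := MH_pderiv _ hα2 he
  have haD : Dep (ES (insert τ S) (s + 1)) (pderiv (Fin.last (s + 1), τ) α) := hα1.pderiv _
  have hda : InJ (dE (s + 1) (pderiv (Fin.last (s + 1), τ) α)) := by
    rw [← pderiv_dE hS hτ hα1]
    have h := InJ_pderiv (Fin.last (s + 2), τ) hα3
    rw [map_sub, pderiv_eq_zero hτ hz, zero_sub] at h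
    have := h.neg
    rwa [neg_neg] at this
  obtain ⟨β, hβ1, hβ2, hβ3⟩ := h1 _ haD haM hda
  obtain ⟨c, hc⟩ : ∃ c, c = (pderiv (Fin.last s, τ))^[p - 1] β := ⟨_, rfl⟩
  have hDc : pderiv (Fin.last s, τ) c = 0 := by
    rw [hc]
    exact pderiv_iter _ _
  have hcut : InJ (c - cut (Fin.last s, τ) c) :=
    InJ_sub_cut _ (by rw [hDc]; exact InJ.zero)
  have hcD : Dep (ES (insert τ S) s) c := by
    rw [hc]
    exact hβ1.iterate_pderiv _ _
  have hcutD : Dep (ES S s) (cut (Fin.last s, τ) c) := by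
    apply Dep.cut
    rw [← ES_insert]
    exact hcD
  have hdc : InJ (dE s c) := by
    rw [hc, ← iter_dE hS hτ _ hβ1]
    have h := InJ_iter (Fin.last (s + 1), τ) (p - 1) hβ3
    rw [iter_sub, ← Function.iterate_succ_apply, Function.iterate_succ_apply', pderiv_iter,
      zero_sub] at h
    have := h.neg
    rwa [neg_neg] at this
  have hdcut : InJ (dE s (cut (Fin.last s, τ) c)) := by
    have := hdc.sub (dE_InJ hcut)
    rwa [map_sub, sub_sub_cancel] at this
  have hcM : MH e2 c := by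
    rw [hc]
    exact MH_iter _ _ hβ2 he1
  refine ⟨cut (Fin.last s, τ) c, hcutD, MH_cut _ hcM, hdcut, α, β, hα1, hβ1, hα2, hβ2, hα3,
    hβ3, ?_⟩
  rw [← hc]
  have := hcut.neg
  rwa [neg_sub] at this

theorem itv_p (he : e = e1 + itv τ.1 τ.2)
    (he1 : e1 = e2 + (p - 1) • itv τ.1 τ.2) : e = e2 + p • itv τ.1 τ.2 := by
  have hp1 : p - 1 + 1 = p := Nat.sub_add_cancel (Fact.out : p.Prime).one_le
  rw [he, he1, add_assoc, ← succ_nsmul, hp1]

/-- A primitive for the iterated derivative. -/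
theorem exists_prim (hτ : τ ∉ S) (he1 : e1 = e2 + (p - 1) • itv τ.1 τ.2) {γ : UC p (s + 1)}
    (hγ1 : Dep (ES S s) γ) (hγ2 : MH e2 γ) :
    ∃ γ' : UC p (s + 1), Dep (ES (insert τ S) s) γ' ∧ MH e1 γ' ∧
      (pderiv (Fin.last s, τ))^[p - 1] γ' = γ := by
  have hp := (Fact.out : p.Prime)
  have hDγ : pderiv (Fin.last s, τ) γ = 0 := pderiv_eq_zero hτ hγ1
  have hfac : (Nat.factorial (p - 1) : ZMod p) ≠ 0 := by
    intro h0
    rw [ZMod.natCast_eq_zero_iff, hp.dvd_factorial] at h0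
    have := hp.pos
    omega
  refine ⟨((Nat.factorial (p - 1) : ZMod p))⁻¹ • (X (Fin.last s, τ) ^ (p - 1) * γ), ?_, ?_, ?_⟩
  · rw [dep_iff]
    refine Subalgebra.smul_mem _ (mul_mem (pow_mem (X_mem_supported.2 ?_) _)
      (dep_iff.1 (hγ1.mono (ES_mono (Finset.subset_insert _ _) _)))) _
    intro _
    exact Finset.mem_insert_self _ _
  · have he1' : e1 = (p - 1) • mw (Fin.last s, τ) + e2 := he1.trans (add_comm _ _)
    rw [he1']
    exact (((MH.X (p := p) (Fin.last s, τ)).pow (p - 1)).mul hγ2).smul _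
  · have h := iter_X_pow (Fin.last s, τ) (p - 1)
      (g := (((Nat.factorial (p - 1) : ZMod p))⁻¹ • γ)) (by
        rw [Derivation.map_smul, hDγ, smul_zero])
    rw [← mul_smul_comm, h, smul_smul, mul_inv_cancel₀ hfac, one_smul]

/-- A cocycle related to a coboundary is a coboundary. -/
theorem Rel.bd (hS : Row S) (hS' : Row (insert τ S)) (hτ : τ ∉ S)
    (he : e = e1 + itv τ.1 τ.2) (he1 : e1 = e2 + (p - 1) • itv τ.1 τ.2)
    (h : Rel p S τ s e e1 w z) (hw : Bd S s e2 w) : Bd S (s + 2) e z := by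
  obtain ⟨α, β, a1, a2, a3, a4, a5, a6, a7⟩ := h
  -- we may assume that the iterated derivative of `β` vanishes
  obtain ⟨β', b2, b4, b6, b7⟩ : ∃ β' : UC p (s + 1), Dep (ES (insert τ S) s) β' ∧ MH e1 β' ∧
      InJ (pderiv (Fin.last (s + 1), τ) α - dE s β') ∧
      InJ ((pderiv (Fin.last s, τ))^[p - 1] β') := by
    rcases s with _ | s
    · refine ⟨β, a2, a4, a6, ?_⟩
      have := (show InJ w from hw).sub a7
      rwa [sub_sub_cancel] at this
    · obtain ⟨γ, hγ1, hγ2, hγ3⟩ := hw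
      obtain ⟨γ', h1, h2, h3⟩ := exists_prim hτ he1 hγ1 hγ2
      refine ⟨β - dE s γ', a2.sub (dE_Dep hS' h1), a4.sub (dE_MH h2), ?_, ?_⟩
      · rw [map_sub, dE_dE, sub_zero]
        exact a6
      · rw [iter_sub, iter_dE hS hτ _ h1, h3]
        have := hγ3.sub a7
        rwa [sub_sub_sub_cancel_left] at this
  have hmem : (Fin.last s, τ) ∈ ES (insert τ S) s := fun _ => Finset.mem_insert_self _ _
  have hδ := b2.intg hmem
  have hδM : MH e (intg (Fin.last s, τ) β') := by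
    rw [he]
    exact MH_intg (Fin.last s, τ) b4
  obtain ⟨α', hα'⟩ : ∃ α', α' = α - dE s (intg (Fin.last s, τ) β') := ⟨_, rfl⟩
  have hD : InJ (pderiv (Fin.last (s + 1), τ) α') := by
    rw [hα', map_sub, pderiv_dE hS hτ hδ]
    have := b6.add (dE_InJ (InJ_sub_intg _ b7))
    rwa [map_sub, sub_add_sub_cancel] at this
  have hα1 : Dep (ES (insert τ S) (s + 1)) α' := by
    rw [hα']
    exact a1.sub (dE_Dep hS' hδ)
  have hα2 : MH e α' := by
    rw [hα']
    exact a3.sub (dE_MH hδM)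
  have hα3 : InJ (z - dE (s + 1) α') := by
    rw [hα', map_sub, dE_dE, sub_zero]
    exact a5
  have hcut := InJ_sub_cut _ hD
  refine ⟨cut (Fin.last (s + 1), τ) α', ?_, MH_cut _ hα2, ?_⟩
  · apply Dep.cut
    rw [← ES_insert]
    exact hα1
  · have := hα3.add (dE_InJ hcut)
    rwa [map_sub, sub_add_sub_cancel] at this

/-- The iterated derivative of a coboundary of `E(S + τ)` is a coboundary of `E(S)`. -/
theorem bd_iter (hS : Row S) (hτ : τ ∉ S) (he1 : e1 = e2 + (p - 1) • itv τ.1 τ.2)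
    {b : UC p (s + 1)} (hb : Bd (insert τ S) s e1 b)
    (hw : InJ (w - (pderiv (Fin.last s, τ))^[p - 1] b)) : Bd S s e2 w := by
  rcases s with _ | s
  · have h3 := InJ_iter (Fin.last 0, τ) (p - 1) (show InJ b from hb)
    exact hw.of_sub h3
  · obtain ⟨β2, d1, d2, d3⟩ := hb
    have h3 := InJ_iter (Fin.last (s + 1), τ) (p - 1) d3
    rw [iter_sub, iter_dE hS hτ _ d1] at h3
    obtain ⟨c, hc⟩ : ∃ c, c = (pderiv (Fin.last s, τ))^[p - 1] β2 := ⟨_, rfl⟩
    have hDc : pderiv (Fin.last s, τ) c = 0 := by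
      rw [hc]
      exact pderiv_iter _ _
    have hcM : MH e2 c := by
      rw [hc]
      exact MH_iter _ _ d2 he1
    have hcD : Dep (ES (insert τ S) s) c := by
      rw [hc]
      exact d1.iterate_pderiv _ _
    rw [← hc] at h3
    have hcut : InJ (c - cut (Fin.last s, τ) c) :=
      InJ_sub_cut _ (by rw [hDc]; exact InJ.zero)
    refine ⟨cut (Fin.last s, τ) c, ?_, MH_cut _ hcM, ?_⟩
    · apply Dep.cut
      rw [← ES_insert]
      exact hcD
    · have := (hw.add h3).add (dE_InJ hcut)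
      rwa [map_sub, sub_add_sub_cancel, sub_add_sub_cancel] at this

theorem iter_pderiv (v : Fin n × (ℕ × ℕ)) (f : UC p n) :
    (pderiv v)^[p - 1] (pderiv v f) = 0 := by
  have h3 := Function.iterate_succ_apply
    (⇑(pderiv v : Derivation (ZMod p) (UC p n) (UC p n))) (p - 1) f
  have h4 := Function.iterate_succ_apply'
    (⇑(pderiv v : Derivation (ZMod p) (UC p n) (UC p n))) (p - 1) f
  rw [← h3, h4]
  exact pderiv_iter _ _

/-- If `z` is a coboundary then `w` is one (needs two vanishing groups). -/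
theorem Rel.bd_of (hS : Row S) (hτ : τ ∉ S)
    (he : e = e1 + itv τ.1 τ.2) (he1 : e1 = e2 + (p - 1) • itv τ.1 τ.2)
    (h : Rel p S τ s e e1 w z) (hz : Bd S (s + 2) e z)
    (h1 : V p (insert τ S) (s + 1) e) (h2 : V p (insert τ S) s e1) : Bd S s e2 w := by
  obtain ⟨α, β, a1, a2, a3, a4, a5, a6, a7⟩ := h
  obtain ⟨g, g1, g2, g3⟩ := hz
  have hg1 : Dep (ES (insert τ S) (s + 1)) g := g1.mono (ES_mono (Finset.subset_insert _ _) _)
  have hc : InJ (dE (s + 1) (α - g)) := by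
    have := g3.sub a5
    rw [sub_sub_sub_cancel_left] at this
    rw [map_sub (dE (s + 1))]
    exact this
  have hB := h1 _ (a1.sub hg1) (a3.sub g2) hc
  obtain ⟨α2, c1, c2, c3⟩ := hB
  have hD : InJ (pderiv (Fin.last (s + 1), τ) α - dE s (pderiv (Fin.last s, τ) α2)) := by
    have := InJ_pderiv (Fin.last (s + 1), τ) c3
    rw [map_sub, map_sub, pderiv_eq_zero hτ g1, sub_zero, pderiv_dE hS hτ c1] at this
    exact this
  have hβ : InJ (dE s (β - pderiv (Fin.last s, τ) α2)) := by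
    have := hD.sub a6
    rw [sub_sub_sub_cancel_left] at this
    rw [map_sub (dE s)]
    exact this
  have hB2 := h2 (β - pderiv (Fin.last s, τ) α2) (a2.sub (c1.pderiv _))
    (a4.sub (MH_pderiv _ c2 he)) hβ
  have h3 : InJ (w - (pderiv (Fin.last s, τ))^[p - 1] (β - pderiv (Fin.last s, τ) α2)) := by
    rw [iter_sub, iter_pderiv (Fin.last s, τ) α2, sub_zero]
    exact a7
  exact bd_iter hS hτ he1 hB2 h3

end lin

end Vale.Agent.P257.V4.A.DV
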