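import Vale.Agent.P257.V4.A.Divide

/-!
# P257, V(4): division by `b_τ`: products, the consequences
-/

namespace Vale.Agent.P257.V4.A.DV

open MvPolynomial MG

variable {p : ℕ} [Fact p.Prime] {S : Finset (ℕ × ℕ)} {τ : ℕ × ℕ}

/-- `b` is a cochain which represents the class of the letter `τ`. -/
structure IsB (p : ℕ) (S : Finset (ℕ × ℕ)) (τ : ℕ × ℕ) (b : UC p 2) : Prop where
  mh : MH (p • itv τ.1 τ.2) b
  dep : Dep (ES (insert τ S) 1) b
  cocy : InJ (UC.d 2 b)
  der : InJ (pderiv (Fin.last 1, τ) b + dE 0 (X (Fin.last 0, τ) ^ (p - 1)))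

theorem iter_ecup_left (hS : Row S) (hτ : τ ∉ S) {a b n : ℕ} (h : a + b = n) (k : ℕ)
    {x : UC p (a + 1)} {y : UC p (b + 1)} (hx : Dep (ES (insert τ S) a) x)
    (hy : Dep (ES S b) y) :
    (pderiv (Fin.last n, τ))^[k] (ecup h x y) = ecup h ((pderiv (Fin.last a, τ))^[k] x) y := by
  induction k with
  | zero => rfl
  | succ k ih =>
    rw [Function.iterate_succ_apply', ih, Function.iterate_succ_apply',
      pderiv_ecup hS hτ h (hx.iterate_pderiv _ k) (hy.mono (ES_mono (Finset.subset_insert _ _) _)),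
      pderiv_eq_zero hτ hy, ecup_zero_right, add_zero]

theorem iter_ecup_right (hS : Row S) (hτ : τ ∉ S) {a b n : ℕ} (h : a + b = n) (k : ℕ)
    {x : UC p (a + 1)} {y : UC p (b + 1)} (hx : Dep (ES S a) x)
    (hy : Dep (ES (insert τ S) b) y) :
    (pderiv (Fin.last n, τ))^[k] (ecup h x y) = ecup h x ((pderiv (Fin.last b, τ))^[k] y) := by
  induction k with
  | zero => rfl
  | succ k ih =>
    rw [Function.iterate_succ_apply', ih, Function.iterate_succ_apply',
      pderiv_ecup hS hτ h (hx.mono (ES_mono (Finset.subset_insert _ _) _)) (hy.iterate_pderiv _ k),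
      pderiv_eq_zero hτ hx, ecup_zero_left, zero_add]

theorem iter_X_last (τ : ℕ × ℕ) :
    (pderiv (Fin.last 0, τ))^[p - 1] (X (Fin.last 0, τ) ^ (p - 1) : UC p 1) = -1 := by
  have h := iter_X_pow (Fin.last 0, τ) (p - 1) (g := (1 : UC p 1)) (Derivation.map_one_eq_zero _)
  rw [mul_one] at h
  rw [h, ZMod.wilsons_lemma, neg_smul, one_smul]

theorem dep_X_last (τ : ℕ × ℕ) (k : ℕ) :
    Dep (ES (insert τ S) 0) (X (Fin.last 0, τ) ^ k : UC p 1) := by
  rw [dep_iff]
  refine pow_mem (X_mem_supported.2 ?_) _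
  intro _
  exact Finset.mem_insert_self _ _

/-- Products: `x y` is related to `x b y`. -/
theorem rel_cup (hS : Row S) (hS' : Row (insert τ S)) (hτ : τ ∉ S) {b : UC p 2}
    (hb : IsB p S τ b) {a c n : ℕ} (h : a + c = n) {x : UC p (a + 1)} {y : UC p (c + 1)}
    (hx : Dep (ES S a) x) (hy : Dep (ES S c) y) {ex ey e e1 : ℕ →₀ ℕ} (hxm : MH ex x)
    (hym : MH ey y) (hxd : InJ (dE a x)) (hyd : InJ (dE c y)) (he : e = e1 + itv τ.1 τ.2)
    (he1 : e1 = ex + ey + (p - 1) • itv τ.1 τ.2) :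
    Rel p S τ n e e1 (ecup h x y)
      (ecup (show (a + 2) + c = n + 2 by omega) (ecup (rfl : a + 2 = a + 2) x (cst b)) y) := by
  have hx' : Dep (ES (insert τ S) a) x := hx.mono (ES_mono (Finset.subset_insert _ _) _)
  have hy' : Dep (ES (insert τ S) c) y := hy.mono (ES_mono (Finset.subset_insert _ _) _)
  have hp1 : p - 1 + 1 = p := Nat.sub_add_cancel (Fact.out : p.Prime).one_le
  have hdb : dE 1 b = UC.d 2 b + cst b := by
    rw [dE_eq]
    norm_num
  have hsq : ((-1 : ZMod p) ^ a) * (-1) ^ a = 1 := by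
    rw [← mul_pow, neg_one_mul, neg_neg, one_pow]
  refine ⟨(-1 : ZMod p) ^ a • ecup (show (a + 1) + c = n + 1 by omega)
      (ecup (rfl : a + 1 = a + 1) x b) y,
    -ecup h (ecup (rfl : a + 0 = a) x (X (Fin.last 0, τ) ^ (p - 1))) y, ?_, ?_, ?_, ?_, ?_, ?_, ?_⟩
  · exact dep_smul (ecup_Dep hS' _ (ecup_Dep hS' _ hx' hb.dep) hy') _
  · have := dep_smul (ecup_Dep hS' h (ecup_Dep hS' (rfl : a + 0 = a) hx'
      (dep_X_last (p := p) (S := S) τ (p - 1))) hy') (-1)
    rwa [neg_smul, one_smul] at this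
  · have := (ecup_MH (show (a + 1) + c = n + 1 by omega)
      (ecup_MH (rfl : a + 1 = a + 1) hxm hb.mh) hym).smul ((-1 : ZMod p) ^ a)
    have e3 : ex + p • itv τ.1 τ.2 + ey = e := by
      rw [he, he1]
      conv_lhs => rw [← hp1]
      rw [succ_nsmul]
      abel
    rwa [e3] at this
  · have := (ecup_MH h (ecup_MH (rfl : a + 0 = a) hxm
      ((MH.X (p := p) ((Fin.last 0, τ) : Fin 1 × (ℕ × ℕ))).pow (p - 1))) hym).neg
    have e3 : ex + (p - 1) • mw ((Fin.last 0, τ) : Fin 1 × (ℕ × ℕ)) + ey = e1 := by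
      rw [he1]
      change ex + (p - 1) • itv τ.1 τ.2 + ey = _
      abel
    rwa [e3] at this
  · rw [map_smul, dE_ecup, dE_ecup, hdb, ecup_add_right, smul_add, smul_add]
    have h1 : InJ (ecup (show (a + 1 + 1) + c = n + 1 + 1 by omega)
        (ecup (show (a + 1) + 1 = a + 1 + 1 by omega) (dE a x) b) y) :=
      ecup_InJ_left _ (ecup_InJ_left _ hxd _) _
    have h2 : InJ (ecup (show (a + 1 + 1) + c = n + 1 + 1 by omega)
        (ecup (show a + (1 + 1) = a + 1 + 1 by omega) x (UC.d 2 b)) y) :=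
      ecup_InJ_left _ (ecup_InJ_right _ _ hb.cocy) _
    have h3 : InJ (ecup (show (a + 1) + (c + 1) = n + 1 + 1 by omega)
        (ecup (rfl : a + 1 = a + 1) x b) (dE c y)) :=
      ecup_InJ_right _ _ hyd
    rw [ecup_add_left, ecup_add_left, ecup_smul_left, ecup_smul_left, smul_add, smul_add, smul_smul,
      smul_smul, hsq, one_smul, one_smul, smul_smul, pow_succ (-1 : ZMod p) a, ← mul_assoc, hsq,
      one_mul, neg_smul, one_smul]
    have h4 := (((h1.smul ((-1 : ZMod p) ^ a)).add h2).sub h3).neg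
    refine (?_ : InJ _)
    convert h4 using 1
    abel
  · rw [Derivation.map_smul, pderiv_ecup hS hτ _ (ecup_Dep hS' _ hx' hb.dep) hy',
      pderiv_ecup hS hτ _ hx' hb.dep, pderiv_eq_zero hτ hx, pderiv_eq_zero hτ hy, ecup_zero_left,
      ecup_zero_right, zero_add, add_zero, map_neg, dE_ecup, dE_ecup, sub_neg_eq_add,
      ecup_add_left, ecup_smul_left]
    have h1 : InJ (ecup (show (a + 1) + c = n + 1 by omega)
        (ecup (show a + 1 + 0 = a + 1 by omega) (dE a x)
          (X (Fin.last 0, τ) ^ (p - 1) : UC p (0 + 1))) y) :=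
      ecup_InJ_left _ (ecup_InJ_left _ hxd _) _
    have h2 : InJ (ecup (show a + (c + 1) = n + 1 by omega)
        (ecup (rfl : a + 0 = a) x (X (Fin.last 0, τ) ^ (p - 1) : UC p (0 + 1))) (dE c y)) :=
      ecup_InJ_right _ _ hyd
    have h3 : InJ (ecup (show (a + 1) + c = n + 1 by omega)
        (ecup (show a + 1 = a + 1 by omega) x (pderiv (Fin.last 1, τ) b +
          dE 0 (X (Fin.last 0, τ) ^ (p - 1)))) y) :=
      ecup_InJ_left _ (ecup_InJ_right _ _ hb.der) _
    rw [ecup_add_right, ecup_add_left] at h3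
    have h4 := (h1.add (h2.smul ((-1 : ZMod p) ^ a))).add (h3.smul ((-1 : ZMod p) ^ a))
    rw [smul_add] at h4
    convert h4 using 1
    abel
  · have hX := dep_X_last (p := p) (S := S) τ (p - 1)
    have h1 : (pderiv (Fin.last n, τ))^[p - 1]
        (ecup h (ecup (rfl : a + 0 = a) x (X (Fin.last 0, τ) ^ (p - 1) : UC p (0 + 1))) y) =
        -ecup h x y := by
      rw [iter_ecup_left hS hτ h _ (ecup_Dep hS' _ hx' hX) hy,
        iter_ecup_right hS hτ _ _ hx hX, iter_X_last]
      have h2 : ecup (rfl : a + 0 = a) x (-1 : UC p (0 + 1)) = -x := by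
        have := ecup_smul_right (rfl : a + 0 = a) (-1) x (1 : UC p (0 + 1))
        rw [neg_smul, one_smul, neg_smul, one_smul] at this
        rw [this]
        congr 1
        exact ecup_one_right' x
      rw [h2]
      have := ecup_smul_left h (-1) x y
      rwa [neg_smul, one_smul, neg_smul, one_smul] at this
    have h2 := iter_smul (Fin.last n, τ) (p - 1) (-1 : ZMod p)
        (ecup h (ecup (rfl : a + 0 = a) x (X (Fin.last 0, τ) ^ (p - 1) : UC p (0 + 1))) y)
    rw [neg_smul, one_smul, neg_smul, one_smul, h1, neg_neg] at h2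
    rw [h2, sub_self]
    exact InJ.zero

end Vale.Agent.P257.V4.A.DV
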