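import Vale.Agent.P257.V4.A.DivideB

/-!
# P257, V(4): division by `b_τ`: the consequences
-/

namespace Vale.Agent.P257.V4.A.DV

open MvPolynomial MG

variable {p : ℕ} [Fact p.Prime] {S : Finset (ℕ × ℕ)} {τ : ℕ × ℕ}

section
variable {s a c n : ℕ} {e e1 e2 ex ey : ℕ →₀ ℕ}

/-! ### cochains without coefficients -/

omit [Fact p.Prime] in
theorem dep_cst (z : UC p s) : Dep (ES S s) (cst z) := by
  have h : Dep (ES ∅ s) (cst z) := by
    rw [cst, map_castSucc_eq]
    exact dep_rename z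
  exact h.mono (ES_mono (Finset.empty_subset _) _)

theorem cst_cocycle {z : UC p s} (h : InJ (UC.d s z)) : InJ (dE s (cst z)) := by
  rw [cst_d]
  exact cst_InJ h

theorem InJ_of_cst {z : UC p s} (h : InJ (cst z)) : InJ z := by
  rw [cst, map_castSucc_eq] at h
  exact InJ_of_rename h

omit [Fact p.Prime] in
theorem MH_of_cst {z : UC p s} (h : MH e (cst z)) : MH e z := by
  rw [cst, map_castSucc_eq] at h
  exact MH_of_rename h

omit [Fact p.Prime] in
theorem exists_cst {g : UC p (s + 1)} (hg : Dep (ES ∅ s) g) : ∃ z : UC p s, cst z = g := by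
  obtain ⟨z, rfl⟩ := exists_rename hg
  exact ⟨z, by rw [cst, map_castSucc_eq]⟩

theorem cst_add (x y : UC p s) : cst (x + y) = cst x + cst y := map_add _ _ _
theorem cst_sub (x y : UC p s) : cst (x - y) = cst x - cst y := map_sub _ _ _
theorem cst_neg (x : UC p s) : cst (-x) = -cst x := map_neg _ _
theorem cst_smul (k : ZMod p) (x : UC p s) : cst (k • x) = k • cst x := map_smul _ _ _

/-- Coboundaries without coefficients. -/
theorem bd_cst_iff {z : UC p (n + 1)} :
    Bd ∅ (n + 1) e (cst z) ↔ ∃ y : UC p n, MH e y ∧ InJ (z - UC.d n y) := by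
  constructor
  · rintro ⟨g, h1, h2, h3⟩
    obtain ⟨y, rfl⟩ := exists_cst h1
    refine ⟨y, MH_of_cst h2, InJ_of_cst ?_⟩
    rw [cst_sub, ← cst_d]
    exact h3
  · rintro ⟨y, h1, h2⟩
    refine ⟨cst y, dep_cst y, cst_MH h1, ?_⟩
    rw [cst_d, ← cst_sub]
    exact cst_InJ h2

/-! ### coboundaries -/

theorem bd_add {x y : UC p (s + 1)} (hx : Bd S s e x) (hy : Bd S s e y) :
    Bd S s e (x + y) := by
  rcases s with _ | s
  · exact InJ.add hx hy
  · obtain ⟨g, a1, a2, a3⟩ := hx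
    obtain ⟨g', b1, b2, b3⟩ := hy
    refine ⟨g + g', dep_add a1 b1, a2.add b2, ?_⟩
    rw [map_add, ← sub_add_sub_comm]
    exact a3.add b3

theorem bd_smul {x : UC p (s + 1)} (hx : Bd S s e x) (k : ZMod p) : Bd S s e (k • x) := by
  rcases s with _ | s
  · exact InJ.smul hx k
  · obtain ⟨g, a1, a2, a3⟩ := hx
    refine ⟨k • g, dep_smul a1 k, a2.smul k, ?_⟩
    rw [map_smul, ← smul_sub]
    exact a3.smul k

theorem bd_neg {x : UC p (s + 1)} (hx : Bd S s e x) : Bd S s e (-x) := by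
  have := bd_smul hx (-1)
  rwa [neg_smul, one_smul] at this

theorem bd_sub {x y : UC p (s + 1)} (hx : Bd S s e x) (hy : Bd S s e y) :
    Bd S s e (x - y) := by
  rw [sub_eq_add_neg]
  exact bd_add hx (bd_neg hy)

theorem bd_congr {x y : UC p (s + 1)} (hx : Bd S s e x) (h : InJ (y - x)) : Bd S s e y := by
  rcases s with _ | s
  · exact h.of_sub hx
  · obtain ⟨g, a1, a2, a3⟩ := hx
    refine ⟨g, a1, a2, ?_⟩
    have := h.add a3
    rwa [sub_add_sub_cancel] at this

omit [Fact p.Prime] in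
theorem bd_mono {S' : Finset (ℕ × ℕ)} (h : S ⊆ S') {x : UC p (s + 1)} (hx : Bd S s e x) :
    Bd S' s e x := by
  rcases s with _ | s
  · exact hx
  · obtain ⟨g, a1, a2, a3⟩ := hx
    exact ⟨g, a1.mono (ES_mono h _), a2, a3⟩

/-- Product of a coboundary with a cocycle. -/
theorem bd_ecup_right (hS : Row S) (h : a + c = n) {x : UC p (a + 1)} {y : UC p (c + 1)}
    (hx : Bd S a ex x) (hy : Dep (ES S c) y) (hym : MH ey y) (hyd : InJ (dE c y)) :
    Bd S n (ex + ey) (ecup h x y) := by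
  rcases a with _ | a
  · have h1 : InJ (ecup h x y) := ecup_InJ_left _ hx _
    rcases n with _ | n
    · exact h1
    · refine ⟨0, dep_zero, MH.zero _, ?_⟩
      rw [map_zero, sub_zero]
      exact h1
  · obtain ⟨g, a1, a2, a3⟩ := hx
    obtain ⟨m, rfl⟩ : ∃ m, n = m + 1 := ⟨a + c, by omega⟩
    refine ⟨ecup (show a + c = m by omega) g y, ecup_Dep hS _ a1 hy, ecup_MH _ a2 hym, ?_⟩
    rw [dE_ecup, ← sub_sub, ← ecup_sub_left]
    exact (ecup_InJ_left _ a3 _).sub ((ecup_InJ_right _ _ hyd).smul _)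

/-! ### from `E(S + τ)` to `E(S)` -/

/-- A cocycle of `E(S)` which is a coboundary in `E(S + τ)` is a coboundary in `E(S)` (two
vanishing groups). -/
theorem bd_back {f : UC p (s + 1)} (hS : Row S) (hS' : Row (insert τ S)) (hτ : τ ∉ S)
    (he : e = e1 + itv τ.1 τ.2) (hf : Dep (ES S s) f)
    (hB : Bd (insert τ S) s e f)
    (h1 : ∀ t, s = t + 1 → V p (insert τ S) t e1)
    (h2 : ∀ t, s = t + 2 → ∀ e2, e = e2 + p • itv τ.1 τ.2 → V p S t e2) : Bd S s e f := by
  rcases s with _ | s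
  · exact hB
  · obtain ⟨α, hα1, hα2, hα3⟩ := hB
    have haM : MH e1 (pderiv (Fin.last s, τ) α) := MH_pderiv _ hα2 he
    have haD : Dep (ES (insert τ S) s) (pderiv (Fin.last s, τ) α) := hα1.pderiv _
    have hda : InJ (dE s (pderiv (Fin.last s, τ) α)) := by
      rw [← pderiv_dE hS hτ hα1]
      have h := InJ_pderiv (Fin.last (s + 1), τ) hα3
      rw [map_sub, pderiv_eq_zero hτ hf, zero_sub] at h
      have := h.neg
      rwa [neg_neg] at this
    obtain ⟨α', h1', h2', h3', h4'⟩ : ∃ α' : UC p (s + 1), Dep (ES (insert τ S) s) α' ∧ MH e α' ∧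
        InJ (f - dE s α') ∧ InJ (pderiv (Fin.last s, τ) α') := by
      rcases s with _ | t
      · exact ⟨α, hα1, hα2, hα3, h1 0 rfl _ haD haM hda⟩
      · have hDa : InJ ((pderiv (Fin.last (t + 1), τ))^[p - 1]
            (pderiv (Fin.last (t + 1), τ) α)) := by
          rw [iter_pderiv]
          exact InJ.zero
        obtain ⟨δ, hδ1, hδ2, hδ3⟩ := step_delta hS hS' hτ he (h1 (t + 1) rfl)
          (fun e2 he2 => h2 t rfl e2 he2) haD haM hda hDa
        refine ⟨α - dE t δ, hα1.sub (dE_Dep hS' hδ1), hα2.sub (dE_MH hδ2), ?_, ?_⟩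
        · rw [map_sub, dE_dE, sub_zero]
          exact hα3
        · rw [map_sub]
          exact hδ3
    have hcut := InJ_sub_cut _ h4'
    refine ⟨cut (Fin.last s, τ) α', ?_, MH_cut _ h2', ?_⟩
    · apply Dep.cut
      rw [← ES_insert]
      exact h1'
    · have := h3'.add (dE_InJ hcut)
      rwa [map_sub, sub_add_sub_cancel] at this

/-! ### division -/

/-- `x` is related to `x b`. -/
theorem rel_mul (hS : Row S) (hS' : Row (insert τ S)) (hτ : τ ∉ S) {b : UC p 2}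
    (hb : IsB p S τ b) {x : UC p (a + 1)} (hx : Dep (ES S a) x) (hxm : MH ex x)
    (hxd : InJ (dE a x)) (he : e = e1 + itv τ.1 τ.2)
    (he1 : e1 = ex + (p - 1) • itv τ.1 τ.2) :
    Rel p S τ a e e1 x (ecup (rfl : a + 2 = a + 2) x (cst b)) := by
  have h1 : InJ (dE 0 (1 : UC p 1)) := by
    have : dE 0 (1 : UC p 1) = 0 := by
      rw [dE_apply, Fin.sum_univ_two, map_one, map_one]
      simp
    rw [this]
    exact InJ.zero
  have h := rel_cup hS hS' hτ hb (rfl : a + 0 = a) hx (dep_iff.2 (one_mem _)) hxm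
    (MH.one (p := p) (s := 1)) hxd h1 he (by rw [he1, add_zero])
  have e2 : ecup (rfl : a + 0 = a) x (1 : UC p (0 + 1)) = x := ecup_one_right' x
  have e3 : ecup (show a + 2 + 0 = a + 2 by omega) (ecup (rfl : a + 2 = a + 2) x (cst b))
      (1 : UC p (0 + 1)) = ecup (rfl : a + 2 = a + 2) x (cst b) :=
    ecup_one_right' (ecup (rfl : a + 2 = a + 2) x (cst b))
  rw [e2, e3] at h
  exact h

/-- Products of cochains without coefficients: `x y` is related to `x b y`. -/
theorem rel_cup_cst (hS : Row S) (hS' : Row (insert τ S)) (hτ : τ ∉ S) {b : UC p 2}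
    (hb : IsB p S τ b) (h : a + c = n) {x : UC p a} {y : UC p c} (hxm : MH ex x) (hym : MH ey y)
    (hxd : InJ (UC.d a x)) (hyd : InJ (UC.d c y)) (he : e = e1 + itv τ.1 τ.2)
    (he1 : e1 = ex + ey + (p - 1) • itv τ.1 τ.2) :
    Rel p S τ n e e1 (cst (UC.cup h x y)) (cst (UC.cup (show (a + 2) + c = n + 2 by omega)
      (UC.cup (rfl : a + 2 = a + 2) x b) y)) := by
  rw [cst_cup, cst_cup, cst_cup]
  exact rel_cup hS hS' hτ hb h (dep_cst x) (dep_cst y) (cst_MH hxm) (cst_MH hym)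
    (cst_cocycle hxd) (cst_cocycle hyd) he he1

/-- `x` is related to `x b`, without coefficients. -/
theorem rel_mul_cst (hS : Row S) (hS' : Row (insert τ S)) (hτ : τ ∉ S) {b : UC p 2}
    (hb : IsB p S τ b) {x : UC p a} (hxm : MH ex x)
    (hxd : InJ (UC.d a x)) (he : e = e1 + itv τ.1 τ.2)
    (he1 : e1 = ex + (p - 1) • itv τ.1 τ.2) :
    Rel p S τ a e e1 (cst x) (cst (UC.cup (rfl : a + 2 = a + 2) x b)) := by
  rw [cst_cup]
  exact rel_mul hS hS' hτ hb (dep_cst x) (cst_MH hxm) (cst_cocycle hxd) he he1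

/-- Division: every cocycle of `E(S)^(s+2)` is `w b` plus a coboundary. -/
theorem exists_div (hS : Row S) (hS' : Row (insert τ S)) (hτ : τ ∉ S) {b : UC p 2}
    (hb : IsB p S τ b) (he : e = e1 + itv τ.1 τ.2) (he1 : e1 = e2 + (p - 1) • itv τ.1 τ.2)
    (h1 : V p (insert τ S) (s + 2) e) (h2 : V p (insert τ S) (s + 1) e1)
    {z : UC p (s + 3)} (hz : Dep (ES S (s + 2)) z) (hzm : MH e z) (hzd : InJ (dE (s + 2) z)) :
    ∃ w : UC p (s + 1), Dep (ES S s) w ∧ MH e2 w ∧ InJ (dE s w) ∧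
      Bd S (s + 2) e (z - ecup (rfl : s + 2 = s + 2) w (cst b)) := by
  have hB := h1 z (hz.mono (ES_mono (Finset.subset_insert _ _) _)) hzm hzd
  obtain ⟨w, w1, w2, w3, w4⟩ := Rel.of_bd hS hτ he he1 hz hB h2
  refine ⟨w, w1, w2, w3, ?_⟩
  have h := w4.sub (rel_mul hS hS' hτ hb w1 w2 w3 he he1)
  rw [sub_self] at h
  refine h.bd hS hS' hτ he he1 ?_
  rcases s with _ | s
  · exact InJ.zero
  · refine ⟨0, dep_zero, MH.zero _, ?_⟩
    rw [map_zero, sub_zero]
    exact InJ.zero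

/-- If `x b` is a coboundary then `x` is one: the form for cochains. -/
theorem desc_cup (hS' : Row (insert τ ∅)) {b : UC p 2} (hb : IsB p ∅ τ b)
    {x : UC p (n + 1)} (hxm : MH ex x) (hxd : InJ (UC.d (n + 1) x))
    (he : e = e1 + itv τ.1 τ.2) (he1 : e1 = ex + (p - 1) • itv τ.1 τ.2)
    (h1 : V p (insert τ ∅) (n + 2) e) (h2 : V p (insert τ ∅) (n + 1) e1)
    (hy : ∃ f : UC p (n + 2), MH e f ∧
      InJ (UC.cup (rfl : (n + 1) + 2 = n + 1 + 2) x b - UC.d (n + 2) f)) :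
    ∃ y : UC p n, MH ex y ∧ InJ (x - UC.d n y) := by
  have hS : Row ∅ := fun _ _ _ h _ => absurd h (Finset.notMem_empty _)
  have hR := rel_mul_cst hS hS' (Finset.notMem_empty τ) hb hxm hxd he he1
  rw [← bd_cst_iff]
  refine hR.bd_of hS (Finset.notMem_empty τ) he he1 ?_ h1 h2
  exact bd_cst_iff.2 hy

end

end Vale.Agent.P257.V4.A.DV
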