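import Vale.Agent.P257.V4.A.Phi

/-!
# P257, part A: values of cochains of the unitriangular model, Leibniz rule

`UV.vl x u` is the value of `x : UC p s` on the sequence `u 0, …, u s` of unitriangular matrices.
-/

namespace Vale.Agent.P257.V4.A.UV

open MvPolynomial Finset

variable {p : ℕ} {B C : Type} [CommRing B] [Algebra (ZMod p) B] [CommRing C]
  [Algebra (ZMod p) C] {s m n a b : ℕ}

/-- the chain with vertices `u 0, …, u s` up to right translation -/
def uch (s : ℕ) (u : ℕ → Un B) : UChain s B where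
  g i := u i * (u 0)⁻¹
  zero := mul_inv_cancel _

/-- the value of a cochain on a sequence of matrices -/
noncomputable def vl (x : UC p s) (u : ℕ → Un B) : B := UC.ev (uch s u) x

theorem vl_congr (x : UC p s) {u v : ℕ → Un B} (h : ∀ i ≤ s, u i = v i) : vl x u = vl x v := by
  have : uch s u = uch s v := by
    ext1
    funext i
    change u i * (u 0)⁻¹ = v i * (v 0)⁻¹
    rw [h i (by omega), h 0 (by omega)]
  rw [vl, vl, this]

theorem vl_mul_right (x : UC p s) (u : ℕ → Un B) (g : Un B) :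
    vl x (fun i => u i * g) = vl x u := by
  have : uch s (fun i => u i * g) = uch s u := by
    ext1
    funext i
    change u i * g * (u 0 * g)⁻¹ = u i * (u 0)⁻¹
    group
  rw [vl, vl, this]

@[simp] theorem vl_add (x y : UC p s) (u : ℕ → Un B) : vl (x + y) u = vl x u + vl y u :=
  map_add _ _ _
@[simp] theorem vl_sub (x y : UC p s) (u : ℕ → Un B) : vl (x - y) u = vl x u - vl y u :=
  map_sub _ _ _
@[simp] theorem vl_neg (x : UC p s) (u : ℕ → Un B) : vl (-x) u = -vl x u :=
  map_neg _ _
@[simp] theorem vl_zero (u : ℕ → Un B) : vl (0 : UC p s) u = 0 :=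
  map_zero _
@[simp] theorem vl_one (u : ℕ → Un B) : vl (1 : UC p s) u = 1 :=
  map_one _
@[simp] theorem vl_mul (x y : UC p s) (u : ℕ → Un B) : vl (x * y) u = vl x u * vl y u :=
  map_mul _ _ _
@[simp] theorem vl_pow (x : UC p s) (k : ℕ) (u : ℕ → Un B) : vl (x ^ k) u = vl x u ^ k :=
  map_pow _ _ _
@[simp] theorem vl_smul (k : ZMod p) (x : UC p s) (u : ℕ → Un B) :
    vl (k • x) u = k • vl x u := map_smul _ _ _
@[simp] theorem vl_zsmul (k : ℤ) (x : UC p s) (u : ℕ → Un B) : vl (k • x) u = k • vl x u :=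
  map_zsmul _ _ _
theorem vl_sum {ι : Type} (t : Finset ι) (f : ι → UC p s) (u : ℕ → Un B) :
    vl (∑ i ∈ t, f i) u = ∑ i ∈ t, vl (f i) u :=
  map_sum _ _ _

/-- a variable -/
theorem vl_X (r : Fin s) (i k : ℕ) (u : ℕ → Un B) :
    vl (X (r, (i, k)) : UC p s) u = (u (r + 1) * (u 0)⁻¹).e i (k + 1) := by
  rw [vl, UC.ev_X]
  rfl

theorem ev_eq_vl (c : UChain s B) (x : UC p s) :
    UC.ev c x = vl x (fun i => if h : i < s + 1 then c.g ⟨i, h⟩ else 1) := by
  have : c = uch s (fun i => if h : i < s + 1 then c.g ⟨i, h⟩ else 1) := by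
    ext1
    funext i
    change c.g i = (if h : (i : ℕ) < s + 1 then c.g ⟨i, h⟩ else 1) *
      (if h : 0 < s + 1 then c.g ⟨0, h⟩ else 1)⁻¹
    rw [dif_pos i.2, dif_pos (Nat.succ_pos s)]
    have : c.g ⟨0, Nat.succ_pos s⟩ = 1 := c.zero
    rw [this, inv_one, mul_one]
  rw [vl, ← this]

theorem ext_vl {x y : UC p s}
    (h : ∀ (B : Type) [CommRing B] [Algebra (ZMod p) B] (u : ℕ → Un B), vl x u = vl y u) :
    x = y := by
  have h1 := ev_eq_vl (UC.univ p s) x
  have h2 := ev_eq_vl (UC.univ p s) y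
  rw [UC.ev_univ] at h1 h2
  rw [h1, h2, h]

theorem vl_map (α : Fin (m + 1) → Fin (n + 1)) (a : ℕ → ℕ) (ha : ∀ i : Fin (m + 1), a i = α i)
    (x : UC p m) (u : ℕ → Un B) : vl (UC.map α x) u = vl x (fun i => u (a i)) := by
  have : (uch n u).res α = uch m (fun i => u (a i)) := by
    ext1
    funext i
    change u (α i) * (u 0)⁻¹ * (u (α 0) * (u 0)⁻¹)⁻¹ = u (a i) * (u (a 0))⁻¹
    have h0 : a 0 = α 0 := ha 0
    rw [ha i, h0]
    group
  rw [vl, ← UC.ev_res, vl, this]

/-- the injection of `ℕ` which omits `i` -/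
def om (i k : ℕ) : ℕ := if k < i then k else k + 1

theorem om_lt {i k : ℕ} (h : k < i) : om i k = k := if_pos h
theorem om_ge {i k : ℕ} (h : i ≤ k) : om i k = k + 1 := if_neg (by omega)

theorem vl_d (x : UC p s) (u : ℕ → Un B) :
    vl (UC.d s x) u = ∑ i ∈ range (s + 2), (-1 : B) ^ i * vl x (fun k => u (om i k)) := by
  rw [UC.d_apply, vl_sum, Finset.sum_range]
  refine Finset.sum_congr rfl fun i _ => ?_
  rw [vl_smul, Algebra.smul_def, map_pow, map_neg, map_one]
  congr 1
  apply vl_map
  intro k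
  rw [Fin.succAbove, om]
  simp only [Fin.lt_def, Fin.val_castSucc]
  split_ifs <;> rfl

theorem vl_cup (h : a + b = n) (x : UC p a) (y : UC p b) (u : ℕ → Un B) :
    vl (UC.cup h x y) u = vl x u * vl y (fun k => u (a + k)) := by
  have h1 : vl (UC.map (Ch.front (show a ≤ n by omega)) x) u = vl x u :=
    vl_map (Ch.front (show a ≤ n by omega)) (fun i => i) (fun _ => rfl) x u
  have h2 : vl (UC.map (Ch.back (show b ≤ n by omega)) y) u = vl y (fun k => u (a + k)) := by
    apply vl_map _ (fun i => a + i)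
    intro i
    change a + (i : ℕ) = n - b + i
    omega
  rw [UC.cup, vl_mul, h1, h2]

/-- The Leibniz rule. -/
theorem d_cup (h : a + b = n) (x : UC p a) (y : UC p b) :
    UC.d n (UC.cup h x y) = UC.cup (show (a + 1) + b = n + 1 by omega) (UC.d a x) y +
      ((-1 : ZMod p) ^ a) • UC.cup (show a + (b + 1) = n + 1 by omega) x (UC.d b y) := by
  subst h
  apply ext_vl
  intro B _ _ u
  rw [vl_add, vl_smul, vl_cup, vl_cup, vl_d, vl_d, vl_d, Algebra.smul_def, map_pow, map_neg,
    map_one]
  have hc : ∀ i, vl (UC.cup (rfl : a + b = a + b) x y) (fun k => u (om i k)) =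
      vl x (fun k => u (om i k)) * vl y (fun k => u (om i (a + k))) := fun i => vl_cup _ _ _ _
  simp only [hc]
  have e1 : a + b + 2 = (a + 1) + (b + 1) := by omega
  rw [e1, Finset.sum_range_add, Finset.sum_range_succ _ (a + 1), Finset.sum_range_succ' _ (b + 1)]
  have hA : ∑ i ∈ range (a + 1), (-1 : B) ^ i * (vl x (fun k => u (om i k)) *
      vl y (fun k => u (om i (a + k)))) =
      (∑ i ∈ range (a + 1), (-1 : B) ^ i * vl x (fun k => u (om i k))) *
        vl y (fun k => u (a + 1 + k)) := by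
    rw [Finset.sum_mul]
    refine Finset.sum_congr rfl fun i hi => ?_
    have hi := mem_range.1 hi
    have : vl y (fun k => u (om i (a + k))) = vl y (fun k => u (a + 1 + k)) :=
      vl_congr _ fun k _ => by
        rw [om_ge (by omega)]
        congr 1
        omega
    rw [this]
    ring
  have hB : ∑ i ∈ range (b + 1), (-1 : B) ^ (a + 1 + i) *
      (vl x (fun k => u (om (a + 1 + i) k)) * vl y (fun k => u (om (a + 1 + i) (a + k)))) =
      (-1 : B) ^ a * (vl x u * ∑ i ∈ range (b + 1), (-1 : B) ^ (i + 1) *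
        vl y (fun k => u (a + om (i + 1) k))) := by
    rw [Finset.mul_sum, Finset.mul_sum]
    refine Finset.sum_congr rfl fun i _ => ?_
    have h1 : vl x (fun k => u (om (a + 1 + i) k)) = vl x u :=
      vl_congr _ fun k hk => by
        rw [om_lt (by omega)]
    have h2 : vl y (fun k => u (om (a + 1 + i) (a + k))) = vl y (fun k => u (a + om (i + 1) k)) :=
      vl_congr _ fun k _ => by
        congr 1
        rw [om, om]
        split_ifs <;> omega
    rw [h1, h2]
    ring
  rw [hA, hB]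
  have h3 : vl x (fun k => u (om (a + 1) k)) = vl x u :=
    vl_congr _ fun k hk => by
      rw [om_lt (by omega)]
  have h4 : vl y (fun k => u (a + om 0 k)) = vl y (fun k => u (a + 1 + k)) :=
    vl_congr _ fun k _ => by
      rw [om_ge (by omega)]
      congr 1
      omega
  rw [h3, h4]
  ring

end Vale.Agent.P257.V4.A.UV
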