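import Vale.Agent.P257.V4.A.MG4
import Vale.Agent.P257.V4.A.UVal

/-!
# P257, V(4): products of cochains with coefficients

Cochains with coefficients are elements of `UC p (s+1)` (the last vertex is the coefficient
variable).  `ecup` is their product.  `Rel` is the connecting relation of a letter `τ`: it
links a cocycle `w` of `E(S)^s` with a cocycle `z` of `E(S)^(s+2)`, and `w` goes to `w b`.
-/

namespace Vale.Agent.P257.V4.A.DV

open MvPolynomial MG

variable {p : ℕ} {S : Finset (ℕ × ℕ)} {τ : ℕ × ℕ}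

/-! ### maps of vertices which keep the last one -/

/-- A map of vertices which keeps the last one (and only this goes to the last one). -/
structure Lst {m n : ℕ} (α : Fin (m + 2) → Fin (n + 2)) : Prop where
  last : α (Fin.last (m + 1)) = Fin.last (n + 1)
  ne : ∀ k, k ≠ Fin.last (m + 1) → α k ≠ Fin.last (n + 1)

theorem Lst.zero {m n : ℕ} {α : Fin (m + 2) → Fin (n + 2)} (h : Lst α) :
    α 0 ≠ Fin.last (n + 1) := h.ne 0 (by
  intro h
  have := congrArg Fin.val h
  simp at this)

theorem pderiv_mapL_X {m n : ℕ} (hS : Row S) (hτ : τ ∉ S) {α : Fin (m + 2) → Fin (n + 2)}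
    (hα : Lst α) (v : Fin (m + 1) × (ℕ × ℕ)) (hv : v ∈ ES (insert τ S) m) :
    pderiv (Fin.last n, τ) (UC.map α (X v : UC p (m + 1)) : UC p (n + 1)) =
      UC.map α (pderiv (Fin.last m, τ) (X v : UC p (m + 1))) := by
  classical
  obtain ⟨r, ⟨a, b⟩⟩ := v
  set K := kerSub (pderiv (Fin.last n, τ) :
    Derivation (ZMod p) (UC p (n + 1)) (UC p (n + 1))) with hK
  have hc : ∀ a k, (((UC.univ p (n + 1)).g (α 0))⁻¹).e a k ∈ K :=
    un_inv_mem K _ fun a k => univ_mem_ker τ _ hα.zero a k
  rw [UC.map_X]
  by_cases hr : r = Fin.last m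
  · subst hr
    have eu : (UC.univ p (n + 1)).g (Fin.last (n + 1)) =
        Un.mk' fun i k => X (Fin.last n, (i, k)) := by
      rw [← Fin.succ_last]
      exact UC.univ_g_succ _
    rw [Fin.succ_last, hα.last, eu, Un.mul_e, map_sum]
    have h1 : ∀ x ∈ Finset.HasAntidiagonal.antidiagonal (b + 1),
        pderiv (Fin.last n, τ) ((Un.mk' fun i k => X (Fin.last n, (i, k)) :
          Un (UC p (n + 1))).e a x.1 * (((UC.univ p (n + 1)).g (α 0))⁻¹).e (a + x.1) x.2) =
        if x = (b + 1, 0) ∧ (a, b) = τ then 1 else 0 := by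
      rintro ⟨x, y⟩ hx
      rw [Finset.HasAntidiagonal.mem_antidiagonal] at hx
      dsimp only at hx ⊢
      rw [Derivation.leibniz, show pderiv (Fin.last n, τ)
        ((((UC.univ p (n + 1)).g (α 0))⁻¹).e (a + x) y) = 0 from hc _ _, smul_zero, zero_add]
      rcases x with _ | x
      · rw [Un.e_zero, Derivation.map_one_eq_zero, smul_zero, if_neg]
        rintro ⟨h, -⟩
        simp at h
      · rw [Un.mk'_e_succ]
        by_cases hx2 : (a, x) = τ
        · rw [hx2, pderiv_X_self]
          by_cases hxb : x = b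
          · subst hxb
            have hy : y = 0 := by omega
            subst hy
            rw [Un.e_zero, if_pos ⟨rfl, hx2⟩, smul_eq_mul, mul_one]
          · exfalso
            have h3 : (a, b) ∈ insert τ S := hv rfl
            rcases Finset.mem_insert.1 h3 with h4 | h4
            · rw [← h4] at hx2
              exact hxb (congrArg Prod.snd hx2)
            · exact hτ (hx2 ▸ hS a b x h4 (by omega))
        · rw [pderiv_X_of_ne, smul_zero, if_neg]
          · rintro ⟨h, h2⟩
            rw [Prod.mk.injEq] at h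
            have : x = b := by omega
            exact hx2 (this ▸ h2)
          · intro h
            exact hx2 (congrArg Prod.snd h)
    rw [Finset.sum_congr rfl h1]
    by_cases h2 : (a, b) = τ
    · rw [h2, pderiv_X_self, map_one, Finset.sum_eq_single (b + 1, 0)]
      · rw [if_pos ⟨rfl, rfl⟩]
      · intro x _ hx
        rw [if_neg]
        exact fun h => hx h.1
      · intro h
        exact (h (Finset.HasAntidiagonal.mem_antidiagonal.2 (by simp))).elim
    · rw [pderiv_X_of_ne, map_zero]
      · refine Finset.sum_eq_zero fun x _ => ?_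
        rw [if_neg]
        exact fun h => h2 h.2
      · intro h
        exact h2 (congrArg Prod.snd h)
  · rw [pderiv_X_of_ne, map_zero]
    · refine un_mul_mem K _ _ (fun a k => univ_mem_ker τ _ (hα.ne _ ?_) a k) hc _ _
      rw [← Fin.succ_last]
      intro h
      exact hr (Fin.succ_injective _ h)
    · intro h
      exact hr (congrArg Prod.fst h)

theorem pderiv_mapL {m n : ℕ} (hS : Row S) (hτ : τ ∉ S) {α : Fin (m + 2) → Fin (n + 2)}
    (hα : Lst α) {f : UC p (m + 1)} (hf : Dep (ES (insert τ S) m) f) :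
    pderiv (Fin.last n, τ) (UC.map α f : UC p (n + 1)) =
      UC.map α (pderiv (Fin.last m, τ) f) := by
  have h := dep_iff.1 hf
  rw [supported_eq_adjoin_X] at h
  induction h using Algebra.adjoin_induction with
  | mem x hx =>
    obtain ⟨v, hv, rfl⟩ := hx
    exact pderiv_mapL_X hS hτ hα v hv
  | algebraMap c =>
    rw [AlgHom.commutes, Derivation.map_algebraMap, Derivation.map_algebraMap, map_zero]
  | add x y hx hy ihx ihy =>
    rw [map_add, map_add, map_add, map_add, ihx (dep_iff.2 hx), ihy (dep_iff.2 hy)]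
  | mul x y hx hy ihx ihy =>
    rw [map_mul, Derivation.leibniz, Derivation.leibniz, map_add, smul_eq_mul, smul_eq_mul,
      smul_eq_mul, smul_eq_mul, map_mul, map_mul, ihx (dep_iff.2 hx), ihy (dep_iff.2 hy)]

theorem dep_mapL [Fact p.Prime] {m n : ℕ} (hS : Row S) {α : Fin (m + 2) → Fin (n + 2)}
    (hα : Lst α) {f : UC p (m + 1)} (hf : Dep (ES S m) f) : Dep (ES S n) (UC.map α f) := by
  rw [dep_iff] at hf ⊢
  set K := (supported (ZMod p) (ES S n)).toSubring with hK
  have hc : ∀ a k, (((UC.univ p (n + 1)).g (α 0))⁻¹).e a k ∈ K :=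
    un_inv_mem K _ fun a k => univ_mem_supp S _ hα.zero a k
  rw [supported_eq_adjoin_X] at hf
  induction hf using Algebra.adjoin_induction with
  | algebraMap c => rw [AlgHom.commutes]; exact Subalgebra.algebraMap_mem _ _
  | add x y _ _ ihx ihy => rw [map_add]; exact add_mem ihx ihy
  | mul x y _ _ ihx ihy => rw [map_mul]; exact mul_mem ihx ihy
  | mem x hx =>
    obtain ⟨⟨r, ⟨a, b⟩⟩, hv, rfl⟩ := hx
    change _ ∈ K
    rw [UC.map_X]
    by_cases hr : r = Fin.last m
    · subst hr
      have eu : (UC.univ p (n + 1)).g (Fin.last (n + 1)) =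
          Un.mk' fun i k => X (Fin.last n, (i, k)) := by
        rw [← Fin.succ_last]
        exact UC.univ_g_succ _
      rw [Fin.succ_last, hα.last, eu, Un.mul_e]
      refine K.sum_mem fun x hx => K.mul_mem ?_ (hc _ _)
      rw [Finset.HasAntidiagonal.mem_antidiagonal] at hx
      obtain ⟨x, y⟩ := x
      dsimp only at hx ⊢
      rcases x with _ | x
      · rw [Un.e_zero]
        exact K.one_mem
      · rw [Un.mk'_e_succ]
        refine X_mem_supported.2 ?_
        intro _
        have h3 : (a, b) ∈ S := hv rfl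
        by_cases hxb : x = b
        · rwa [hxb]
        · exact hS a b x h3 (by omega)
    · refine un_mul_mem K _ _ (fun a k => univ_mem_supp S _ (hα.ne _ ?_) a k) hc _ _
      rw [← Fin.succ_last]
      intro h
      exact hr (Fin.succ_injective _ h)

/-! ### the product of cochains with coefficients -/

/-- vertices `0..a` and the last one -/
def ef {a n : ℕ} (h : a ≤ n) (i : Fin (a + 2)) : Fin (n + 2) :=
  ⟨if (i : ℕ) ≤ a then i else n + 1, by split_ifs <;> omega⟩

/-- vertices `a..a+b+1` -/
def eb {a b n : ℕ} (h : a + b = n) (i : Fin (b + 2)) : Fin (n + 2) :=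
  ⟨a + i, by omega⟩

theorem lst_ef {a n : ℕ} (h : a ≤ n) : Lst (ef h) := by
  constructor
  · apply Fin.ext
    simp [ef]
  · intro k hk h1
    apply hk
    apply Fin.ext
    have h2 := congrArg Fin.val h1
    have := k.2
    simp only [ef, Fin.val_last] at h2 ⊢
    split_ifs at h2 <;> omega

theorem lst_eb {a b n : ℕ} (h : a + b = n) : Lst (eb h) := by
  constructor
  · apply Fin.ext
    simp only [eb, Fin.val_last]
    omega
  · intro k hk h1
    apply hk
    apply Fin.ext
    have h2 := congrArg Fin.val h1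
    simp only [eb, Fin.val_last] at h2 ⊢
    omega

theorem lst_dl {s : ℕ} (i : Fin (s + 2)) : Lst (dl i) := ⟨dl_last i, fun _ hk => dl_ne_last i hk⟩

/-- The product of cochains with coefficients:
`x(v_0..v_a; y) · z(v_a..v_(a+b); y)`. -/
noncomputable def ecup {a b n : ℕ} (h : a + b = n) (x : UC p (a + 1)) (z : UC p (b + 1)) :
    UC p (n + 1) :=
  UC.map (ef (show a ≤ n by omega)) x * UC.map (eb h) z

/-- A cochain as a cochain with coefficients. -/
noncomputable def cst {s : ℕ} (z : UC p s) : UC p (s + 1) := UC.map Fin.castSucc z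

section ecup

variable {a b c n m l : ℕ}

theorem vl_ecup {B : Type} [CommRing B] [Algebra (ZMod p) B] (h : a + b = n) (x : UC p (a + 1))
    (z : UC p (b + 1)) (u : ℕ → Un B) :
    UV.vl (ecup h x z) u = UV.vl x (fun i => if i ≤ a then u i else u (n + 1)) *
      UV.vl z (fun i => u (a + i)) := by
  have h1 : UV.vl (UC.map (ef (show a ≤ n by omega)) x) u =
      UV.vl x (fun i => u (if i ≤ a then i else n + 1)) :=
    UV.vl_map _ (fun i => if i ≤ a then i else n + 1) (fun _ => rfl) x u
  have h2 : UV.vl (UC.map (eb h) z) u = UV.vl z (fun i => u (a + i)) :=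
    UV.vl_map _ (fun i => a + i) (fun _ => rfl) z u
  rw [ecup, UV.vl_mul, h1, h2]
  congr 1
  apply UV.vl_congr
  intro i _
  split_ifs <;> rfl

theorem vl_cst {B : Type} [CommRing B] [Algebra (ZMod p) B] {s : ℕ} (z : UC p s)
    (u : ℕ → Un B) : UV.vl (cst z) u = UV.vl z u := by
  rw [cst]
  exact UV.vl_map (Fin.castSucc : Fin (s + 1) → Fin (s + 2)) (fun i => i) (fun _ => rfl) z u

theorem vl_dE {B : Type} [CommRing B] [Algebra (ZMod p) B] {s : ℕ} (x : UC p (s + 1))
    (u : ℕ → Un B) : UV.vl (dE s x) u =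
      ∑ i ∈ Finset.range (s + 2), (-1 : B) ^ i * UV.vl x (fun k => u (UV.om i k)) := by
  rw [dE_apply, UV.vl_sum, Finset.sum_range]
  refine Finset.sum_congr rfl fun i _ => ?_
  rw [UV.vl_smul, Algebra.smul_def, map_pow, map_neg, map_one]
  congr 1
  apply UV.vl_map
  intro k
  rw [dl, Fin.succAbove, UV.om]
  simp only [Fin.lt_def, Fin.val_castSucc]
  split_ifs <;> rfl

theorem cst_d {s : ℕ} (z : UC p s) : dE s (cst z) = cst (UC.d s z) := dE_castSucc z

/-- The differential without coefficients. -/
theorem dE_eq {s : ℕ} (x : UC p (s + 1)) :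
    dE s x = UC.d (s + 1) x + (-1 : ZMod p) ^ (s + 1) • cst x := by
  apply UV.ext_vl
  intro B _ _ u
  rw [vl_dE, UV.vl_add, UV.vl_d, UV.vl_smul, vl_cst, Finset.sum_range_succ _ (s + 2),
    Algebra.smul_def, map_pow, map_neg, map_one]
  have : UV.vl x (fun k => u (UV.om (s + 2) k)) = UV.vl x u :=
    UV.vl_congr _ fun k hk => by rw [UV.om_lt (by omega)]
  rw [this]
  ring

theorem cst_cup (h : a + b = n) (x : UC p a) (z : UC p b) :
    cst (UC.cup h x z) = ecup h (cst x) (cst z) := by
  apply UV.ext_vl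
  intro B _ _ u
  rw [vl_cst, vl_ecup, vl_cst, vl_cst, UV.vl_cup]
  congr 1
  apply UV.vl_congr
  intro i hi
  rw [if_pos hi]

/-- multiplication by a constant cochain on the left is the ordinary product -/
theorem ecup_cst_left (h : a + b = n) (x : UC p a) (z : UC p (b + 1)) :
    ecup h (cst x) z = UC.cup (show a + (b + 1) = n + 1 by omega) x z := by
  apply UV.ext_vl
  intro B _ _ u
  rw [vl_ecup, vl_cst, UV.vl_cup]
  congr 1
  apply UV.vl_congr
  intro i hi
  rw [if_pos hi]

theorem ecup_assoc {ab bc : ℕ} (h1 : a + b = ab) (h2 : ab + c = n) (h3 : b + c = bc)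
    (h4 : a + bc = n) (x : UC p (a + 1)) (y : UC p (b + 1)) (z : UC p (c + 1)) :
    ecup h2 (ecup h1 x y) z = ecup h4 x (ecup h3 y z) := by
  subst h1 h2 h3
  apply UV.ext_vl
  intro B _ _ u
  rw [vl_ecup, vl_ecup, vl_ecup, vl_ecup, mul_assoc]
  congr 1
  · apply UV.vl_congr
    intro i hi
    by_cases h : i ≤ a
    · rw [if_pos h, if_pos h, if_pos (by omega)]
    · rw [if_neg h, if_neg h, if_neg (by omega)]
  · congr 1
    · apply UV.vl_congr
      intro i hi
      by_cases h : i ≤ b
      · rw [if_pos h, if_pos (by omega)]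
      · rw [if_neg h, if_neg (by omega)]
        congr 1
        omega
    · apply UV.vl_congr
      intro i hi
      congr 1
      omega

theorem ecup_add_left (h : a + b = n) (x x' : UC p (a + 1)) (y : UC p (b + 1)) :
    ecup h (x + x') y = ecup h x y + ecup h x' y := by
  rw [ecup, map_add, add_mul]; rfl

theorem ecup_add_right (h : a + b = n) (x : UC p (a + 1)) (y y' : UC p (b + 1)) :
    ecup h x (y + y') = ecup h x y + ecup h x y' := by
  rw [ecup, map_add, mul_add]; rfl

theorem ecup_sub_left (h : a + b = n) (x x' : UC p (a + 1)) (y : UC p (b + 1)) :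
    ecup h (x - x') y = ecup h x y - ecup h x' y := by
  rw [ecup, map_sub, sub_mul]; rfl

theorem ecup_sub_right (h : a + b = n) (x : UC p (a + 1)) (y y' : UC p (b + 1)) :
    ecup h x (y - y') = ecup h x y - ecup h x y' := by
  rw [ecup, map_sub, mul_sub]; rfl

theorem ecup_smul_left (h : a + b = n) (k : ZMod p) (x : UC p (a + 1)) (y : UC p (b + 1)) :
    ecup h (k • x) y = k • ecup h x y := by
  rw [ecup, map_smul, smul_mul_assoc]; rfl

theorem ecup_smul_right (h : a + b = n) (k : ZMod p) (x : UC p (a + 1)) (y : UC p (b + 1)) :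
    ecup h x (k • y) = k • ecup h x y := by
  rw [ecup, map_smul, mul_smul_comm]; rfl

theorem ecup_zero_left (h : a + b = n) (y : UC p (b + 1)) :
    ecup h (0 : UC p (a + 1)) y = 0 := by
  rw [ecup, map_zero, zero_mul]

theorem ecup_zero_right (h : a + b = n) (x : UC p (a + 1)) :
    ecup h x (0 : UC p (b + 1)) = 0 := by
  rw [ecup, map_zero, mul_zero]

theorem ecup_one_right (h : a + 0 = n) (x : UC p (a + 1)) :
    ecup h x (1 : UC p 1) = UC.map (ef (show a ≤ n by omega)) x := by
  rw [ecup, map_one, mul_one]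

theorem ecup_one_right' (x : UC p (a + 1)) : ecup (rfl : a + 0 = a) x (1 : UC p 1) = x := by
  apply UV.ext_vl
  intro B _ _ u
  rw [vl_ecup, UV.vl_one, mul_one]
  apply UV.vl_congr
  intro i hi
  split_ifs
  · rfl
  · congr 1
    omega

/-- The Leibniz rule. -/
theorem dE_ecup (h : a + b = n) (x : UC p (a + 1)) (y : UC p (b + 1)) :
    dE n (ecup h x y) = ecup (show (a + 1) + b = n + 1 by omega) (dE a x) y +
      ((-1 : ZMod p) ^ a) • ecup (show a + (b + 1) = n + 1 by omega) x (dE b y) := by
  subst h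
  apply UV.ext_vl
  intro B _ _ u
  rw [UV.vl_add, UV.vl_smul, vl_ecup, vl_ecup, vl_dE, vl_dE, vl_dE, Algebra.smul_def, map_pow,
    map_neg, map_one]
  have hc : ∀ i, UV.vl (ecup (rfl : a + b = a + b) x y) (fun k => u (UV.om i k)) =
      UV.vl x (fun k => if k ≤ a then u (UV.om i k) else u (UV.om i (a + b + 1))) *
        UV.vl y (fun k => u (UV.om i (a + k))) := fun i => vl_ecup _ _ _ _
  simp only [hc]
  have e1 : Finset.range (a + b + 2) = Finset.range ((a + 1) + (b + 1)) := by
    congr 1
    omega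
  rw [e1, Finset.sum_range_add, Finset.sum_range_succ _ (a + 1), Finset.sum_range_succ' _ (b + 1)]
  have hA : ∑ i ∈ Finset.range (a + 1), (-1 : B) ^ i *
      (UV.vl x (fun k => if k ≤ a then u (UV.om i k) else u (UV.om i (a + b + 1))) *
      UV.vl y (fun k => u (UV.om i (a + k)))) =
      (∑ i ∈ Finset.range (a + 1), (-1 : B) ^ i * UV.vl x (fun k =>
        (if UV.om i k ≤ a + 1 then u (UV.om i k) else u (a + b + 1 + 1)))) *
        UV.vl y (fun k => u (a + 1 + k)) := by
    rw [Finset.sum_mul]
    refine Finset.sum_congr rfl fun i hi => ?_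
    have hi := Finset.mem_range.1 hi
    have : UV.vl y (fun k => u (UV.om i (a + k))) = UV.vl y (fun k => u (a + 1 + k)) :=
      UV.vl_congr _ fun k _ => by
        rw [UV.om_ge (by omega)]
        congr 1
        omega
    rw [this]
    have : UV.vl x (fun k => if k ≤ a then u (UV.om i k) else u (UV.om i (a + b + 1))) =
        UV.vl x (fun k => if UV.om i k ≤ a + 1 then u (UV.om i k) else u (a + b + 1 + 1)) :=
      UV.vl_congr _ fun k hk => by
        by_cases h : k ≤ a
        · have : UV.om i k ≤ a + 1 := by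
            rw [UV.om]
            split_ifs <;> omega
          rw [if_pos h, if_pos this]
        · have : ¬ UV.om i k ≤ a + 1 := by
            rw [UV.om]
            split_ifs <;> omega
          rw [if_neg h, if_neg this, UV.om_ge (by omega)]
    rw [this]
    ring
  have hB : ∑ i ∈ Finset.range (b + 1), (-1 : B) ^ (a + 1 + i) *
      (UV.vl x (fun k => if k ≤ a then u (UV.om (a + 1 + i) k)
        else u (UV.om (a + 1 + i) (a + b + 1))) *
        UV.vl y (fun k => u (UV.om (a + 1 + i) (a + k)))) =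
      (-1 : B) ^ a * (UV.vl x (fun k => if k ≤ a then u k else u (a + b + 1 + 1)) *
        ∑ i ∈ Finset.range (b + 1), (-1 : B) ^ (i + 1) *
        UV.vl y (fun k => u (a + UV.om (i + 1) k))) := by
    rw [Finset.mul_sum, Finset.mul_sum]
    refine Finset.sum_congr rfl fun i hi => ?_
    have hi := Finset.mem_range.1 hi
    have h1 : UV.vl x (fun k => if k ≤ a then u (UV.om (a + 1 + i) k)
        else u (UV.om (a + 1 + i) (a + b + 1))) =
        UV.vl x (fun k => if k ≤ a then u k else u (a + b + 1 + 1)) :=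
      UV.vl_congr _ fun k hk => by
        by_cases h : k ≤ a
        · rw [if_pos h, if_pos h, UV.om_lt (by omega)]
        · rw [if_neg h, if_neg h, UV.om_ge (by omega)]
    have h2 : UV.vl y (fun k => u (UV.om (a + 1 + i) (a + k))) =
        UV.vl y (fun k => u (a + UV.om (i + 1) k)) :=
      UV.vl_congr _ fun k _ => by
        congr 1
        rw [UV.om, UV.om]
        split_ifs <;> omega
    rw [h1, h2]
    ring
  rw [hA, hB]
  have h3 : UV.vl x (fun k => if UV.om (a + 1) k ≤ a + 1 then u (UV.om (a + 1) k)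
      else u (a + b + 1 + 1)) = UV.vl x (fun k => if k ≤ a then u k else u (a + b + 1 + 1)) :=
    UV.vl_congr _ fun k hk => by
      by_cases h : k ≤ a
      · rw [UV.om_lt (by omega), if_pos h, if_pos (by omega)]
      · rw [UV.om_ge (by omega), if_neg h, if_neg (by omega)]
  have h4 : UV.vl y (fun k => u (a + UV.om 0 k)) = UV.vl y (fun k => u (a + 1 + k)) :=
    UV.vl_congr _ fun k _ => by
      rw [UV.om_ge (by omega)]
      congr 1
      omega
  rw [h3, h4]
  ring

theorem ecup_MH (h : a + b = n) {x : UC p (a + 1)} {y : UC p (b + 1)} {e e' : ℕ →₀ ℕ}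
    (hx : MH e x) (hy : MH e' y) : MH (e + e') (ecup h x y) :=
  (UC.map_MH _ hx).mul (UC.map_MH _ hy)

theorem ecup_InJ_left [Fact p.Prime] (h : a + b = n) {x : UC p (a + 1)} (hx : InJ x)
    (y : UC p (b + 1)) : InJ (ecup h x y) := (UC.map_InJ _ hx).mul_right _

theorem ecup_InJ_right [Fact p.Prime] (h : a + b = n) (x : UC p (a + 1)) {y : UC p (b + 1)}
    (hy : InJ y) : InJ (ecup h x y) := (UC.map_InJ _ hy).mul_left _

theorem ecup_Dep [Fact p.Prime] (hS : Row S) (h : a + b = n) {x : UC p (a + 1)}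
    {y : UC p (b + 1)} (hx : Dep (ES S a) x) (hy : Dep (ES S b) y) :
    Dep (ES S n) (ecup h x y) := by
  rw [dep_iff, ecup]
  exact mul_mem (dep_iff.1 (dep_mapL hS (lst_ef _) hx)) (dep_iff.1 (dep_mapL hS (lst_eb h) hy))

theorem cst_MH {s : ℕ} {e : ℕ →₀ ℕ} {z : UC p s} (hz : MH e z) : MH e (cst z) := UC.map_MH _ hz

theorem cst_InJ [Fact p.Prime] {s : ℕ} {z : UC p s} (hz : InJ z) : InJ (cst z) :=
  UC.map_InJ _ hz

theorem pderiv_ecup (hS : Row S) (hτ : τ ∉ S) (h : a + b = n) {x : UC p (a + 1)}
    {y : UC p (b + 1)} (hx : Dep (ES (insert τ S) a) x) (hy : Dep (ES (insert τ S) b) y) :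
    pderiv (Fin.last n, τ) (ecup h x y) = ecup h (pderiv (Fin.last a, τ) x) y +
      ecup h x (pderiv (Fin.last b, τ) y) := by
  rw [ecup, Derivation.leibniz, pderiv_mapL hS hτ (lst_ef _) hx, pderiv_mapL hS hτ (lst_eb h) hy,
    smul_eq_mul, smul_eq_mul, ecup, ecup]
  ring

end ecup

end Vale.Agent.P257.V4.A.DV
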