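import Mathlib

/-!
P257, part A, engine (1): the cosimplicial ring of functions on chains `(y; g_1, g_2, ...)` of strict
automorphisms `x + a_1 x^p + a_2 x^(p^2) + ...` of the additive group over `F_p`-algebras,
all cochain degrees in one polynomial ring `MvPolynomial (ℕ × ℕ) (ZMod p)`.
Variable `(i, n)` is `t_{n+1}` of the `i`-th block. Block `0` carries a profile `κ`: the variable `(0, n)`
stands for `t_{n+1}(y)^(p^(κ n))`.
-/

noncomputable section

open MvPolynomial Finset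

namespace Vale.Agent.P257.V4.A.Eng

/-- a sequence `(a_1, a_2, ..)` extended by `a_0 = 1` -/
def ext1 {R : Type*} [One R] (a : ℕ → R) : ℕ → R
  | 0 => 1
  | n + 1 => a n

/-- a profile extended by `0` at `0` -/
def ext0 (κ : ℕ → ℕ) : ℕ → ℕ
  | 0 => 0
  | n + 1 => κ n

theorem ext0_mono {κ : ℕ → ℕ} (hκ : Monotone κ) : Monotone (ext0 κ) := by
  intro a b h
  cases a with
  | zero => exact Nat.zero_le _
  | succ a =>
    cases b with
    | zero => omega
    | succ b => exact hκ (by omega)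

section law

variable {R : Type*} [CommRing R] (p : ℕ)

/-- composition law: `t_{n+1}(g h) = sum_{i+j=n+1} t_i(g)^(p^j) t_j(h)` -/
def law (a b : ℕ → R) (n : ℕ) : R :=
  ∑ x ∈ antidiagonal (n + 1), ext1 a x.1 ^ p ^ x.2 * ext1 b x.2

theorem ext1_law (a b : ℕ → R) (m : ℕ) :
    ext1 (law p a b) m = ∑ x ∈ antidiagonal m, ext1 a x.1 ^ p ^ x.2 * ext1 b x.2 := by
  cases m with
  | zero => simp [ext1]
  | succ n => rfl

theorem law_assoc [Fact p.Prime] [CharP R p] (a b c : ℕ → R) :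
    law p (law p a b) c = law p a (law p b c) := by
  funext n
  have key : ∀ m, ∑ x ∈ antidiagonal m, ext1 (law p a b) x.1 ^ p ^ x.2 * ext1 c x.2 =
      ∑ x ∈ antidiagonal m, ext1 a x.1 ^ p ^ x.2 * ext1 (law p b c) x.2 := by
    intro m
    simp only [ext1_law, sum_pow_char_pow, Finset.sum_mul, Finset.mul_sum]
    rw [Finset.sum_sigma', Finset.sum_sigma']
    apply Finset.sum_nbij' (fun x => ⟨(x.2.1, x.2.2 + x.1.2), (x.2.2, x.1.2)⟩)
      (fun x => ⟨(x.1.1 + x.2.1, x.2.2), (x.1.1, x.2.1)⟩)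
    · rintro ⟨⟨i, k⟩, ⟨a', b'⟩⟩ h
      simp only [Finset.mem_sigma, HasAntidiagonal.mem_antidiagonal] at h ⊢
      exact ⟨by omega, trivial⟩
    · rintro ⟨⟨i, k⟩, ⟨a', b'⟩⟩ h
      simp only [Finset.mem_sigma, HasAntidiagonal.mem_antidiagonal] at h ⊢
      exact ⟨by omega, trivial⟩
    · rintro ⟨⟨i, k⟩, ⟨a', b'⟩⟩ h
      simp only [Finset.mem_sigma, HasAntidiagonal.mem_antidiagonal] at h
      obtain ⟨h1, h2⟩ := h
      subst h2
      rfl
    · rintro ⟨⟨i, k⟩, ⟨a', b'⟩⟩ h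
      simp only [Finset.mem_sigma, HasAntidiagonal.mem_antidiagonal] at h
      obtain ⟨h1, h2⟩ := h
      subst h2
      rfl
    · rintro ⟨⟨i, k⟩, ⟨a', b'⟩⟩ h
      rw [mul_pow, ← pow_mul, ← pow_add, mul_assoc]
  exact key (n + 1)

theorem map_ext1 {S : Type*} [CommRing S] (f : R →+* S) (a : ℕ → R) (n : ℕ) :
    f (ext1 a n) = ext1 (fun k => f (a k)) n := by
  cases n with
  | zero => simp [ext1]
  | succ n => rfl

theorem map_law {S : Type*} [CommRing S] (f : R →+* S) (a b : ℕ → R) (n : ℕ) :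
    f (law p a b n) = law p (fun k => f (a k)) (fun k => f (b k)) n := by
  simp only [law, map_sum, map_mul, map_pow, map_ext1]

/-- the law with a profile on the first factor: `a n` stands for `t_{n+1}^(p^(κ n))` -/
def lawK (κ : ℕ → ℕ) (a b : ℕ → R) (n : ℕ) : R :=
  ∑ x ∈ antidiagonal (n + 1),
    ext1 a x.1 ^ p ^ (x.2 + κ n - ext0 κ x.1) * ext1 b x.2 ^ p ^ κ n

theorem map_lawK {S : Type*} [CommRing S] (κ : ℕ → ℕ) (f : R →+* S) (a b : ℕ → R) (n : ℕ) :
    f (lawK p κ a b n) = lawK p κ (fun k => f (a k)) (fun k => f (b k)) n := by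
  simp only [lawK, map_sum, map_mul, map_pow, map_ext1]

theorem lawK_zero (a b : ℕ → R) (n : ℕ) : lawK p (fun _ => 0) a b n = law p a b n := by
  unfold lawK law
  apply Finset.sum_congr rfl
  rintro ⟨i, j⟩ _
  cases i <;> simp [ext0]

/-- raising the first factor to the powers `p^κ` turns `lawK` into the `p^κ`-th power of `law` -/
theorem lawK_pow [Fact p.Prime] [CharP R p] (κ : ℕ → ℕ) (hκ : Monotone κ) (a b : ℕ → R) (n : ℕ) :
    lawK p κ (fun k => a k ^ p ^ κ k) b n = law p a b n ^ p ^ κ n := by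
  unfold lawK law
  rw [sum_pow_char_pow]
  apply Finset.sum_congr rfl
  rintro ⟨i, j⟩ h
  rw [mul_pow]
  congr 1
  cases i with
  | zero => simp [ext1]
  | succ i =>
    simp only [ext1, ext0, ← pow_mul, ← pow_add]
    congr 2
    have h1 : i ≤ n := by
      have := HasAntidiagonal.mem_antidiagonal.1 h
      simp only at this
      omega
    have := hκ h1
    omega

theorem ext1_lawK (κ : ℕ → ℕ) (a b : ℕ → R) (m : ℕ) :
    ext1 (lawK p κ a b) m = ∑ x ∈ antidiagonal m,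
      ext1 a x.1 ^ p ^ (x.2 + ext0 κ m - ext0 κ x.1) * ext1 b x.2 ^ p ^ ext0 κ m := by
  cases m with
  | zero => simp [ext1, ext0]
  | succ n => rfl

/-- the twisted law is a right action -/
theorem lawK_assoc [Fact p.Prime] [CharP R p] (κ : ℕ → ℕ) (hκ : Monotone κ) (a b c : ℕ → R) :
    lawK p κ (lawK p κ a b) c = lawK p κ a (law p b c) := by
  funext n
  have hm := ext0_mono hκ
  have key : ∀ m, ∑ x ∈ antidiagonal m,
        ext1 (lawK p κ a b) x.1 ^ p ^ (x.2 + ext0 κ m - ext0 κ x.1) * ext1 c x.2 ^ p ^ ext0 κ m =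
      ∑ x ∈ antidiagonal m,
        ext1 a x.1 ^ p ^ (x.2 + ext0 κ m - ext0 κ x.1) * ext1 (law p b c) x.2 ^ p ^ ext0 κ m := by
    intro m
    simp only [ext1_law, ext1_lawK, sum_pow_char_pow, Finset.sum_mul, Finset.mul_sum]
    rw [Finset.sum_sigma', Finset.sum_sigma']
    apply Finset.sum_nbij' (fun x => ⟨(x.2.1, x.2.2 + x.1.2), (x.2.2, x.1.2)⟩)
      (fun x => ⟨(x.1.1 + x.2.1, x.2.2), (x.1.1, x.2.1)⟩)
    · rintro ⟨⟨i, k⟩, ⟨a', b'⟩⟩ h
      simp only [Finset.mem_sigma, HasAntidiagonal.mem_antidiagonal] at h ⊢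
      exact ⟨by omega, trivial⟩
    · rintro ⟨⟨i, k⟩, ⟨a', b'⟩⟩ h
      simp only [Finset.mem_sigma, HasAntidiagonal.mem_antidiagonal] at h ⊢
      exact ⟨by omega, trivial⟩
    · rintro ⟨⟨i, k⟩, ⟨a', b'⟩⟩ h
      simp only [Finset.mem_sigma, HasAntidiagonal.mem_antidiagonal] at h
      obtain ⟨h1, h2⟩ := h
      subst h2
      rfl
    · rintro ⟨⟨i, k⟩, ⟨a', b'⟩⟩ h
      simp only [Finset.mem_sigma, HasAntidiagonal.mem_antidiagonal] at h
      obtain ⟨h1, h2⟩ := h
      subst h2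
      rfl
    · rintro ⟨⟨i, k⟩, ⟨a', b'⟩⟩ h
      simp only [Finset.mem_sigma, HasAntidiagonal.mem_antidiagonal] at h
      obtain ⟨h1, h2⟩ := h
      have e1 := hm (show a' ≤ i by omega)
      have e2 := hm (show i ≤ m by omega)
      simp only [mul_pow, ← pow_mul, ← pow_add, mul_assoc]
      congr 3
      · omega
      · congr 1
        omega
  exact key (n + 1)

end law

end Vale.Agent.P257.V4.A.Eng
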