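import Vale.Agent.P257.V4.A.Eng1

/-!
P257, part A, engine (2): merging operators, the coface ring homomorphisms `D p κ i` of
`Φ = MvPolynomial (ℕ × ℕ) (ZMod p)` and the differential `dd p κ s`.
-/

noncomputable section

open MvPolynomial Finset

namespace Vale.Agent.P257.V4.A.Eng

/-- merge positions `i` and `i+1` of a sequence; position `0` is a point on which the monoid acts -/
def mg {α : Type*} (act m : α → α → α) (g : ℕ → α) (i : ℕ) : ℕ → α := fun j =>
  if j < i then g j else if j = i then (if i = 0 then act (g 0) (g 1) else m (g i) (g (i + 1)))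
    else g (j + 1)

section mg

variable {α : Type*} {act m : α → α → α}

theorem mg_lt (g : ℕ → α) {i j : ℕ} (h : j < i) : mg act m g i j = g j := by
  simp [mg, h]

theorem mg_gt (g : ℕ → α) {i j : ℕ} (h : i < j) : mg act m g i j = g (j + 1) := by
  simp [mg, show ¬ j < i by omega, show j ≠ i by omega]

theorem mg_zero (g : ℕ → α) : mg act m g 0 0 = act (g 0) (g 1) := by
  simp [mg]

theorem mg_eq (g : ℕ → α) {i : ℕ} (h : i ≠ 0) : mg act m g i i = m (g i) (g (i + 1)) := by
  simp [mg, h]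

theorem mg_mg (hact : ∀ a b c, act (act a b) c = act a (m b c))
    (hm : ∀ a b c, m (m a b) c = m a (m b c)) (g : ℕ → α) {i j : ℕ} (h : i < j) :
    mg act m (mg act m g j) i = mg act m (mg act m g i) (j - 1) := by
  funext l
  rcases lt_trichotomy l i with h1 | rfl | h1
  · rw [mg_lt _ h1, mg_lt _ (by omega), mg_lt _ (by omega), mg_lt _ h1]
  · rcases Nat.eq_zero_or_pos l with rfl | hl
    · rw [mg_zero, mg_lt _ h]
      rcases Nat.lt_or_ge 1 j with h2 | h2
      · rw [mg_lt _ h2, mg_lt _ (by omega), mg_zero]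
      · obtain rfl : j = 1 := by omega
        rw [mg_eq _ (by omega), mg_zero, mg_zero, mg_gt _ (by omega), hact]
    · rw [mg_eq _ (by omega), mg_lt _ h]
      rcases Nat.lt_or_ge (l + 1) j with h2 | h2
      · rw [mg_lt _ h2, mg_lt _ (by omega), mg_eq _ (by omega)]
      · obtain rfl : j = l + 1 := by omega
        rw [mg_eq _ (by omega), Nat.add_sub_cancel, mg_eq _ (by omega), mg_eq _ (by omega),
          mg_gt _ (by omega), hm]
  · rw [mg_gt _ h1]
    rcases lt_trichotomy (l + 1) j with h2 | h2 | h2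
    · rw [mg_lt _ h2, mg_lt _ (by omega), mg_gt _ h1]
    · subst h2
      rw [mg_eq _ (by omega), Nat.add_sub_cancel, mg_eq _ (by omega), mg_gt _ h1, mg_gt _ (by omega)]
    · rw [mg_gt _ h2, mg_gt _ (by omega), mg_gt _ (by omega)]

end mg

/-- the polynomial ring in all `t_{n+1}(block i)` -/
abbrev Phi (p : ℕ) : Type := MvPolynomial (ℕ × ℕ) (ZMod p)

variable (p : ℕ)

/-- the universal sequence of points -/
def Xs : ℕ → ℕ → Phi p := fun i n => X (i, n)

/-- the `i`-th coface -/
def D (κ : ℕ → ℕ) (i : ℕ) : Phi p →ₐ[ZMod p] Phi p :=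
  aeval fun x => mg (lawK p κ) (law p) (Xs p) i x.1 x.2

theorem D_X (κ : ℕ → ℕ) (i j n : ℕ) :
    D p κ i (X (j, n)) = mg (lawK p κ) (law p) (Xs p) i j n := by
  simp [D]

theorem map_mg {R S : Type*} [CommRing R] [CommRing S] (f : R →+* S) (κ : ℕ → ℕ)
    (g : ℕ → ℕ → R) (i j n : ℕ) :
    f (mg (lawK p κ) (law p) g i j n) =
      mg (lawK p κ) (law p) (fun a b => f (g a b)) i j n := by
  unfold mg
  split_ifs <;> simp only [map_lawK, map_law]

theorem D_comp [Fact p.Prime] (κ : ℕ → ℕ) (hκ : Monotone κ) {i j : ℕ} (h : i < j) :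
    (D p κ j).comp (D p κ i) = (D p κ i).comp (D p κ (j - 1)) := by
  apply MvPolynomial.algHom_ext
  rintro ⟨l, n⟩
  rw [AlgHom.comp_apply, AlgHom.comp_apply, D_X, D_X]
  have h1 := map_mg p (D p κ j : Phi p →+* Phi p) κ (Xs p) i l n
  have h2 := map_mg p (D p κ i : Phi p →+* Phi p) κ (Xs p) (j - 1) l n
  simp only [RingHom.coe_coe] at h1 h2
  rw [h1, h2]
  have e1 : (fun a b => D p κ j (Xs p a b)) = mg (lawK p κ) (law p) (Xs p) j := by
    funext a b
    exact D_X p κ j a b
  have e2 : (fun a b => D p κ i (Xs p a b)) = mg (lawK p κ) (law p) (Xs p) i := by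
    funext a b
    exact D_X p κ i a b
  rw [e1, e2, mg_mg (fun a b c => lawK_assoc p κ hκ a b c) (fun a b c => law_assoc p a b c) _ h]

theorem D_D [Fact p.Prime] (κ : ℕ → ℕ) (hκ : Monotone κ) {i j : ℕ} (h : i < j) (φ : Phi p) :
    D p κ j (D p κ i φ) = D p κ i (D p κ (j - 1) φ) :=
  DFunLike.congr_fun (D_comp p κ hκ h) φ

/-- the differential on `s`-cochains -/
def dd (κ : ℕ → ℕ) (s : ℕ) : Phi p →ₗ[ZMod p] Phi p :=
  ∑ i ∈ range (s + 2), ((-1 : ZMod p) ^ i) • (D p κ i).toLinearMap

theorem dd_apply (κ : ℕ → ℕ) (s : ℕ) (φ : Phi p) :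
    dd p κ s φ = ∑ i ∈ range (s + 2), ((-1 : ZMod p) ^ i) • D p κ i φ := by
  simp [dd, LinearMap.sum_apply]

theorem dd_dd [Fact p.Prime] (κ : ℕ → ℕ) (hκ : Monotone κ) (s : ℕ) (φ : Phi p) :
    dd p κ (s + 1) (dd p κ s φ) = 0 := by
  simp only [dd_apply, map_sum, map_smul, Finset.smul_sum, smul_smul]
  rw [← Finset.sum_product' (f := fun (i : ℕ) (j : ℕ) =>
    ((-1 : ZMod p) ^ i * (-1) ^ j) • D p κ j (D p κ i φ))]
  refine Finset.sum_involution
    (fun x _ => if x.1 < x.2 then (x.2 - 1, x.1) else (x.2, x.1 + 1)) ?_ ?_ ?_ ?_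
  · rintro ⟨i, j⟩ _
    dsimp only
    split_ifs with h
    · dsimp only
      rw [D_D p κ hκ h]
      obtain ⟨k, rfl⟩ : ∃ k, j = k + 1 := ⟨j - 1, by omega⟩
      simp only [Nat.add_sub_cancel]
      rw [← add_smul, pow_succ, mul_comm ((-1 : ZMod p) ^ i), mul_neg_one, neg_mul,
        neg_add_cancel, zero_smul]
    · dsimp only
      rw [D_D p κ hκ (show j < i + 1 by omega) φ]
      simp only [Nat.add_sub_cancel]
      rw [← add_smul, pow_succ, mul_neg_one, mul_neg, mul_comm ((-1 : ZMod p) ^ j),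
        add_neg_cancel, zero_smul]
  · rintro ⟨i, j⟩ _ _
    dsimp only
    split_ifs with h
    · intro h'
      simp only [Prod.mk.injEq] at h'
      omega
    · intro h'
      simp only [Prod.mk.injEq] at h'
      omega
  · rintro ⟨i, j⟩ h
    simp only [Finset.mem_product, Finset.mem_range] at h
    dsimp only
    split_ifs <;> simp only [Finset.mem_product, Finset.mem_range] <;> constructor <;> omega
  · rintro ⟨i, j⟩ _
    dsimp only
    by_cases h : i < j
    · rw [if_pos h]
      dsimp only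
      rw [if_neg (by omega)]
      ext <;> dsimp only <;> omega
    · rw [if_neg h]
      dsimp only
      rw [if_pos (by omega)]
      ext <;> dsimp only <;> omega

end Vale.Agent.P257.V4.A.Eng
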