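import Mathlib

/-!
P257, part A, engine: polynomial calculus in characteristic `p` in one variable `x₀` of a polynomial
ring: `em` raises `X x₀` to the power `p`, its image is the kernel of `d/dX x₀`, and
`(d/dX x₀)^p = 0`.
-/

noncomputable section

open MvPolynomial Finset

namespace Vale.Agent.P257.V4.A.Eng

section wh

variable {σ τ R : Type*} [CommSemiring R]

theorem isWH_aeval {w : σ → ℕ} {w' : τ → ℕ} {f : σ → MvPolynomial τ R}
    (hf : ∀ x, IsWeightedHomogeneous w' (f x) (w x)) {φ : MvPolynomial σ R} {D : ℕ}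
    (hφ : IsWeightedHomogeneous w φ D) : IsWeightedHomogeneous w' (aeval f φ) D := by
  rw [φ.as_sum, map_sum]
  apply IsWeightedHomogeneous.sum
  intro d hd
  rw [aeval_monomial]
  have h1 : Finsupp.weight w d = D := hφ (MvPolynomial.mem_support_iff.1 hd)
  have h2 : IsWeightedHomogeneous w' (d.prod fun i k => f i ^ k) D := by
    rw [← h1, Finsupp.weight_apply, Finsupp.prod, Finsupp.sum]
    apply IsWeightedHomogeneous.prod
    intro i _
    exact (hf i).pow _
  have h3 := h2.C_mul (coeff d φ)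
  exact h3

end wh

variable {σ : Type*} (p : ℕ) (x₀ : σ)

section

open Classical in
/-- `X x₀ ↦ X x₀ ^ p` -/
def em : MvPolynomial σ (ZMod p) →ₐ[ZMod p] MvPolynomial σ (ZMod p) :=
  aeval fun x => if x = x₀ then X x ^ p else X x

theorem em_X_self : em p x₀ (X x₀) = X x₀ ^ p := by simp [em]

theorem em_X_ne {x : σ} (h : x ≠ x₀) : em p x₀ (X x) = X x := by simp [em, h]

theorem em_monomial_of_zero {d : σ →₀ ℕ} (h : d x₀ = 0) (c : ZMod p) :
    em p x₀ (monomial d c) = monomial d c := by
  unfold em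
  rw [aeval_monomial, monomial_eq]
  congr 1
  apply Finsupp.prod_congr
  intro x hx
  have : x ≠ x₀ := by
    rintro rfl
    exact (Finsupp.mem_support_iff.1 hx) h
  simp [this]

theorem monomial_split (d : σ →₀ ℕ) (k : ℕ) (c : ZMod p) :
    monomial (d.erase x₀ + Finsupp.single x₀ k) c = monomial (d.erase x₀) c * X x₀ ^ k := by
  rw [X_pow_eq_monomial, monomial_mul, mul_one]

theorem em_monomial (d : σ →₀ ℕ) (k : ℕ) (c : ZMod p) :
    em p x₀ (monomial (d.erase x₀ + Finsupp.single x₀ k) c) =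
      monomial (d.erase x₀ + Finsupp.single x₀ (p * k)) c := by
  rw [monomial_split, monomial_split, map_mul, map_pow, em_X_self,
    em_monomial_of_zero p x₀ Finsupp.erase_same, pow_mul]

theorem em_isWH {w w' : σ → ℕ} (h0 : w' x₀ = p * w x₀) (h1 : ∀ x, x ≠ x₀ → w' x = w x)
    {φ : MvPolynomial σ (ZMod p)} {D : ℕ} (h : IsWeightedHomogeneous w' φ D) :
    IsWeightedHomogeneous w (em p x₀ φ) D := by
  unfold em
  apply isWH_aeval _ h
  intro x
  by_cases hx : x = x₀
  · subst hx
    simp only [if_true]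
    rw [h0]
    have := (isWeightedHomogeneous_X (ZMod p) w x).pow p
    simpa using this
  · rw [if_neg hx, h1 x hx]
    exact isWeightedHomogeneous_X (ZMod p) w x

theorem em_mem_supported {S : Set σ} {φ : MvPolynomial σ (ZMod p)}
    (h : φ ∈ supported (ZMod p) S) : em p x₀ φ ∈ supported (ZMod p) S := by
  have : supported (ZMod p) S ≤ (supported (ZMod p) S).comap (em p x₀) := by
    unfold supported
    rw [Algebra.adjoin_le_iff]
    rintro _ ⟨x, hx, rfl⟩
    have hX : (X x : MvPolynomial σ (ZMod p)) ∈ Algebra.adjoin (ZMod p) (X '' S) :=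
      Algebra.subset_adjoin ⟨x, hx, rfl⟩
    change em p x₀ (X x) ∈ Algebra.adjoin (ZMod p) (X '' S)
    by_cases h : x = x₀
    · subst h
      rw [em_X_self]
      exact Subalgebra.pow_mem _ hX _
    · rw [em_X_ne p x₀ h]
      exact hX
  exact this h

open Classical in
/-- the left inverse of `em` -/
def rm : MvPolynomial σ (ZMod p) →ₗ[ZMod p] MvPolynomial σ (ZMod p) :=
  (basisMonomials σ (ZMod p)).constr (ZMod p) fun d =>
    if p ∣ d x₀ then monomial (d.erase x₀ + Finsupp.single x₀ (d x₀ / p)) 1 else 0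

theorem rm_monomial_of_dvd {d : σ →₀ ℕ} (h : p ∣ d x₀) (c : ZMod p) :
    rm p x₀ (monomial d c) = monomial (d.erase x₀ + Finsupp.single x₀ (d x₀ / p)) c := by
  have h1 : (monomial d c : MvPolynomial σ (ZMod p)) = c • monomial d 1 := by
    rw [smul_monomial, smul_eq_mul, mul_one]
  have h2 : rm p x₀ (monomial d 1) =
      monomial (d.erase x₀ + Finsupp.single x₀ (d x₀ / p)) 1 := by
    have := (basisMonomials σ (ZMod p)).constr_basis (ZMod p) (fun d : σ →₀ ℕ =>
      if p ∣ d x₀ then (monomial (d.erase x₀ + Finsupp.single x₀ (d x₀ / p)) 1 :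
        MvPolynomial σ (ZMod p)) else 0) d
    rw [coe_basisMonomials] at this
    rw [rm]
    convert! this using 1
    simp [h]
  rw [h1, map_smul, h2, smul_monomial, smul_eq_mul, mul_one]

theorem rm_em [Fact p.Prime] (φ : MvPolynomial σ (ZMod p)) : rm p x₀ (em p x₀ φ) = φ := by
  induction φ using MvPolynomial.induction_on' with
  | monomial d c =>
    have hd : d = d.erase x₀ + Finsupp.single x₀ (d x₀) := (Finsupp.erase_add_single x₀ d).symm
    conv_lhs => rw [hd, em_monomial]
    have he : (d.erase x₀ + Finsupp.single x₀ (p * d x₀)) x₀ = p * d x₀ := by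
      simp
    rw [rm_monomial_of_dvd p x₀ (by rw [he]; exact dvd_mul_right _ _), he,
      Nat.mul_div_cancel_left _ (Fact.out : p.Prime).pos]
    conv_rhs => rw [hd]
    congr 2
    ext x
    by_cases hx : x = x₀
    · subst hx; simp
    · simp [Finsupp.erase_ne hx, Finsupp.single_apply, Ne.symm hx]
  | add a b ha hb => rw [map_add, map_add, ha, hb]

theorem em_injective [Fact p.Prime] : Function.Injective (em p x₀) :=
  Function.LeftInverse.injective (rm_em p x₀)

theorem pderiv_em [Fact p.Prime] (φ : MvPolynomial σ (ZMod p)) :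
    pderiv x₀ (em p x₀ φ) = 0 := by
  induction φ using MvPolynomial.induction_on' with
  | monomial d c =>
    have hd : d = d.erase x₀ + Finsupp.single x₀ (d x₀) := (Finsupp.erase_add_single x₀ d).symm
    rw [hd, em_monomial, pderiv_monomial]
    simp
  | add a b ha hb => rw [map_add, map_add, ha, hb, add_zero]

theorem dvd_of_pderiv [Fact p.Prime] {φ : MvPolynomial σ (ZMod p)} (h : pderiv x₀ φ = 0)
    {d : σ →₀ ℕ} (hd : d ∈ φ.support) : p ∣ d x₀ := by
  by_cases h0 : d x₀ = 0
  · rw [h0]; exact dvd_zero _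
  have h1 := coeff_pderiv (i := x₀) φ (d - Finsupp.single x₀ 1)
  rw [h, coeff_zero, Finsupp.sub_add_single_one_cancel h0] at h1
  have h2 : (d - Finsupp.single x₀ 1 : σ →₀ ℕ) x₀ + 1 = d x₀ := by
    simp
    omega
  have h3 : (((d - Finsupp.single x₀ 1 : σ →₀ ℕ) x₀ : ℕ) : ZMod p) + 1 = (d x₀ : ZMod p) := by
    rw [← h2]; push_cast; rfl
  rw [h3] at h1
  have h4 := mul_eq_zero.1 h1.symm
  rcases h4 with h4 | h4
  · exact absurd h4 (MvPolynomial.mem_support_iff.1 hd)
  · exact (ZMod.natCast_eq_zero_iff _ _).1 h4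

theorem em_rm [Fact p.Prime] {φ : MvPolynomial σ (ZMod p)} (h : pderiv x₀ φ = 0) :
    em p x₀ (rm p x₀ φ) = φ := by
  conv_lhs => rw [φ.as_sum]
  conv_rhs => rw [φ.as_sum]
  rw [map_sum, map_sum]
  apply Finset.sum_congr rfl
  intro d hd
  have h1 := dvd_of_pderiv p x₀ h hd
  rw [rm_monomial_of_dvd p x₀ h1, em_monomial, Nat.mul_div_cancel' h1, Finsupp.erase_add_single]

theorem rm_isWH [Fact p.Prime] {w w' : σ → ℕ} (h0 : w' x₀ = p * w x₀)
    (h1 : ∀ x, x ≠ x₀ → w' x = w x)
    {φ : MvPolynomial σ (ZMod p)} {D : ℕ} (h : IsWeightedHomogeneous w φ D)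
    (hφ : pderiv x₀ φ = 0) : IsWeightedHomogeneous w' (rm p x₀ φ) D := by
  rw [φ.as_sum, map_sum]
  apply IsWeightedHomogeneous.sum
  intro d hd
  have hdv := dvd_of_pderiv p x₀ hφ hd
  rw [rm_monomial_of_dvd p x₀ hdv]
  apply isWeightedHomogeneous_monomial
  have hw : Finsupp.weight w d = D := h (MvPolynomial.mem_support_iff.1 hd)
  rw [← hw]
  conv_rhs => rw [← Finsupp.erase_add_single x₀ d]
  rw [map_add, map_add]
  congr 1
  · rw [Finsupp.weight_apply, Finsupp.weight_apply]
    apply Finsupp.sum_congr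
    intro x hx
    have : x ≠ x₀ := by
      rintro rfl
      exact (Finsupp.mem_support_iff.1 hx) Finsupp.erase_same
    rw [h1 x this]
  · rw [Finsupp.weight_single, Finsupp.weight_single, h0, smul_eq_mul, smul_eq_mul, ← mul_assoc,
      Nat.div_mul_cancel hdv]

theorem monomial_mem_supported {S : Set σ} {d : σ →₀ ℕ} (h : ∀ x ∈ d.support, x ∈ S)
    (c : ZMod p) : (monomial d c : MvPolynomial σ (ZMod p)) ∈ supported (ZMod p) S := by
  rw [monomial_eq]
  apply Subalgebra.mul_mem
  · exact Subalgebra.algebraMap_mem _ c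
  · apply Subalgebra.prod_mem
    intro x hx
    apply Subalgebra.pow_mem
    exact Algebra.subset_adjoin ⟨x, h x hx, rfl⟩

theorem support_of_mem_supported {S : Set σ} {φ : MvPolynomial σ (ZMod p)}
    (h : φ ∈ supported (ZMod p) S) {d : σ →₀ ℕ} (hd : d ∈ φ.support) : ∀ x ∈ d.support, x ∈ S := by
  intro x hx
  rw [mem_supported] at h
  exact h (by
    rw [Finset.mem_coe, mem_vars_iff_mem_support]
    exact ⟨d, hd, hx⟩)

theorem rm_mem_supported [Fact p.Prime] {S : Set σ} {φ : MvPolynomial σ (ZMod p)}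
    (h : φ ∈ supported (ZMod p) S) (hφ : pderiv x₀ φ = 0) :
    rm p x₀ φ ∈ supported (ZMod p) S := by
  rw [φ.as_sum, map_sum]
  apply Subalgebra.sum_mem
  intro d hd
  have hdv := dvd_of_pderiv p x₀ hφ hd
  have hs := support_of_mem_supported p h hd
  rw [rm_monomial_of_dvd p x₀ hdv]
  apply monomial_mem_supported
  intro x hx
  apply hs
  rw [Finsupp.mem_support_iff] at hx ⊢
  by_cases hxx : x = x₀
  · subst hxx
    intro h0
    apply hx
    simp [h0]
  · simpa [Finsupp.erase_ne hxx, hxx, Finsupp.single_apply, Ne.symm hxx] using hx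

theorem pderiv_mem_supported {S : Set σ} {φ : MvPolynomial σ (ZMod p)}
    (h : φ ∈ supported (ZMod p) S) : pderiv x₀ φ ∈ supported (ZMod p) S := by
  rw [φ.as_sum, map_sum]
  apply Subalgebra.sum_mem
  intro d hd
  rw [pderiv_monomial]
  apply monomial_mem_supported
  intro x hx
  apply support_of_mem_supported p h hd
  rw [Finsupp.mem_support_iff] at hx ⊢
  intro h0
  apply hx
  simp [h0]

theorem pderiv_iterate_monomial (k : ℕ) (d : σ →₀ ℕ) (c : ZMod p) :
    (pderiv x₀)^[k] (monomial d c) =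
      monomial (d - Finsupp.single x₀ k) (c * ((d x₀).descFactorial k : ℕ)) := by
  induction k with
  | zero => simp
  | succ k ih =>
    rw [Function.iterate_succ_apply', ih, pderiv_monomial, tsub_tsub, ← Finsupp.single_add,
      Nat.descFactorial_succ, mul_assoc]
    congr 2
    push_cast
    rw [mul_comm]
    congr 2
    simp

theorem pderiv_iterate_p [Fact p.Prime] (φ : MvPolynomial σ (ZMod p)) :
    (pderiv x₀)^[p] φ = 0 := by
  have h0 : ∀ φ : MvPolynomial σ (ZMod p),
      (pderiv x₀)^[p] φ = ((pderiv x₀).toLinearMap ^ p : Module.End (ZMod p) _) φ := by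
    intro φ
    rw [Module.End.pow_apply]
    rfl
  rw [h0, φ.as_sum, map_sum]
  apply Finset.sum_eq_zero
  intro d _
  rw [← h0, pderiv_iterate_monomial]
  have h1 : (((d x₀).descFactorial p : ℕ) : ZMod p) = 0 := by
    rw [ZMod.natCast_eq_zero_iff]
    exact ((Fact.out : p.Prime).dvd_factorial.2 le_rfl).trans (Nat.factorial_dvd_descFactorial _ _)
  rw [h1, mul_zero, monomial_zero]

end

end Vale.Agent.P257.V4.A.Eng
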