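import Mathlib

/-!
P257, part A, engine: the abstract Gysin step.

`V` = all cochains (with coefficients in `M' = M ⊕ M τ ⊕ .. ⊕ M τ^(p-1)`), `d s` the differential,
`C s D` the cochains of degree `s` and internal degree `D`, `der = d/dτ`, `mul = ` multiplication by
`τ`, `w = |τ|`.  Cochains with coefficients in `M` are those killed by `der`.
-/

namespace Vale.Agent.P257.V4.A.Eng

open Finset

/-- data of a Gysin step -/
structure StepData (p : ℕ) (V : Type*) [AddCommGroup V] [Module (ZMod p) V] where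
  d : ℕ → V →ₗ[ZMod p] V
  C : ℕ → ℕ → Submodule (ZMod p) V
  der : V →ₗ[ZMod p] V
  mul : V →ₗ[ZMod p] V
  w : ℕ
  d_mem : ∀ {s D φ}, φ ∈ C s D → d s φ ∈ C (s + 1) D
  d_d : ∀ {s D φ}, φ ∈ C s D → d (s + 1) (d s φ) = 0
  der_d : ∀ {s D φ}, φ ∈ C s D → der (d s φ) = d s (der φ)
  der_mem : ∀ {s D φ}, φ ∈ C s (D + w) → der φ ∈ C s D
  der_small : ∀ {s D φ}, D < w → φ ∈ C s D → der φ = 0
  mul_mem : ∀ {s D φ}, φ ∈ C s D → mul φ ∈ C s (D + w)
  der_mul : ∀ φ, der (mul φ) = mul (der φ) + φ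
  der_p : ∀ φ, der^[p] φ = 0

namespace StepData

variable {p : ℕ} {V : Type*} [AddCommGroup V] [Module (ZMod p) V] (S : StepData p V)

/-- vanishing of `H^s` in degree `D` for the complex with coefficients `M'` -/
def VanBig (s D : ℕ) : Prop :=
  ∀ φ ∈ S.C s D, S.d s φ = 0 → (match s with
    | 0 => φ = 0
    | s + 1 => ∃ α ∈ S.C s D, S.d s α = φ)

/-- vanishing of `H^s` in degree `D` for the complex with coefficients `M = ker (d/dτ)` -/
def VanSmall (s D : ℕ) : Prop :=
  ∀ φ ∈ S.C s D, S.der φ = 0 → S.d s φ = 0 → (match s with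
    | 0 => φ = 0
    | s + 1 => ∃ α ∈ S.C s D, S.der α = 0 ∧ S.d s α = φ)

theorem der_iter_mem {s D k : ℕ} {φ : V} (h : φ ∈ S.C s (D + k * S.w)) :
    S.der^[k] φ ∈ S.C s D := by
  induction k generalizing D with
  | zero => simpa using h
  | succ k ih =>
    rw [Function.iterate_succ_apply']
    apply S.der_mem
    apply ih
    convert h using 2
    ring

theorem der_iter_small {s D k : ℕ} {φ : V} (h : φ ∈ S.C s D) (hk : D < k * S.w) :
    S.der^[k] φ = 0 := by
  induction k with
  | zero => simp at hk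
  | succ k ih =>
    rw [Function.iterate_succ_apply']
    by_cases h1 : D < k * S.w
    · rw [ih h1, map_zero]
    · obtain ⟨E, rfl⟩ : ∃ E, D = E + k * S.w := ⟨D - k * S.w, by omega⟩
      have h2 := S.der_iter_mem h
      apply S.der_small _ h2
      rw [Nat.add_mul] at hk
      omega

theorem der_iter_d {s D : ℕ} {φ : V} (k : ℕ) (h : φ ∈ S.C s D) :
    S.der^[k] (S.d s φ) = S.d s (S.der^[k] φ) := by
  induction k with
  | zero => rfl
  | succ k ih =>
    rw [Function.iterate_succ_apply', ih, Function.iterate_succ_apply']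
    by_cases h1 : D < k * S.w
    · rw [S.der_iter_small h h1]; simp
    · obtain ⟨E, rfl⟩ : ∃ E, D = E + k * S.w := ⟨D - k * S.w, by omega⟩
      exact S.der_d (S.der_iter_mem h)

theorem mul_iter_mem {s D : ℕ} {φ : V} (k : ℕ) (h : φ ∈ S.C s D) :
    S.mul^[k] φ ∈ S.C s (D + k * S.w) := by
  induction k with
  | zero => simpa using h
  | succ k ih =>
    rw [Function.iterate_succ_apply']
    have := S.mul_mem ih
    convert this using 2
    ring

theorem der_mul_iter (k : ℕ) (φ : V) :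
    S.der (S.mul^[k + 1] φ) = S.mul^[k + 1] (S.der φ) + ((k : ℕ) + 1 : ZMod p) • S.mul^[k] φ := by
  induction k with
  | zero => simp [S.der_mul]
  | succ k ih =>
    rw [Function.iterate_succ_apply', S.der_mul, ih, map_add, map_smul,
      ← Function.iterate_succ_apply' (f := S.mul), ← Function.iterate_succ_apply' (f := S.mul)]
    rw [add_assoc]
    congr 1
    push_cast
    rw [add_smul ((k : ZMod p) + 1) 1, one_smul]

theorem der_iter_mul_iter (k : ℕ) {γ : V} (h : S.der γ = 0) :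
    S.der^[k] (S.mul^[k] γ) = (k.factorial : ZMod p) • γ := by
  induction k with
  | zero => simp
  | succ k ih =>
    rw [Function.iterate_succ_apply, S.der_mul_iter, h]
    have h0 : S.mul^[k + 1] 0 = 0 := by
      rw [← Module.End.pow_apply]; simp
    rw [h0, zero_add]
    rw [← Module.End.pow_apply, map_smul, Module.End.pow_apply, ih, smul_smul, Nat.factorial_succ]
    push_cast
    rfl

/-- integration in `τ` -/
def integ (β : V) : V :=
  ∑ j ∈ range (p - 1), ((-1 : ZMod p) ^ j * ((j + 1).factorial : ZMod p)⁻¹) •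
    S.mul^[j + 1] (S.der^[j] β)

theorem der_integ [Fact p.Prime] {β : V} (h : S.der^[p - 1] β = 0) : S.der (S.integ β) = β := by
  have hp : 2 ≤ p := (Fact.out : p.Prime).two_le
  let f : ℕ → V := fun j => ((-1 : ZMod p) ^ j * (j.factorial : ZMod p)⁻¹) •
    S.mul^[j] (S.der^[j] β)
  have key : ∀ j ∈ range (p - 1), S.der (((-1 : ZMod p) ^ j * ((j + 1).factorial : ZMod p)⁻¹) •
      S.mul^[j + 1] (S.der^[j] β)) = f j - f (j + 1) := by
    intro j hj
    have hj' : j + 1 < p := by have := Finset.mem_range.1 hj; omega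
    have h1 : ((j + 1 : ℕ) : ZMod p) ≠ 0 := by
      intro h0
      rw [ZMod.natCast_eq_zero_iff] at h0
      exact absurd (Nat.le_of_dvd (by omega) h0) (by omega)
    rw [map_smul, S.der_mul_iter, smul_add, ← Function.iterate_succ_apply' (f := S.der), smul_smul]
    have h2 : (-1 : ZMod p) ^ j * ((j + 1).factorial : ZMod p)⁻¹ * ((j : ZMod p) + 1) =
        (-1 : ZMod p) ^ j * (j.factorial : ZMod p)⁻¹ := by
      rw [Nat.factorial_succ]
      push_cast at h1 ⊢
      rw [mul_inv, mul_assoc, mul_comm (((j : ZMod p) + 1)⁻¹), mul_assoc, inv_mul_cancel₀ h1,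
        mul_one]
    rw [h2]
    simp only [f]
    rw [pow_succ]
    simp only [mul_neg, mul_one, neg_mul, neg_smul, sub_neg_eq_add]
    rw [add_comm]
  unfold integ
  rw [map_sum, Finset.sum_congr rfl key, Finset.sum_range_sub']
  simp only [f]
  rw [h]
  have h0 : S.mul^[p - 1] 0 = 0 := by
    rw [← Module.End.pow_apply]; simp
  simp [h0]

theorem integ_mem {s D : ℕ} {β : V} (h : β ∈ S.C s D) : S.integ β ∈ S.C s (D + S.w) := by
  unfold integ
  apply Submodule.sum_mem
  intro j _
  apply Submodule.smul_mem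
  by_cases h1 : D < j * S.w
  · rw [S.der_iter_small h h1]
    have h0 : S.mul^[j + 1] 0 = 0 := by
      rw [← Module.End.pow_apply]; simp
    rw [h0]; exact Submodule.zero_mem _
  · obtain ⟨E, rfl⟩ : ∃ E, D = E + j * S.w := ⟨D - j * S.w, by omega⟩
    have := S.mul_iter_mem (j + 1) (S.der_iter_mem h)
    convert this using 2
    ring

/-- **Gysin step with the connecting data.** If `H^(s+1)_D(M') = 0` and `H^s_(D-w)(M') = 0`, a cocycle
`φ` with coefficients `M` is `d α` with `α` over `M'`, `der α = d β`; if the top coefficient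
`der^(p-1) β` is itself a coboundary over `M`, so is `φ`. -/
theorem step_core [Fact p.Prime] {s D E : ℕ} (hD : D = E + S.w)
    {φ : V} {α β : V} (hα : α ∈ S.C (s + 1) D)
    (hφ : S.d (s + 1) α = φ) (hβ : β ∈ S.C s E) (hαβ : S.d s β = S.der α)
    (hc : S.der^[p - 1] β = 0 ∨ ∃ s', s = s' + 1 ∧ ∃ F, E = F + (p - 1) * S.w ∧
      ∃ γ ∈ S.C s' F, S.der γ = 0 ∧ S.d s' γ = S.der^[p - 1] β) :
    ∃ α' ∈ S.C (s + 1) D, S.der α' = 0 ∧ S.d (s + 1) α' = φ := by
  have hp : 2 ≤ p := (Fact.out : p.Prime).two_le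
  -- reduce to the case `der^(p-1) β = 0`
  obtain ⟨β', hβ', hdβ', hβ0⟩ : ∃ β' ∈ S.C s E, S.d s β' = S.der α ∧ S.der^[p - 1] β' = 0 := by
    rcases hc with h0 | ⟨s', rfl, F, rfl, γ, hγ, hγ0, hγd⟩
    · exact ⟨β, hβ, hαβ, h0⟩
    · have hm : S.mul^[p - 1] γ ∈ S.C s' (F + (p - 1) * S.w) := S.mul_iter_mem (p - 1) hγ
      refine ⟨β - ((p - 1).factorial : ZMod p)⁻¹ • S.d s' (S.mul^[p - 1] γ), ?_, ?_, ?_⟩
      · exact Submodule.sub_mem _ hβ (Submodule.smul_mem _ _ (S.d_mem hm))
      · rw [map_sub, map_smul, S.d_d hm, smul_zero, sub_zero, hαβ]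
      · have hf : ((p - 1).factorial : ZMod p) ≠ 0 := by
          intro h0
          rw [ZMod.natCast_eq_zero_iff, (Fact.out : p.Prime).dvd_factorial] at h0
          omega
        rw [← Module.End.pow_apply, map_sub, map_smul, Module.End.pow_apply, Module.End.pow_apply,
          S.der_iter_d (p - 1) hm, S.der_iter_mul_iter (p - 1) hγ0, map_smul, smul_smul,
          inv_mul_cancel₀ hf, one_smul, hγd, sub_self]
  have hδ : S.integ β' ∈ S.C s D := by rw [hD]; exact S.integ_mem hβ'
  refine ⟨α - S.d s (S.integ β'), ?_, ?_, ?_⟩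
  · exact Submodule.sub_mem _ hα (S.d_mem hδ)
  · rw [map_sub, S.der_d hδ, S.der_integ hβ0, hdβ', sub_self]
  · rw [map_sub, S.d_d hδ, sub_zero, hφ]

/-- **The Gysin step**: vanishing of `H^s_D(M)`. -/
theorem vanSmall [Fact p.Prime] {s D : ℕ} (h1 : S.VanBig s D)
    (h2 : ∀ s' E, s = s' + 1 → D = E + S.w → S.VanBig s' E)
    (h3 : ∀ s' E, s = s' + 2 → D = E + p * S.w → S.VanSmall s' E) : S.VanSmall s D := by
  have hp : 2 ≤ p := (Fact.out : p.Prime).two_le
  intro φ hφ hder hdφ
  have hb := h1 φ hφ hdφ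
  cases s with
  | zero => exact hb
  | succ s =>
    obtain ⟨α, hα, hdα⟩ := hb
    by_cases hDw : D < S.w
    · exact ⟨α, hα, S.der_small hDw hα, hdα⟩
    obtain ⟨E, rfl⟩ : ∃ E, D = E + S.w := ⟨D - S.w, by omega⟩
    have hderα : S.der α ∈ S.C s E := S.der_mem hα
    have hcoc : S.d s (S.der α) = 0 := by rw [← S.der_d hα, hdα, hder]
    have hb2 := h2 s E rfl rfl (S.der α) hderα hcoc
    cases s with
    | zero => exact ⟨α, hα, hb2, hdα⟩
    | succ s =>
      obtain ⟨β, hβ, hdβ⟩ := hb2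
      apply S.step_core rfl hα hdα hβ hdβ
      by_cases hE : E < (p - 1) * S.w
      · exact Or.inl (S.der_iter_small hβ hE)
      obtain ⟨F, rfl⟩ : ∃ F, E = F + (p - 1) * S.w := ⟨E - (p - 1) * S.w, by omega⟩
      have hc : S.der^[p - 1] β ∈ S.C s F := S.der_iter_mem hβ
      have hc1 : S.der (S.der^[p - 1] β) = 0 := by
        rw [← Function.iterate_succ_apply' (f := S.der), Nat.succ_eq_add_one, Nat.sub_add_cancel (by omega)]
        exact S.der_p β
      have hc2 : S.d s (S.der^[p - 1] β) = 0 := by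
        rw [← S.der_iter_d (p - 1) hβ, hdβ, ← Function.iterate_succ_apply (f := S.der),
          Nat.succ_eq_add_one, Nat.sub_add_cancel (by omega)]
        exact S.der_p α
      have hb3 := h3 s F rfl (by
        have h4 : (p - 1) * S.w + S.w = p * S.w := by
          rw [← Nat.succ_mul, Nat.succ_eq_add_one, Nat.sub_add_cancel (by omega)]
        omega) _ hc hc1 hc2
      cases s with
      | zero => exact Or.inl hb3
      | succ s =>
        obtain ⟨γ, hγ, hγ0, hγd⟩ := hb3
        exact Or.inr ⟨s, rfl, F, rfl, γ, hγ, hγ0, hγd⟩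

end StepData

end Vale.Agent.P257.V4.A.Eng
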