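import Vale.Agent.P257.V4.A.Eng2
import Vale.Agent.P257.V4.A.EngCalc
import Vale.Agent.P257.V4.A.EngStep
import Vale.Agent.P257.V4.A.Defs

/-!
P257, part A, engine (3): weights, blocks, the derivation `d/dX(0,m)`, and the Gysin step
`VanK κ⁺ s D` from `VanK κ s D`, `VanK κ (s-1) (D-w)`, `VanK κ⁺ (s-2) (D-pw)`.
-/

noncomputable section

open MvPolynomial Finset

namespace Vale.Agent.P257.V4.A.Eng

variable (p : ℕ)

theorem N_add (a b : ℕ) : Ch.N p (a + b) = p ^ b * Ch.N p a + Ch.N p b := by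
  unfold Ch.N
  rw [add_comm a b, Finset.sum_range_add, add_comm, Finset.mul_sum]
  congr 1
  apply Finset.sum_congr rfl
  intro j _
  rw [pow_add]

/-- the weights of the variables -/
def wt (κ : ℕ → ℕ) : ℕ × ℕ → ℕ := fun x =>
  if x.1 = 0 then p ^ κ x.2 * Ch.N p (x.2 + 1) else Ch.N p (x.2 + 1)

theorem isWH_ext_zero (κ : ℕ → ℕ) (i : ℕ) :
    IsWeightedHomogeneous (wt p κ) (ext1 (Xs p 0) i) (p ^ ext0 κ i * Ch.N p i) := by
  cases i with
  | zero =>
    simp only [ext1, Ch.N, Finset.range_zero, Finset.sum_empty, mul_zero]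
    exact isWeightedHomogeneous_one _ _
  | succ n =>
    have := isWeightedHomogeneous_X (ZMod p) (wt p κ) (0, n)
    simpa [wt, ext1, ext0, Xs] using this

theorem isWH_ext_pos (κ : ℕ → ℕ) {l : ℕ} (hl : l ≠ 0) (i : ℕ) :
    IsWeightedHomogeneous (wt p κ) (ext1 (Xs p l) i) (Ch.N p i) := by
  cases i with
  | zero =>
    simp only [ext1, Ch.N, Finset.range_zero, Finset.sum_empty]
    exact isWeightedHomogeneous_one _ _
  | succ n =>
    have := isWeightedHomogeneous_X (ZMod p) (wt p κ) (l, n)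
    simpa [wt, ext1, Xs, hl] using this

theorem isWH_law (κ : ℕ → ℕ) {l l' : ℕ} (hl : l ≠ 0) (hl' : l' ≠ 0) (n : ℕ) :
    IsWeightedHomogeneous (wt p κ) (law p (Xs p l) (Xs p l') n) (Ch.N p (n + 1)) := by
  unfold law
  apply IsWeightedHomogeneous.sum
  rintro ⟨i, j⟩ h
  rw [HasAntidiagonal.mem_antidiagonal] at h
  have h1 := ((isWH_ext_pos p κ hl i).pow (p ^ j)).mul (isWH_ext_pos p κ hl' j)
  dsimp only at h ⊢
  rw [← h, N_add]
  simpa using h1

theorem isWH_lawK {κ : ℕ → ℕ} (hκ : Monotone κ) (n : ℕ) :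
    IsWeightedHomogeneous (wt p κ) (lawK p κ (Xs p 0) (Xs p 1) n)
      (p ^ κ n * Ch.N p (n + 1)) := by
  unfold lawK
  apply IsWeightedHomogeneous.sum
  rintro ⟨i, j⟩ h
  rw [HasAntidiagonal.mem_antidiagonal] at h
  have h1 := ((isWH_ext_zero p κ i).pow (p ^ (j + κ n - ext0 κ i))).mul
    ((isWH_ext_pos p κ one_ne_zero j).pow (p ^ κ n))
  dsimp only at h ⊢
  have h2 : ext0 κ i ≤ κ n := ext0_mono hκ (show i ≤ n + 1 by omega)
  rw [← h, N_add, mul_add]
  convert! h1 using 1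
  simp only [smul_eq_mul]
  congr 1
  rw [← mul_assoc, ← mul_assoc, ← pow_add, ← pow_add]
  congr 2
  omega

theorem D_isWH {κ : ℕ → ℕ} (hκ : Monotone κ) (i : ℕ) {φ : Phi p} {E : ℕ}
    (h : IsWeightedHomogeneous (wt p κ) φ E) :
    IsWeightedHomogeneous (wt p κ) (D p κ i φ) E := by
  unfold D
  apply isWH_aeval _ h
  rintro ⟨j, n⟩
  dsimp only
  rcases lt_trichotomy j i with h1 | rfl | h1
  · rw [mg_lt _ h1]
    exact isWeightedHomogeneous_X (ZMod p) (wt p κ) (j, n)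
  · by_cases hj : j = 0
    · subst hj
      rw [mg_zero]
      have := isWH_lawK p hκ n
      simpa [wt] using this
    · rw [mg_eq _ hj]
      have := isWH_law p κ hj (Nat.succ_ne_zero j) n
      simpa [wt, hj] using this
  · rw [mg_gt _ h1]
    have := isWeightedHomogeneous_X (ZMod p) (wt p κ) (j + 1, n)
    simpa [wt, show j ≠ 0 by omega, Xs] using this

/-! ### blocks -/

/-- polynomials in the blocks `≤ s` -/
def Bl (s : ℕ) : Subalgebra (ZMod p) (Phi p) := supported (ZMod p) {x | x.1 ≤ s}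

theorem X_mem_Bl {s i n : ℕ} (h : i ≤ s) : (X (i, n) : Phi p) ∈ Bl p s :=
  Algebra.subset_adjoin ⟨(i, n), h, rfl⟩

theorem ext1_mem_Bl {s l : ℕ} (h : l ≤ s) (i : ℕ) : ext1 (Xs p l) i ∈ Bl p s := by
  cases i with
  | zero => exact Subalgebra.one_mem _
  | succ n => exact X_mem_Bl p h

theorem law_mem_Bl {s l l' : ℕ} (h : l ≤ s) (h' : l' ≤ s) (n : ℕ) :
    law p (Xs p l) (Xs p l') n ∈ Bl p s := by
  unfold law
  apply Subalgebra.sum_mem
  intro x _
  exact Subalgebra.mul_mem _ (Subalgebra.pow_mem _ (ext1_mem_Bl p h _) _) (ext1_mem_Bl p h' _)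

theorem lawK_mem_Bl {s l l' : ℕ} (κ : ℕ → ℕ) (h : l ≤ s) (h' : l' ≤ s) (n : ℕ) :
    lawK p κ (Xs p l) (Xs p l') n ∈ Bl p s := by
  unfold lawK
  apply Subalgebra.sum_mem
  intro x _
  exact Subalgebra.mul_mem _ (Subalgebra.pow_mem _ (ext1_mem_Bl p h _) _)
    (Subalgebra.pow_mem _ (ext1_mem_Bl p h' _) _)

theorem D_mem_Bl (κ : ℕ → ℕ) (i : ℕ) {s : ℕ} {φ : Phi p} (h : φ ∈ Bl p s) :
    D p κ i φ ∈ Bl p (s + 1) := by
  have : Bl p s ≤ (Bl p (s + 1)).comap (D p κ i) := by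
    unfold Bl supported
    rw [Algebra.adjoin_le_iff]
    rintro _ ⟨⟨j, n⟩, hx, rfl⟩
    have hj : j ≤ s := hx
    change D p κ i (X (j, n)) ∈ Bl p (s + 1)
    rw [D_X]
    rcases lt_trichotomy j i with h1 | rfl | h1
    · rw [mg_lt _ h1]
      exact X_mem_Bl p (by omega)
    · by_cases hj0 : j = 0
      · subst hj0
        rw [mg_zero]
        exact lawK_mem_Bl p κ (by omega) (by omega) n
      · rw [mg_eq _ hj0]
        exact law_mem_Bl p (by omega) (by omega) n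
    · rw [mg_gt _ h1]
      exact X_mem_Bl p (by omega)
  exact this h

theorem D_eq_self (κ : ℕ → ℕ) {i s : ℕ} (hi : s < i) {φ : Phi p} (h : φ ∈ Bl p s) :
    D p κ i φ = φ := by
  have : Bl p s ≤ AlgHom.equalizer (D p κ i) (AlgHom.id _ _) := by
    unfold Bl supported
    rw [Algebra.adjoin_le_iff]
    rintro _ ⟨⟨j, n⟩, hx, rfl⟩
    have hj : j ≤ s := hx
    change D p κ i (X (j, n)) = X (j, n)
    rw [D_X, mg_lt _ (by omega)]
    rfl
  exact this h

/-- `s`-cochains of weight `E` with the profile `κ` in block `0` -/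
def Cm (κ : ℕ → ℕ) (s E : ℕ) : Submodule (ZMod p) (Phi p) :=
  Subalgebra.toSubmodule (Bl p s) ⊓ weightedHomogeneousSubmodule (ZMod p) (wt p κ) E

theorem mem_Cm {κ : ℕ → ℕ} {s E : ℕ} {φ : Phi p} :
    φ ∈ Cm p κ s E ↔ φ ∈ Bl p s ∧ IsWeightedHomogeneous (wt p κ) φ E := by
  rw [Cm, Submodule.mem_inf, Subalgebra.mem_toSubmodule, mem_weightedHomogeneousSubmodule]

theorem dd_mem {κ : ℕ → ℕ} (hκ : Monotone κ) {s E : ℕ} {φ : Phi p} (h : φ ∈ Cm p κ s E) :
    dd p κ s φ ∈ Cm p κ (s + 1) E := by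
  rw [dd_apply]
  apply Submodule.sum_mem
  intro i _
  apply Submodule.smul_mem
  rw [mem_Cm] at h ⊢
  exact ⟨D_mem_Bl p κ i h.1, D_isWH p hκ i h.2⟩

/-! ### the derivation -/

theorem pderiv_ext_zero (m i : ℕ) :
    pderiv (0, m) (ext1 (Xs p 0) i) = if i = m + 1 then 1 else 0 := by
  cases i with
  | zero => simp [ext1]
  | succ n =>
    by_cases h : n = m
    · subst h; simp [ext1, Xs]
    · rw [if_neg (by omega)]
      exact pderiv_X_of_ne (by
        intro h'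
        exact h (congrArg Prod.snd h'))

theorem pderiv_ext_pos (m i : ℕ) {l : ℕ} (hl : l ≠ 0) :
    pderiv (0, m) (ext1 (Xs p l) i) = 0 := by
  cases i with
  | zero => simp [ext1]
  | succ n =>
    exact pderiv_X_of_ne (by
      intro h'
      exact hl (congrArg Prod.fst h'))

theorem pderiv_pow_p [Fact p.Prime] (x : ℕ × ℕ) (φ : Phi p) (k : ℕ) :
    pderiv x (φ ^ p ^ (k + 1)) = 0 := by
  rw [pderiv_pow]
  have : ((p ^ (k + 1) : ℕ) : Phi p) = 0 := by
    rw [CharP.cast_eq_zero_iff (Phi p) p]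
    exact dvd_pow_self p (Nat.succ_ne_zero k)
  rw [this]
  simp

theorem pderiv_lawK [Fact p.Prime] {κ : ℕ → ℕ} (hκ : Monotone κ) (m n : ℕ) :
    pderiv (0, m) (lawK p κ (Xs p 0) (Xs p 1) n) = if n = m then 1 else 0 := by
  unfold lawK
  rw [map_sum]
  have key : ∀ x ∈ antidiagonal (n + 1), pderiv (0, m)
      (ext1 (Xs p 0) x.1 ^ p ^ (x.2 + κ n - ext0 κ x.1) * ext1 (Xs p 1) x.2 ^ p ^ κ n) =
      if x = (m + 1, 0) then 1 else 0 := by
    rintro ⟨i, j⟩ h
    rw [HasAntidiagonal.mem_antidiagonal] at h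
    dsimp only at h ⊢
    have h1 : pderiv (0, m) (ext1 (Xs p 1) j ^ p ^ κ n) = 0 := by
      rw [pderiv_pow, pderiv_ext_pos p m j one_ne_zero, mul_zero]
    rw [pderiv_mul, h1, mul_zero, add_zero]
    by_cases hi : i = m + 1
    · subst hi
      by_cases hj : j = 0
      · subst hj
        have hn : n = m := by omega
        subst hn
        simp [ext0, ext1, Xs]
      · have h2 : κ m ≤ κ n := hκ (by omega)
        obtain ⟨k, hk⟩ : ∃ k, j + κ n - ext0 κ (m + 1) = k + 1 :=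
          ⟨j + κ n - κ m - 1, by simp only [ext0]; omega⟩
        rw [hk, pderiv_pow_p, zero_mul, if_neg (by simp [hj])]
    · rw [pderiv_pow, pderiv_ext_zero, if_neg hi, mul_zero, zero_mul,
        if_neg (by simp [hi])]
  rw [Finset.sum_congr rfl key, Finset.sum_ite_eq']
  by_cases h : n = m
  · subst h; simp
  · rw [if_neg h, if_neg]
    rw [HasAntidiagonal.mem_antidiagonal]
    intro h'
    dsimp only at h'
    omega

theorem pderiv_law [Fact p.Prime] (m n : ℕ) {l l' : ℕ} (hl : l ≠ 0) (hl' : l' ≠ 0) :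
    pderiv (0, m) (law p (Xs p l) (Xs p l') n) = 0 := by
  unfold law
  rw [map_sum]
  apply Finset.sum_eq_zero
  rintro ⟨i, j⟩ _
  rw [pderiv_mul, pderiv_pow, pderiv_ext_pos p m i hl, pderiv_ext_pos p m j hl']
  simp

theorem pderiv_D_X [Fact p.Prime] {κ : ℕ → ℕ} (hκ : Monotone κ) (m i : ℕ) (x : ℕ × ℕ) :
    pderiv (0, m) (D p κ i (X x)) = D p κ i (pderiv (0, m) (X x)) := by
  obtain ⟨j, n⟩ := x
  have h0 : ∀ {j n : ℕ}, (j, n) ≠ (0, m) → pderiv (0, m) (X (j, n) : Phi p) = 0 :=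
    fun h => pderiv_X_of_ne h
  rw [D_X]
  rcases lt_trichotomy j i with h1 | rfl | h1
  · rw [mg_lt _ h1]
    by_cases h : (j, n) = (0, m)
    · rw [h, pderiv_X_self, map_one]
      have h2 : j = 0 := congrArg Prod.fst h
      have h3 : n = m := congrArg Prod.snd h
      subst h2 h3
      exact pderiv_X_self _
    · rw [h0 h, map_zero]
      exact h0 h
  · by_cases hj : j = 0
    · subst hj
      rw [mg_zero, pderiv_lawK p hκ]
      by_cases h : n = m
      · subst h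
        rw [pderiv_X_self, map_one, if_pos rfl]
      · rw [if_neg h, h0 (by simp [h]), map_zero]
    · rw [mg_eq _ hj, pderiv_law p m n hj (Nat.succ_ne_zero j), h0 (by simp [hj]), map_zero]
  · rw [mg_gt _ h1, h0 (j := j) (by simp [show j ≠ 0 by omega]), map_zero]
    exact h0 (by simp)

theorem pderiv_D [Fact p.Prime] {κ : ℕ → ℕ} (hκ : Monotone κ) (m i : ℕ) (φ : Phi p) :
    pderiv (0, m) (D p κ i φ) = D p κ i (pderiv (0, m) φ) := by
  induction φ using MvPolynomial.induction_on with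
  | C a =>
    rw [pderiv_C, map_zero]
    have : D p κ i (C a) = C a := AlgHom.commutes _ a
    rw [this, pderiv_C]
  | add φ ψ h1 h2 => rw [map_add, map_add, map_add, map_add, h1, h2]
  | mul_X φ x h =>
    rw [map_mul, pderiv_mul, pderiv_mul, map_add, map_mul, map_mul, h, pderiv_D_X p hκ]

theorem pderiv_dd [Fact p.Prime] {κ : ℕ → ℕ} (hκ : Monotone κ) (m s : ℕ) (φ : Phi p) :
    pderiv (0, m) (dd p κ s φ) = dd p κ s (pderiv (0, m) φ) := by
  rw [dd_apply, dd_apply, map_sum]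
  apply Finset.sum_congr rfl
  intro i _
  rw [Derivation.map_smul, pderiv_D p hκ]

end Vale.Agent.P257.V4.A.Eng
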