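import Vale.Agent.P257.V4.A.Eng3

/-!
P257, part A, engine (4): the concrete Gysin step, the contractible base case, change of profile,
and the theorem: no `h`/`b`-monomial of bidegree `(s, D)` implies vanishing.
-/

noncomputable section

open MvPolynomial Finset

namespace Vale.Agent.P257.V4.A.Eng

variable (p : ℕ)

/-- vanishing of `H^s` in weight `E` for the profile `κ` -/
def VanK (κ : ℕ → ℕ) (s E : ℕ) : Prop :=
  ∀ φ ∈ Cm p κ s E, dd p κ s φ = 0 → (match s with
    | 0 => φ = 0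
    | s + 1 => ∃ α ∈ Cm p κ s E, dd p κ s α = φ)

theorem wt_zero (κ : ℕ → ℕ) (m : ℕ) : wt p κ (0, m) = p ^ κ m * Ch.N p (m + 1) := by
  simp [wt]

theorem pderiv_mem_Cm {κ : ℕ → ℕ} {m s E : ℕ} {φ : Phi p} (h : φ ∈ Cm p κ s (E + wt p κ (0, m))) :
    pderiv (0, m) φ ∈ Cm p κ s E := by
  rw [mem_Cm] at h ⊢
  exact ⟨pderiv_mem_supported p (0, m) h.1, h.2.pderiv rfl⟩

theorem pderiv_small {σ : Type*} {w : σ → ℕ} {x : σ} {E : ℕ} {φ : MvPolynomial σ (ZMod p)}
    (hE : E < w x) (h : IsWeightedHomogeneous w φ E) : pderiv x φ = 0 := by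
  rw [φ.as_sum, map_sum]
  apply Finset.sum_eq_zero
  intro d hd
  rw [pderiv_monomial]
  by_cases h0 : d x = 0
  · rw [h0]; simp
  · exfalso
    have h1 : Finsupp.weight w d = E := h (MvPolynomial.mem_support_iff.1 hd)
    have h2 := Finsupp.weight_sub_single_add (w := w) h0
    rw [h1] at h2
    omega

theorem mul_mem_Cm {κ : ℕ → ℕ} {m s E : ℕ} {φ : Phi p} (h : φ ∈ Cm p κ s E) :
    X (0, m) * φ ∈ Cm p κ s (E + wt p κ (0, m)) := by
  rw [mem_Cm] at h ⊢
  refine ⟨Subalgebra.mul_mem _ (X_mem_Bl p (Nat.zero_le s)) h.1, ?_⟩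
  have := (isWeightedHomogeneous_X (ZMod p) (wt p κ) (0, m)).mul h.2
  rwa [add_comm] at this

/-- `d/dX(0,m)` as a linear map -/
def derL (m : ℕ) : Phi p →ₗ[ZMod p] Phi p := (pderiv (0, m)).toLinearMap

theorem derL_apply (m : ℕ) (φ : Phi p) : derL p m φ = pderiv (0, m) φ := rfl

theorem derL_iter (m k : ℕ) (φ : Phi p) : (derL p m)^[k] φ = (pderiv (0, m))^[k] φ := rfl

/-- multiplication by `X(0,m)` as a linear map -/
def mulL (m : ℕ) : Phi p →ₗ[ZMod p] Phi p := LinearMap.mulLeft (ZMod p) (X (0, m))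

theorem mulL_apply (m : ℕ) (φ : Phi p) : mulL p m φ = X (0, m) * φ := rfl

theorem derL_mulL (m : ℕ) (φ : Phi p) :
    derL p m (mulL p m φ) = mulL p m (derL p m φ) + φ := by
  rw [derL_apply, mulL_apply, pderiv_mul, pderiv_X_self, one_mul, add_comm, mulL_apply, derL_apply]

theorem derL_p [Fact p.Prime] (m : ℕ) (φ : Phi p) : (derL p m)^[p] φ = 0 := by
  rw [derL_iter]
  exact pderiv_iterate_p p (0, m) φ

/-- the concrete data of a Gysin step -/
def stepData [Fact p.Prime] {κ : ℕ → ℕ} (hκ : Monotone κ) (m : ℕ) : StepData p (Phi p) where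
  d := dd p κ
  C := Cm p κ
  der := derL p m
  mul := mulL p m
  w := wt p κ (0, m)
  d_mem := dd_mem p hκ
  d_d := fun {s _ φ} _ => dd_dd p κ hκ s φ
  der_d := fun {s _ φ} _ => pderiv_dd p hκ m s φ
  der_mem := fun h => pderiv_mem_Cm p h
  der_small := fun hE h => pderiv_small p hE ((mem_Cm p).1 h).2
  mul_mem := fun h => mul_mem_Cm p h
  der_mul := derL_mulL p m
  der_p := derL_p p m

/-- raise the profile at `m` by one -/
def up (κ : ℕ → ℕ) (m : ℕ) : ℕ → ℕ := fun n => if n = m then κ n + 1 else κ n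

theorem lawK_up [Fact p.Prime] {R : Type*} [CommRing R] [CharP R p] {κ δ : ℕ → ℕ}
    (hκ : Monotone κ) (hδ : Monotone fun n => κ n + δ n) (a b : ℕ → R) (n : ℕ) :
    lawK p (fun k => κ k + δ k) (fun k => a k ^ p ^ δ k) b n = lawK p κ a b n ^ p ^ δ n := by
  unfold lawK
  rw [sum_pow_char_pow]
  apply Finset.sum_congr rfl
  rintro ⟨i, j⟩ h
  rw [HasAntidiagonal.mem_antidiagonal] at h
  dsimp only at h ⊢
  rw [mul_pow, ← pow_mul, ← pow_mul, ← pow_add, ← pow_add]
  congr 1
  cases i with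
  | zero => simp [ext1]
  | succ i =>
    simp only [ext1, ext0, ← pow_mul, ← pow_add]
    congr 2
    have h1 : i ≤ n := by omega
    have h2 := hκ h1
    have h3 : κ i + δ i ≤ κ n + δ n := hδ h1
    omega

theorem em_D [Fact p.Prime] {κ : ℕ → ℕ} (hκ : Monotone κ) (m : ℕ) (hu : Monotone (up κ m))
    (i : ℕ) (φ : Phi p) :
    em p (0, m) (D p (up κ m) i φ) = D p κ i (em p (0, m) φ) := by
  have key : (em p (0, m)).comp (D p (up κ m) i) = (D p κ i).comp (em p (0, m)) := by
    apply MvPolynomial.algHom_ext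
    rintro ⟨j, n⟩
    rw [AlgHom.comp_apply, AlgHom.comp_apply, D_X]
    have hne : ∀ {j n : ℕ}, j ≠ 0 → (j, n) ≠ (0, m) := fun h h' => h (congrArg Prod.fst h')
    have e1 := map_mg p (em p (0, m) : Phi p →+* Phi p) (up κ m) (Xs p) i j n
    simp only [RingHom.coe_coe] at e1
    rw [e1]
    rcases lt_trichotomy j i with h1 | rfl | h1
    · rw [mg_lt _ h1]
      by_cases hj : (j, n) = (0, m)
      · have h2 : j = 0 := congrArg Prod.fst hj
        have h3 : n = m := congrArg Prod.snd hj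
        subst h2 h3
        rw [em_X_self, map_pow, D_X, mg_lt _ h1]
        exact em_X_self p (0, n)
      · rw [em_X_ne p _ hj, D_X, mg_lt _ h1]
        exact em_X_ne p _ hj
    · by_cases hj : j = 0
      · subst hj
        rw [mg_zero]
        have e2 : (fun k => em p (0, m) (Xs p 0 k)) =
            fun k => Xs p 0 k ^ p ^ (if k = m then 1 else 0) := by
          funext k
          by_cases hk : k = m
          · subst hk
            simp only [if_true, pow_one]
            exact em_X_self p (0, k)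
          · simp only [if_neg hk, pow_zero, pow_one]
            exact em_X_ne p _ (fun h' => hk (congrArg Prod.snd h'))
        have e3 : (fun k => em p (0, m) (Xs p 1 k)) = Xs p 1 := by
          funext k
          exact em_X_ne p _ (hne one_ne_zero)
        have e4 : up κ m = fun k => κ k + (if k = m then 1 else 0) := by
          funext k
          unfold up
          split_ifs <;> rfl
        rw [e2, e3]
        have e5 := lawK_up p (δ := fun k => if k = m then 1 else 0) hκ
          (by rw [← e4]; exact hu) (Xs p 0) (Xs p 1) n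
        rw [← e4] at e5
        rw [e5]
        by_cases hn : n = m
        · subst hn
          rw [em_X_self, map_pow, D_X, mg_zero]
          simp
        · rw [em_X_ne p _ (fun h' => hn (congrArg Prod.snd h')), D_X, mg_zero]
          simp [hn]
      · rw [mg_eq _ hj, em_X_ne p _ (hne hj), D_X, mg_eq _ hj]
        have e2 : (fun k => em p (0, m) (Xs p j k)) = Xs p j := by
          funext k
          exact em_X_ne p _ (hne hj)
        have e3 : (fun k => em p (0, m) (Xs p (j + 1) k)) = Xs p (j + 1) := by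
          funext k
          exact em_X_ne p _ (hne (Nat.succ_ne_zero j))
        rw [e2, e3]
    · rw [mg_gt _ h1, em_X_ne p _ (hne (by omega)), D_X, mg_gt _ h1]
      exact em_X_ne p _ (hne (by omega))
  exact DFunLike.congr_fun key φ

theorem em_dd [Fact p.Prime] {κ : ℕ → ℕ} (hκ : Monotone κ) (m : ℕ) (hu : Monotone (up κ m))
    (s : ℕ) (φ : Phi p) :
    em p (0, m) (dd p (up κ m) s φ) = dd p κ s (em p (0, m) φ) := by
  rw [dd_apply, dd_apply, map_sum]
  apply Finset.sum_congr rfl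
  intro i _
  rw [map_smul, em_D p hκ m hu]

theorem wt_up_self (κ : ℕ → ℕ) (m : ℕ) : wt p (up κ m) (0, m) = p * wt p κ (0, m) := by
  simp only [wt, up, if_true, pow_succ]
  ring

theorem wt_up_ne (κ : ℕ → ℕ) (m : ℕ) (x : ℕ × ℕ) (h : x ≠ (0, m)) :
    wt p (up κ m) x = wt p κ x := by
  obtain ⟨j, n⟩ := x
  by_cases hj : j = 0
  · subst hj
    have : n ≠ m := fun h' => h (by rw [h'])
    simp [wt, up, this]
  · simp [wt, hj]

theorem em_mem [Fact p.Prime] (κ : ℕ → ℕ) (m : ℕ) {s E : ℕ} {φ : Phi p}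
    (h : φ ∈ Cm p (up κ m) s E) : em p (0, m) φ ∈ Cm p κ s E := by
  rw [mem_Cm] at h ⊢
  exact ⟨em_mem_supported p _ h.1, em_isWH p _ (wt_up_self p κ m) (wt_up_ne p κ m) h.2⟩

theorem rm_mem [Fact p.Prime] (κ : ℕ → ℕ) (m : ℕ) {s E : ℕ} {φ : Phi p}
    (h : φ ∈ Cm p κ s E) (h0 : pderiv (0, m) φ = 0) : rm p (0, m) φ ∈ Cm p (up κ m) s E := by
  rw [mem_Cm] at h ⊢
  exact ⟨rm_mem_supported p _ h.1 h0, rm_isWH p _ (wt_up_self p κ m) (wt_up_ne p κ m) h.2 h0⟩

theorem vanSmall_iff [Fact p.Prime] {κ : ℕ → ℕ} (hκ : Monotone κ) (m : ℕ)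
    (hu : Monotone (up κ m)) (s E : ℕ) :
    (stepData p hκ m).VanSmall s E ↔ VanK p (up κ m) s E := by
  constructor
  · intro H φ hφ hd
    have h1 : em p (0, m) φ ∈ Cm p κ s E := em_mem p κ m hφ
    have h2 : pderiv (0, m) (em p (0, m) φ) = 0 := pderiv_em p _ φ
    have h3 : dd p κ s (em p (0, m) φ) = 0 := by rw [← em_dd p hκ m hu, hd, map_zero]
    have h4 := H _ h1 h2 h3
    cases s with
    | zero =>
      apply em_injective p (0, m)
      rw [map_zero]
      exact h4
    | succ s =>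
      obtain ⟨α, hα, hα0, hdα⟩ := h4
      refine ⟨rm p (0, m) α, rm_mem p κ m hα hα0, ?_⟩
      apply em_injective p (0, m)
      rw [em_dd p hκ m hu, em_rm p _ hα0]
      exact hdα
  · intro H φ hφ hφ0 hd
    have hφ0' : pderiv (0, m) φ = 0 := hφ0
    have h1 := rm_mem p κ m hφ hφ0'
    have h2 : dd p (up κ m) s (rm p (0, m) φ) = 0 := by
      apply em_injective p (0, m)
      rw [em_dd p hκ m hu, em_rm p _ hφ0', map_zero]
      exact hd
    have h3 := H _ h1 h2
    cases s with
    | zero =>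
      change φ = 0
      rw [← em_rm p _ hφ0', show rm p (0, m) φ = 0 from h3, map_zero]
    | succ s =>
      obtain ⟨α, hα, hdα⟩ := h3
      refine ⟨em p (0, m) α, em_mem p κ m hα, pderiv_em p _ α, ?_⟩
      change dd p κ s (em p (0, m) α) = φ
      rw [← em_dd p hκ m hu, hdα, em_rm p _ hφ0']

/-- **The Gysin step for profiles.** -/
theorem vanK_up [Fact p.Prime] {κ : ℕ → ℕ} (hκ : Monotone κ) (m : ℕ) (hu : Monotone (up κ m))
    {s E : ℕ} (h1 : VanK p κ s E)
    (h2 : ∀ s' E', s = s' + 1 → E = E' + p ^ κ m * Ch.N p (m + 1) → VanK p κ s' E')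
    (h3 : ∀ s' E', s = s' + 2 → E = E' + p ^ (κ m + 1) * Ch.N p (m + 1) →
      VanK p (up κ m) s' E') : VanK p (up κ m) s E := by
  rw [← vanSmall_iff p hκ m hu]
  apply (stepData p hκ m).vanSmall h1
  · intro s' E' hs hE
    exact h2 s' E' hs (hE.trans (congrArg (E' + ·) (wt_zero p κ m)))
  · intro s' E' hs hE
    rw [vanSmall_iff p hκ m hu]
    apply h3 s' E' hs
    rw [hE]
    change E' + p * wt p κ (0, m) = _
    rw [wt_zero, pow_succ]
    ring

end Vale.Agent.P257.V4.A.Eng
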