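import Vale.Agent.P257.V4.A.Eng4

/-!
P257, part A, engine (5): base case (contraction), change of profile, no monomial => vanishing.
-/

noncomputable section

open MvPolynomial Finset

namespace Vale.Agent.P257.V4.A.Eng

variable (p : ℕ)

/-- the profile `0` -/
def k0 : ℕ → ℕ := fun _ => 0

theorem k0_mono : Monotone k0 := fun _ _ _ => le_rfl

theorem Xs_apply (i n : ℕ) : Xs p i n = X (i, n) := rfl

/-- the contraction: put `y = 1` and renumber -/
def Sc : Phi p →ₐ[ZMod p] Phi p :=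
  aeval fun x => Nat.casesOn x.1 0 fun j => X (j, x.2)

theorem Sc_X_zero (n : ℕ) : Sc p (X (0, n)) = 0 := by simp [Sc]

theorem Sc_X_succ (j n : ℕ) : Sc p (X (j + 1, n)) = X (j, n) := by simp [Sc]

theorem lawK_k0_zero {R : Type*} [CommRing R] [Fact p.Prime] (b : ℕ → R) (n : ℕ) :
    lawK p k0 (fun _ => 0) b n = b n := by
  have h := lawK_zero p (fun _ => (0 : R)) b n
  change lawK p k0 (fun _ => 0) b n = _ at h
  rw [h]
  unfold law
  rw [Finset.sum_eq_single (0, n + 1)]
  · simp [ext1]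
  · rintro ⟨i, j⟩ h1 h2
    rw [HasAntidiagonal.mem_antidiagonal] at h1
    cases i with
    | zero => exact absurd (by simp at h1; simp [h1]) h2
    | succ i =>
      dsimp only [ext1]
      rw [zero_pow (pow_ne_zero _ (Fact.out : p.Prime).ne_zero), zero_mul]
  · intro h1
    exact absurd (by rw [HasAntidiagonal.mem_antidiagonal]; simp) h1

theorem Sc_D_zero [Fact p.Prime] (φ : Phi p) : Sc p (D p k0 0 φ) = φ := by
  have : (Sc p).comp (D p k0 0) = AlgHom.id _ _ := by
    apply MvPolynomial.algHom_ext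
    rintro ⟨j, n⟩
    rw [AlgHom.comp_apply, D_X, AlgHom.id_apply]
    have e1 := map_mg p (Sc p : Phi p →+* Phi p) k0 (Xs p) 0 j n
    simp only [RingHom.coe_coe] at e1
    rw [e1]
    cases j with
    | zero =>
      rw [mg_zero]
      have e2 : (fun k => Sc p (Xs p 0 k)) = fun _ => 0 :=
        funext fun k => by rw [Xs_apply, Sc_X_zero]
      have e3 : (fun k => Sc p (Xs p 1 k)) = Xs p 0 :=
        funext fun k => by rw [Xs_apply, Xs_apply, Sc_X_succ]
      rw [e2, e3, lawK_k0_zero]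
      rfl
    | succ j =>
      rw [mg_gt _ (Nat.succ_pos j), Xs_apply, Sc_X_succ]
  exact DFunLike.congr_fun this φ

theorem Sc_D_succ [Fact p.Prime] (i : ℕ) (φ : Phi p) :
    Sc p (D p k0 (i + 1) φ) = D p k0 i (Sc p φ) := by
  have : (Sc p).comp (D p k0 (i + 1)) = (D p k0 i).comp (Sc p) := by
    apply MvPolynomial.algHom_ext
    rintro ⟨j, n⟩
    rw [AlgHom.comp_apply, D_X, AlgHom.comp_apply]
    have e1 := map_mg p (Sc p : Phi p →+* Phi p) k0 (Xs p) (i + 1) j n
    simp only [RingHom.coe_coe] at e1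
    rw [e1]
    cases j with
    | zero =>
      rw [mg_lt _ (Nat.succ_pos i), Sc_X_zero, map_zero, Xs_apply, Sc_X_zero]
    | succ j =>
      rw [Sc_X_succ, D_X]
      rcases lt_trichotomy j i with h1 | rfl | h1
      · rw [mg_lt _ (by omega), mg_lt _ h1, Xs_apply, Xs_apply, Sc_X_succ]
      · rw [mg_eq _ (Nat.succ_ne_zero j)]
        have e2 : ∀ l, (fun k => Sc p (Xs p (l + 1) k)) = Xs p l :=
          fun l => funext fun k => by rw [Xs_apply, Xs_apply, Sc_X_succ]
        rw [e2, e2]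
        by_cases hj : j = 0
        · subst hj
          rw [mg_zero]
          exact (lawK_zero p _ _ n).symm
        · rw [mg_eq _ hj]
      · rw [mg_gt _ (by omega), mg_gt _ h1, Xs_apply, Xs_apply, Sc_X_succ]
  exact DFunLike.congr_fun this φ

theorem Sc_mem {s E : ℕ} {φ : Phi p} (h : φ ∈ Cm p k0 (s + 1) E) : Sc p φ ∈ Cm p k0 s E := by
  rw [mem_Cm] at h ⊢
  constructor
  · have : Bl p (s + 1) ≤ (Bl p s).comap (Sc p) := by
      unfold Bl supported
      rw [Algebra.adjoin_le_iff]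
      rintro _ ⟨⟨j, n⟩, hx, rfl⟩
      have hj : j ≤ s + 1 := hx
      change Sc p (X (j, n)) ∈ Bl p s
      cases j with
      | zero => rw [Sc_X_zero]; exact Subalgebra.zero_mem _
      | succ j => rw [Sc_X_succ]; exact X_mem_Bl p (by omega)
    exact this h.1
  · unfold Sc
    apply isWH_aeval _ h.2
    rintro ⟨j, n⟩
    cases j with
    | zero => exact isWeightedHomogeneous_zero (ZMod p) (wt p k0) _
    | succ j =>
      have := isWeightedHomogeneous_X (ZMod p) (wt p k0) (j, n)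
      have e : wt p k0 (j, n) = wt p k0 (j + 1, n) := by
        simp [wt, k0]
      rw [e] at this
      exact this

theorem Sc_dd [Fact p.Prime] (s : ℕ) (φ : Phi p) :
    Sc p (dd p k0 (s + 1) φ) = φ - dd p k0 s (Sc p φ) := by
  rw [dd_apply, dd_apply, Finset.sum_range_succ', map_add, map_sum, pow_zero, one_smul, Sc_D_zero,
    add_comm, sub_eq_add_neg, ← Finset.sum_neg_distrib]
  congr 1
  apply Finset.sum_congr rfl
  intro i _
  rw [map_smul, Sc_D_succ, pow_succ, mul_neg_one, neg_smul]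

theorem isWH_C_pos {σ : Type*} {w : σ → ℕ} {E : ℕ} (hE : 0 < E) (c : ZMod p)
    (h : IsWeightedHomogeneous w (C c : MvPolynomial σ (ZMod p)) E) : c = 0 := by
  by_contra hc
  have h1 := h (d := 0) (by simpa using hc)
  rw [map_zero] at h1
  omega

theorem vanK_k0 [Fact p.Prime] {s E : ℕ} (h : 0 < s ∨ 0 < E) : VanK p k0 s E := by
  intro φ hφ hd
  cases s with
  | succ s =>
    refine ⟨Sc p φ, Sc_mem p hφ, ?_⟩
    have := Sc_dd p s φ
    rw [hd, map_zero] at this
    exact (sub_eq_zero.1 this.symm).symm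
  | zero =>
    have hE : 0 < E := by omega
    have h1 : D p k0 0 φ = φ := by
      rw [mem_Cm] at hφ
      have h2 := dd_apply p k0 0 φ
      rw [hd] at h2
      simp only [Finset.sum_range_succ, Finset.sum_range_zero, pow_zero, one_smul, zero_add,
        pow_one, neg_smul] at h2
      rw [D_eq_self p k0 (show 0 < 1 by omega) hφ.1] at h2
      exact (sub_eq_zero.1 (by rw [sub_eq_add_neg]; exact h2.symm))
    rw [mem_Cm] at hφ
    -- `φ` is constant
    have h3 : ∃ c, φ = C c := by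
      have h4 : Bl p 0 ≤ AlgHom.equalizer (Sc p) ((Algebra.ofId (ZMod p) (Phi p)).comp
          (MvPolynomial.aeval (fun _ => (0 : ZMod p)))) := by
        unfold Bl supported
        rw [Algebra.adjoin_le_iff]
        rintro _ ⟨⟨j, n⟩, hx, rfl⟩
        have hj : j = 0 := Nat.le_zero.1 hx
        subst hj
        change Sc p (X (0, n)) = Algebra.ofId (ZMod p) (Phi p) (MvPolynomial.aeval _ (X (0, n)))
        rw [Sc_X_zero, aeval_X, map_zero]
      have h5 := h4 hφ.1
      refine ⟨MvPolynomial.aeval (fun _ => (0 : ZMod p)) φ, ?_⟩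
      have h6 : Sc p φ = C (MvPolynomial.aeval (fun _ => (0 : ZMod p)) φ) := h5
      rw [← h6]
      conv_lhs => rw [← Sc_D_zero p φ, h1]
    obtain ⟨c, rfl⟩ := h3
    rw [show c = 0 from isWH_C_pos p hE c hφ.2]
    exact map_zero _

/-! ### change of profile -/

theorem mem_supported_of_isWH {σ : Type*} {w : σ → ℕ} {E : ℕ} {φ : MvPolynomial σ (ZMod p)}
    (h : IsWeightedHomogeneous w φ E) : φ ∈ supported (ZMod p) {x | w x ≤ E} := by
  rw [φ.as_sum]
  apply Subalgebra.sum_mem
  intro d hd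
  apply monomial_mem_supported
  intro x hx
  have h1 : Finsupp.weight w d = E := h (MvPolynomial.mem_support_iff.1 hd)
  have h2 := Finsupp.weight_sub_single_add (w := w) (Finsupp.mem_support_iff.1 hx)
  rw [h1] at h2
  change w x ≤ E
  omega

theorem isWH_of_supported {σ : Type*} {w w' : σ → ℕ} {S : Set σ} (hw : ∀ x ∈ S, w x = w' x)
    {E : ℕ} {φ : MvPolynomial σ (ZMod p)}
    (h : IsWeightedHomogeneous w φ E) (hS : φ ∈ supported (ZMod p) S) :
    IsWeightedHomogeneous w' φ E := by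
  intro d hd
  rw [← h hd, Finsupp.weight_apply, Finsupp.weight_apply]
  apply Finsupp.sum_congr
  intro x hx
  rw [hw x (support_of_mem_supported p hS (MvPolynomial.mem_support_iff.2 hd) x hx)]

/-- the variables which only see the profile below `L` -/
def TL (L : ℕ) : Set (ℕ × ℕ) := {x | x.1 = 0 → x.2 < L}

theorem D_agree {κ κ' : ℕ → ℕ} {L : ℕ} (h : ∀ n < L, κ n = κ' n) (i : ℕ) {φ : Phi p}
    (hφ : φ ∈ supported (ZMod p) (TL L)) : D p κ i φ = D p κ' i φ := by
  have : supported (ZMod p) (TL L) ≤ AlgHom.equalizer (D p κ i) (D p κ' i) := by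
    unfold supported
    rw [Algebra.adjoin_le_iff]
    rintro _ ⟨⟨j, n⟩, hx, rfl⟩
    change D p κ i (X (j, n)) = D p κ' i (X (j, n))
    rw [D_X, D_X]
    rcases lt_trichotomy j i with h1 | rfl | h1
    · rw [mg_lt _ h1, mg_lt _ h1]
    · by_cases hj : j = 0
      · subst hj
        have hn : n < L := hx rfl
        rw [mg_zero, mg_zero]
        unfold lawK
        apply Finset.sum_congr rfl
        rintro ⟨i, j⟩ hij
        rw [HasAntidiagonal.mem_antidiagonal] at hij
        dsimp only at hij ⊢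
        have e1 : ext0 κ i = ext0 κ' i := by
          cases i with
          | zero => rfl
          | succ i => exact h i (by omega)
        rw [h n hn, e1]
      · rw [mg_eq _ hj, mg_eq _ hj]
    · rw [mg_gt _ h1, mg_gt _ h1]
  exact this hφ

theorem dd_agree {κ κ' : ℕ → ℕ} {L : ℕ} (h : ∀ n < L, κ n = κ' n) (s : ℕ) {φ : Phi p}
    (hφ : φ ∈ supported (ZMod p) (TL L)) : dd p κ s φ = dd p κ' s φ := by
  rw [dd_apply, dd_apply]
  exact Finset.sum_congr rfl fun i _ => by rw [D_agree p h i hφ]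

theorem Cm_sub_TL {κ : ℕ → ℕ} {L E : ℕ} (h : ∀ n, L ≤ n → E < wt p κ (0, n)) {s : ℕ} {φ : Phi p}
    (hφ : φ ∈ Cm p κ s E) : φ ∈ supported (ZMod p) (TL L) := by
  rw [mem_Cm] at hφ
  have h1 := mem_supported_of_isWH p hφ.2
  refine supported_mono ?_ h1
  rintro ⟨j, n⟩ hx hj
  dsimp only at hj
  subst hj
  by_contra hn
  have h2 : wt p κ (0, n) ≤ E := hx
  have h3 := h n (by omega)
  omega

theorem Cm_agree {κ κ' : ℕ → ℕ} {L E : ℕ} (h : ∀ n < L, κ n = κ' n)
    (h1 : ∀ n, L ≤ n → E < wt p κ (0, n)) {s : ℕ} {φ : Phi p}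
    (hφ : φ ∈ Cm p κ s E) : φ ∈ Cm p κ' s E := by
  have hT := Cm_sub_TL p h1 hφ
  rw [mem_Cm] at hφ ⊢
  refine ⟨hφ.1, isWH_of_supported p ?_ hφ.2 hT⟩
  rintro ⟨j, n⟩ hx
  by_cases hj : j = 0
  · subst hj
    simp [wt, h n (hx rfl)]
  · simp [wt, hj]

theorem vanK_agree {κ κ' : ℕ → ℕ} {L s E : ℕ} (h : ∀ n < L, κ n = κ' n)
    (h1 : ∀ n, L ≤ n → E < wt p κ (0, n)) (h2 : ∀ n, L ≤ n → E < wt p κ' (0, n))
    (hV : VanK p κ s E) : VanK p κ' s E := by
  intro φ hφ hd
  have hφ' : φ ∈ Cm p κ s E := Cm_agree p (fun n hn => (h n hn).symm) h2 hφ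
  have hd' : dd p κ s φ = 0 := by
    rw [dd_agree p h s (Cm_sub_TL p h2 hφ)]
    exact hd
  have h3 := hV φ hφ' hd'
  cases s with
  | zero => exact h3
  | succ s =>
    obtain ⟨α, hα, hdα⟩ := h3
    exact ⟨α, Cm_agree p h h1 hα, by rw [← dd_agree p h s (Cm_sub_TL p h1 hα)]; exact hdα⟩

end Vale.Agent.P257.V4.A.Eng
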