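import Vale.Agent.P257.V4.A.Eng5
import Vale.Agent.P257.V4.A.Mono

/-!
P257, part A, engine (6): induction over the profiles; no monomial => vanishing for the constant
profile `K` with `p^K` large.
-/

noncomputable section

open MvPolynomial Finset

namespace Vale.Agent.P257.V4.A.Eng

variable (p : ℕ)

/-- letters allowed by a profile -/
def al (κ : ℕ → ℕ) : Set (ℕ × ℕ) := {a | a.2 < κ a.1}

theorem al_up (κ : ℕ → ℕ) (m : ℕ) : al (up κ m) = insert (m, κ m) (al κ) := by
  ext ⟨n, i⟩
  simp only [al, up, Set.mem_setOf_eq, Set.mem_insert_iff, Prod.mk.injEq]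
  by_cases h : n = m
  · subst h
    simp
    omega
  · simp [h]

theorem lw_eq (m i : ℕ) : ML.lw p (m, i) = p ^ i * Ch.N p (m + 1) := rfl

theorem notMem_al (κ : ℕ → ℕ) (m : ℕ) : (m, κ m) ∉ al κ := by
  simp [al]

theorem step_prof [Fact p.Prime] {κ : ℕ → ℕ} (hκ : Monotone κ) (m : ℕ) (hu : Monotone (up κ m))
    (B : ℕ) (H : ∀ s E, E < B → ML.NoMonoIn (al κ) p s E → VanK p κ s E) :
    ∀ s E, E < B → ML.NoMonoIn (al (up κ m)) p s E → VanK p (up κ m) s E := by
  intro s
  induction s using Nat.strong_induction_on with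
  | _ s ih =>
    intro E hE hN
    rw [al_up] at hN
    apply vanK_up p hκ m hu
    · exact H s E hE hN.of_insert
    · intro s' E' hs hE'
      subst hs
      apply H s' E' (by omega)
      rw [hE', ← lw_eq] at hN
      exact hN.of_insert_h (notMem_al κ m)
    · intro s' E' hs hE'
      subst hs
      apply ih s' (by omega) E' (by omega)
      rw [al_up]
      have e : p ^ (κ m + 1) * Ch.N p (m + 1) = p * ML.lw p (m, κ m) := by
        rw [lw_eq, pow_succ]
        ring
      rw [hE', e] at hN
      exact hN.of_insert_b (Set.mem_insert _ _)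

/-- the profiles of the induction -/
def prof (K m k : ℕ) : ℕ → ℕ := fun n => if n < m then 0 else if n = m then k else K

theorem prof_mono {K m k : ℕ} (h : k ≤ K) : Monotone (prof K m k) := by
  intro a b hab
  unfold prof
  split_ifs <;> omega

theorem up_prof (K m k : ℕ) : up (prof K m k) m = prof K m (k + 1) := by
  funext n
  unfold up prof
  split_ifs <;> first | rfl | omega

theorem prof_succ (K m : ℕ) : prof K (m + 1) K = prof K m 0 := by
  funext n
  unfold prof
  split_ifs <;> first | rfl | omega

theorem pow_le_wt (κ : ℕ → ℕ) (n : ℕ) : p ^ (κ n + n) ≤ wt p κ (0, n) := by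
  rw [wt_zero, pow_add]
  apply Nat.mul_le_mul_left
  exact ML.pow_le_NN p n

theorem base_prof [Fact p.Prime] (K L : ℕ) (B : ℕ) (hB : B ≤ p ^ L) :
    ∀ s E, E < B → ML.NoMonoIn (al (prof K L K)) p s E → VanK p (prof K L K) s E := by
  intro s E hE hN
  have hp : 0 < p := (Fact.out : p.Prime).pos
  have h1 : 0 < s ∨ 0 < E := by
    by_contra h
    have hs : s = 0 := by omega
    have hE : E = 0 := by omega
    subst hs hE
    exact hN ⟨∅, 0⟩ ⟨by simp, by simp⟩ (by simp [ML.Mono.s, ML.Mono.nb])
      (by simp [ML.Mono.deg])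
  have hlt : ∀ (κ : ℕ → ℕ) (n : ℕ), L ≤ n → E < wt p κ (0, n) := by
    intro κ n hn
    calc E < B := hE
      _ ≤ p ^ L := hB
      _ ≤ p ^ (κ n + n) := Nat.pow_le_pow_right hp (by omega)
      _ ≤ _ := pow_le_wt p κ n
  apply vanK_agree p (κ := k0) (L := L) _ (hlt _) (hlt _) (vanK_k0 p h1)
  intro n hn
  simp [k0, prof, hn]

theorem all_prof [Fact p.Prime] (K L B : ℕ) (hB : B ≤ p ^ L) :
    ∀ m, m ≤ L → ∀ s E, E < B → ML.NoMonoIn (al (prof K (L - m) K)) p s E →
      VanK p (prof K (L - m) K) s E := by
  intro m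
  induction m with
  | zero => intro _; simpa using base_prof p K L B hB
  | succ m ih =>
    intro hm
    have ih' := ih (by omega)
    have e : L - m = L - (m + 1) + 1 := by omega
    rw [e, prof_succ] at ih'
    have key : ∀ k, k ≤ K → ∀ s E, E < B → ML.NoMonoIn (al (prof K (L - (m + 1)) k)) p s E →
        VanK p (prof K (L - (m + 1)) k) s E := by
      intro k
      induction k with
      | zero => intro _; exact ih'
      | succ k ihk =>
        intro hk
        have h := step_prof p (prof_mono (K := K) (m := L - (m + 1)) (k := k) (by omega))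
          (L - (m + 1)) (by rw [up_prof]; exact prof_mono hk) B (ihk (by omega))
        rw [up_prof] at h
        exact h
    exact key K le_rfl

/-- the constant profile -/
theorem vanK_const [Fact p.Prime] (K s E : ℕ) (hN : ML.NoMono p s E) :
    VanK p (fun _ => K) s E := by
  have hp : 1 < p := (Fact.out : p.Prime).one_lt
  have h1 := all_prof p K (E + 1) (E + 1) (Nat.lt_pow_self hp).le (E + 1) le_rfl s E
    (Nat.lt_succ_self E)
  have e : prof K (E + 1 - (E + 1)) K = fun _ => K := by
    funext n
    rw [Nat.sub_self]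
    unfold prof
    split_ifs <;> first | rfl | omega
  rw [e] at h1
  apply h1
  exact ML.NoMonoIn.mono (Set.subset_univ _) ((ML.noMono_iff p s E).1 hN)

end Vale.Agent.P257.V4.A.Eng
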