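import Vale.Agent.P257.V4.A.Eng6
import Vale.Agent.P257.V4.A.Defs

/-!
P257, part A, engine (7): from the inhomogeneous model to `Ch p s`; the theorem
`van_of_noMono : ML.NoMono p s D → Ch.Van p s D`.
-/

noncomputable section

open MvPolynomial Finset

namespace Vale.Agent.P257.V4.A.Eng

variable (p : ℕ) [Fact p.Prime]

/-- the group elements `g_j = x_j x_{j-1} ... x_1` -/
def gg : ℕ → G p (Phi p)
  | 0 => 1
  | j + 1 => G.mk (Xs p (j + 1)) * gg j

/-- the chain `(1, g_1, .., g_s)` -/
def chn (s : ℕ) : Chain p s (Phi p) where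
  g i := gg p i
  zero := rfl

omit [Fact p.Prime] in
theorem mk_a {R : Type} [CommRing R] (a : ℕ → R) (n : ℕ) : (G.mk (p := p) a).a n = ext1 a n := by
  cases n with
  | zero => rfl
  | succ n => rfl

theorem law_eq {R : Type} [CommRing R] (a b : ℕ → R) (n : ℕ) :
    law p a b n = (G.mk (p := p) b * G.mk a).a (n + 1) := by
  rw [G.mul_a]
  unfold law
  apply Finset.sum_nbij' Prod.swap Prod.swap
  · intro x hx
    rw [HasAntidiagonal.mem_antidiagonal] at hx ⊢
    simpa [add_comm] using hx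
  · intro x hx
    rw [HasAntidiagonal.mem_antidiagonal] at hx ⊢
    simpa [add_comm] using hx
  · intro x _; rfl
  · intro x _; rfl
  · intro x _
    rw [mk_a, mk_a]
    simp only [Prod.fst_swap, Prod.snd_swap]
    rw [mul_comm]

omit [Fact p.Prime] in
theorem mk_map {R S : Type} [CommRing R] [CommRing S] (f : R →+* S) (a : ℕ → R) :
    (G.mk (p := p) a).map f = G.mk fun k => f (a k) := by
  apply G.ext_succ
  intro n
  rfl

theorem mk_law {R : Type} [CommRing R] (a b : ℕ → R) :
    G.mk (p := p) (law p a b) = G.mk b * G.mk a := by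
  apply G.ext_succ
  intro n
  rw [G.mk_a_succ, law_eq]

theorem gg_map (κ : ℕ → ℕ) (i j : ℕ) :
    (gg p j).map (D p κ i : Phi p →+* Phi p) =
      gg p (if j < i then j else j + 1) * (gg p (if i = 0 then 1 else 0))⁻¹ := by
  induction j with
  | zero =>
    change (1 : G p (Phi p)).map _ = _
    rw [G.map_one]
    by_cases hi : i = 0
    · subst hi; simp
    · rw [if_pos (by omega), if_neg hi, mul_inv_cancel]
  | succ j ih =>
    change (G.mk (Xs p (j + 1)) * gg p j).map _ = _
    rw [G.map_mul, ih, mk_map, ← mul_assoc]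
    congr 1
    rcases lt_trichotomy (j + 1) i with h | h | h
    · rw [if_pos h, if_pos (by omega)]
      have : (fun k => (D p κ i : Phi p →+* Phi p) (Xs p (j + 1) k)) = Xs p (j + 1) := by
        funext k
        rw [RingHom.coe_coe, Xs_apply, D_X, mg_lt _ h, Xs_apply]
      rw [this]
      rfl
    · subst h
      rw [if_neg (show ¬ (j + 1 < j + 1) by omega), if_pos (show j < j + 1 by omega)]
      have : (fun k => (D p κ (j + 1) : Phi p →+* Phi p) (Xs p (j + 1) k)) =
          law p (Xs p (j + 1)) (Xs p (j + 2)) := by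
        funext k
        rw [RingHom.coe_coe, Xs_apply, D_X, mg_eq _ (Nat.succ_ne_zero j)]
      rw [this, mk_law, mul_assoc]
      rfl
    · rw [if_neg (by omega), if_neg (by omega)]
      have : (fun k => (D p κ i : Phi p →+* Phi p) (Xs p (j + 1) k)) = Xs p (j + 2) := by
        funext k
        rw [RingHom.coe_coe, Xs_apply, D_X, mg_gt _ h]
      rw [this]
      rfl

theorem chn_res (κ : ℕ → ℕ) (s : ℕ) (i : Fin (s + 2)) :
    (chn p (s + 1)).res i.succAbove = (chn p s).map (D p κ i : Phi p →+* Phi p) := by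
  ext1
  funext k
  rw [Chain.res_g, Chain.map_g]
  change gg p (i.succAbove k : Fin (s + 2)) * (gg p (i.succAbove 0 : Fin (s + 2)))⁻¹ =
    (gg p k).map _
  rw [gg_map]
  congr 2
  · simp only [Fin.succAbove, Fin.lt_def, Fin.val_castSucc]
    split_ifs <;> simp
  · congr 1
    by_cases hi : i = 0
    · subst hi
      simp
    · have h1 : (i : ℕ) ≠ 0 := fun h => hi (Fin.ext h)
      have h2 : (0 : Fin (s + 1)).castSucc < i := by
        rw [Fin.lt_def, Fin.val_castSucc, Fin.val_zero]
        exact Nat.pos_of_ne_zero h1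
      rw [if_neg h1, Fin.succAbove_of_castSucc_lt _ _ h2]
      simp

/-- the embedding of `Ch p s` -/
def io (s : ℕ) : Ch p s →+* Phi p := Ch.ev (chn p s)

theorem zsmul_eq (i : ℕ) (y : Phi p) : ((-1 : ℤ) ^ i) • y = ((-1 : ZMod p) ^ i) • y := by
  rcases Nat.even_or_odd i with h | h
  · rw [h.neg_one_pow, h.neg_one_pow, one_smul, one_smul]
  · rw [h.neg_one_pow, h.neg_one_pow, neg_smul, neg_smul, one_smul, one_smul]

theorem io_d (κ : ℕ → ℕ) (s : ℕ) (x : Ch p s) :
    io p (s + 1) (Ch.d s x) = dd p κ s (io p s x) := by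
  unfold io
  rw [Ch.ev_d, dd_apply, Finset.sum_range]
  apply Finset.sum_congr rfl
  intro i _
  rw [chn_res p κ, Ch.ev_map, zsmul_eq]
  rfl

theorem gg_a_mem {s j : ℕ} (hj : j ≤ s) (n : ℕ) : (gg p j).a n ∈ Bl p s := by
  induction j generalizing n with
  | zero =>
    change (1 : G p (Phi p)).a n ∈ Bl p s
    rw [G.one_a]
    split_ifs
    · exact Subalgebra.one_mem _
    · exact Subalgebra.zero_mem _
  | succ j ih =>
    change (G.mk (Xs p (j + 1)) * gg p j).a n ∈ Bl p s
    rw [G.mul_a]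
    apply Subalgebra.sum_mem
    intro x _
    rw [mk_a]
    exact Subalgebra.mul_mem _ (ext1_mem_Bl p hj _) (Subalgebra.pow_mem _ (ih (by omega) _) _)

theorem gg_a_isWH (κ : ℕ → ℕ) (j n : ℕ) :
    IsWeightedHomogeneous (wt p κ) ((gg p j).a n) (Ch.N p n) := by
  induction j generalizing n with
  | zero =>
    change IsWeightedHomogeneous (wt p κ) ((1 : G p (Phi p)).a n) (Ch.N p n)
    rw [G.one_a]
    split_ifs with h
    · subst h
      simp only [Ch.N, Finset.range_zero, Finset.sum_empty]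
      exact isWeightedHomogeneous_one _ _
    · exact isWeightedHomogeneous_zero _ _ _
  | succ j ih =>
    change IsWeightedHomogeneous (wt p κ) ((G.mk (Xs p (j + 1)) * gg p j).a n) (Ch.N p n)
    rw [G.mul_a]
    apply IsWeightedHomogeneous.sum
    rintro ⟨a, b⟩ h
    rw [HasAntidiagonal.mem_antidiagonal] at h
    dsimp only at h ⊢
    rw [mk_a]
    have h1 := (isWH_ext_pos p κ (Nat.succ_ne_zero j) a).mul ((ih b).pow (p ^ a))
    have h2 : Ch.N p (a + b) = Ch.N p a + p ^ a * Ch.N p b := by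
      rw [add_comm a b, N_add, add_comm]
    rw [← h, h2]
    simpa using h1

theorem io_mem (κ : ℕ → ℕ) {s E : ℕ} {x : Ch p s} (h : Ch.IsWt E x) : io p s x ∈ Cm p κ s E := by
  rw [mem_Cm]
  constructor
  · clear h
    induction x using MvPolynomial.induction_on with
    | C a =>
      change Ch.ev _ (C a) ∈ _
      rw [Ch.ev_C]
      exact Subalgebra.algebraMap_mem _ _
    | add a b ha hb => rw [map_add]; exact Subalgebra.add_mem _ ha hb
    | mul_X a ik ha =>
      rw [map_mul]
      apply Subalgebra.mul_mem _ ha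
      change Ch.ev _ (X ik) ∈ _
      rw [Ch.ev_X]
      exact gg_a_mem p (Nat.lt_succ_iff.1 ik.1.succ.isLt) _
  · have : io p s x = aeval (fun ik : Fin s × ℕ => ((chn p s).g ik.1.succ).a (ik.2 + 1)) x := rfl
    rw [this]
    apply isWH_aeval _ h
    intro ik
    exact gg_a_isWH p κ _ _

/-- the vertices of the universal chain, indexed by `ℕ` -/
def uu (s j : ℕ) : G p (Ch p s) := if h : j < s + 1 then (Ch.univ p s).g ⟨j, h⟩ else 1

theorem uu_zero (s : ℕ) : uu p s 0 = 1 := by
  unfold uu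
  rw [dif_pos (Nat.succ_pos s)]
  exact (Ch.univ p s).zero

/-- the left inverse of `io` -/
def ro (s : ℕ) : Phi p →+* Ch p s :=
  (aeval (R := ZMod p) fun x : ℕ × ℕ => (uu p s x.1 * (uu p s (x.1 - 1))⁻¹).a (x.2 + 1) :
    Phi p →ₐ[ZMod p] Ch p s)

theorem ro_X (s : ℕ) (x : ℕ × ℕ) :
    ro p s (X x) = (uu p s x.1 * (uu p s (x.1 - 1))⁻¹).a (x.2 + 1) := by
  simp [ro]

theorem gg_map_ro (s j : ℕ) : (gg p j).map (ro p s) = uu p s j := by
  induction j with
  | zero =>
    change (1 : G p (Phi p)).map _ = _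
    rw [G.map_one, uu_zero]
  | succ j ih =>
    change (G.mk (Xs p (j + 1)) * gg p j).map _ = _
    rw [G.map_mul, ih, mk_map]
    have : (fun k => ro p s (Xs p (j + 1) k)) =
        fun k => (uu p s (j + 1) * (uu p s j)⁻¹).a (k + 1) := by
      funext k
      rw [Xs_apply, ro_X]
      rfl
    rw [this, G.mk_eta, inv_mul_cancel_right]

theorem ro_io (s : ℕ) (x : Ch p s) : ro p s (io p s x) = x := by
  unfold io
  rw [← Ch.ev_map]
  have : (chn p s).map (ro p s) = Ch.univ p s := by
    ext1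
    funext k
    rw [Chain.map_g]
    change (gg p k).map (ro p s) = _
    rw [gg_map_ro, uu, dif_pos k.isLt]
  rw [this, Ch.ev_univ]

theorem io_injective (s : ℕ) : Function.Injective (io p s) :=
  Function.LeftInverse.injective (ro_io p s)

theorem uu_map_io {s j : ℕ} (hj : j ≤ s) : (uu p s j).map (io p s) = gg p j := by
  unfold uu io
  rw [dif_pos (by omega), ← Chain.map_g, Ch.univ_map_ev]
  rfl

theorem io_ro {s : ℕ} {φ : Phi p} (h : φ ∈ supported (ZMod p) {x : ℕ × ℕ | 1 ≤ x.1 ∧ x.1 ≤ s}) :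
    io p s (ro p s φ) = φ := by
  unfold supported at h
  induction h using Algebra.adjoin_induction with
  | mem y hy =>
    obtain ⟨⟨j, n⟩, ⟨h1, h2⟩, rfl⟩ := hy
    dsimp only at h1 h2
    rw [ro_X]
    dsimp only
    obtain ⟨j, rfl⟩ : ∃ i, j = i + 1 := ⟨j - 1, by omega⟩
    rw [Nat.add_sub_cancel, ← G.map_a, G.map_mul, G.map_inv, uu_map_io p h2,
      uu_map_io p (show j ≤ s by omega)]
    change (G.mk (Xs p (j + 1)) * gg p j * (gg p j)⁻¹).a (n + 1) = _
    rw [mul_inv_cancel_right]
    rfl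
  | algebraMap r =>
    have h1 : ro p s (algebraMap (ZMod p) (Phi p) r) = algebraMap (ZMod p) (Ch p s) r := by
      simp only [ro, RingHom.coe_coe, AlgHom.commutes]
    rw [h1]
    change Ch.ev (chn p s) (C r) = _
    rw [Ch.ev_C]
  | add a b _ _ ha hb => rw [map_add, map_add, ha, hb]
  | mul a b _ _ ha hb => rw [map_mul, map_mul, ha, hb]

/-- for a large constant profile nothing sees block `0` -/
theorem supported_of_mem {K s E : ℕ} (hK : E < p ^ K) {φ : Phi p}
    (h : φ ∈ Cm p (fun _ => K) s E) :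
    φ ∈ supported (ZMod p) {x : ℕ × ℕ | 1 ≤ x.1 ∧ x.1 ≤ s} := by
  have hp : 0 < p := (Fact.out : p.Prime).pos
  rw [mem_Cm] at h
  have h1 := mem_supported_of_isWH p h.2
  have h2 : φ ∈ supported (ZMod p) {x : ℕ × ℕ | x.1 ≤ s} := h.1
  rw [mem_supported] at h1 h2 ⊢
  intro x hx
  refine ⟨?_, h2 hx⟩
  by_contra h0
  have h3 : wt p (fun _ => K) x ≤ E := h1 hx
  obtain ⟨j, n⟩ := x
  have hj : j = 0 := by
    dsimp only at h0
    omega
  subst hj
  have h4 := pow_le_wt p (fun _ => K) n
  have h5 : p ^ K ≤ p ^ (K + n) := Nat.pow_le_pow_right hp (by omega)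
  omega

/-- **The engine**: no `h`/`b`-monomial of bidegree `(s, D)` implies `Ext_P^s_D = 0`. -/
theorem van_of_noMono (s D : ℕ) (h : ML.NoMono p s D) : Ch.Van p s D := by
  intro z hz hd
  have hp : 1 < p := (Fact.out : p.Prime).one_lt
  have hK : D < p ^ D := Nat.lt_pow_self hp
  have h1 := vanK_const p D s D h (io p s z) (io_mem p _ hz)
    (by rw [← io_d, hd, map_zero])
  cases s with
  | zero =>
    change z = 0
    apply io_injective p 0
    rw [map_zero]
    exact h1
  | succ s =>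
    obtain ⟨α, hα, hdα⟩ := h1
    refine ⟨ro p s α, ?_⟩
    apply io_injective p (s + 1)
    rw [io_d p (fun _ => D), io_ro p (supported_of_mem p hK hα), hdα]

end Vale.Agent.P257.V4.A.Eng
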