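import Vale.Agent.P257.V4.A.UDefs

/-!
# P257, V(4), part A, block F2: the slant product with the central direction `E_45`

For a function `f` on chains of length `s + 1` put
`slant f (u_0, …, u_s) = ∑ (-1)^r (d/dX)_0 f (v_0, …, v_r, c v_r, …, c v_s)`, where `v_j` is the
block diagonal part of `u_j` (blocks `{0,1,2,3}`, `{4,5}`, `{6}`, …) and `c = 1 + X E_45`.
Then `slant ∘ d + d ∘ slant = 0` and `slant ([t_45] ∪ z) = z` if `z` only involves the block
`{0,1,2,3}`.
-/

namespace Vale.Agent.P257.V4.A.F2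

open Finset MvPolynomial

/-! ### an alternating double sum -/

theorem alt_sum {M : Type} [AddCommGroup M] (n : ℕ) (a b : ℕ → ℕ → M)
    (h1 : ∀ r i, r ≤ n → i < r → a r i = b (r - 1) i)
    (h2 : ∀ r i, r + 2 ≤ i → i ≤ n + 1 → a r i = b r (i - 1))
    (h3 : ∀ r, r + 1 ≤ n → a r (r + 1) = a (r + 1) (r + 1)) :
    ∑ r ∈ range (n + 1), ∑ i ∈ range (n + 2), ((-1 : ℤ) ^ (r + i)) • a r i +
      ∑ i ∈ range (n + 1), ∑ r ∈ range n, ((-1 : ℤ) ^ (i + r)) • b r i = a 0 0 - a n (n + 1) := by
  -- inner sums
  let S : ℕ → ℕ → M := fun r k => ∑ i ∈ range k, ((-1 : ℤ) ^ i) • b r i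
  have hb : ∑ i ∈ range (n + 1), ∑ r ∈ range n, ((-1 : ℤ) ^ (i + r)) • b r i =
      ∑ r ∈ range n, ((-1 : ℤ) ^ r) • S r (n + 1) := by
    rw [sum_comm]
    refine sum_congr rfl fun r _ => ?_
    simp only [S, smul_sum, smul_smul]
    refine sum_congr rfl fun i _ => ?_
    rw [pow_add, mul_comm]
  have ha : ∀ r, r ≤ n → ∑ i ∈ range (n + 2), ((-1 : ℤ) ^ (r + i)) • a r i =
      (if r = 0 then 0 else ((-1 : ℤ) ^ r) • S (r - 1) r) + (a r r - a r (r + 1)) +
      (if r = n then 0 else ((-1 : ℤ) ^ r) • (S r (r + 1) - S r (n + 1))) := by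
    intro r hr
    have e1 : n + 2 = (r + 1) + (n + 1 - r) := by omega
    rw [e1, sum_range_add, sum_range_succ]
    have p1 : ∑ x ∈ range r, ((-1 : ℤ) ^ (r + x)) • a r x =
        (if r = 0 then 0 else ((-1 : ℤ) ^ r) • S (r - 1) r) := by
      split_ifs with h0
      · subst h0; simp
      · simp only [S, smul_sum, smul_smul]
        refine sum_congr rfl fun i hi => ?_
        rw [h1 r i hr (mem_range.1 hi), pow_add]
    have p2 : n + 1 - r = 1 + (n - r) := by omega
    rw [p1, p2, sum_range_add]
    have p3 : ∑ x ∈ range (n - r), ((-1 : ℤ) ^ (r + (r + 1 + (1 + x)))) • a r (r + 1 + (1 + x)) =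
        (if r = n then 0 else ((-1 : ℤ) ^ r) • (S r (r + 1) - S r (n + 1))) := by
      split_ifs with h0
      · subst h0; simp
      · have : S r (n + 1) = S r (r + 1) +
            ∑ x ∈ range (n - r), ((-1 : ℤ) ^ (r + 1 + x)) • b r (r + 1 + x) := by
          simp only [S]
          rw [← sum_range_add]
          congr 2
          omega
        rw [this, sub_add_cancel_left, smul_neg, smul_sum, ← sum_neg_distrib]
        refine sum_congr rfl fun x hx => ?_
        have hx' := mem_range.1 hx
        rw [h2 r (r + 1 + (1 + x)) (by omega) (by omega), smul_smul, ← neg_smul]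
        congr 1
        · ring
        · congr 1; omega
    rw [p3]
    have p4 : ((-1 : ℤ) ^ (r + r)) = 1 := Even.neg_one_pow ⟨r, rfl⟩
    have p5 : ((-1 : ℤ) ^ (r + (r + 1 + 0))) = -1 := Odd.neg_one_pow ⟨r, by ring⟩
    rw [p4, range_one, sum_singleton, p5]
    simp only [one_smul, neg_smul, add_zero]
    abel
  rw [hb, sum_congr rfl fun r hr => ha r (by have := mem_range.1 hr; omega)]
  simp only [sum_add_distrib]
  have t1 : ∑ r ∈ range (n + 1), (if r = 0 then (0 : M) else ((-1 : ℤ) ^ r) • S (r - 1) r) =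
      - ∑ r ∈ range n, ((-1 : ℤ) ^ r) • S r (r + 1) := by
    rw [sum_range_succ']
    simp only [Nat.add_eq_zero_iff, one_ne_zero, and_false, if_false, if_true, add_zero,
      Nat.add_sub_cancel]
    rw [← sum_neg_distrib]
    refine sum_congr rfl fun r _ => ?_
    rw [pow_succ, mul_neg_one, neg_smul]
  have t2 : ∑ r ∈ range (n + 1), (a r r - a r (r + 1)) = a 0 0 - a n (n + 1) := by
    clear t1 hb ha
    have : ∀ m, m ≤ n → ∑ r ∈ range (m + 1), (a r r - a r (r + 1)) = a 0 0 - a m (m + 1) := by
      intro m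
      induction m with
      | zero => intro _; simp
      | succ m ih =>
        intro hm
        rw [sum_range_succ, ih (by omega), h3 m hm]
        abel
    exact this n le_rfl
  have t3 : ∑ r ∈ range (n + 1),
      (if r = n then (0 : M) else ((-1 : ℤ) ^ r) • (S r (r + 1) - S r (n + 1))) =
      ∑ r ∈ range n, ((-1 : ℤ) ^ r) • S r (r + 1) - ∑ r ∈ range n, ((-1 : ℤ) ^ r) • S r (n + 1) := by
    rw [sum_range_succ, if_pos rfl, add_zero, ← sum_sub_distrib]
    refine sum_congr rfl fun r hr => ?_
    have := mem_range.1 hr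
    rw [if_neg (by omega), smul_sub]
  rw [t1, t2, t3]
  abel

/-! ### block projections -/

variable {p : ℕ} {B C : Type} [CommRing B] [CommRing C]

/-- The projection of unitriangular matrices on the blocks (fibres) of a monotone function. -/
def blk (β : ℕ → ℕ) (hβ : Monotone β) : Un B →* Un B where
  toFun a := ⟨fun i n => if β i = β (i + n) then a.e i n else 0, fun i => by
    rw [add_zero, if_pos rfl, a.e_zero]⟩
  map_one' := by
    ext i n
    change (if β i = β (i + n) then (1 : Un B).e i n else 0) = _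
    split_ifs with h
    · rfl
    · rw [Un.one_e, if_neg]
      rintro rfl
      exact h rfl
  map_mul' a b := by
    ext i n
    change (if β i = β (i + n) then (a * b).e i n else 0) = _
    rw [Un.mul_e, Un.mul_e]
    split_ifs with h
    · refine sum_congr rfl fun x hx => ?_
      have hx := mem_antidiagonal.1 hx
      have h1 : β i ≤ β (i + x.1) := hβ (by omega)
      have h2 : β (i + x.1) ≤ β (i + n) := hβ (by omega)
      have h3 : i + x.1 + x.2 = i + n := by omega
      change _ = (if β i = β (i + x.1) then a.e i x.1 else 0) *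
        (if β (i + x.1) = β (i + x.1 + x.2) then b.e (i + x.1) x.2 else 0)
      rw [if_pos (by omega), if_pos (by rw [h3]; omega)]
    · symm
      refine sum_eq_zero fun x hx => ?_
      have hx := mem_antidiagonal.1 hx
      have h3 : i + x.1 + x.2 = i + n := by omega
      change (if β i = β (i + x.1) then a.e i x.1 else 0) *
        (if β (i + x.1) = β (i + x.1 + x.2) then b.e (i + x.1) x.2 else 0) = 0
      rw [h3]
      by_cases h1 : β i = β (i + x.1)
      · rw [if_neg (fun h2 : β (i + x.1) = β (i + n) => h (h1.trans h2)), mul_zero]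
      · rw [if_neg h1, zero_mul]

theorem blk_e (β : ℕ → ℕ) (hβ : Monotone β) (a : Un B) (i n : ℕ) :
    (blk β hβ a).e i n = if β i = β (i + n) then a.e i n else 0 := rfl

theorem mapHom_blk (f : B →+* C) (β : ℕ → ℕ) (hβ : Monotone β) (a : Un B) :
    Un.mapHom f (blk β hβ a) = blk β hβ (Un.mapHom f a) := by
  ext i n
  rw [Un.mapHom_e, blk_e, blk_e, Un.mapHom_e]
  split_ifs <;> simp

/-- blocks `{0,1,2,3}`, `{4,5}`, `{6}`, … -/
def β5 (i : ℕ) : ℕ := if i ≤ 3 then 0 else if i ≤ 5 then 4 else i

theorem β5_mono : Monotone β5 := by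
  intro a b h
  unfold β5
  split_ifs <;> omega

/-- blocks `{0,1,2,3}`, `{4}`, `{5}`, … -/
def β3 (i : ℕ) : ℕ := if i ≤ 3 then 0 else i

theorem β3_mono : Monotone β3 := by
  intro a b h
  unfold β3
  split_ifs <;> omega

/-- the projection on the blocks `{0,1,2,3}`, `{4,5}`, `{6}`, … -/
def pi5 : Un B →* Un B := blk β5 β5_mono

/-- the projection on the blocks `{0,1,2,3}`, `{4}`, `{5}`, … -/
def pi3 : Un B →* Un B := blk β3 β3_mono

/-- the matrix `1 + X E_45` -/
noncomputable def cE (B : Type) [CommRing B] : Un (Polynomial B) where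
  e i n := if n = 0 then 1 else if i = 4 ∧ n = 1 then Polynomial.X else 0
  e_zero _ := if_pos rfl

theorem cE_e (i n : ℕ) :
    (cE B).e i n = if n = 0 then 1 else if i = 4 ∧ n = 1 then Polynomial.X else 0 := rfl

theorem mapHom_cE (f : B →+* C) : Un.mapHom (Polynomial.mapRingHom f) (cE B) = cE C := by
  ext i n
  rw [Un.mapHom_e, cE_e, cE_e]
  split_ifs <;> simp

theorem pi3_cE : pi3 (cE B) = 1 := by
  ext i n
  rw [pi3, blk_e, cE_e, Un.one_e]
  unfold β3
  split_ifs <;> first | rfl | omega

/-- constants -/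
noncomputable def cst (a : Un B) : Un (Polynomial B) := Un.mapHom Polynomial.C a

theorem cst_mul (a b : Un B) : cst (a * b) = cst a * cst b := map_mul _ _ _
theorem cst_one : cst (1 : Un B) = 1 := map_one _
theorem cst_inv (a : Un B) : cst a⁻¹ = (cst a)⁻¹ := map_inv _ _
theorem cst_e (a : Un B) (i n : ℕ) : (cst a).e i n = Polynomial.C (a.e i n) := rfl

theorem mapHom_cst (f : B →+* C) (a : Un B) :
    Un.mapHom (Polynomial.mapRingHom f) (cst a) = cst (Un.mapHom f a) := by
  ext i n
  rw [Un.mapHom_e, cst_e, cst_e, Un.mapHom_e]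
  simp

theorem cE_mul_e (a : Un B) (i n : ℕ) :
    (cE B * cst (pi5 a)).e i n =
      Polynomial.C ((pi5 a).e i n) + if i = 4 ∧ n = 1 then Polynomial.X else 0 := by
  rw [Un.mul_e]
  rcases n with _ | n
  · simp [cE_e, cst_e, Un.e_zero]
  · rw [Finset.Nat.antidiagonal_succ, Finset.sum_cons, Finset.sum_map]
    congr 1
    · simp [cE_e, cst_e]
    · by_cases h : i = 4
      · subst h
        rcases n with _ | n
        · simp [cE_e, cst_e, Un.e_zero]
        · rw [Finset.sum_eq_zero]
          · simp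
          · intro x hx
            have hx := mem_antidiagonal.1 hx
            simp only [Function.Embedding.prodMap, Function.Embedding.coeFn_mk, Prod.map,
              Nat.succ_eq_add_one, Function.Embedding.refl_apply]
            rcases x with ⟨x, y⟩
            simp only at hx ⊢
            rcases x with _ | x
            · have : (pi5 a).e 5 y = 0 := by
                rw [pi5, blk_e, if_neg]
                unfold β5
                split_ifs <;> omega
              simp [cst_e, this]
            · simp [cE_e]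
      · rw [if_neg (by tauto), Finset.sum_eq_zero]
        intro x _
        simp [cE_e, h]

theorem mul_cE_e (a : Un B) (i n : ℕ) :
    (cst (pi5 a) * cE B).e i n =
      Polynomial.C ((pi5 a).e i n) + if i = 4 ∧ n = 1 then Polynomial.X else 0 := by
  rw [Un.mul_e]
  rcases n with _ | n
  · simp [cE_e, cst_e, Un.e_zero]
  · rw [Finset.Nat.antidiagonal_succ', Finset.sum_cons, Finset.sum_map]
    congr 1
    · simp [cE_e, cst_e]
    · by_cases h : i + n = 4
      · rw [Finset.sum_eq_single (n, 0)]
        · simp only [Function.Embedding.prodMap, Function.Embedding.coeFn_mk, Prod.map,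
            Nat.succ_eq_add_one, Function.Embedding.refl_apply]
          rcases n with _ | n
          · simp at h
            subst h
            simp [cE_e, cst_e, Un.e_zero]
          · have : (pi5 a).e i (n + 1) = 0 := by
              have h' : i ≤ 3 := by omega
              rw [pi5, blk_e, h, if_neg]
              unfold β5
              rw [if_pos h']
              decide
            simp [cst_e, this]
        · rintro ⟨x, y⟩ hx hne
          have hx := mem_antidiagonal.1 hx
          simp only at hx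
          simp only [Function.Embedding.prodMap, Function.Embedding.coeFn_mk, Prod.map,
            Nat.succ_eq_add_one, Function.Embedding.refl_apply]
          have hy : y ≠ 0 := by
            rintro rfl
            apply hne
            simp at hx
            rw [hx]
          simp [cE_e, hy]
        · intro h0
          exact absurd (HasAntidiagonal.mem_antidiagonal.2 (by simp)) h0
      · rw [Finset.sum_eq_zero]
        · split_ifs with h1
          · omega
          · rfl
        · rintro ⟨x, y⟩ hx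
          have hx := mem_antidiagonal.1 hx
          simp only at hx
          simp only [Function.Embedding.prodMap, Function.Embedding.coeFn_mk, Prod.map,
            Nat.succ_eq_add_one, Function.Embedding.refl_apply]
          rcases y with _ | y
          · have : i + x ≠ 4 := by omega
            simp [cE_e, this]
          · simp [cE_e]

theorem cE_comm (a : Un B) : cE B * cst (pi5 a) = cst (pi5 a) * cE B := by
  ext i n
  rw [cE_mul_e, mul_cE_e]

/-! ### evaluation on sequences of matrices -/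

/-- the normalised chain of a sequence of matrices -/
def mkC (n : ℕ) (g : ℕ → Un B) : UChain n B := ⟨fun j => g j * (g 0)⁻¹, mul_inv_cancel _⟩

variable [Algebra (ZMod p) B] [Algebra (ZMod p) C]

/-- evaluation on a sequence of matrices -/
noncomputable def E (p : ℕ) {B : Type} [CommRing B] [Algebra (ZMod p) B] (n : ℕ)
    (g : ℕ → Un B) : UC p n →ₐ[ZMod p] B := UC.ev (mkC n g)

/-- the universal sequence -/
noncomputable def univG (p n : ℕ) (j : ℕ) : Un (UC p n) :=
  if h : j < n + 1 then (UC.univ p n).g ⟨j, h⟩ else 1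

theorem mkC_univG (n : ℕ) : mkC n (univG p n) = UC.univ p n := by
  ext1
  funext j
  change univG p n j * (univG p n 0)⁻¹ = _
  rw [univG, univG, dif_pos j.2, dif_pos (Nat.succ_pos n)]
  have : (⟨0, Nat.succ_pos n⟩ : Fin (n + 1)) = 0 := rfl
  rw [this, UC.univ_g_zero, inv_one, mul_one]

theorem E_univG (n : ℕ) (x : UC p n) : E p n (univG p n) x = x := by
  rw [E, mkC_univG, UC.ev_univ]

theorem univG_zero (n : ℕ) : univG p n 0 = 1 := by
  rw [univG, dif_pos (Nat.succ_pos n)]
  exact UC.univ_g_zero

theorem E_congr {n : ℕ} {g g' : ℕ → Un B}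
    (h : ∀ j ≤ n, g j * (g 0)⁻¹ = g' j * (g' 0)⁻¹) : E p n g = E p n g' := by
  have : mkC n g = mkC n g' := by
    ext1
    funext j
    exact h j (Nat.lt_succ_iff.1 j.2)
  rw [E, E, this]

theorem E_X (n : ℕ) (g : ℕ → Un B) (v : Fin n × (ℕ × ℕ)) :
    E p n g (X v) = (g (v.1 + 1) * (g 0)⁻¹).e v.2.1 (v.2.2 + 1) := by
  rw [E, UC.ev_X]
  rfl

theorem E_map (f : B →ₐ[ZMod p] C) (n : ℕ) (g : ℕ → Un B) (x : UC p n) :
    f (E p n g x) = E p n (fun j => Un.mapHom f.toRingHom (g j)) x := by
  rw [E, ← UC.ev_map, E]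
  congr 2
  ext1
  funext j
  change Un.mapHom _ (g j * (g 0)⁻¹) = _
  rw [map_mul, map_inv]
  rfl

/-- the index map that omits `i` -/
def dl (i j : ℕ) : ℕ := if j < i then j else j + 1

theorem E_mapα {n m : ℕ} (α : Fin (m + 1) → Fin (n + 1)) (α' : ℕ → ℕ)
    (h : ∀ j : Fin (m + 1), (α j : ℕ) = α' j) (g : ℕ → Un B) (x : UC p m) :
    E p n g (UC.map α x) = E p m (fun j => g (α' j)) x := by
  rw [E, ← UC.ev_res, E]
  congr 2
  ext1
  funext j
  change g (α j) * (g 0)⁻¹ * (g (α 0) * (g 0)⁻¹)⁻¹ = g (α' j) * (g (α' 0))⁻¹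
  have h0 : (α 0 : ℕ) = α' 0 := h 0
  rw [h, h0]
  group

theorem E_d {n : ℕ} (g : ℕ → Un B) (x : UC p n) :
    E p (n + 1) g (UC.d n x) =
      ∑ i ∈ range (n + 2), ((-1 : ℤ) ^ i) • E p n (fun j => g (dl i j)) x := by
  rw [UC.d_apply, map_sum, Finset.sum_range]
  refine Finset.sum_congr rfl fun i _ => ?_
  rw [map_smul, E_mapα (Fin.succAbove i) (dl i)]
  · rcases Nat.even_or_odd (i : ℕ) with h | h <;> simp [h.neg_one_pow]
  · intro j
    simp only [dl, Fin.succAbove, Fin.lt_def, Fin.val_castSucc]
    split_ifs <;> simp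

/-! ### the homotopy -/

/-- `(v_0, …, v_r, c v_r, c v_{r+1}, …)` -/
noncomputable def H (r : ℕ) (g : ℕ → Un B) (j : ℕ) : Un (Polynomial B) :=
  if j ≤ r then cst (pi5 (g j)) else cE B * cst (pi5 (g (j - 1)))

theorem H_low {r i : ℕ} (hi : i < r) (g : ℕ → Un B) :
    (fun j => H r g (dl i j)) = H (r - 1) (fun j => g (dl i j)) := by
  funext j
  unfold H dl
  by_cases h1 : j < i
  · simp only [if_pos h1]
    rw [if_pos (by omega), if_pos (by omega)]
  · simp only [if_neg h1]
    by_cases h2 : j + 1 ≤ r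
    · rw [if_pos h2, if_pos (by omega)]
    · rw [if_neg h2, if_neg (by omega), if_neg (show ¬ j - 1 < i by omega), Nat.add_sub_cancel,
        Nat.sub_add_cancel (by omega)]

theorem H_high {r i : ℕ} (hi : r + 2 ≤ i) (g : ℕ → Un B) :
    (fun j => H r g (dl i j)) = H r (fun j => g (dl (i - 1) j)) := by
  funext j
  unfold H dl
  by_cases h1 : j < i
  · simp only [if_pos h1]
    by_cases h2 : j ≤ r
    · rw [if_pos h2, if_pos h2, if_pos (show j < i - 1 by omega)]
    · rw [if_neg h2, if_neg h2, if_pos (show j - 1 < i - 1 by omega)]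
  · simp only [if_neg h1]
    rw [if_neg (show ¬ j + 1 ≤ r by omega), if_neg (show ¬ j ≤ r by omega),
      if_neg (show ¬ j - 1 < i - 1 by omega), Nat.add_sub_cancel, Nat.sub_add_cancel (by omega)]

theorem H_mid (r : ℕ) (g : ℕ → Un B) :
    (fun j => H r g (dl (r + 1) j)) = fun j => H (r + 1) g (dl (r + 1) j) := by
  funext j
  unfold H dl
  split_ifs <;> first | rfl | omega

theorem E_H_zero (n : ℕ) (g : ℕ → Un B) :
    E p n (fun j => H 0 g (dl 0 j)) = E p n (fun j => cst (pi5 (g j))) := by
  apply E_congr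
  intro j _
  unfold H dl
  simp only [Nat.not_lt_zero, if_false, Nat.add_sub_cancel, Nat.le_zero, Nat.add_eq_zero_iff,
    one_ne_zero, and_false]
  rw [cE_comm, cE_comm, mul_inv_rev]
  group

theorem E_H_top (n : ℕ) (g : ℕ → Un B) :
    E p n (fun j => H n g (dl (n + 1) j)) = E p n (fun j => cst (pi5 (g j))) := by
  apply E_congr
  intro j hj
  unfold H dl
  rw [if_pos (show (0 : ℕ) < n + 1 by omega), if_pos (show j < n + 1 by omega), if_pos hj,
    if_pos (Nat.zero_le _)]

/-- the sum over all insertions -/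
noncomputable def I (p : ℕ) {B : Type} [CommRing B] [Algebra (ZMod p) B] (n : ℕ)
    (g : ℕ → Un B) (f : UC p (n + 1)) : B :=
  ∑ r ∈ range (n + 1), ((-1 : ℤ) ^ r) • (E p (n + 1) (H r g) f).coeff 1

/-- The slant product. -/
noncomputable def slant (n : ℕ) (f : UC p (n + 1)) : UC p n := I p n (univG p n) f

theorem slant_add (n : ℕ) (f f' : UC p (n + 1)) : slant n (f + f') = slant n f + slant n f' := by
  simp [slant, I, sum_add_distrib]

theorem slant_neg (n : ℕ) (f : UC p (n + 1)) : slant n (-f) = - slant n f := by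
  simp [slant, I]

theorem slant_sub (n : ℕ) (f f' : UC p (n + 1)) : slant n (f - f') = slant n f - slant n f' := by
  rw [sub_eq_add_neg, slant_add, slant_neg, sub_eq_add_neg]

theorem mapHom_pi5 (f : B →+* C) (a : Un B) : Un.mapHom f (pi5 a) = pi5 (Un.mapHom f a) :=
  mapHom_blk f _ _ a

theorem I_nat {n : ℕ} (g : ℕ → Un B) (f : UC p (n + 1)) :
    E p n g (slant n f) = I p n g f := by
  rw [slant, I, map_sum, I]
  refine sum_congr rfl fun r hr => ?_
  have hr := mem_range.1 hr
  rw [map_zsmul]
  congr 1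
  have h1 : E p n g ((E p (n + 1) (H r (univG p n)) f).coeff 1) =
      (Polynomial.mapAlgHom (E p n g) (E p (n + 1) (H r (univG p n)) f)).coeff 1 := by
    simp
  rw [h1, E_map]
  congr 2
  apply E_congr
  intro j hj
  have key : ∀ k, k ≤ n → Un.mapHom (E p n g).toRingHom (univG p n k) = g k * (g 0)⁻¹ := by
    intro k hk
    have : (UC.univ p n).map (E p n g).toRingHom = mkC n g := UC.univ_map_ev (mkC n g)
    have h2 := congrArg (fun c => c.g ⟨k, by omega⟩) this
    simp only [UChain.map_g] at h2
    rw [univG, dif_pos (by omega), h2]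
    rfl
  have key2 : ∀ k, k ≤ n + 1 → Un.mapHom (Polynomial.mapAlgHom (E p n g)).toRingHom
      (H r (univG p n) k) = H r g k * (cst (pi5 (g 0)))⁻¹ := by
    intro k hk
    have e1 : (Polynomial.mapAlgHom (E p n g)).toRingHom =
        Polynomial.mapRingHom (E p n g).toRingHom := rfl
    rw [e1]
    unfold H
    split_ifs with h3
    · rw [mapHom_cst, mapHom_pi5, key k (by omega), map_mul, map_inv, cst_mul, cst_inv]
    · rw [map_mul, mapHom_cE, mapHom_cst, mapHom_pi5, key (k - 1) (by omega), map_mul, map_inv,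
        cst_mul, cst_inv, mul_assoc]
  change Un.mapHom _ _ * (Un.mapHom _ _)⁻¹ = _
  rw [key2 j hj, key2 0 (Nat.zero_le _)]
  group

theorem slant_d {n : ℕ} (f : UC p (n + 1)) :
    slant (n + 1) (UC.d (n + 1) f) + UC.d n (slant n f) = 0 := by
  have h1 : slant (n + 1) (UC.d (n + 1) f) =
      ∑ r ∈ range (n + 1 + 1), ∑ i ∈ range (n + 1 + 2), ((-1 : ℤ) ^ (r + i)) •
        (E p (n + 1) (fun j => H r (univG p (n + 1)) (dl i j)) f).coeff 1 := by
    rw [slant, I]
    refine sum_congr rfl fun r _ => ?_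
    rw [E_d, Polynomial.finsetSum_coeff, smul_sum]
    refine sum_congr rfl fun i _ => ?_
    rw [Polynomial.coeff_smul, smul_smul, pow_add]
  have h2 : UC.d n (slant n f) = ∑ i ∈ range (n + 1 + 1), ∑ r ∈ range (n + 1),
      ((-1 : ℤ) ^ (i + r)) •
        (E p (n + 1) (H r (fun j => univG p (n + 1) (dl i j))) f).coeff 1 := by
    rw [← E_univG (n + 1) (UC.d n (slant n f)), E_d]
    refine sum_congr rfl fun i _ => ?_
    rw [I_nat, I, smul_sum]
    refine sum_congr rfl fun r _ => ?_
    rw [smul_smul, pow_add]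
  rw [h1, h2, alt_sum (n + 1)
    (fun r i => (E p (n + 1) (fun j => H r (univG p (n + 1)) (dl i j)) f).coeff 1)
    (fun r i => (E p (n + 1) (H r (fun j => univG p (n + 1) (dl i j))) f).coeff 1)]
  · rw [E_H_zero, E_H_top, sub_self]
  · intro r i _ hi
    rw [H_low hi]
  · intro r i hi _
    rw [H_high hi]
  · intro r _
    rw [H_mid]

/-! ### functions that only involve some blocks -/

theorem E_blk {n : ℕ} (β : ℕ → ℕ) (hβ : Monotone β) (g : ℕ → Un B) (z : UC p n)
    (hz : ∀ v ∈ z.vars, β v.2.1 = β (v.2.1 + v.2.2 + 1)) :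
    E p n (fun j => blk β hβ (g j)) z = E p n g z := by
  unfold E UC.ev
  rw [MvPolynomial.aeval_def, MvPolynomial.aeval_def]
  refine MvPolynomial.eval₂_congr _ _ _ ?_
  intro v c hv hc
  have hv' : v ∈ z.vars := by
    rw [MvPolynomial.mem_vars_iff_mem_support]
    exact ⟨c, MvPolynomial.mem_support_iff.2 hc, hv⟩
  change (blk β hβ (g _) * (blk β hβ (g 0))⁻¹).e v.2.1 (v.2.2 + 1) =
    (g _ * (g 0)⁻¹).e v.2.1 (v.2.2 + 1)
  rw [← map_inv, ← map_mul, blk_e, if_pos]
  rw [hz v hv', add_assoc]

/-- all variables of `z` lie in the block `{0,1,2,3}` -/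
def Low3 {n : ℕ} (z : UC p n) : Prop := ∀ v ∈ z.vars, v.2.1 + v.2.2 < 3

theorem E_pi3 {n : ℕ} (g : ℕ → Un B) (z : UC p n) (hz : Low3 z) :
    E p n (fun j => pi3 (g j)) z = E p n g z := by
  refine E_blk _ _ g z fun v hv => ?_
  have := hz v hv
  unfold β3
  rw [if_pos (by omega), if_pos (by omega)]

theorem E_pi5 {n : ℕ} (g : ℕ → Un B) (z : UC p n) (hz : Low3 z) :
    E p n (fun j => pi5 (g j)) z = E p n g z := by
  refine E_blk _ _ g z fun v hv => ?_
  have := hz v hv
  unfold β5
  rw [if_pos (by omega), if_pos (by omega)]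

theorem E_cst {n : ℕ} (g : ℕ → Un B) (z : UC p n) :
    E p n (fun j => cst (g j)) z = Polynomial.C (E p n g z) :=
  (E_map (Polynomial.CAlgHom (R := ZMod p) (A := B)) n g z).symm

theorem pi3_cst (a : Un B) : pi3 (cst a) = cst (pi3 a) := (mapHom_blk _ _ _ a).symm

theorem pi3_H (r : ℕ) (g : ℕ → Un B) (j : ℕ) :
    pi3 (H r g j) = cst (pi3 (pi5 (if j ≤ r then g j else g (j - 1)))) := by
  unfold H
  split_ifs
  · rw [pi3_cst]
  · rw [map_mul, pi3_cE, one_mul, pi3_cst]

/-- the cup product `[t_45] ∪ z` -/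
noncomputable def cup45 {n : ℕ} (z : UC p n) : UC p (n + 1) :=
  X ((0 : Fin (n + 1)), (4, 0)) * UC.map Fin.succ z

theorem slant_cup45 {n : ℕ} (z : UC p n) (hz : Low3 z) : slant n (cup45 z) = z := by
  have hE : ∀ r, E p (n + 1) (H r (univG p n)) (cup45 z) =
      (H r (univG p n) 1 * (H r (univG p n) 0)⁻¹).e 4 1 *
        E p n (fun j => H r (univG p n) (j + 1)) z := by
    intro r
    rw [cup45, map_mul, E_X, E_mapα Fin.succ (fun j => j + 1) (fun j => by simp)]
    rfl
  have hH0 : ∀ r, H r (univG p n) 0 = 1 := by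
    intro r
    unfold H
    rw [if_pos (Nat.zero_le _), univG_zero, map_one, cst_one]
  rw [slant, I, Finset.sum_range_succ', Finset.sum_eq_zero, zero_add]
  · rw [hE, hH0, inv_one, mul_one, pow_zero, one_smul]
    have h1 : (H 0 (univG p n) 1).e 4 1 = Polynomial.X := by
      unfold H
      rw [if_neg (by omega), univG_zero, map_one, cst_one, mul_one, cE_e]
      simp
    have h2 : E p n (fun j => H 0 (univG p n) (j + 1)) z = Polynomial.C z := by
      have := E_H_zero (p := p) n (univG p n)
      unfold dl at this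
      simp only [Nat.not_lt_zero, if_false] at this
      rw [this, E_cst, E_pi5 _ _ hz, E_univG]
    rw [h1, h2, mul_comm, Polynomial.coeff_mul_X, Polynomial.coeff_C_zero]
  · intro r _
    rw [hE, hH0, inv_one, mul_one]
    have h1 : (H (r + 1) (univG p n) 1).e 4 1 = Polynomial.C ((pi5 (univG p n 1)).e 4 1) := by
      unfold H
      rw [if_pos (by omega), cst_e]
    rw [h1, ← E_pi3 _ z hz]
    simp only [pi3_H]
    rw [E_cst, ← Polynomial.C_mul, Polynomial.coeff_C_succ, smul_zero]

/-! ### the ideal of `p`-th powers -/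

/-- the ideal generated by the `p`-th powers of the variables -/
noncomputable def JI (p s : ℕ) : Ideal (UC p s) :=
  Ideal.span ((fun m => monomial m (1 : ZMod p)) '' Set.range fun v => Finsupp.single v p)

theorem inJ_iff {s : ℕ} {z : UC p s} : InJ z ↔ z ∈ JI p s := by
  rw [JI, mem_ideal_span_monomial_image]
  constructor
  · intro h m hm
    obtain ⟨v, hv⟩ := h m hm
    exact ⟨_, ⟨v, rfl⟩, by simpa [Finsupp.single_le_iff] using hv⟩
  · intro h m hm
    obtain ⟨_, ⟨v, rfl⟩, hv⟩ := h m hm
    exact ⟨v, by simpa [Finsupp.single_le_iff] using hv⟩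

theorem X_pow_mem {s : ℕ} (v : Fin s × (ℕ × ℕ)) : (X v : UC p s) ^ p ∈ JI p s := by
  rw [X_pow_eq_monomial]
  exact Ideal.subset_span ⟨_, ⟨v, rfl⟩, rfl⟩

theorem slant_mem [Fact p.Prime] {n : ℕ} {f : UC p (n + 1)} (hf : f ∈ JI p (n + 1)) :
    slant n f ∈ JI p n := by
  have hp : 2 ≤ p := (Fact.out : p.Prime).two_le
  suffices h : ∀ a : UC p (n + 1), slant n (a * f) ∈ JI p n by
    have := h 1
    rwa [one_mul] at this
  rw [JI] at hf
  induction hf using Submodule.span_induction with
  | zero => intro a; rw [mul_zero, show (0 : UC p (n + 1)) = 0 - 0 by simp, slant_sub, sub_self]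
            exact zero_mem _
  | add x y _ _ hx hy => intro a; rw [mul_add, slant_add]; exact add_mem (hx a) (hy a)
  | smul b x _ hx =>
    intro a
    rw [smul_eq_mul, ← mul_assoc]
    exact hx _
  | mem x hx =>
    intro a
    obtain ⟨_, ⟨v, rfl⟩, rfl⟩ := hx
    simp only
    rw [← X_pow_eq_monomial, slant, I]
    refine sum_mem fun r hr => ?_
    have hr := mem_range.1 hr
    refine zsmul_mem ?_ _
    rw [map_mul, map_pow, E_X]
    have hH0 : H r (univG p n) 0 = 1 := by
      unfold H
      rw [if_pos (Nat.zero_le _), univG_zero, map_one, cst_one]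
    rw [hH0, inv_one, mul_one]
    have hG : ∀ j ≤ n, ((pi5 (univG p n j)).e v.2.1 (v.2.2 + 1)) ^ p ∈ JI p n := by
      intro j hj
      rcases j with _ | j
      · rw [univG_zero, map_one, Un.one_e_succ, zero_pow (by omega)]
        exact zero_mem _
      · rw [pi5, blk_e]
        split_ifs
        · have : univG p n (j + 1) = (UC.univ p n).g (Fin.succ ⟨j, by omega⟩) := by
            rw [univG, dif_pos (by omega)]
            rfl
          rw [this, UC.univ_g_succ, Un.mk'_e_succ]
          exact X_pow_mem _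
        · rw [zero_pow (by omega)]
          exact zero_mem _
    obtain ⟨x, b, hx, hb, hxb⟩ : ∃ (x : UC p n) (b : Polynomial (UC p n)), x ^ p ∈ JI p n ∧
        (b = 0 ∨ b = Polynomial.X) ∧
        (H r (univG p n) (v.1 + 1)).e v.2.1 (v.2.2 + 1) = Polynomial.C x + b := by
      have hv := v.1.2
      unfold H
      split_ifs with h
      · exact ⟨_, 0, hG (v.1 + 1) (by omega), Or.inl rfl, by rw [cst_e, add_zero]⟩
      · rw [Nat.add_sub_cancel, cE_mul_e]
        refine ⟨_, _, hG v.1 (by omega), ?_, rfl⟩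
        split_ifs
        · exact Or.inr rfl
        · exact Or.inl rfl
    rw [hxb, add_pow_char, ← Polynomial.C_pow]
    have c0 : (b ^ p).coeff 0 = 0 := by
      rcases hb with rfl | rfl
      · rw [zero_pow (by omega), Polynomial.coeff_zero]
      · rw [Polynomial.coeff_X_pow, if_neg (by omega)]
    have c1 : (b ^ p).coeff 1 = 0 := by
      rcases hb with rfl | rfl
      · rw [zero_pow (by omega), Polynomial.coeff_zero]
      · rw [Polynomial.coeff_X_pow, if_neg (by omega)]
    rw [Polynomial.mul_coeff_one, Polynomial.coeff_add, Polynomial.coeff_add, c0, c1, add_zero,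
      add_zero, Polynomial.coeff_C_succ, mul_zero, zero_add, Polynomial.coeff_C_zero]
    exact Ideal.mul_mem_left _ _ hx

theorem slant_main [Fact p.Prime] {n : ℕ} {z f : UC p (n + 1)} (hz : Low3 z)
    (h : InJ (cup45 z - UC.d (n + 1) f)) : ∃ y : UC p n, InJ (z - UC.d n y) := by
  refine ⟨- slant n f, ?_⟩
  rw [inJ_iff] at h ⊢
  have h1 := slant_mem h
  rw [slant_sub, slant_cup45 z hz] at h1
  have h2 := slant_d f
  rw [map_neg]
  rw [eq_neg_of_add_eq_zero_left h2] at h1
  exact h1

end Vale.Agent.P257.V4.A.F2
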