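import Vale.Agent.P257.V4.A.A0
import Vale.Agent.P257.V4.A.Out
import Vale.Agent.P257.V4.A.Cup
import Vale.Agent.P257.V4.A.F2Slant

/-!
# P257, V(4), part A: F2, the injectivity of `h_{1,4}` on `Ext^{2p-1}` in weight `N_4 + 1`

`outF2_of`: the statement `OutF2` from the vanishing statements `V1`, `V2` for the first Frobenius
kernel and the slant lemma `slant_main`.
-/

namespace Vale.Agent.P257.V4.A.F2

open MvPolynomial

variable {p : ℕ}

/-- the vanishing input in weight `N_4 + 1` -/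
def V1 (p : ℕ) : Prop := ∀ e : ℕ →₀ ℕ, wtE p e = Ch.N p 4 + 1 →
  ¬ (e 0 = 2 + p * (p - 3) ∧ e 1 = 4 + p * (p - 3) ∧ e 2 = 3) → VanA p (2 * p - 1) e

/-- the vanishing input in weight `N_5 + 1` -/
def V2 (p : ℕ) : Prop := ∀ e : ℕ →₀ ℕ, wtE p e = Ch.N p 5 + 1 →
  2 + p * (p - 3) ≤ e 0 → VanA p (2 * p - 1) e

/-- the special multidegree -/
noncomputable def eX (p : ℕ) : ℕ →₀ ℕ :=
  Finsupp.single 0 (2 + p * (p - 3)) + Finsupp.single 1 (4 + p * (p - 3)) + Finsupp.single 2 3

theorem eX_0 (p : ℕ) : eX p 0 = 2 + p * (p - 3) := by simp [eX]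
theorem eX_1 (p : ℕ) : eX p 1 = 4 + p * (p - 3) := by simp [eX]
theorem eX_2 (p : ℕ) : eX p 2 = 3 := by simp [eX]
theorem eX_ge (p : ℕ) {k : ℕ} (hk : 3 ≤ k) : eX p k = 0 := by
  rw [eX, Finsupp.add_apply, Finsupp.add_apply, Finsupp.single_eq_of_ne (by omega),
    Finsupp.single_eq_of_ne (by omega), Finsupp.single_eq_of_ne (by omega), add_zero, add_zero]

theorem wtE_eX (hp : 3 ≤ p) : wtE p (eX p) = Ch.N p 4 + 1 := by
  obtain ⟨q, rfl⟩ := Nat.exists_eq_add_of_le hp
  rw [eX, map_add, map_add, wtE_single, wtE_single, wtE_single]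
  simp only [Ch.N, Finset.sum_range_succ, Finset.sum_range_zero, Nat.add_sub_cancel_left]
  ring

/-- the weight of a multidegree splits -/
theorem wtE_eq (e : ℕ →₀ ℕ) (E : ℕ →₀ ℕ) (h : ∀ k, e k = E k ∨ E k = 0) (hw : 0 < p)
    (hE : wtE p e = wtE p E) : e = E := by
  have hle : E ≤ e := fun k => by
    rcases h k with h | h
    · rw [h]
    · rw [h]
      exact Nat.zero_le _
  obtain ⟨f, rfl⟩ : ∃ f, e = E + f := ⟨e - E, (add_tsub_cancel_of_le hle).symm⟩
  rw [map_add] at hE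
  have h0 : wtE p f = 0 := by omega
  have hf : f = 0 := by
    ext k
    rw [wtE, Finsupp.weight_apply, Finsupp.sum, Finset.sum_eq_zero_iff] at h0
    by_contra hk
    have := h0 k (Finsupp.mem_support_iff.2 hk)
    rw [smul_eq_mul, mul_eq_zero] at this
    rcases this with h | h
    · exact hk h
    · exact absurd h (pow_pos hw k).ne'
  rw [hf, add_zero]

/-- the level function -/
noncomputable def W (B : ℕ) : (ℕ →₀ ℕ) →+ ℕ := Finsupp.weight fun k => if k = 0 then B else 1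

theorem W_single (B k a : ℕ) : W B (Finsupp.single k a) = a * if k = 0 then B else 1 := by
  rw [W, Finsupp.weight_single, smul_eq_mul]

theorem isLevel_W (hp : 2 ≤ p) {B : ℕ} (hB : 1 ≤ B) : IsLevel p (W B) := by
  have h1 : ∀ i k, k + 1 ≤ W B (itv i k) := by
    intro i k
    unfold itv
    rw [map_sum]
    calc k + 1 = ∑ l ∈ Finset.range (k + 1), 1 := by simp
      _ ≤ _ := Finset.sum_le_sum fun l _ => by
          rw [W_single]
          split_ifs <;> omega
  have h2 : ∀ i k, W B (itv (i + 1) k) = k + 1 := by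
    intro i k
    unfold itv
    rw [map_sum]
    calc _ = ∑ l ∈ Finset.range (k + 1), 1 := Finset.sum_congr rfl fun l _ => by
            rw [W_single, if_neg (by omega)]
      _ = k + 1 := by simp
  intro i k
  rw [h2]
  have := h1 i k
  nlinarith

/-- rough bounds for the level -/
theorem W_le {B : ℕ} (hp : 0 < p) (e : ℕ →₀ ℕ) : W B e ≤ B * e 0 + wtE p e := by
  induction e using Finsupp.induction_linear with
  | zero => simp
  | add f g hf hg =>
    rw [map_add, map_add, Finsupp.add_apply]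
    nlinarith
  | single k a =>
    rw [W_single, wtE_single]
    split_ifs with h
    · subst h
      rw [Finsupp.single_eq_same, pow_zero]
      nlinarith
    · have : 1 ≤ p ^ k := Nat.one_le_pow _ _ hp
      have : a * 1 ≤ a * p ^ k := Nat.mul_le_mul_left a this
      omega

theorem le_W {B : ℕ} (e : ℕ →₀ ℕ) : B * e 0 ≤ W B e := by
  induction e using Finsupp.induction_linear with
  | zero => simp
  | add f g hf hg =>
    rw [map_add, Finsupp.add_apply]
    nlinarith
  | single k a =>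
    rw [W_single]
    split_ifs with h
    · subst h
      rw [Finsupp.single_eq_same, mul_comm]
    · rw [Finsupp.single_eq_of_ne (Ne.symm h), mul_zero]
      exact Nat.zero_le _

/-- the cocycle `h_{45}` -/
noncomputable def h45 (p : ℕ) : UC p 1 := X (0, (4, 0))

theorem mh_h45 : MH (Finsupp.single 4 1) (h45 p) := by
  have := MH.X (p := p) ((0, (4, 0)) : Fin 1 × (ℕ × ℕ))
  have h : mw ((0, (4, 0)) : Fin 1 × (ℕ × ℕ)) = Finsupp.single 4 1 := by
    simp [mw, itv]
  rwa [h] at this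

theorem phi_h45 [Fact p.Prime] : phi p 1 (h45 p) = Ch.h p 1 4 := by
  rw [h45, phi_X, Ch.h, Ch.t]
  have : (1 : Fin 2) = Fin.succ 0 := rfl
  rw [this, Ch.univ_g_succ, G.mk_a_succ]

theorem back_eq {n : ℕ} (h : n ≤ n + 1) : (Ch.back h : Fin (n + 1) → Fin (n + 1 + 1)) =
    Fin.succ := by
  funext i
  ext
  rw [Ch.back, Fin.val_succ]
  change n + 1 - n + (i : ℕ) = i + 1
  omega

theorem cup_h45 {n : ℕ} (h : 1 + n = n + 1) (z : UC p n) : UC.cup h (h45 p) z = cup45 z := by
  rw [UC.cup, cup45, back_eq, h45, UC.map_X]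
  congr 1
  have h0 : Ch.front (show 1 ≤ n + 1 by omega) 0 = 0 := rfl
  have h1 : Ch.front (show 1 ≤ n + 1 by omega) (Fin.succ 0) = (0 : Fin (n + 1)).succ := by
    ext
    simp [Ch.front]
  rw [h0, h1, UC.univ_g_zero, inv_one, mul_one, UC.univ_g_succ, Un.mk'_e_succ]

/-- multidegrees of `h_{45} ∪ z` -/
theorem Sup.cup_h45 {n : ℕ} (h : 1 + n = n + 1) {P Q : (ℕ →₀ ℕ) → Prop} {z : UC p n}
    (hz : Sup P z) (hPQ : ∀ e, P e → Q (Finsupp.single 4 1 + e)) :
    Sup Q (UC.cup h (h45 p) z) := by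
  classical
  have h0 : z = ∑ e ∈ z.support.image mdeg, A.mcomp e z :=
    eq_sum_mcomp z _ fun m hm => Finset.mem_image_of_mem _ hm
  have h1 : UC.cup h (h45 p) z = ∑ e ∈ z.support.image mdeg, UC.cup h (h45 p) (A.mcomp e z) := by
    conv_lhs => rw [h0]
    unfold UC.cup
    rw [map_sum, Finset.mul_sum]
  rw [h1]
  refine Sup.sum _ fun e he => ?_
  obtain ⟨m, hm, rfl⟩ := Finset.mem_image.1 he
  exact (mh_iff.1 (UC.cup_MH h mh_h45 (mh_mcomp _ z))).mono fun e' he' => he' ▸ hPQ _ (hz m hm)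

theorem comp_cup_h45 {n : ℕ} (h : 1 + n = n + 1) (e : ℕ →₀ ℕ) (z : UC p n) :
    comp (Finsupp.single 4 1 + e) (UC.cup h (h45 p) z) = UC.cup h (h45 p) (comp e z) := by
  classical
  have hz := sum_comp (z := z) (insert e (z.support.image (Finsupp.weight mw)))
    fun x hx => Finset.mem_insert_of_mem (Finset.mem_image_of_mem _ hx)
  set T := insert e (z.support.image (Finsupp.weight mw)) with hT
  have h1 : UC.cup h (h45 p) z = ∑ e' ∈ T, UC.cup h (h45 p) (comp e' z) := by
    conv_lhs => rw [← hz]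
    unfold UC.cup
    rw [map_sum, Finset.mul_sum]
  rw [h1, map_sum, Finset.sum_eq_single_of_mem e (Finset.mem_insert_self _ _)]
  · exact comp_of_MH (UC.cup_MH h mh_h45 (comp_MH e z))
  · intro e' _ hne
    refine comp_of_MH_ne (UC.cup_MH h mh_h45 (comp_MH e' z)) ?_
    intro h'
    exact hne (add_left_cancel h')

theorem low3 {n : ℕ} {e : ℕ →₀ ℕ} {z : UC p n} (hz : MH e z) (he : ∀ k, 3 ≤ k → e k = 0) :
    Low3 z := by
  classical
  intro v hv
  obtain ⟨m, hm, hvm⟩ := (MvPolynomial.mem_vars_iff_mem_support v).1 hv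
  by_contra hc
  have h1 : mdeg m = e := mh_iff.1 hz m hm
  have h2 : mw v ≤ mdeg m := by
    have : m = Finsupp.single v 1 + (m - Finsupp.single v 1) := by
      refine (add_tsub_cancel_of_le ?_).symm
      rw [Finsupp.single_le_iff]
      exact Nat.one_le_iff_ne_zero.2 (Finsupp.mem_support_iff.1 hvm)
    rw [this, map_add, mdeg, Finsupp.weight_single, one_smul]
    exact le_self_add
  have h3 := h2 (v.2.1 + v.2.2)
  rw [h1, he _ (by omega), mw, itv_apply, if_pos ⟨by omega, le_rfl⟩] at h3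
  omega

variable [Fact p.Prime]

theorem outF2_of (hp : 11 ≤ p) (v1 : V1 p) (v2 : V2 p) : OutF2 p := by
  classical
  intro s hs z hz hdz hcob
  obtain ⟨s, rfl⟩ : ∃ s', s = s' + 1 := ⟨s - 1, by omega⟩
  set B := Ch.N p 5 + 2 with hB
  have hWl : IsLevel p (W B) := isLevel_W (by omega) (by omega)
  set n0 := W B (eX p) with hn0
  have hN45 : Ch.N p 5 = Ch.N p 4 + p ^ 4 := Ch.N_succ 4
  have v1' : ∀ e, wtE p e = Ch.N p 4 + 1 → e ≠ eX p → VanA p (s + 1) e := by
    intro e he hne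
    rw [hs]
    refine v1 e he ?_
    rintro ⟨h0, h1, h2⟩
    refine hne (wtE_eq (p := p) e (eX p) (fun k => ?_) (by omega)
      (by rw [he, wtE_eX (p := p) (by omega)]))
    rcases k with _ | _ | _ | k
    · exact Or.inl (by rw [h0, eX_0])
    · exact Or.inl (by rw [zero_add, h1, eX_1])
    · exact Or.inl (by rw [zero_add, h2, eX_2])
    · exact Or.inr (eX_ge p (by omega))
  -- (1) strip `z`
  obtain ⟨y0, hy0, u, hu1, hu2, hu⟩ := strip hWl (D := Ch.N p 4 + 1) (n := n0 + 1)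
    (fun e he hle => v1' e he (by rintro rfl; omega)) hz (w := 0) Sup.zero
    (by rw [hdz, map_zero])
  -- (2) the product
  have hdu : Ch.d (s + 1) (phi p (s + 1) u) = 0 := by
    have := hdz
    rw [hu, map_add, Ch.d_d, zero_add] at this
    exact this
  have hcob' : Ch.IsCobdy (Ch.cup (show 1 + (s + 1) = s + 1 + 1 by omega) (Ch.h p 1 4)
      (phi p (s + 1) u)) := by
    have h1 : Ch.IsCobdy (Ch.cup (show 1 + (s + 1) = s + 1 + 1 by omega) (Ch.h p 1 4)
        (Ch.d s y0)) :=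
      Ch.IsCobdy.cup_right _ (Ch.d_h_one 4) ⟨y0, rfl⟩
    have h2 := hcob.sub h1
    have h3 : Ch.cup (show 1 + (s + 1) = s + 1 + 1 by omega) (Ch.h p 1 4) (phi p (s + 1) u) =
        Ch.cup (show 1 + (s + 1) = s + 1 + 1 by omega) (Ch.h p 1 4) z -
        Ch.cup (show 1 + (s + 1) = s + 1 + 1 by omega) (Ch.h p 1 4) (Ch.d s y0) := by
      rw [hu, Ch.cup_add_right]
      ring
    rw [h3]
    exact h2
  have hphiwt : Ch.IsWt (Ch.N p 4 + 1) (phi p (s + 1) u) := isWt_phi hu1
  have hprodwt : Ch.IsWt (Ch.N p 5 + 1) (Ch.cup (show 1 + (s + 1) = s + 1 + 1 by omega)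
      (Ch.h p 1 4) (phi p (s + 1) u)) := by
    refine (Ch.cup_isWt _ (Ch.h_isWt 1 4) hphiwt).cast ?_
    rw [Ch.N_one, hN45]
    ring
  obtain ⟨y', hy', hdy'⟩ := (Ch.isCobdy_succ_iff hprodwt).1 hcob'
  have hprod : Ch.cup (show 1 + (s + 1) = s + 1 + 1 by omega) (Ch.h p 1 4)
      (phi p (s + 1) u) = phi p (s + 1 + 1) (UC.cup (show 1 + (s + 1) = s + 1 + 1 by omega)
        (h45 p) u) := by
    rw [phi_cup, phi_h45]
  rw [hprod] at hdy'
  have hW4 : W B (Finsupp.single 4 1) = 1 := by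
    rw [W_single, if_neg (by omega)]
  have hcupW : Sup (fun e => W B e < n0 + 2)
      (UC.cup (show 1 + (s + 1) = s + 1 + 1 by omega) (h45 p) u) :=
    Sup.cup_h45 _ hu2 fun e he => by
      rw [map_add, hW4]
      omega
  -- (3) strip `y'`
  obtain ⟨y1, _, v, hv1, hv2, hv⟩ := strip hWl (D := Ch.N p 5 + 1) (n := n0 + 2)
    (fun e he hle => by
      rw [hs]
      refine v2 e he ?_
      by_contra hc
      have h1 := W_le (B := B) (show 0 < p by omega) e
      have h2 := le_W (B := B) (eX p)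
      rw [eX_0] at h2
      rw [he] at h1
      have h3 : B * (e 0 + 1) ≤ B * (2 + p * (p - 3)) := Nat.mul_le_mul_left B (by omega)
      have h4 : B * (e 0 + 1) = B * e 0 + B := by ring
      omega) hy' hcupW hdy'
  -- (4) leading terms
  have hdv : phi p (s + 2) (UC.d (s + 1) v -
      UC.cup (show 1 + (s + 1) = s + 1 + 1 by omega) (h45 p) u) = 0 := by
    rw [map_sub, phi_d, ← hdy', hv, map_add, Ch.d_d, zero_add]
    exact sub_self _
  have hlev : Sup (fun e => W B e ≤ n0 + 1) (UC.d (s + 1) v -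
      UC.cup (show 1 + (s + 1) = s + 1 + 1 by omega) (h45 p) u) :=
    (compat.sup_d (hv2.mono fun e he => Nat.lt_succ_iff.1 he)).sub
      (hcupW.mono fun e he => Nat.lt_succ_iff.1 he)
  have hl := lead_comp hWl hdv hlev (e := Finsupp.single 4 1 + eX p) (by
    rw [map_add, hW4]
    omega)
  rw [map_sub, comp_d, comp_cup_h45, cup_h45] at hl
  -- (5) the slant lemma
  obtain ⟨y2, hy2⟩ := slant_main (low3 (comp_MH (eX p) u) fun k hk => eX_ge p hk)
    (f := comp (Finsupp.single 4 1 + eX p) v) (by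
      have := hl.neg
      rwa [neg_sub] at this)
  have hy2' := comp_InJ hy2 (eX p)
  rw [map_sub, comp_d, comp_of_MH (comp_MH (eX p) u)] at hy2'
  -- (6) strip the rest
  obtain ⟨y3, _, _, u', hu1', hu2', hu'⟩ := step_gen hWl (D := Ch.N p 4 + 1) (n := n0) (z := u)
    (fun e he hle hcoc => by
      by_cases hne : e = eX p
      · subst hne
        exact ⟨comp (eX p) y2, comp_MH _ _, hy2'⟩
      · exact v1' e he hne _ (comp_MH e u) hcoc) hu1
    (hu2.mono fun e he => Nat.lt_succ_iff.1 he) (w := 0) Sup.zero (by rw [hdu, map_zero])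
  have hdu' : Ch.d (s + 1) (phi p (s + 1) u') = 0 := by
    rw [hu', map_add, Ch.d_d, zero_add] at hdu
    exact hdu
  obtain ⟨y4, _, _, u'', _, hu2'', hu''⟩ := strip_bdd hWl (D := Ch.N p 4 + 1) (n := 0) (m := n0)
    (fun e he _ hle => v1' e he (by rintro rfl; omega)) hu1' hu2' (w := 0) Sup.zero
    (by rw [hdu', map_zero])
  rw [eq_zero_of_level hu2'', map_zero, add_zero] at hu''
  refine ⟨y0 + phi p s y3 + phi p s y4, ?_⟩
  rw [hu, hu', hu'', map_add, map_add]
  ring

end Vale.Agent.P257.V4.A.F2
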