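import Mathlib.Algebra.Order.Ring.Nat
import Mathlib.Tactic.Ring
import Mathlib.Tactic.Linarith

/-!
# P257, V(4), part A, block F2: arithmetic of the monomial lists

`hij` is the indicator of the exterior letter on the interval `[i,j)`, `bij` the multiplicity of
the polynomial letter on `[i,j)`.
-/

namespace Vale.Agent.P257.V4.A.F2Van

/-! ### arithmetic -/

theorem two_cases {p x Y r Z : ℕ} (h : x + p * Y = r + p * Z) (hr : r < p)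
    (hx : x < r + 2 * p) : (x = r ∧ Y = Z) ∨ (x = r + p ∧ Y + 1 = Z) := by
  have hp : 0 < p := by omega
  rcases lt_trichotomy Y Z with h1 | h1 | h1
  · obtain ⟨t, rfl⟩ := Nat.exists_eq_add_of_lt h1
    have e : x = r + p * (t + 1) := by nlinarith
    rcases t with _ | t
    · right; constructor
      · simpa using e
      · omega
    · exfalso
      have : p * (t + 1 + 1) ≥ 2 * p := by nlinarith
      omega
  · left; subst h1; exact ⟨by omega, rfl⟩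
  · exfalso
    obtain ⟨t, rfl⟩ := Nat.exists_eq_add_of_lt h1
    have e : x + p * (t + 1) = r := by nlinarith
    have : p * (t + 1) ≥ p := by nlinarith
    omega

theorem core5_a (p : ℕ) (hp : 11 ≤ p)
    (h01 h02 h03 h04 h12 h13 h14 h23 h24 h34 b01 b02 b03 b12 b13 b23 : ℕ)
    (H04 : h04 ≤ 1) (H14 : h14 ≤ 1)
    (hs : h01 + h02 + h03 + h04 + h12 + h13 + h14 + h23 + h24 + h34 +
      2 * (b01 + b02 + b03 + b12 + b13 + b23) = 2 * p - 1)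
    (hc0' : h01 + h02 + h03 + h04 = 2)
    (hq : (b01 + b02 + b03) + (h02 + h03 + h04 + h12 + h13 + h14) = p + 1)
    (hq2 : (b02 + b03 + b12 + b13) + (h03 + h04 + h13 + h14 + h23 + h24) = p)
    (hq3 : (b03 + b13 + b23) + (h04 + h14 + h24 + h34) = p)
    (hlex : p - 3 ≤ b01 + b02 + b03) :
    (h02 + h03 + h04 + h12 + h13 + h14 = 4 ∧ h03 + h04 + h13 + h14 + h23 + h24 = 3 ∧
      h04 + h14 + h24 + h34 = 3 ∧ b01 + b02 + b03 = p - 3 ∧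
      b02 + b03 + b12 + b13 = p - 3 ∧ b03 + b13 + b23 = p - 3) ∨
    (h02 + h03 + h04 + h12 + h13 + h14 = 3 ∧ h03 + h04 + h13 + h14 + h23 + h24 = 2 ∧
      h04 + h14 + h24 + h34 = 2 ∧ b01 + b02 + b03 = p - 2 ∧
      b02 + b03 + b12 + b13 = p - 2 ∧ b03 + b13 + b23 = p - 2)
    := by
  obtain ⟨N, hN⟩ : ∃ N, N = b12 + b13 + b23 := ⟨_, rfl⟩
  obtain ⟨M, hM⟩ : ∃ M, M = b01 + b02 + b03 := ⟨_, rfl⟩
  obtain ⟨K, hK⟩ : ∃ K, K = h01 + h23 + h24 + h34 := ⟨_, rfl⟩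
  obtain ⟨C, hC⟩ : ∃ C, C = h02 + h03 + h04 + h12 + h13 + h14 := ⟨_, rfl⟩
  have e1 : M + C = p + 1 := by omega
  have e2 : K + C + 2 * (M + N) = 2 * p - 1 := by omega
  have e3 : p - 3 ≤ M := by omega
  have hN0 : N = 0 := by omega
  have : (M = p - 3 ∧ C = 4 ∧ K = 1) ∨ (M = p - 2 ∧ C = 3 ∧ K = 0) := by omega
  have hb : b12 = 0 ∧ b13 = 0 ∧ b23 = 0 := by omega
  obtain ⟨rfl, rfl, rfl⟩ := hb
  rcases this with ⟨h1, h2, h3⟩ | ⟨h1, h2, h3⟩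
  · left
    have : h04 + h14 + h24 + h34 ≤ 3 := by omega
    omega
  · right
    omega

/-- the digit equations in weight `N_5 + 1` with `B_0 ≥ p - 3` -/
theorem digits5 (p : ℕ) (hp : 11 ≤ p) (nH nB c0 c1 c2 c3 c4 B0 B1 B2 B3 : ℕ)
    (hs : nH + 2 * nB = 2 * p - 1) (h0 : c0 ≤ 5) (h0' : c0 ≤ nH) (h1 : c1 ≤ nH) (h2 : c2 ≤ nH)
    (g0 : B0 ≤ nB) (g1 : B1 ≤ nB)
    (hD : (c0 + p * B0) + p * (c1 + p * B1) + p ^ 2 * (c2 + p * B2) + p ^ 3 * (c3 + p * B3) +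
      p ^ 4 * c4 = 1 + p + p ^ 2 + p ^ 3 + p ^ 4 + 1)
    (hlex : p - 3 ≤ B0) :
    c0 = 2 ∧ B0 + c1 = p + 1 ∧
    ((B1 = 0 ∧ c2 = 0) ∨ (B1 + c2 = p ∧ B2 = 0 ∧ c3 = 0 ∧ B3 + c4 = 1) ∨
      (B1 + c2 = p ∧ B2 + c3 = p ∧ B3 = 0 ∧ c4 = 0)) := by
  have e0 : c0 + p * (B0 + c1 + p * (B1 + c2) + p ^ 2 * (B2 + c3) + p ^ 3 * (B3 + c4)) =
      2 + p * (1 + p + p ^ 2 + p ^ 3) := by
    calc _ = (c0 + p * B0) + p * (c1 + p * B1) + p ^ 2 * (c2 + p * B2) +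
          p ^ 3 * (c3 + p * B3) + p ^ 4 * c4 := by ring
      _ = _ := hD
      _ = _ := by ring
  have hc : c0 = 2 ∧ B0 + c1 + p * (B1 + c2) + p ^ 2 * (B2 + c3) + p ^ 3 * (B3 + c4) =
      1 + p + p ^ 2 + p ^ 3 := by
    rcases two_cases e0 (by omega) (by omega) with h | h
    · exact h
    · omega
  obtain ⟨hc0, e1⟩ := hc
  have e1' : B0 + c1 + p * (B1 + c2 + p * (B2 + c3) + p ^ 2 * (B3 + c4)) =
      1 + p * (1 + p + p ^ 2) := by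
    calc _ = B0 + c1 + p * (B1 + c2) + p ^ 2 * (B2 + c3) + p ^ 3 * (B3 + c4) := by ring
      _ = _ := e1
      _ = _ := by ring
  have hq : B0 + c1 = p + 1 ∧ B1 + c2 + p * (B2 + c3) + p ^ 2 * (B3 + c4) = p + p ^ 2 := by
    rcases two_cases e1' (by omega) (by omega) with h | h
    · omega
    · omega
  obtain ⟨hq, e2⟩ := hq
  refine ⟨hc0, hq, ?_⟩
  have e2' : (B1 + c2) + p * ((B2 + c3) + p * (B3 + c4)) = 0 + p * (1 + p) := by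
    calc _ = B1 + c2 + p * (B2 + c3) + p ^ 2 * (B3 + c4) := by ring
      _ = _ := e2
      _ = _ := by ring
  rcases two_cases e2' (by omega) (by omega) with ⟨hq2, e3⟩ | ⟨hq2, e3⟩
  · left; omega
  · right
    have e3' : (B2 + c3) + p * (B3 + c4) = 0 + p * 1 := by omega
    rcases two_cases e3' (by omega) (by omega) with ⟨hq3, e4⟩ | ⟨hq3, e4⟩
    · left; omega
    · right; omega

/-- arithmetic core of the list in bidegree `(2p-1, N_5+1)` -/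
theorem core5 (p : ℕ) (hp : 11 ≤ p)
    (h01 h02 h03 h04 h05 h12 h13 h14 h15 h23 h24 h25 h34 h35 h45 : ℕ)
    (H01 : h01 ≤ 1) (H02 : h02 ≤ 1) (H03 : h03 ≤ 1) (H04 : h04 ≤ 1) (H05 : h05 ≤ 1)
    (H12 : h12 ≤ 1) (H13 : h13 ≤ 1) (H14 : h14 ≤ 1) (H15 : h15 ≤ 1) (H23 : h23 ≤ 1)
    (H24 : h24 ≤ 1) (H25 : h25 ≤ 1) (H34 : h34 ≤ 1) (H35 : h35 ≤ 1) (H45 : h45 ≤ 1)
    (b01 b02 b03 b04 b12 b13 b14 b23 b24 b34 : ℕ)
    (c0 c1 c2 c3 c4 B0 B1 B2 B3 : ℕ)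
    (hc0 : c0 = h01 + h02 + h03 + h04 + h05)
    (hc1 : c1 = h02 + h03 + h04 + h05 + h12 + h13 + h14 + h15)
    (hc2 : c2 = h03 + h04 + h05 + h13 + h14 + h15 + h23 + h24 + h25)
    (hc3 : c3 = h04 + h05 + h14 + h15 + h24 + h25 + h34 + h35)
    (hc4 : c4 = h05 + h15 + h25 + h35 + h45)
    (hB0 : B0 = b01 + b02 + b03 + b04)
    (hB1 : B1 = b02 + b03 + b04 + b12 + b13 + b14)
    (hB2 : B2 = b03 + b04 + b13 + b14 + b23 + b24)
    (hB3 : B3 = b04 + b14 + b24 + b34)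
    (hs : h01 + h02 + h03 + h04 + h05 + h12 + h13 + h14 + h15 + h23 + h24 + h25 + h34 + h35 + h45 +
      2 * (b01 + b02 + b03 + b04 + b12 + b13 + b14 + b23 + b24 + b34) = 2 * p - 1)
    (hD : (c0 + p * B0) + p * (c1 + p * B1) + p ^ 2 * (c2 + p * B2) + p ^ 3 * (c3 + p * B3) +
      p ^ 4 * c4 = 1 + p + p ^ 2 + p ^ 3 + p ^ 4 + 1)
    (hlex : p - 3 ≤ B0) :
    c0 = 2 ∧ c4 = 0 ∧ B3 = 0 ∧ ((c1 = 4 ∧ c2 = 3 ∧ c3 = 3 ∧ B0 = p - 3 ∧ B1 = p - 3 ∧ B2 = p - 3) ∨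
    (c1 = 3 ∧ c2 = 2 ∧ c3 = 2 ∧ B0 = p - 2 ∧ B1 = p - 2 ∧ B2 = p - 2))
    := by
  have hh := digits5 p hp (h01 + h02 + h03 + h04 + h05 + h12 + h13 + h14 + h15 + h23 + h24 + h25 +
    h34 + h35 + h45) (b01 + b02 + b03 + b04 + b12 + b13 + b14 + b23 + b24 + b34) c0 c1 c2 c3 c4
    B0 B1 B2 B3 hs (by clear hD hs; omega) (by clear hD hs; omega) (by clear hD hs; omega)
    (by clear hD hs; omega) (by clear hD hs; omega) (by clear hD hs; omega) hD hlex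
  clear hD
  obtain ⟨k0, k1, k2⟩ := hh
  rcases k2 with ⟨k2, k3⟩ | ⟨k2, k3, k4, k5⟩ | ⟨k2, k3, k4, k5⟩
  · exfalso
    have z : h03 = 0 ∧ h04 = 0 ∧ h05 = 0 ∧ h13 = 0 ∧ h14 = 0 ∧ h15 = 0 := by
      clear hs; omega
    obtain ⟨rfl, rfl, rfl, rfl, rfl, rfl⟩ := z
    clear hc2 hc3 hc4 hB1 hB2 hB3
    omega
  · exfalso
    have z : h04 = 0 ∧ h05 = 0 ∧ h14 = 0 ∧ h15 = 0 ∧ h24 = 0 ∧ h25 = 0 ∧ h34 = 0 ∧ h35 = 0 := by
      clear hs; omega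
    have z' : b03 = 0 ∧ b04 = 0 ∧ b13 = 0 ∧ b14 = 0 ∧ b23 = 0 ∧ b24 = 0 := by
      clear hs; omega
    obtain ⟨rfl, rfl, rfl, rfl, rfl, rfl, rfl, rfl⟩ := z
    obtain ⟨rfl, rfl, rfl, rfl, rfl, rfl⟩ := z'
    subst hc0 hc1 hc2 hc4 hB0 hB1 hB3
    omega
  · have z : h05 = 0 ∧ h15 = 0 ∧ h25 = 0 ∧ h35 = 0 ∧ h45 = 0 := by
      clear hs; omega
    have z' : b04 = 0 ∧ b14 = 0 ∧ b24 = 0 ∧ b34 = 0 := by
      clear hs; omega
    obtain ⟨rfl, rfl, rfl, rfl, rfl⟩ := z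
    obtain ⟨rfl, rfl, rfl, rfl⟩ := z'
    have := core5_a p hp h01 h02 h03 h04 h12 h13 h14 h23 h24 h34 b01 b02 b03 b12 b13 b23 H04 H14
      (by omega) (by omega) (by omega) (by omega) (by omega) (by omega)
    refine ⟨k0, k5, k4, ?_⟩
    rcases this with ⟨a1, a2, a3, a4, a5, a6⟩ | ⟨a1, a2, a3, a4, a5, a6⟩
    · left
      refine ⟨?_, ?_, ?_, ?_, ?_, ?_⟩ <;> omega
    · right
      refine ⟨?_, ?_, ?_, ?_, ?_, ?_⟩ <;> omega

/-- arithmetic core of the list in bidegree `(2p-1, N_4+1)` -/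
theorem core4 (p : ℕ) (hp : 11 ≤ p)
    (h01 h02 h03 h04 h12 h13 h14 h23 h24 h34 : ℕ)
    (H01 : h01 ≤ 1) (H02 : h02 ≤ 1) (H03 : h03 ≤ 1) (H04 : h04 ≤ 1)
    (H12 : h12 ≤ 1) (H13 : h13 ≤ 1) (H14 : h14 ≤ 1) (H23 : h23 ≤ 1)
    (H24 : h24 ≤ 1) (H34 : h34 ≤ 1)
    (b01 b02 b03 b12 b13 b23 : ℕ)
    (c0 c1 c2 c3 B0 B1 B2 : ℕ)
    (hc0 : c0 = h01 + h02 + h03 + h04)
    (hc1 : c1 = h02 + h03 + h04 + h12 + h13 + h14)
    (hc2 : c2 = h03 + h04 + h13 + h14 + h23 + h24)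
    (hc3 : c3 = h04 + h14 + h24 + h34)
    (hB0 : B0 = b01 + b02 + b03)
    (hB1 : B1 = b02 + b03 + b12 + b13)
    (hB2 : B2 = b03 + b13 + b23)
    (hs : h01 + h02 + h03 + h04 + h12 + h13 + h14 + h23 + h24 + h34 +
      2 * (b01 + b02 + b03 + b12 + b13 + b23) = 2 * p - 1)
    (hD : (c0 + p * B0) + p * (c1 + p * B1) + p ^ 2 * (c2 + p * B2) + p ^ 3 * c3 =
      1 + p + p ^ 2 + p ^ 3 + 1) :
    c0 = 2 ∧ c3 = 0 ∧ B2 = 0 ∧ ((c1 = 4 ∧ c2 = 3 ∧ B0 = p - 3 ∧ B1 = p - 3) ∨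
    (c1 = 3 ∧ c2 = 2 ∧ B0 = p - 2 ∧ B1 = p - 2)) := by
  have e0 : c0 + p * (B0 + c1 + p * (B1 + c2) + p ^ 2 * (B2 + c3)) =
      2 + p * (1 + p + p ^ 2) := by
    calc _ = (c0 + p * B0) + p * (c1 + p * B1) + p ^ 2 * (c2 + p * B2) +
          p ^ 3 * c3 := by ring
      _ = _ := hD
      _ = _ := by ring
  clear hD
  have hc0le : c0 ≤ 4 := by clear e0 hs; omega
  have hc1le : c1 ≤ 6 := by clear e0 hs; omega
  have hc2le : c2 ≤ 6 := by clear e0 hs; omega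
  have hB0le : B0 ≤ p - 1 := by clear e0; omega
  have hB1le : B1 ≤ p - 1 := by clear e0; omega
  have hc : c0 = 2 ∧ B0 + c1 + p * (B1 + c2) + p ^ 2 * (B2 + c3) = 1 + p + p ^ 2 := by
    rcases two_cases e0 (by omega) (by omega) with h | h
    · exact h
    · omega
  obtain ⟨k0, e1⟩ := hc
  clear e0
  have e1' : B0 + c1 + p * (B1 + c2 + p * (B2 + c3)) = 1 + p * (1 + p) := by
    calc _ = B0 + c1 + p * (B1 + c2) + p ^ 2 * (B2 + c3) := by ring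
      _ = _ := e1
      _ = _ := by ring
  clear e1
  rcases two_cases e1' (by omega) (by omega) with ⟨k1, e2⟩ | ⟨k1, e2⟩
  · -- B0 + c1 = 1
    exfalso
    clear e1'
    have e2' : (B1 + c2) + p * (B2 + c3) = 1 + p * 1 := by omega
    have hc1' : 1 ≤ c1 := by clear e2 e2' hs; omega
    have z : B0 = 0 ∧ c1 = 1 := by omega
    obtain ⟨z1, z2⟩ := z
    rcases two_cases e2' (by omega) (by omega) with ⟨k2, e3⟩ | ⟨k2, e3⟩
    · have : b01 = 0 ∧ b02 = 0 ∧ b03 = 0 := by clear hs; omega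
      obtain ⟨rfl, rfl, rfl⟩ := this
      clear e2 e2'
      omega
    · have : b01 = 0 ∧ b02 = 0 ∧ b03 = 0 := by clear hs; omega
      obtain ⟨rfl, rfl, rfl⟩ := this
      clear e2 e2'
      omega
  · clear e1'
    have e2' : (B1 + c2) + p * (B2 + c3) = 0 + p * 1 := by omega
    clear e2
    rcases two_cases e2' (by omega) (by omega) with ⟨k2, e3⟩ | ⟨k2, e3⟩
    · exfalso
      have z : h03 = 0 ∧ h04 = 0 ∧ h13 = 0 ∧ h14 = 0 ∧ h23 = 0 ∧ h24 = 0 := by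
        clear hs e2'; omega
      obtain ⟨rfl, rfl, rfl, rfl, rfl, rfl⟩ := z
      clear e2'
      omega
    · clear e2'
      have z : h04 = 0 ∧ h14 = 0 ∧ h24 = 0 ∧ h34 = 0 ∧ b03 = 0 ∧ b13 = 0 ∧ b23 = 0 := by
        clear hs; omega
      obtain ⟨rfl, rfl, rfl, rfl, rfl, rfl, rfl⟩ := z
      refine ⟨k0, by omega, by omega, ?_⟩
      have hc2' : c2 ≤ 3 := by clear hs; omega
      have hc1' : c1 ≤ 4 := by clear hs; omega
      have hN : h01 + h02 + h03 + h12 + h13 + h23 = c0 + (h12 + h13 + h23) := by omega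
      have hq : (c1 = 4 ∧ B0 = p - 3) ∨ (c1 = 3 ∧ B0 = p - 2) := by
        omega
      rcases hq with ⟨q1, q2⟩ | ⟨q1, q2⟩
      · left
        have : h02 = 1 ∧ h03 = 1 ∧ h12 = 1 ∧ h13 = 1 := by clear hs; omega
        obtain ⟨rfl, rfl, rfl, rfl⟩ := this
        omega
      · right
        omega

end Vale.Agent.P257.V4.A.F2Van
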