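import Vale.Agent.P257.V4.A.NF
import Vale.Agent.P257.V4.A.UDefs
import Vale.Agent.P257.V4.A.Wt

/-!
# P257, V(4), part A: the multidegree filtration (strip and leading terms)

`W : (ℕ →₀ ℕ) →+ ℕ` is a level function on multidegrees with `W [i+1, i+1+k] < p * W [i, i+k]`.
The map `φ : UC p s → Ch p s` is surjective, and it becomes injective modulo `p`-th powers on
leading forms. So cocycles of `Ch p s` can be moved down level by level as long as the
cohomology of the first Frobenius kernel vanishes in the multidegrees of the leading form.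
-/

namespace Vale.Agent.P257.V4.A

open MvPolynomial

/-! ### multidegrees of monomials -/

/-- multidegree of a monomial -/
noncomputable def mdeg {s : ℕ} : (Fin s × (ℕ × ℕ) →₀ ℕ) →+ (ℕ →₀ ℕ) := Finsupp.weight mw

/-- the weight of a multidegree -/
noncomputable def pw (p : ℕ) : (ℕ →₀ ℕ) →+ ℕ := Finsupp.weight fun k => p ^ k

theorem pw_itv (p i k : ℕ) : pw p (itv i k) = p ^ i * Ch.N p (k + 1) := by
  unfold pw itv Ch.N
  rw [map_sum, Finset.mul_sum]
  refine Finset.sum_congr rfl fun l _ => ?_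
  rw [Finsupp.weight_single, one_smul, pow_add]

/-- additive functions of the multidegree are weights of monomials -/
theorem apply_mdeg {s : ℕ} {M : Type*} [AddCommMonoid M] (W : (ℕ →₀ ℕ) →+ M)
    (m : Fin s × (ℕ × ℕ) →₀ ℕ) : W (mdeg m) = Finsupp.weight (fun v => W (mw v)) m := by
  induction m using Finsupp.induction_linear with
  | zero => simp
  | add f g hf hg => rw [map_add, map_add, map_add, hf, hg]
  | single v b => rw [mdeg, Finsupp.weight_single, Finsupp.weight_single, map_nsmul]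

theorem pw_mdeg {p s : ℕ} (m : Fin s × (ℕ × ℕ) →₀ ℕ) :
    pw p (mdeg m) = Finsupp.weight (Ch.vwt p s) (NF.col p m) := by
  rw [apply_mdeg, NF.weight_col]
  congr 2
  funext v
  rw [mw, pw_itv]
  rfl

variable {p : ℕ}

/-- all monomials have multidegree in `P` -/
def Sup {s : ℕ} (P : (ℕ →₀ ℕ) → Prop) (z : UC p s) : Prop := ∀ m ∈ z.support, P (mdeg m)

theorem mh_iff {s : ℕ} {e : ℕ →₀ ℕ} {z : UC p s} : MH e z ↔ Sup (fun e' => e' = e) z := by
  unfold MH Sup IsWeightedHomogeneous mdeg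
  simp only [mem_support_iff, ne_eq]

theorem inJ_iff {s : ℕ} {z : UC p s} : InJ z ↔ ∀ m ∈ z.support, ¬ NF.Res p m := by
  unfold InJ
  simp only [NF.not_res_iff]

/-- the component of multidegree `e` -/
noncomputable def mcomp {s : ℕ} (e : ℕ →₀ ℕ) : UC p s →ₗ[ZMod p] UC p s :=
  weightedHomogeneousComponent mw e

theorem coeff_mcomp {s : ℕ} (e : ℕ →₀ ℕ) (z : UC p s) (m : Fin s × (ℕ × ℕ) →₀ ℕ) :
    coeff m (mcomp e z) = if mdeg m = e then coeff m z else 0 := by
  classical
  unfold mcomp mdeg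
  rw [coeff_weightedHomogeneousComponent]

theorem mh_mcomp {s : ℕ} (e : ℕ →₀ ℕ) (z : UC p s) : MH e (mcomp e z) :=
  weightedHomogeneousComponent_isWeightedHomogeneous e z

theorem mcomp_same {s : ℕ} {e : ℕ →₀ ℕ} {z : UC p s} (hz : MH e z) : mcomp e z = z :=
  IsWeightedHomogeneous.weightedHomogeneousComponent_same hz

theorem mcomp_ne {s : ℕ} {e e' : ℕ →₀ ℕ} {z : UC p s} (hz : MH e z) (h : e ≠ e') :
    mcomp e' z = 0 :=
  IsWeightedHomogeneous.weightedHomogeneousComponent_ne e' hz h.symm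

/-- a polynomial is the sum of its components, over any finite set containing the multidegrees -/
theorem eq_sum_mcomp {s : ℕ} (z : UC p s) (E : Finset (ℕ →₀ ℕ)) (hE : ∀ m ∈ z.support, mdeg m ∈ E) :
    z = ∑ e ∈ E, mcomp e z := by
  classical
  ext m
  rw [coeff_sum]
  by_cases hm : m ∈ z.support
  · rw [Finset.sum_eq_single_of_mem _ (hE m hm), coeff_mcomp, if_pos rfl]
    intro e _ he
    rw [coeff_mcomp, if_neg (Ne.symm he)]
  · rw [Finset.sum_eq_zero, notMem_support_iff.1 hm]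
    intro e _
    rw [coeff_mcomp, notMem_support_iff.1 hm, ite_self]

theorem mcomp_comm {s s' : ℕ} (f : UC p s →+ UC p s') (hf : ∀ e z, MH e z → MH e (f z))
    (e : ℕ →₀ ℕ) (z : UC p s) : mcomp e (f z) = f (mcomp e z) := by
  classical
  set E := z.support.image mdeg with hE
  have h0 : z = ∑ e ∈ E, mcomp e z :=
    eq_sum_mcomp z E fun m hm => Finset.mem_image_of_mem _ hm
  have key : ∀ e', mcomp e (f (mcomp e' z)) = f (mcomp e (mcomp e' z)) := by
    intro e'
    by_cases h : e' = e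
    · subst h
      rw [mcomp_same (hf _ _ (mh_mcomp _ z)), mcomp_same (mh_mcomp _ z)]
    · rw [mcomp_ne (hf _ _ (mh_mcomp _ z)) h, mcomp_ne (mh_mcomp _ z) h, map_zero]
  calc mcomp e (f z) = mcomp e (f (∑ e' ∈ E, mcomp e' z)) := by rw [← h0]
    _ = ∑ e' ∈ E, mcomp e (f (mcomp e' z)) := by rw [map_sum, map_sum]
    _ = ∑ e' ∈ E, f (mcomp e (mcomp e' z)) := Finset.sum_congr rfl fun e' _ => key e'
    _ = f (mcomp e (∑ e' ∈ E, mcomp e' z)) := by rw [map_sum, map_sum]
    _ = f (mcomp e z) := by rw [← h0]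

theorem Sup.mcomp {s : ℕ} {P : (ℕ →₀ ℕ) → Prop} {z : UC p s} (hz : Sup P z) (e : ℕ →₀ ℕ) :
    Sup P (mcomp e z) := by
  classical
  intro m hm
  rw [mem_support_iff, coeff_mcomp] at hm
  split_ifs at hm with h
  · exact hz m (mem_support_iff.2 hm)
  · exact absurd rfl hm

theorem Sup.add {s : ℕ} {P : (ℕ →₀ ℕ) → Prop} {z z' : UC p s} (hz : Sup P z) (hz' : Sup P z') :
    Sup P (z + z') := by
  classical
  intro m hm
  rcases Finset.mem_union.1 (support_add hm) with h | h
  · exact hz m h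
  · exact hz' m h

theorem Sup.neg {s : ℕ} {P : (ℕ →₀ ℕ) → Prop} {z : UC p s} (hz : Sup P z) : Sup P (-z) := by
  intro m hm
  rw [support_neg] at hm
  exact hz m hm

theorem Sup.sub {s : ℕ} {P : (ℕ →₀ ℕ) → Prop} {z z' : UC p s} (hz : Sup P z) (hz' : Sup P z') :
    Sup P (z - z') := by
  rw [sub_eq_add_neg]
  exact hz.add hz'.neg

theorem Sup.sum {s : ℕ} {ι : Type*} {P : (ℕ →₀ ℕ) → Prop} (t : Finset ι) {f : ι → UC p s}
    (h : ∀ i ∈ t, Sup P (f i)) : Sup P (∑ i ∈ t, f i) := by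
  classical
  intro m hm
  obtain ⟨i, hi, h2⟩ := Finset.mem_biUnion.1 (support_sum hm)
  exact h i hi m h2

theorem Sup.mono {s : ℕ} {P Q : (ℕ →₀ ℕ) → Prop} {z : UC p s} (hz : Sup P z)
    (h : ∀ e, P e → Q e) : Sup Q z := fun m hm => h _ (hz m hm)

theorem Sup.and {s : ℕ} {P Q : (ℕ →₀ ℕ) → Prop} {z : UC p s} (hz : Sup P z)
    (hz' : Sup Q z) : Sup (fun e => P e ∧ Q e) z := fun m hm => ⟨hz m hm, hz' m hm⟩

/-- Maps which preserve multidegrees preserve supports. -/
theorem Sup.map {s s' : ℕ} {P : (ℕ →₀ ℕ) → Prop} {z : UC p s} (f : UC p s →+ UC p s')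
    (hf : ∀ e z, MH e z → MH e (f z)) (hz : Sup P z) : Sup P (f z) := by
  classical
  have h0 : z = ∑ e ∈ z.support.image mdeg, A.mcomp e z :=
    eq_sum_mcomp z _ fun m hm => Finset.mem_image_of_mem _ hm
  rw [h0, map_sum]
  refine Sup.sum _ fun e he => ?_
  obtain ⟨m, hm, rfl⟩ := Finset.mem_image.1 he
  exact (mh_iff.1 (hf _ _ (mh_mcomp _ z))).mono fun e' he' => he' ▸ hz m hm

/-! ### weights -/

variable [Fact p.Prime]

/-- `φ` of an element all of whose monomials have weight `D` has weight `D` -/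
theorem isWt_phi {s D : ℕ} {z : UC p s} (hz : Sup (fun e => pw p e = D) z) :
    Ch.IsWt D (NF.phi p z : Ch p s) := by
  rw [NF.phi_eq_sum]
  refine Ch.IsWt.sum _ fun m hm => ?_
  refine isWeightedHomogeneous_monomial _ _ _ ?_
  rw [← pw_mdeg]
  exact hz m hm

theorem exists_preimage {s D : ℕ} {x : Ch p s} (hx : Ch.IsWt D x) :
    ∃ z : UC p s, NF.phi p z = x ∧ Sup (fun e => pw p e = D) z := by
  obtain ⟨z, h1, h2⟩ := NF.exists_preimage x
  refine ⟨z, h1, fun m hm => ?_⟩
  change pw p (mdeg m) = D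
  rw [pw_mdeg]
  exact hx (mem_support_iff.1 (h2 m hm))

/-! ### level functions -/

/-- `W` is a level function: carries lower the level -/
def IsLevel (p : ℕ) (W : (ℕ →₀ ℕ) →+ ℕ) : Prop :=
  ∀ i k, W (itv (i + 1) k) < p * W (itv i k)

omit [Fact p.Prime] in
theorem IsLevel.carry {W : (ℕ →₀ ℕ) →+ ℕ} (hW : IsLevel p W) (s : ℕ) :
    NF.Carry p fun v : Fin s × (ℕ × ℕ) => W (mw v) := fun _ i k => hW i k

omit [Fact p.Prime] in
/-- the level `e ↦ ∑ e_k` -/
theorem isLevel_degree (hp : 2 ≤ p) :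
    IsLevel p (Finsupp.weight (fun _ : ℕ => 1) : (ℕ →₀ ℕ) →+ ℕ) := by
  have h : ∀ i k, (Finsupp.weight (fun _ : ℕ => 1) : (ℕ →₀ ℕ) →+ ℕ) (itv i k) = k + 1 := by
    intro i k
    unfold itv
    rw [map_sum, Finset.sum_congr rfl fun l _ => Finsupp.weight_single _ _ _]
    simp
  intro i k
  rw [h, h]
  nlinarith

/-- **Leading forms.** If `φ z = 0` and all monomials of `z` have level `≤ n`, then the
components of `z` of level `n` lie in `J`. -/
theorem lead {W : (ℕ →₀ ℕ) →+ ℕ} (hW : IsLevel p W) {s n : ℕ} {z : UC p s}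
    (hz : NF.phi p z = 0) (hn : Sup (fun e => W e ≤ n) z) {e : ℕ →₀ ℕ} (he : W e = n) :
    InJ (mcomp e z) := by
  classical
  rw [inJ_iff]
  intro m hm
  rw [mem_support_iff, coeff_mcomp] at hm
  split_ifs at hm with h
  · refine NF.lead_ker (Fact.out : p.Prime).two_le (hW.carry s) hz (n := n) ?_
      (mem_support_iff.2 hm) ?_
    · intro m' hm'
      rw [← apply_mdeg]
      exact hn m' hm'
    · rw [← apply_mdeg, h, he]
  · exact absurd rfl hm

/-- The compatibilities of `φ` and of the multidegree with the differentials. -/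
structure Compat (p : ℕ) [Fact p.Prime] : Prop where
  phi_d : ∀ (s : ℕ) (y : UC p s), (NF.phi p (UC.d s y) : Ch p (s + 1)) = Ch.d s (NF.phi p y)
  mh_d : ∀ (s : ℕ) (e : ℕ →₀ ℕ) (y : UC p s), MH e y → MH e (UC.d s y)

namespace Compat

variable (H : Compat p)
include H

theorem mcomp_d {s : ℕ} (e : ℕ →₀ ℕ) (z : UC p s) :
    mcomp e (UC.d s z) = UC.d s (mcomp e z) :=
  mcomp_comm (UC.d s : UC p s →ₗ[ZMod p] UC p (s + 1)).toAddMonoidHom (H.mh_d s) e z

theorem sup_d {s : ℕ} {P : (ℕ →₀ ℕ) → Prop} {z : UC p s} (hz : Sup P z) :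
    Sup P (UC.d s z) :=
  hz.map (UC.d s : UC p s →ₗ[ZMod p] UC p (s + 1)).toAddMonoidHom (H.mh_d s)

/-- one step: from level `≤ n` to level `< n`; it suffices that the components of level `n` of the
given element bound modulo `J` -/
theorem step_gen {W : (ℕ →₀ ℕ) →+ ℕ} (hW : IsLevel p W) {s D n : ℕ}
    {z : UC p (s + 1)}
    (hvan : ∀ e, pw p e = D → W e = n → InJ (UC.d (s + 1) (mcomp e z)) →
      ∃ y : UC p s, MH e y ∧ InJ (mcomp e z - UC.d s y))
    (hzD : Sup (fun e => pw p e = D) z) (hz : Sup (fun e => W e ≤ n) z) {w : UC p (s + 2)}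
    (hw : Sup (fun e => W e < n) w)
    (hd : Ch.d (s + 1) (NF.phi p z) = NF.phi p w) :
    ∃ y : UC p s, Sup (fun e => pw p e = D) y ∧ Sup (fun e => W e = n) y ∧
      ∃ z' : UC p (s + 1), Sup (fun e => pw p e = D) z' ∧ Sup (fun e => W e < n) z' ∧
        (NF.phi p z : Ch p (s + 1)) = Ch.d s (NF.phi p y) + NF.phi p z' := by
  classical
  have hp : 2 ≤ p := (Fact.out : p.Prime).two_le
  -- leading forms are cocycles modulo `J`
  have hu0 : (NF.phi p (UC.d (s + 1) z - w) : Ch p (s + 2)) = 0 := by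
    rw [map_sub, H.phi_d, hd, sub_self]
  have hu1 : Sup (fun e => W e ≤ n) (UC.d (s + 1) z - w) :=
    (H.sup_d hz).sub (hw.mono fun e he => he.le)
  have hlead : ∀ e, W e = n → InJ (UC.d (s + 1) (mcomp e z)) := by
    intro e he
    have h1 := lead hW hu0 hu1 he
    rw [map_sub, H.mcomp_d] at h1
    have h2 : mcomp e w = 0 := by
      ext m
      rw [coeff_mcomp, coeff_zero]
      split_ifs with h
      · by_contra hc
        have := hw m (mem_support_iff.2 hc)
        rw [h, he] at this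
        exact lt_irrefl _ this
      · rfl
    rwa [h2, sub_zero] at h1
  -- choose bounding cochains
  have hex : ∀ e : ℕ →₀ ℕ, ∃ (y : UC p s) (j : UC p (s + 1)), pw p e = D → W e = n →
      MH e y ∧ (NF.phi p (mcomp e z - UC.d s y) : Ch p (s + 1)) = NF.phi p j ∧
        Sup (fun e => pw p e = D) j ∧ Sup (fun e => W e < n) j := by
    intro e
    by_cases he : pw p e = D ∧ W e = n
    · obtain ⟨y, h1, h2⟩ := hvan e he.1 he.2 (hlead e he.2)
      obtain ⟨j, h3, h4⟩ := NF.exists_lower hp _ (inJ_iff.1 h2)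
      have h5 : Sup (fun e' => e' = e) (mcomp e z - UC.d s y) :=
        (mh_iff.1 (mh_mcomp e z)).sub (mh_iff.1 (H.mh_d s e y h1))
      refine ⟨y, j, fun _ _ => ⟨h1, h3.symm, fun m hm => ?_, fun m hm => ?_⟩⟩
      · obtain ⟨m', hm', h6, _⟩ := h4 m hm
        rw [pw_mdeg, h6, ← pw_mdeg, h5 m' hm', he.1]
      · obtain ⟨m', hm', _, h7⟩ := h4 m hm
        have h8 := h7 _ (hW.carry (s + 1))
        rw [← apply_mdeg, ← apply_mdeg, h5 m' hm', he.2] at h8
        exact h8
    · exact ⟨0, 0, fun h1 h2 => absurd ⟨h1, h2⟩ he⟩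
  choose y j hyj using hex
  set E := z.support.image mdeg with hE
  have hED : ∀ e ∈ E, pw p e = D ∧ W e ≤ n := by
    intro e he
    obtain ⟨m, hm, rfl⟩ := Finset.mem_image.1 he
    exact ⟨hzD m hm, hz m hm⟩
  have h0 : z = ∑ e ∈ E, mcomp e z :=
    eq_sum_mcomp z E fun m hm => Finset.mem_image_of_mem _ hm
  have hin : ∀ e ∈ E.filter (fun e => W e = n), pw p e = D ∧ W e = n := by
    intro e he
    rw [Finset.mem_filter] at he
    exact ⟨(hED e he.1).1, he.2⟩
  have hout : ∀ e ∈ E.filter (fun e => ¬ W e = n), pw p e = D ∧ W e < n := by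
    intro e he
    rw [Finset.mem_filter] at he
    exact ⟨(hED e he.1).1, lt_of_le_of_ne (hED e he.1).2 he.2⟩
  refine ⟨∑ e ∈ E.filter (fun e => W e = n), y e, ?_, ?_,
    ∑ e ∈ E.filter (fun e => W e = n), j e + ∑ e ∈ E.filter (fun e => ¬ W e = n), mcomp e z,
    ?_, ?_, ?_⟩
  · refine Sup.sum _ fun e he => ?_
    exact (mh_iff.1 (hyj e (hin e he).1 (hin e he).2).1).mono fun e' he' => he' ▸ (hin e he).1
  · refine Sup.sum _ fun e he => ?_
    exact (mh_iff.1 (hyj e (hin e he).1 (hin e he).2).1).mono fun e' he' => he' ▸ (hin e he).2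
  · refine Sup.add (Sup.sum _ fun e he => ?_) (Sup.sum _ fun e he => ?_)
    · exact (hyj e (hin e he).1 (hin e he).2).2.2.1
    · exact (mh_iff.1 (mh_mcomp e z)).mono fun e' he' => he' ▸ (hout e he).1
  · refine Sup.add (Sup.sum _ fun e he => ?_) (Sup.sum _ fun e he => ?_)
    · exact (hyj e (hin e he).1 (hin e he).2).2.2.2
    · exact (mh_iff.1 (mh_mcomp e z)).mono fun e' he' => he' ▸ (hout e he).2
  · have h1 : ∀ e ∈ E.filter (fun e => W e = n), (NF.phi p (mcomp e z) : Ch p (s + 1)) =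
        Ch.d s (NF.phi p (y e)) + NF.phi p (j e) := by
      intro e he
      have := (hyj e (hin e he).1 (hin e he).2).2.1
      rw [map_sub, sub_eq_iff_eq_add, H.phi_d] at this
      rw [this]
      exact add_comm _ _
    conv_lhs => rw [h0]
    rw [map_sum, ← Finset.sum_filter_add_sum_filter_not E (fun e => W e = n),
      Finset.sum_congr rfl h1, Finset.sum_add_distrib, map_sum, map_sum, map_add, map_sum,
      map_sum, add_assoc]

/-- one step: from level `≤ n` to level `< n` -/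
theorem step {W : (ℕ →₀ ℕ) →+ ℕ} (hW : IsLevel p W) {s D n : ℕ}
    (hvan : ∀ e, pw p e = D → W e = n → VanA p (s + 1) e) {z : UC p (s + 1)}
    (hzD : Sup (fun e => pw p e = D) z) (hz : Sup (fun e => W e ≤ n) z) {w : UC p (s + 2)}
    (hw : Sup (fun e => W e < n) w)
    (hd : Ch.d (s + 1) (NF.phi p z) = NF.phi p w) :
    ∃ y : UC p s, Sup (fun e => pw p e = D) y ∧ Sup (fun e => W e = n) y ∧
      ∃ z' : UC p (s + 1), Sup (fun e => pw p e = D) z' ∧ Sup (fun e => W e < n) z' ∧
        (NF.phi p z : Ch p (s + 1)) = Ch.d s (NF.phi p y) + NF.phi p z' :=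
  H.step_gen hW (fun e h1 h2 h3 => hvan e h1 h2 _ (mh_mcomp e z) h3) hzD hz hw hd

/-- **Strip**, with an upper bound: an element of level `< m` whose coboundary has level `< n`
can be moved to level `< n` if the cohomology vanishes in all multidegrees of levels in
`[n, m)`. -/
theorem strip_bdd {W : (ℕ →₀ ℕ) →+ ℕ} (hW : IsLevel p W) {s D n m : ℕ}
    (hvan : ∀ e, pw p e = D → n ≤ W e → W e < m → VanA p (s + 1) e) {z : UC p (s + 1)}
    (hzD : Sup (fun e => pw p e = D) z) (hz : Sup (fun e => W e < m) z) {w : UC p (s + 2)}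
    (hw : Sup (fun e => W e < n) w)
    (hd : Ch.d (s + 1) (NF.phi p z) = NF.phi p w) :
    ∃ y : UC p s, Sup (fun e => pw p e = D) y ∧ Sup (fun e => W e < m) y ∧
      ∃ z' : UC p (s + 1), Sup (fun e => pw p e = D) z' ∧ Sup (fun e => W e < n) z' ∧
        (NF.phi p z : Ch p (s + 1)) = Ch.d s (NF.phi p y) + NF.phi p z' := by
  induction m generalizing z with
  | zero =>
    refine ⟨0, ?_, ?_, z, hzD, hz.mono fun e he => absurd he (Nat.not_lt_zero _), ?_⟩
    · intro m hm; simp at hm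
    · intro m hm; simp at hm
    · rw [map_zero, map_zero, zero_add]
  | succ m ih =>
    by_cases hnm : n ≤ m
    · obtain ⟨y, y1, y2, z1, z2, z3, h⟩ := H.step hW
        (fun e h1 h2 => hvan e h1 (h2 ▸ hnm) (by omega)) hzD
        (hz.mono fun e he => Nat.lt_succ_iff.1 he) (hw.mono fun e he => lt_of_lt_of_le he hnm) hd
      have hd1 : Ch.d (s + 1) (NF.phi p z1) = NF.phi p w := by
        rw [← hd, h, map_add, Ch.d_d, zero_add]
      obtain ⟨y', y1', y2', z1', z2', z3', h'⟩ := ih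
        (fun e h1 h2 h3 => hvan e h1 h2 (by omega)) z2 z3 hd1
      refine ⟨y + y', y1.add y1', (y2.mono fun e he => by omega).add
        (y2'.mono fun e he => by omega), z1', z2', z3', ?_⟩
      rw [h, h', map_add, map_add, add_assoc]
    · refine ⟨0, ?_, ?_, z, hzD, hz.mono fun e he => by omega, ?_⟩
      · intro m hm; simp at hm
      · intro m hm; simp at hm
      · rw [map_zero, map_zero, zero_add]

/-- **Strip**: a cochain whose coboundary has level `< n` can be moved to level `< n` if the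
cohomology vanishes in all multidegrees of level `≥ n`. -/
theorem strip {W : (ℕ →₀ ℕ) →+ ℕ} (hW : IsLevel p W) {s D n : ℕ}
    (hvan : ∀ e, pw p e = D → n ≤ W e → VanA p (s + 1) e) {x : Ch p (s + 1)}
    (hx : Ch.IsWt D x) {w : UC p (s + 2)} (hw : Sup (fun e => W e < n) w)
    (hd : Ch.d (s + 1) x = NF.phi p w) :
    ∃ y : Ch p s, Ch.IsWt D y ∧
      ∃ z' : UC p (s + 1), Sup (fun e => pw p e = D) z' ∧ Sup (fun e => W e < n) z' ∧
        x = Ch.d s y + NF.phi p z' := by
  classical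
  obtain ⟨z, rfl, hz⟩ := exists_preimage hx
  have hm : Sup (fun e => W e < z.support.sup (fun m => W (mdeg m)) + 1) z := fun m hm =>
    Nat.lt_succ_of_le (Finset.le_sup (f := fun m => W (mdeg m)) hm)
  obtain ⟨y, y1, _, z', z1, z2, h⟩ := H.strip_bdd hW (fun e h1 h2 _ => hvan e h1 h2) hz hm hw hd
  exact ⟨NF.phi p y, isWt_phi y1, z', z1, z2, h⟩

/-- **A0**: vanishing from the vanishing for the first Frobenius kernel in all multidegrees. -/
theorem van {s D : ℕ} (hvan : ∀ e, pw p e = D → VanA p (s + 1) e) : Ch.Van p (s + 1) D := by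
  intro x hx hd
  obtain ⟨y, _, z', _, h2, h3⟩ := H.strip (isLevel_degree (Fact.out : p.Prime).two_le)
    (n := 0) (fun e h _ => hvan e h) hx (w := 0) (by intro m hm; simp at hm)
    (by rw [hd, map_zero])
  have : z' = 0 := by
    rw [← support_eq_empty, Finset.eq_empty_iff_forall_notMem]
    intro m hm
    exact absurd (h2 m hm) (Nat.not_lt_zero _)
  exact ⟨y, by rw [h3, this, map_zero, add_zero]⟩

end Compat

end Vale.Agent.P257.V4.A
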