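import Vale.Agent.P257.V4.A.CasI
import Vale.Agent.P257.V4.A.F2Core
import Vale.Agent.P257.V4.A.Mono
import Vale.Agent.P257.V4.A.Strip

/-!
# P257, V(4), part A, block F2: the vanishing inputs V1 and V2

In weight `N_4 + 1` and degree `2p - 1` the only multidegree whose cohomology (of the first
Frobenius kernel) may be nonzero is `eX = (2 + p(p-3), 4 + p(p-3), 3)`; in weight `N_5 + 1` and
degree `2p - 1` the cohomology vanishes in all multidegrees with `e_0 ≥ 2 + p(p-3)`.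
Inputs: no monomial implies vanishing (the engine), and the Casimir theorem.
-/

namespace Vale.Agent.P257.V4.A.F2Van

open Finset ML

/-! ### from monomials to indicators -/

theorem pw_eq (p : ℕ) (e : ℕ →₀ ℕ) : pw p e = ∑ k ∈ e.support, e k * p ^ k := by
  unfold pw
  rw [Finsupp.weight_apply]
  rfl

theorem mul_pow_le_pw (p : ℕ) (e : ℕ →₀ ℕ) (k : ℕ) : e k * p ^ k ≤ pw p e := by
  by_cases h : k ∈ e.support
  · rw [pw_eq]
    exact single_le_sum (f := fun k => e k * p ^ k) (fun _ _ => Nat.zero_le _) h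
  · rw [Finsupp.notMem_support_iff.1 h, zero_mul]
    exact Nat.zero_le _

theorem pw_eq_sum {p : ℕ} (hp : 2 ≤ p) (e : ℕ →₀ ℕ) {n : ℕ} (h : pw p e < p ^ n) :
    pw p e = ∑ k ∈ range n, e k * p ^ k := by
  rw [pw_eq]
  refine sum_subset ?_ fun k _ hk => ?_
  · intro k hk
    rw [mem_range]
    by_contra hn
    have h1 := mul_pow_le_pw p e k
    have h2 : 1 ≤ e k := Nat.one_le_iff_ne_zero.2 (Finsupp.mem_support_iff.1 hk)
    have h3 : p ^ n ≤ p ^ k := Nat.pow_le_pow_right (by omega) (not_lt.1 hn)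
    have h4 : 1 * p ^ k ≤ e k * p ^ k := Nat.mul_le_mul_right _ h2
    omega
  · rw [Finsupp.notMem_support_iff.1 hk, zero_mul]

variable {p : ℕ} {e : ℕ →₀ ℕ} {m : Mono}

theorem lt_of_mem_H (hp : 2 ≤ p) {n : ℕ} (h : pw p e < p ^ n) (he : ∀ k, m.e p k = e k)
    {a : ℕ × ℕ} (ha : a ∈ m.H) : a.2 + a.1 < n := by
  by_contra hn
  have h1 := mul_pow_le_pw p e (a.2 + a.1)
  have h2 : 1 ≤ m.hcov (a.2 + a.1) := by
    unfold Mono.hcov
    refine Nat.one_le_iff_ne_zero.2 (card_ne_zero.2 ⟨a, ?_⟩)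
    rw [mem_filter]
    exact ⟨ha, by omega, le_refl _⟩
  have h3 : 1 ≤ e (a.2 + a.1) := by
    rw [← he]
    unfold Mono.e
    omega
  have h4 : p ^ n ≤ p ^ (a.2 + a.1) := Nat.pow_le_pow_right (by omega) (not_lt.1 hn)
  have h5 : 1 * p ^ (a.2 + a.1) ≤ e (a.2 + a.1) * p ^ (a.2 + a.1) := Nat.mul_le_mul_right _ h3
  omega

theorem lt_of_B_ne (hp : 2 ≤ p) {n : ℕ} (h : pw p e < p ^ n) (he : ∀ k, m.e p k = e k)
    {a : ℕ × ℕ} (ha : m.B a ≠ 0) : a.2 + a.1 + 1 < n := by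
  by_contra hn
  have h1 := mul_pow_le_pw p e (a.2 + a.1)
  have h2 : 1 ≤ m.bcov (a.2 + a.1) := by
    unfold Mono.bcov Finsupp.sum
    have hm : a ∈ m.B.support := Finsupp.mem_support_iff.2 ha
    have := single_le_sum (f := fun b : ℕ × ℕ => if b.2 ≤ a.2 + a.1 ∧ a.2 + a.1 ≤ b.2 + b.1
      then m.B b else 0) (fun _ _ => Nat.zero_le _) hm
    refine le_trans ?_ this
    rw [if_pos ⟨by omega, le_refl _⟩]
    omega
  have h3 : p ≤ e (a.2 + a.1) := by
    rw [← he]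
    unfold Mono.e
    have : p * 1 ≤ p * m.bcov (a.2 + a.1) := Nat.mul_le_mul_left _ h2
    omega
  have h4 : p ^ n ≤ p ^ (a.2 + a.1 + 1) := Nat.pow_le_pow_right (by omega) (not_lt.1 hn)
  have h5 : p * p ^ (a.2 + a.1) ≤ e (a.2 + a.1) * p ^ (a.2 + a.1) := Nat.mul_le_mul_right _ h3
  rw [pow_succ, mul_comm] at h4
  omega

/-- indicator of a letter -/
def hb (m : Mono) (k i : ℕ) : ℕ := if (k, i) ∈ m.H then 1 else 0

theorem hb_le (m : Mono) (k i : ℕ) : hb m k i ≤ 1 := by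
  unfold hb; split_ifs <;> omega

theorem hb_zero (hp : 2 ≤ p) {n : ℕ} (h : pw p e < p ^ n) (he : ∀ k, m.e p k = e k) {k i : ℕ}
    (hk : n ≤ i + k) : hb m k i = 0 := by
  unfold hb
  rw [if_neg]
  intro hmem
  have := lt_of_mem_H hp h he hmem
  simp only at this
  omega

theorem B_zero (hp : 2 ≤ p) {n : ℕ} (h : pw p e < p ^ n) (he : ∀ k, m.e p k = e k) {k i : ℕ}
    (hk : n ≤ i + k + 1) : m.B (k, i) = 0 := by
  by_contra hne
  have := lt_of_B_ne hp h he hne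
  simp only at this
  omega

theorem H_eq (hp : 2 ≤ p) {n : ℕ} (h : pw p e < p ^ n) (he : ∀ k, m.e p k = e k) :
    m.H = (range n ×ˢ range n).filter fun a => a ∈ m.H := by
  ext a
  simp only [mem_filter, mem_product, mem_range]
  refine ⟨fun ha => ?_, fun ha => ha.2⟩
  have := lt_of_mem_H hp h he ha
  exact ⟨by omega, ha⟩

theorem card_H (hp : 2 ≤ p) {n : ℕ} (h : pw p e < p ^ n) (he : ∀ k, m.e p k = e k) :
    m.H.card = ∑ k ∈ range n, ∑ i ∈ range n, hb m k i := by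
  conv_lhs => rw [H_eq hp h he]
  rw [card_filter, sum_product]
  rfl

theorem hcov_eq (hp : 2 ≤ p) {n : ℕ} (h : pw p e < p ^ n) (he : ∀ k, m.e p k = e k) (j : ℕ) :
    m.hcov j = ∑ k ∈ range n, ∑ i ∈ range n, if i ≤ j ∧ j ≤ i + k then hb m k i else 0 := by
  unfold Mono.hcov
  conv_lhs => rw [H_eq hp h he]
  rw [filter_filter, card_filter, sum_product]
  refine sum_congr rfl fun k _ => sum_congr rfl fun i _ => ?_
  unfold hb
  by_cases h1 : (k, i) ∈ m.H <;> by_cases h2 : i ≤ j ∧ j ≤ i + k <;> simp [h1, h2]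

theorem nb_eq (hp : 2 ≤ p) {n : ℕ} (h : pw p e < p ^ n) (he : ∀ k, m.e p k = e k) :
    m.nb = ∑ k ∈ range n, ∑ i ∈ range n, m.B (k, i) := by
  unfold Mono.nb Finsupp.sum
  rw [← sum_product (s := range n) (t := range n) (f := fun a => m.B a)]
  refine sum_subset ?_ fun a _ ha => Finsupp.notMem_support_iff.1 ha
  intro a ha
  have := lt_of_B_ne hp h he (Finsupp.mem_support_iff.1 ha)
  simp only [mem_product, mem_range]
  omega

theorem bcov_eq (hp : 2 ≤ p) {n : ℕ} (h : pw p e < p ^ n) (he : ∀ k, m.e p k = e k) (j : ℕ) :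
    m.bcov j = ∑ k ∈ range n, ∑ i ∈ range n, if i ≤ j ∧ j ≤ i + k then m.B (k, i) else 0 := by
  unfold Mono.bcov Finsupp.sum
  rw [← sum_product (s := range n) (t := range n)
    (f := fun a : ℕ × ℕ => if a.2 ≤ j ∧ j ≤ a.2 + a.1 then m.B a else 0)]
  refine sum_subset ?_ fun a _ ha => ?_
  · intro a ha
    have := lt_of_B_ne hp h he (Finsupp.mem_support_iff.1 ha)
    simp only [mem_product, mem_range]
    omega
  · simp only [Finsupp.notMem_support_iff.1 ha, ite_self]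

/-! ### the two lists -/

theorem N4 (p : ℕ) : Ch.N p 4 = 1 + p + p ^ 2 + p ^ 3 := by
  simp [Ch.N, sum_range_succ]

theorem N5 (p : ℕ) : Ch.N p 5 = 1 + p + p ^ 2 + p ^ 3 + p ^ 4 := by
  simp [Ch.N, sum_range_succ]

theorem N4_lt {p : ℕ} (hp : 11 ≤ p) : Ch.N p 4 + 1 < p ^ 4 := by
  rw [N4]
  have h2 : p ^ 2 = p * p := by ring
  have h3 : p ^ 3 = p * p ^ 2 := by ring
  have h4 : p ^ 4 = p * p ^ 3 := by ring
  have h5 : 11 * p ≤ p * p := Nat.mul_le_mul_right _ hp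
  have h6 : 11 * p ^ 2 ≤ p * p ^ 2 := Nat.mul_le_mul_right _ hp
  have h7 : 11 * p ^ 3 ≤ p * p ^ 3 := Nat.mul_le_mul_right _ hp
  omega

theorem N5_lt {p : ℕ} (hp : 11 ≤ p) : Ch.N p 5 + 1 < p ^ 5 := by
  rw [N5]
  have h2 : p ^ 2 = p * p := by ring
  have h3 : p ^ 3 = p * p ^ 2 := by ring
  have h4 : p ^ 4 = p * p ^ 3 := by ring
  have h4' : p ^ 5 = p * p ^ 4 := by ring
  have h5 : 11 * p ≤ p * p := Nat.mul_le_mul_right _ hp
  have h6 : 11 * p ^ 2 ≤ p * p ^ 2 := Nat.mul_le_mul_right _ hp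
  have h7 : 11 * p ^ 3 ≤ p * p ^ 3 := Nat.mul_le_mul_right _ hp
  have h8 : 11 * p ^ 4 ≤ p * p ^ 4 := Nat.mul_le_mul_right _ hp
  omega

theorem zero_of_lt (hp : 2 ≤ p) {n k : ℕ} (h : pw p e < p ^ n) (hk : n ≤ k) : e k = 0 := by
  by_contra hne
  have h1 := mul_pow_le_pw p e k
  have h2 : 1 ≤ e k := Nat.one_le_iff_ne_zero.2 hne
  have h3 : p ^ n ≤ p ^ k := Nat.pow_le_pow_right (by omega) hk
  have h4 : 1 * p ^ k ≤ e k * p ^ k := Nat.mul_le_mul_right _ h2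
  omega

theorem list4 (hp : 11 ≤ p) (hw : pw p e = Ch.N p 4 + 1) (he : ∀ k, m.e p k = e k)
    (hs : m.s = 2 * p - 1) :
    (e 0 = 2 + p * (p - 3) ∧ e 1 = 4 + p * (p - 3) ∧ e 2 = 3 ∧ e 3 = 0) ∨
    (e 0 = 2 + p * (p - 2) ∧ e 1 = 3 + p * (p - 2) ∧ e 2 = 2 ∧ e 3 = 0) := by
  have h : pw p e < p ^ 4 := by rw [hw]; exact N4_lt hp
  have hp2 : 2 ≤ p := by omega
  have hH := card_H hp2 h he
  have hB := nb_eq hp2 h he
  have c0 := hcov_eq hp2 h he 0
  have c1 := hcov_eq hp2 h he 1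
  have c2 := hcov_eq hp2 h he 2
  have c3 := hcov_eq hp2 h he 3
  have B0 := bcov_eq hp2 h he 0
  have B1 := bcov_eq hp2 h he 1
  have B2 := bcov_eq hp2 h he 2
  have B3 := bcov_eq hp2 h he 3
  have zh : ∀ k i, 4 ≤ i + k → hb m k i = 0 := fun k i hk => hb_zero hp2 h he hk
  have zB : ∀ k i, 4 ≤ i + k + 1 → m.B (k, i) = 0 := fun k i hk => B_zero hp2 h he hk
  have z1 := zh 1 3 (by omega)
  have z2 := zh 2 2 (by omega)
  have z3 := zh 2 3 (by omega)
  have z4 := zh 3 1 (by omega)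
  have z5 := zh 3 2 (by omega)
  have z6 := zh 3 3 (by omega)
  have y0 := zB 0 3 (by omega)
  have y1 := zB 1 2 (by omega)
  have y2 := zB 1 3 (by omega)
  have y3 := zB 2 1 (by omega)
  have y4 := zB 2 2 (by omega)
  have y5 := zB 2 3 (by omega)
  have y6 := zB 3 0 (by omega)
  have y7 := zB 3 1 (by omega)
  have y8 := zB 3 2 (by omega)
  have y9 := zB 3 3 (by omega)
  have hpw := pw_eq_sum hp2 e h
  simp only [sum_range_succ, sum_range_zero, z1, z2, z3, z4, z5, z6, y0, y1, y2, y3, y4, y5, y6,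
    y7, y8, y9, ite_self] at hH hB c0 c1 c2 c3 B0 B1 B2 B3 hpw
  norm_num at c0 c1 c2 c3 B0 B1 B2 B3
  have e0 : e 0 = m.hcov 0 + p * m.bcov 0 := (he 0).symm
  have e1 : e 1 = m.hcov 1 + p * m.bcov 1 := (he 1).symm
  have e2 : e 2 = m.hcov 2 + p * m.bcov 2 := (he 2).symm
  have e3 : e 3 = m.hcov 3 + p * m.bcov 3 := (he 3).symm
  rw [B3, mul_zero, add_zero] at e3
  have key := core4 p hp (hb m 0 0) (hb m 1 0) (hb m 2 0) (hb m 3 0) (hb m 0 1) (hb m 1 1)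
    (hb m 2 1) (hb m 0 2) (hb m 1 2) (hb m 0 3) (hb_le _ _ _) (hb_le _ _ _) (hb_le _ _ _)
    (hb_le _ _ _) (hb_le _ _ _) (hb_le _ _ _) (hb_le _ _ _) (hb_le _ _ _) (hb_le _ _ _)
    (hb_le _ _ _) (m.B (0, 0)) (m.B (1, 0)) (m.B (2, 0)) (m.B (0, 1)) (m.B (1, 1)) (m.B (0, 2))
    (m.hcov 0) (m.hcov 1) (m.hcov 2) (m.hcov 3) (m.bcov 0) (m.bcov 1) (m.bcov 2)
    (by omega) (by omega) (by omega) (by omega) (by omega) (by omega) (by omega)
    (by unfold Mono.s at hs; omega)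
    (by
      rw [← e0, ← e1, ← e2, ← e3]
      rw [hw, N4] at hpw
      rw [hpw]
      ring)
  obtain ⟨k0, k3, k4, key⟩ := key
  rcases key with ⟨a1, a2, a3, a4⟩ | ⟨a1, a2, a3, a4⟩
  · left
    rw [e0, e1, e2, e3, k0, a1, a2, k3, a3, a4, k4]
    simp
  · right
    rw [e0, e1, e2, e3, k0, a1, a2, k3, a3, a4, k4]
    simp

theorem list5 (hp : 11 ≤ p) (hw : pw p e = Ch.N p 5 + 1) (he : ∀ k, m.e p k = e k)
    (hs : m.s = 2 * p - 1) (hlex : 2 + p * (p - 3) ≤ e 0) :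
    (e 0 = 2 + p * (p - 3) ∧ e 1 = 4 + p * (p - 3) ∧ e 2 = 3 + p * (p - 3) ∧ e 3 = 3 ∧ e 4 = 0) ∨
    (e 0 = 2 + p * (p - 2) ∧ e 1 = 3 + p * (p - 2) ∧ e 2 = 2 + p * (p - 2) ∧ e 3 = 2 ∧ e 4 = 0) := by
  have h : pw p e < p ^ 5 := by rw [hw]; exact N5_lt hp
  have hp2 : 2 ≤ p := by omega
  have hH := card_H hp2 h he
  have hB := nb_eq hp2 h he
  have c0 := hcov_eq hp2 h he 0
  have c1 := hcov_eq hp2 h he 1
  have c2 := hcov_eq hp2 h he 2
  have c3 := hcov_eq hp2 h he 3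
  have c4 := hcov_eq hp2 h he 4
  have B0 := bcov_eq hp2 h he 0
  have B1 := bcov_eq hp2 h he 1
  have B2 := bcov_eq hp2 h he 2
  have B3 := bcov_eq hp2 h he 3
  have B4 := bcov_eq hp2 h he 4
  have zh : ∀ k i, 5 ≤ i + k → hb m k i = 0 := fun k i hk => hb_zero hp2 h he hk
  have zB : ∀ k i, 5 ≤ i + k + 1 → m.B (k, i) = 0 := fun k i hk => B_zero hp2 h he hk
  have z1 := zh 1 4 (by omega)
  have z2 := zh 2 3 (by omega)
  have z3 := zh 2 4 (by omega)
  have z4 := zh 3 2 (by omega)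
  have z5 := zh 3 3 (by omega)
  have z6 := zh 3 4 (by omega)
  have z7 := zh 4 1 (by omega)
  have z8 := zh 4 2 (by omega)
  have z9 := zh 4 3 (by omega)
  have z10 := zh 4 4 (by omega)
  have y0 := zB 0 4 (by omega)
  have y1 := zB 1 3 (by omega)
  have y2 := zB 1 4 (by omega)
  have y3 := zB 2 2 (by omega)
  have y4 := zB 2 3 (by omega)
  have y5 := zB 2 4 (by omega)
  have y6 := zB 3 1 (by omega)
  have y7 := zB 3 2 (by omega)
  have y8 := zB 3 3 (by omega)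
  have y9 := zB 3 4 (by omega)
  have y10 := zB 4 0 (by omega)
  have y11 := zB 4 1 (by omega)
  have y12 := zB 4 2 (by omega)
  have y13 := zB 4 3 (by omega)
  have y14 := zB 4 4 (by omega)
  have hpw := pw_eq_sum hp2 e h
  simp only [sum_range_succ, sum_range_zero, z1, z2, z3, z4, z5, z6, z7, z8, z9, z10, y0, y1, y2,
    y3, y4, y5, y6, y7, y8, y9, y10, y11, y12, y13, y14, ite_self]
    at hH hB c0 c1 c2 c3 c4 B0 B1 B2 B3 B4 hpw
  norm_num at c0 c1 c2 c3 c4 B0 B1 B2 B3 B4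
  have e0 : e 0 = m.hcov 0 + p * m.bcov 0 := (he 0).symm
  have e1 : e 1 = m.hcov 1 + p * m.bcov 1 := (he 1).symm
  have e2 : e 2 = m.hcov 2 + p * m.bcov 2 := (he 2).symm
  have e3 : e 3 = m.hcov 3 + p * m.bcov 3 := (he 3).symm
  have e4 : e 4 = m.hcov 4 + p * m.bcov 4 := (he 4).symm
  rw [B4, mul_zero, add_zero] at e4
  have hc0le : m.hcov 0 ≤ 5 := by
    have b1 := hb_le m 0 0
    have b2 := hb_le m 1 0
    have b3 := hb_le m 2 0
    have b4 := hb_le m 3 0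
    have b5 := hb_le m 4 0
    omega
  have hB0 : p - 3 ≤ m.bcov 0 := by
    by_contra hlt
    have h1 : m.bcov 0 + 1 ≤ p - 3 := by omega
    have h2 : p * (m.bcov 0 + 1) ≤ p * (p - 3) := Nat.mul_le_mul_left _ h1
    rw [mul_add, mul_one] at h2
    omega
  have key := core5 p hp (hb m 0 0) (hb m 1 0) (hb m 2 0) (hb m 3 0) (hb m 4 0) (hb m 0 1)
    (hb m 1 1) (hb m 2 1) (hb m 3 1) (hb m 0 2) (hb m 1 2) (hb m 2 2) (hb m 0 3) (hb m 1 3)
    (hb m 0 4) (hb_le _ _ _) (hb_le _ _ _) (hb_le _ _ _) (hb_le _ _ _) (hb_le _ _ _)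
    (hb_le _ _ _) (hb_le _ _ _) (hb_le _ _ _) (hb_le _ _ _) (hb_le _ _ _) (hb_le _ _ _)
    (hb_le _ _ _) (hb_le _ _ _) (hb_le _ _ _) (hb_le _ _ _)
    (m.B (0, 0)) (m.B (1, 0)) (m.B (2, 0)) (m.B (3, 0)) (m.B (0, 1)) (m.B (1, 1)) (m.B (2, 1))
    (m.B (0, 2)) (m.B (1, 2)) (m.B (0, 3))
    (m.hcov 0) (m.hcov 1) (m.hcov 2) (m.hcov 3) (m.hcov 4) (m.bcov 0) (m.bcov 1) (m.bcov 2)
    (m.bcov 3)
    (by omega) (by omega) (by omega) (by omega) (by omega) (by omega) (by omega) (by omega)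
    (by omega)
    (by unfold Mono.s at hs; omega)
    (by
      rw [← e0, ← e1, ← e2, ← e3, ← e4]
      rw [hw, N5] at hpw
      rw [hpw]
      ring) hB0
  obtain ⟨k0, k3, k4, key⟩ := key
  rcases key with ⟨a1, a2, a3, a4, a5, a6⟩ | ⟨a1, a2, a3, a4, a5, a6⟩
  · left
    rw [e0, e1, e2, e3, e4, k0, a1, a2, k3, a3, a4, k4, a5, a6]
    simp
  · right
    rw [e0, e1, e2, e3, e4, k0, a1, a2, k3, a3, a4, k4, a5, a6]
    simp

/-! ### the Casimir form -/

theorem Qe_eq (e : ℕ →₀ ℕ) {n : ℕ} (h : ∀ k, n ≤ k → e k = 0) :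
    Cas.Qe e = ∑ k ∈ range n, ((e k : ℤ) - (e k : ℤ) ^ 2 + (e k : ℤ) * (e (k + 1) : ℤ)) := by
  unfold Cas.Qe Finsupp.sum
  refine sum_subset ?_ fun k _ hk => ?_
  · intro k hk
    rw [mem_range]
    by_contra hn
    exact Finsupp.mem_support_iff.1 hk (h k (not_lt.1 hn))
  · rw [Finsupp.notMem_support_iff.1 hk]
    norm_num

theorem natCast_ne_zero {p : ℕ} (hp : 11 ≤ p) {a : ℕ} (h0 : 0 < a) (h : a < 11) :
    (a : ZMod p) ≠ 0 := by
  intro h1
  have h2 := Nat.le_of_dvd h0 ((ZMod.natCast_eq_zero_iff a p).1 h1)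
  omega

/-- the multidegree of `h_11 h_12 h_20 h_21 h_30 b_20^(p-3)` -/
noncomputable def eX (p : ℕ) : ℕ →₀ ℕ :=
  Finsupp.single 0 (2 + p * (p - 3)) + Finsupp.single 1 (4 + p * (p - 3)) + Finsupp.single 2 3

theorem eX_0 (p : ℕ) : eX p 0 = 2 + p * (p - 3) := by simp [eX]
theorem eX_1 (p : ℕ) : eX p 1 = 4 + p * (p - 3) := by simp [eX]
theorem eX_2 (p : ℕ) : eX p 2 = 3 := by simp [eX]
theorem eX_ge (p : ℕ) {k : ℕ} (hk : 3 ≤ k) : eX p k = 0 := by
  unfold eX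
  simp only [Finsupp.add_apply]
  rw [Finsupp.single_eq_of_ne (by omega), Finsupp.single_eq_of_ne (by omega),
    Finsupp.single_eq_of_ne (by omega), add_zero, add_zero]

/-- The engine: no monomial implies vanishing. -/
def MGStmt (p : ℕ) : Prop :=
  ∀ (s : ℕ) (e : ℕ →₀ ℕ), (∀ m : Mono, m.s = s → (∀ k, m.e p k = e k) → False) → VanA p s e

/-- **V1** -/
theorem V1 (hp : 11 ≤ p) (hmg : MGStmt p) (hcas : Cas.CasMain p) (e : ℕ →₀ ℕ)
    (hw : pw p e = Ch.N p 4 + 1) (hne : e ≠ eX p) : VanA p (2 * p - 1) e := by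
  have hp2 : 2 ≤ p := by omega
  have hlt : pw p e < p ^ 4 := by rw [hw]; exact N4_lt hp
  by_cases hm : ∀ m : Mono, m.s = 2 * p - 1 → (∀ k, m.e p k = e k) → False
  · exact hmg _ _ hm
  · simp only [not_forall, not_false_eq_true, exists_prop] at hm
    obtain ⟨m, hs, he, -⟩ := hm
    rcases list4 hp hw he hs with ⟨a0, a1, a2, a3⟩ | ⟨a0, a1, a2, a3⟩
    · refine absurd (Finsupp.ext fun k => ?_) hne
      rcases k with _ | _ | _ | k
      · rw [a0, eX_0]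
      · rw [a1, eX_1]
      · rw [a2, eX_2]
      · rw [eX_ge p (by omega)]
        rcases k with _ | k
        · exact a3
        · exact zero_of_lt hp2 hlt (by omega)
    · refine hcas _ _ ?_
      rw [Qe_eq e fun k hk => zero_of_lt hp2 hlt hk]
      simp only [sum_range_succ, sum_range_zero, zero_add, a0, a1, a2, a3,
        zero_of_lt hp2 hlt (le_refl 4)]
      push_cast
      rw [ZMod.natCast_self]
      have := natCast_ne_zero hp (a := 2) (by norm_num) (by norm_num)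
      convert this using 1
      push_cast
      ring

/-- **V2**, strong form -/
theorem V2' (hp : 11 ≤ p) (hmg : MGStmt p) (hcas : Cas.CasMain p) (e : ℕ →₀ ℕ)
    (hw : pw p e = Ch.N p 5 + 1) (hlex : 2 + p * (p - 3) ≤ e 0) : VanA p (2 * p - 1) e := by
  have hp2 : 2 ≤ p := by omega
  have hlt : pw p e < p ^ 5 := by rw [hw]; exact N5_lt hp
  by_cases hm : ∀ m : Mono, m.s = 2 * p - 1 → (∀ k, m.e p k = e k) → False
  · exact hmg _ _ hm
  · simp only [not_forall, not_false_eq_true, exists_prop] at hm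
    obtain ⟨m, hs, he, -⟩ := hm
    rcases list5 hp hw he hs hlex with ⟨a0, a1, a2, a3, a4⟩ | ⟨a0, a1, a2, a3, a4⟩
    · refine hcas _ _ ?_
      rw [Qe_eq e fun k hk => zero_of_lt hp2 hlt hk]
      simp only [sum_range_succ, sum_range_zero, zero_add, a0, a1, a2, a3, a4,
        zero_of_lt hp2 hlt (le_refl 5)]
      push_cast
      rw [ZMod.natCast_self]
      have := natCast_ne_zero hp (a := 3) (by norm_num) (by norm_num)
      convert this using 1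
      push_cast
      ring
    · refine hcas _ _ ?_
      rw [Qe_eq e fun k hk => zero_of_lt hp2 hlt hk]
      simp only [sum_range_succ, sum_range_zero, zero_add, a0, a1, a2, a3, a4,
        zero_of_lt hp2 hlt (le_refl 5)]
      push_cast
      rw [ZMod.natCast_self]
      have := natCast_ne_zero hp (a := 4) (by norm_num) (by norm_num)
      convert this using 1
      push_cast
      ring

/-- **V2** -/
theorem V2 (hp : 11 ≤ p) (hmg : MGStmt p) (hcas : Cas.CasMain p) (e : ℕ →₀ ℕ)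
    (hw : pw p e = Ch.N p 5 + 1)
    (hlex : eX p 0 < e 0 ∨ (e 0 = eX p 0 ∧ eX p 1 < e 1) ∨
      (e 0 = eX p 0 ∧ e 1 = eX p 1 ∧ eX p 2 < e 2)) : VanA p (2 * p - 1) e := by
  refine V2' hp hmg hcas e hw ?_
  rw [← eX_0]
  omega

end Vale.Agent.P257.V4.A.F2Van
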