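import Vale.Agent.P257.V4.A.MG3
import Vale.Agent.P257.V4.A.Mono

/-!
# P257, V(4): the multigraded engine at the level of `A`, the recursion and the final theorem

`vanA_of_noMo`, `vanA_of_noMono`: if there is no `E_1`-monomial of degree `s` and multidegree `e`
then `VanA p s e`.
-/

namespace Vale.Agent.P257.V4.A.MG

open MvPolynomial

/-- There is a monomial of degree `s` and multidegree `e` with all letters outside `S`
(exterior letters `H`, polynomial letters `B`; a letter `(i,k)` is the interval `[i,i+k]`). -/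
def Mo (p : ℕ) (S : Finset (ℕ × ℕ)) (s : ℕ) (e : ℕ →₀ ℕ) : Prop :=
  ∃ (H : Finset (ℕ × ℕ)) (B : (ℕ × ℕ) →₀ ℕ), (∀ τ ∈ H, τ ∉ S) ∧ (∀ τ, B τ ≠ 0 → τ ∉ S) ∧
    H.card + 2 * (B.sum fun _ c => c) = s ∧
    (∑ τ ∈ H, itv τ.1 τ.2) + p • (B.sum fun τ c => c • itv τ.1 τ.2) = e

section Mo

variable {p : ℕ} {S : Finset (ℕ × ℕ)} {τ : ℕ × ℕ} {s : ℕ} {e : ℕ →₀ ℕ}

theorem Mo.zero : Mo p S 0 0 :=
  ⟨∅, 0, by simp, by simp, by simp, by simp⟩

theorem Mo.of_insert (h : Mo p (insert τ S) s e) : Mo p S s e := by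
  obtain ⟨H, B, h1, h2, h3, h4⟩ := h
  exact ⟨H, B, fun τ hτ h => h1 τ hτ (Finset.mem_insert_of_mem h),
    fun τ hτ h => h2 τ hτ (Finset.mem_insert_of_mem h), h3, h4⟩

theorem Mo.addH {e' : ℕ →₀ ℕ} (hτ : τ ∉ S) (h : Mo p (insert τ S) s e)
    (he : e' = e + itv τ.1 τ.2) : Mo p S (s + 1) e' := by
  subst he
  obtain ⟨H, B, h1, h2, h3, h4⟩ := h
  have hH : τ ∉ H := fun h => h1 τ h (Finset.mem_insert_self _ _)
  refine ⟨insert τ H, B, ?_, fun τ hτ h => h2 τ hτ (Finset.mem_insert_of_mem h), ?_, ?_⟩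
  · intro σ hσ
    rcases Finset.mem_insert.1 hσ with rfl | h
    · exact hτ
    · exact fun h' => h1 σ h (Finset.mem_insert_of_mem h')
  · rw [Finset.card_insert_of_notMem hH, ← h3]
    ring
  · rw [Finset.sum_insert hH, ← h4]
    abel

theorem Mo.addB {e' : ℕ →₀ ℕ} (hτ : τ ∉ S) (h : Mo p S s e)
    (he : e' = e + p • itv τ.1 τ.2) : Mo p S (s + 2) e' := by
  classical
  subst he
  obtain ⟨H, B, h1, h2, h3, h4⟩ := h
  refine ⟨H, B + Finsupp.single τ 1, h1, ?_, ?_, ?_⟩
  · intro σ hσ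
    by_cases h : σ = τ
    · rw [h]
      exact hτ
    · refine h2 σ ?_
      rwa [Finsupp.add_apply, Finsupp.single_eq_of_ne h, add_zero] at hσ
  · rw [Finsupp.sum_add_index' (fun _ => rfl) (fun _ _ _ => rfl), Finsupp.sum_single_index rfl,
      ← h3]
    ring
  · rw [Finsupp.sum_add_index' (fun _ => by simp) (fun _ _ _ => add_smul _ _ _),
      Finsupp.sum_single_index (by simp), one_smul, ← h4, smul_add]
    abel

end Mo

variable {p : ℕ} [Fact p.Prime]

/-- The recursion. -/
theorem V_of_noMo (L : Finset (ℕ × ℕ)) (n : ℕ) : ∀ (S : Finset (ℕ × ℕ)) (s : ℕ) (e : ℕ →₀ ℕ),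
    Row S → (∀ τ : ℕ × ℕ, itv τ.1 τ.2 ≤ e → τ ∈ L) → (L \ S).card + s ≤ n → ¬ Mo p S s e →
    V p S s e := by
  induction n using Nat.strong_induction_on with
  | _ n ih =>
    intro S s e hS hL hn hM
    by_cases hall : ∀ τ : ℕ × ℕ, itv τ.1 τ.2 ≤ e → τ ∈ S
    · refine V_top hall ?_
      by_contra h
      push Not at h
      obtain ⟨rfl, rfl⟩ := h
      exact hM Mo.zero
    · push Not at hall
      obtain ⟨⟨i, k0⟩, hle0, hnot0⟩ := hall
      -- the smallest letter of the row not in `S`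
      have hex : ∃ k, (i, k) ∉ S := ⟨k0, hnot0⟩
      obtain ⟨k, hk, hmin⟩ : ∃ k, (i, k) ∉ S ∧ ∀ k' < k, (i, k') ∈ S :=
        ⟨Nat.find hex, Nat.find_spec hex, fun k' hk' => not_not.1 (Nat.find_min hex hk')⟩
      have hkk0 : k ≤ k0 := by
        by_contra h
        exact hnot0 (hmin k0 (not_le.1 h))
      have hle : itv i k ≤ e := by
        refine le_trans ?_ hle0
        intro j
        rw [itv_apply, itv_apply]
        split_ifs <;> omega
      have hS' : Row (insert (i, k) S) := by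
        intro a b b' hab hb'
        rcases Finset.mem_insert.1 hab with h | h
        · rw [Prod.mk.injEq] at h
          obtain ⟨rfl, rfl⟩ := h
          exact Finset.mem_insert_of_mem (hmin b' hb')
        · exact Finset.mem_insert_of_mem (hS a b b' h hb')
      have hmemL : (i, k) ∈ L := hL (i, k) hle
      have hcard : (L \ insert (i, k) S).card < (L \ S).card := by
        apply Finset.card_lt_card
        refine ⟨Finset.sdiff_subset_sdiff le_rfl (Finset.subset_insert _ _), ?_⟩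
        intro h
        have := h (Finset.mem_sdiff.2 ⟨hmemL, hk⟩)
        exact (Finset.mem_sdiff.1 this).2 (Finset.mem_insert_self _ _)
      obtain ⟨e1, he1⟩ : ∃ e1, e = e1 + itv i k := ⟨e - itv i k, (tsub_add_cancel_of_le hle).symm⟩
      have hle1 : e1 ≤ e := by
        rw [he1]
        intro j
        exact Nat.le_add_right _ _
      refine V_step (τ := (i, k)) hS hS' hk he1 ?_ ?_ ?_
      · exact ih ((L \ insert (i, k) S).card + s) (by omega) _ _ _ hS' hL le_rfl
          (fun h => hM h.of_insert)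
      · intro t ht
        subst ht
        exact ih ((L \ insert (i, k) S).card + t) (by omega) _ _ _ hS'
          (fun τ hτ => hL τ (hτ.trans hle1)) le_rfl
          (fun h => hM (Mo.addH (τ := (i, k)) hk h he1))
      · intro t ht e2 he2
        subst ht
        have hle2 : e2 ≤ e := by
          rw [he2]
          intro j
          exact Nat.le_add_right _ _
        exact ih ((L \ S).card + t) (by omega) _ _ _ hS
          (fun τ hτ => hL τ (hτ.trans hle2)) le_rfl
          (fun h => hM (Mo.addB (τ := (i, k)) hk h he2))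

/-- All letters below a multidegree. -/
theorem exists_letters (e : ℕ →₀ ℕ) :
    ∃ L : Finset (ℕ × ℕ), ∀ τ : ℕ × ℕ, itv τ.1 τ.2 ≤ e → τ ∈ L := by
  refine ⟨e.support ×ˢ Finset.range (e.support.sup id + 1), ?_⟩
  rintro ⟨i, k⟩ h
  have h1 := h i
  have h2 := h (i + k)
  rw [itv_apply, if_pos ⟨le_rfl, Nat.le_add_right _ _⟩] at h1
  rw [itv_apply, if_pos ⟨Nat.le_add_right _ _, le_rfl⟩] at h2
  rw [Finset.mem_product, Finsupp.mem_support_iff, Finset.mem_range]
  dsimp only
  refine ⟨by omega, ?_⟩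
  have h3 : i + k ∈ e.support := by
    rw [Finsupp.mem_support_iff]
    omega
  have h4 : i + k ≤ e.support.sup id := Finset.le_sup (f := id) h3
  omega

/-! ### from `V` to `VanA` -/

omit [Fact p.Prime] in
theorem map_castSucc_eq {s : ℕ} (z : UC p s) :
    (UC.map Fin.castSucc z : UC p (s + 1)) = rename (Prod.map Fin.castSucc id) z := by
  have : (UC.map Fin.castSucc : UC p s →ₐ[ZMod p] UC p (s + 1)) =
      rename (Prod.map Fin.castSucc id) := by
    refine MvPolynomial.algHom_ext fun v => ?_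
    obtain ⟨r, i, k⟩ := v
    rw [UC.map_X, rename_X, Fin.castSucc_zero, UC.univ_g_zero, inv_one, mul_one,
      ← Fin.succ_castSucc, UC.univ_g_succ, Un.mk'_e_succ]
    rfl
  rw [this]

theorem inj_aux {s : ℕ} : Function.Injective
    (Prod.map Fin.castSucc id : Fin s × (ℕ × ℕ) → Fin (s + 1) × (ℕ × ℕ)) :=
  (Fin.castSucc_injective s).prodMap Function.injective_id

theorem InJ_of_rename {s : ℕ} {z : UC p s}
    (h : InJ (rename (Prod.map Fin.castSucc id) z : UC p (s + 1))) : InJ z := by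
  classical
  intro m hm
  have h1 : m.mapDomain (Prod.map Fin.castSucc id) ∈
      (rename (Prod.map Fin.castSucc id) z : UC p (s + 1)).support := by
    rw [mem_support_iff, coeff_rename_mapDomain _ inj_aux]
    exact mem_support_iff.1 hm
  obtain ⟨v, hv⟩ := h _ h1
  by_cases hr : v ∈ Set.range (Prod.map Fin.castSucc id : Fin s × (ℕ × ℕ) → Fin (s + 1) × (ℕ × ℕ))
  · obtain ⟨w, rfl⟩ := hr
    rw [Finsupp.mapDomain_apply inj_aux] at hv
    exact ⟨w, hv⟩
  · rw [Finsupp.mapDomain_of_notMem_range _ _ hr] at hv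
    have := (Fact.out : p.Prime).pos
    omega

omit [Fact p.Prime] in
theorem weight_mapDomain {s : ℕ} (m : (Fin s × (ℕ × ℕ)) →₀ ℕ) :
    Finsupp.weight (mw : Fin (s + 1) × (ℕ × ℕ) → ℕ →₀ ℕ)
      (m.mapDomain (Prod.map Fin.castSucc id)) = Finsupp.weight mw m := by
  rw [Finsupp.weight_apply, Finsupp.weight_apply, Finsupp.sum_mapDomain_index
    (h := fun (i : Fin (s + 1) × (ℕ × ℕ)) (c : ℕ) => c • (mw i : ℕ →₀ ℕ))
    (fun _ => zero_smul _ _) (fun _ _ _ => add_smul _ _ _)]
  rfl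

omit [Fact p.Prime] in
theorem MH_of_rename {s : ℕ} {z : UC p s} {e : ℕ →₀ ℕ}
    (h : MH e (rename (Prod.map Fin.castSucc id) z : UC p (s + 1))) : MH e z := by
  intro m hm
  rw [← weight_mapDomain]
  apply h
  rwa [coeff_rename_mapDomain _ inj_aux]

omit [Fact p.Prime] in
theorem dep_rename {s : ℕ} (z : UC p s) :
    Dep (ES ∅ s) (rename (Prod.map Fin.castSucc id) z : UC p (s + 1)) := by
  classical
  rw [dep_iff, mem_supported]
  intro v hv
  obtain ⟨w, -, rfl⟩ := Finset.mem_image.1 (vars_rename _ _ (Finset.mem_coe.1 hv))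
  intro h
  exact absurd h (Fin.castSucc_lt_last _).ne

omit [Fact p.Prime] in
theorem exists_rename {s : ℕ} {g : UC p (s + 1)} (hg : Dep (ES ∅ s) g) :
    ∃ y : UC p s, rename (Prod.map Fin.castSucc id) y = g := by
  refine exists_rename_eq_of_vars_subset_range g _ inj_aux ?_
  intro v hv
  have h := mem_supported.1 (dep_iff.1 hg) hv
  obtain ⟨r, l⟩ := v
  have hr : r ≠ Fin.last s := fun h' => absurd (h h') (Finset.notMem_empty _)
  obtain ⟨r', rfl⟩ := Fin.exists_castSucc_eq.2 hr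
  exact ⟨(r', l), rfl⟩

theorem dl_castSucc {s : ℕ} (i : Fin (s + 2)) :
    (dl i ∘ Fin.castSucc : Fin (s + 1) → Fin (s + 3)) = Fin.castSucc ∘ i.succAbove := by
  funext k
  apply Fin.ext
  simp only [Function.comp, dl, Fin.succAbove, Fin.lt_def, Fin.val_castSucc,
    apply_ite Fin.val, Fin.val_succ]

omit [Fact p.Prime] in
theorem dE_castSucc {s : ℕ} (y : UC p s) :
    dE s (UC.map Fin.castSucc y) = UC.map Fin.castSucc (UC.d s y) := by
  rw [dE_apply, UC.d_apply, map_sum]
  refine Finset.sum_congr rfl fun i _ => ?_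
  rw [map_smul, UC.map_map, UC.map_map, dl_castSucc]

theorem vanA_of_V {s : ℕ} {e : ℕ →₀ ℕ} (hV : V p ∅ (s + 1) e) : VanA p (s + 1) e := by
  intro z hz hd
  obtain ⟨g, hg1, hg2, hg3⟩ := hV (UC.map Fin.castSucc z)
    (by rw [map_castSucc_eq]; exact dep_rename z) (UC.map_MH _ hz)
    (by rw [dE_castSucc]; exact UC.map_InJ _ hd)
  obtain ⟨y, rfl⟩ := exists_rename hg1
  refine ⟨y, MH_of_rename hg2, ?_⟩
  apply InJ_of_rename
  rw [← map_castSucc_eq, map_sub, ← dE_castSucc, map_castSucc_eq y]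
  exact hg3

omit [Fact p.Prime] in
theorem vanA_zero {e : ℕ →₀ ℕ} (he : e ≠ 0) : VanA p 0 e := by
  intro z hz _ m hm
  have := hz (mem_support_iff.1 hm)
  have hm0 : m = 0 := by
    ext v
    exact v.1.elim0
  rw [hm0, map_zero] at this
  exact absurd this.symm he

/-- The multigraded `E_1`-bound. -/
theorem vanA_of_noMo {s : ℕ} {e : ℕ →₀ ℕ} (h : ¬ Mo p ∅ s e) : VanA p s e := by
  rcases s with _ | s
  · refine vanA_zero ?_
    rintro rfl
    exact h Mo.zero
  · obtain ⟨L, hL⟩ := exists_letters e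
    refine vanA_of_V (V_of_noMo L _ ∅ (s + 1) e ?_ hL le_rfl h)
    intro i k k' h
    exact absurd h (Finset.notMem_empty _)

/-- The multigraded `E_1`-bound in terms of `ML.Mono` (letters `(k, i)`, positions `i..i+k`). -/
theorem vanA_of_noMono {s : ℕ} {e : ℕ →₀ ℕ}
    (h : ∀ m : ML.Mono, m.s = s → (∀ k, m.e p k = e k) → False) : VanA p s e := by
  classical
  refine vanA_of_noMo ?_
  rintro ⟨H, B, -, -, h3, h4⟩
  have hsw : Function.Injective (Prod.swap : ℕ × ℕ → ℕ × ℕ) := Prod.swap_injective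
  refine h ⟨H.map ⟨Prod.swap, hsw⟩, B.mapDomain Prod.swap⟩ ?_ ?_
  · rw [← h3]
    unfold ML.Mono.s ML.Mono.nb
    rw [Finset.card_map, Finsupp.sum_mapDomain_index (fun _ => rfl) (fun _ _ _ => rfl)]
  · intro k
    rw [← h4]
    unfold ML.Mono.e ML.Mono.hcov ML.Mono.bcov
    rw [Finsupp.add_apply, Finsupp.smul_apply, smul_eq_mul]
    congr 1
    · rw [Finset.filter_map, Finset.card_map, Finset.card_filter, Finsupp.finsetSum_apply]
      refine Finset.sum_congr rfl fun x _ => ?_
      rw [itv_apply]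
      rfl
    · congr 1
      rw [Finsupp.sum_mapDomain_index (fun _ => by simp) (fun _ _ _ => by split_ifs <;> rfl),
        Finsupp.sum, Finsupp.sum, Finsupp.finsetSum_apply]
      refine Finset.sum_congr rfl fun x _ => ?_
      rw [Finsupp.smul_apply, itv_apply, smul_eq_mul]
      dsimp only [Prod.fst_swap, Prod.snd_swap]
      split_ifs <;> simp

end Vale.Agent.P257.V4.A.MG
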