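import Vale.Agent.P257.V4.A.F2
import Vale.Agent.P257.V4.A.F2Van
import Vale.Agent.P257.V4.A.Cas
import Vale.Agent.P257.V4.A.MG4

/-!
# P257, V(4), part A: F2 from the multigraded engine

`outF2_of_mg`: the statement `OutF2` from the multigraded engine `MGStmt` (no monomial of
multidegree `e` in degree `s` implies `VanA p s e`); `outF2`: the statement `OutF2`.
-/

namespace Vale.Agent.P257.V4.A.F2Fin

variable {p : ℕ} [Fact p.Prime]

theorem v1 (hp : 11 ≤ p) (hmg : F2Van.MGStmt p) : F2.V1 p := by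
  intro e hw hne
  refine F2Van.V1 hp hmg (Cas.casMain (by omega)) e hw ?_
  rintro rfl
  exact hne ⟨F2Van.eX_0 p, F2Van.eX_1 p, F2Van.eX_2 p⟩

theorem v2 (hp : 11 ≤ p) (hmg : F2Van.MGStmt p) : F2.V2 p := fun e hw h0 =>
  F2Van.V2' hp hmg (Cas.casMain (by omega)) e hw h0

/-- (F2), from the multigraded engine -/
theorem outF2_of_mg (hp : 11 ≤ p) (hmg : F2Van.MGStmt p) : OutF2 p :=
  F2.outF2_of hp (v1 hp hmg) (v2 hp hmg)

/-- the multigraded engine -/
theorem mgStmt : F2Van.MGStmt p := fun _ _ h => MG.vanA_of_noMono h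

/-- (F2) -/
theorem outF2 (hp : 11 ≤ p) : OutF2 p := outF2_of_mg hp mgStmt

end Vale.Agent.P257.V4.A.F2Fin
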