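import Vale.Agent.P257.V4.A.F5

/-!
# P257, V(4): all multidegrees of `(5, 2p^2+3p+3)` except `(p+3, p+2, 1)` (block F3)
-/

namespace Vale.Agent.P257.V4.A.F3V

open Finset ML F2Van

variable {p : ℕ} {e : ℕ →₀ ℕ} {m : Mono}

theorem lt_cube (hp : 11 ≤ p) : 2 * p ^ 2 + 3 * p + 3 < p ^ 3 := by
  have h2 : p ^ 2 = p * p := by ring
  have h3 : p ^ 3 = p * p ^ 2 := by ring
  have h5 : 11 * p ≤ p * p := Nat.mul_le_mul_right _ hp
  have h6 : 11 * p ^ 2 ≤ p * p ^ 2 := Nat.mul_le_mul_right _ hp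
  omega

/-- the special multidegree -/
noncomputable def e1 (p : ℕ) : ℕ →₀ ℕ :=
  Finsupp.single 0 (p + 3) + Finsupp.single 1 (p + 2) + Finsupp.single 2 1

theorem e1_0 (p : ℕ) : e1 p 0 = p + 3 := by simp [e1]
theorem e1_1 (p : ℕ) : e1 p 1 = p + 2 := by simp [e1]
theorem e1_2 (p : ℕ) : e1 p 2 = 1 := by simp [e1]

theorem e1_ge (p : ℕ) {k : ℕ} (hk : 3 ≤ k) : e1 p k = 0 := by
  have h0 : k ≠ 0 := by omega
  have h1 : k ≠ 1 := by omega
  have h2 : k ≠ 2 := by omega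
  simp [e1, h0, h1, h2]

theorem wtE_e1 (p : ℕ) : wtE p (e1 p) = 2 * p ^ 2 + 3 * p + 3 := by
  rw [e1, map_add, map_add, wtE_single, wtE_single, wtE_single]
  ring

theorem core (p : ℕ) (hp : 11 ≤ p) (h00 h10 h20 h01 h11 h02 : ℕ) (l00 : h00 ≤ 1) (l10 : h10 ≤ 1)
    (l20 : h20 ≤ 1) (l01 : h01 ≤ 1) (l11 : h11 ≤ 1) (l02 : h02 ≤ 1) (B0 B1 B2 : ℕ)
    (c0 c1 c2 b0 b1 : ℕ) (hc0 : c0 = h00 + h10 + h20) (hc1 : c1 = h10 + h20 + h01 + h11)
    (hc2 : c2 = h20 + h11 + h02) (hb0 : b0 = B0 + B1) (hb1 : b1 = B1 + B2)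
    (hs : h00 + h10 + h20 + h01 + h11 + h02 + 2 * (B0 + B1 + B2) = 5)
    (h : c0 + p * b0 + (c1 + p * b1) * p + c2 * p ^ 2 = 2 * p ^ 2 + 3 * p + 3) :
    c0 = 3 ∧ h00 = 1 ∧ h10 = 1 ∧ h20 = 1 ∧
      ((c1 = 3 ∧ c2 = 2 ∧ b0 = 0 ∧ b1 = 0) ∨
        (c1 = 2 ∧ c2 = 1 ∧ b0 = 1 ∧ b1 = 1 ∧ h01 = 0 ∧ h11 = 0 ∧ h02 = 0 ∧ B0 = 0 ∧ B1 = 1 ∧
          B2 = 0)) := by
  have e1 : c0 + p * (b0 + c1 + p * (b1 + c2)) = 3 + p * (3 + p * 2) := by
    have : c0 + p * (b0 + c1 + p * (b1 + c2)) =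
      c0 + p * b0 + (c1 + p * b1) * p + c2 * p ^ 2 := by ring
    rw [this, h]
    ring
  obtain ⟨d0, e2⟩ := F5.digit (by omega) (by omega) e1
  obtain ⟨d1, d2⟩ := F5.digit (by omega) (by omega) e2
  omega

theorem list5 (hp : 11 ≤ p) (hw : pw p e = 2 * p ^ 2 + 3 * p + 3) (he : ∀ k, m.e p k = e k)
    (hs : m.s = 5) : (e 0 = 3 ∧ e 1 = 3 ∧ e 2 = 2) ∨ (e 0 = p + 3 ∧ e 1 = p + 2 ∧ e 2 = 1 ∧
      hb m 0 0 = 1 ∧ hb m 1 0 = 1 ∧ hb m 2 0 = 1 ∧ hb m 0 1 = 0 ∧ hb m 1 1 = 0 ∧ hb m 0 2 = 0 ∧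
      m.B (0, 0) = 0 ∧ m.B (1, 0) = 1 ∧ m.B (0, 1) = 0) := by
  have h : pw p e < p ^ 3 := by rw [hw]; exact lt_cube hp
  have hp2 : 2 ≤ p := by omega
  have hH := card_H hp2 h he
  have hB := nb_eq hp2 h he
  have c0 := hcov_eq hp2 h he 0
  have c1 := hcov_eq hp2 h he 1
  have c2 := hcov_eq hp2 h he 2
  have B0 := bcov_eq hp2 h he 0
  have B1 := bcov_eq hp2 h he 1
  have B2 := bcov_eq hp2 h he 2
  have zh : ∀ k i, 3 ≤ i + k → hb m k i = 0 := fun k i hk => hb_zero hp2 h he hk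
  have zB : ∀ k i, 3 ≤ i + k + 1 → m.B (k, i) = 0 := fun k i hk => B_zero hp2 h he hk
  have z1 := zh 1 2 (by omega)
  have z2 := zh 2 1 (by omega)
  have z3 := zh 2 2 (by omega)
  have y1 := zB 0 2 (by omega)
  have y2 := zB 1 1 (by omega)
  have y3 := zB 1 2 (by omega)
  have y4 := zB 2 0 (by omega)
  have y5 := zB 2 1 (by omega)
  have y6 := zB 2 2 (by omega)
  have hpw := pw_eq_sum hp2 e h
  simp only [sum_range_succ, sum_range_zero, z1, z2, z3, y1, y2, y3, y4, y5, y6,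
    ite_self] at hH hB c0 c1 c2 B0 B1 B2 hpw
  norm_num at c0 c1 c2 B0 B1 B2
  have e0 : e 0 = m.hcov 0 + p * m.bcov 0 := (he 0).symm
  have e1 : e 1 = m.hcov 1 + p * m.bcov 1 := (he 1).symm
  have e2 : e 2 = m.hcov 2 + p * m.bcov 2 := (he 2).symm
  rw [B2, mul_zero, add_zero] at e2
  have key := core p hp (hb m 0 0) (hb m 1 0) (hb m 2 0) (hb m 0 1) (hb m 1 1) (hb m 0 2)
    (hb_le _ _ _) (hb_le _ _ _) (hb_le _ _ _) (hb_le _ _ _) (hb_le _ _ _) (hb_le _ _ _)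
    (m.B (0, 0)) (m.B (1, 0)) (m.B (0, 1)) (m.hcov 0) (m.hcov 1) (m.hcov 2) (m.bcov 0) (m.bcov 1)
    (by omega) (by omega) (by omega) (by omega) (by omega)
    (by unfold Mono.s at hs; omega)
    (by
      rw [← e0, ← e1, ← e2]
      rw [hw] at hpw
      rw [hpw]
      ring)
  obtain ⟨k0, k1, k2, k3, ⟨a1, a2, a3, a4⟩ | ⟨a1, a2, a3, a4, a5⟩⟩ := key
  · refine Or.inl ⟨?_, ?_, ?_⟩
    · rw [e0, k0, a3, mul_zero, add_zero]
    · rw [e1, a1, a4, mul_zero, add_zero]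
    · rw [e2, a2]
  · refine Or.inr ⟨?_, ?_, ?_, k1, k2, k3, a5⟩
    · rw [e0, k0, a3, mul_one, add_comm]
    · rw [e1, a1, a4, mul_one, add_comm]
    · rw [e2, a2]

theorem eq_e1 (hp : 11 ≤ p) (hw : wtE p e = 2 * p ^ 2 + 3 * p + 3) (h0 : e 0 = p + 3)
    (h1 : e 1 = p + 2) (h2 : e 2 = 1) : e = e1 p := by
  have h : pw p e < p ^ 3 := by rw [pw_eq_wtE, hw]; exact lt_cube hp
  ext k
  rcases Nat.lt_or_ge k 3 with hk | hk
  · interval_cases k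
    · rw [h0, e1_0]
    · rw [h1, e1_1]
    · rw [h2, e1_2]
  · rw [e1_ge p hk, zero_of_lt (by omega) h hk]

/-- all multidegrees of weight `2p^2+3p+3` except `e1` -/
theorem van5 [Fact p.Prime] (hp : 11 ≤ p) (e : ℕ →₀ ℕ) (hw : wtE p e = 2 * p ^ 2 + 3 * p + 3)
    (hne : e ≠ e1 p) : VanA p 5 e := by
  rw [← pw_eq_wtE] at hw
  have hp2 : 2 ≤ p := by omega
  have hlt : pw p e < p ^ 3 := by rw [hw]; exact lt_cube hp
  by_cases hm : ∀ m : Mono, m.s = 5 → (∀ k, m.e p k = e k) → False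
  · exact MG.vanA_of_noMono hm
  · simp only [not_forall, not_false_eq_true, exists_prop] at hm
    obtain ⟨m, hs, he, -⟩ := hm
    rcases list5 hp hw he hs with ⟨a0, a1, a2⟩ | ⟨a0, a1, a2, -⟩
    · refine Cas.vanA_of_Qe (by omega) _ _ ?_
      rw [Qe_eq e fun k hk => zero_of_lt hp2 hlt hk]
      simp only [sum_range_succ, sum_range_zero, zero_add, a0, a1, a2,
        zero_of_lt hp2 hlt (le_refl 3)]
      norm_num
    · exact absurd (eq_e1 hp hw a0 a1 a2) hne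

/-- the monomial at `e1` -/
noncomputable def m1 : Mono := ⟨{(0, 0), (1, 0), (2, 0)}, Finsupp.single (1, 0) 1⟩

/-- uniqueness of the monomial at `e1` -/
theorem eq_m1 (hp : 11 ≤ p) {m : Mono} (hs : m.s = 5) (he : ∀ k, m.e p k = e1 p k) : m = m1 := by
  have hw : pw p (e1 p) = 2 * p ^ 2 + 3 * p + 3 := by rw [pw_eq_wtE, wtE_e1]
  have hp2 : 2 ≤ p := by omega
  have hlt : pw p (e1 p) < p ^ 3 := by rw [hw]; exact lt_cube hp
  rcases list5 hp hw he hs with ⟨a0, -, -⟩ | ⟨-, -, -, b1, b2, b3, b4, b5, b6, b7, b8, b9⟩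
  · rw [e1_0] at a0
    omega
  · have hmem : ∀ k i, (k, i) ∈ m.H ↔ hb m k i = 1 := by
      intro k i
      unfold hb
      split_ifs with hh <;> simp [hh]
    have h1 : m.H = m1.H := by
      ext ⟨k, i⟩
      rw [hmem]
      rcases Nat.lt_or_ge (i + k) 3 with hk | hk
      · have hk2 : k ≤ 2 := by omega
        have hi2 : i ≤ 2 := by omega
        interval_cases k <;> interval_cases i <;> first | omega | simp [m1, b1, b2, b3, b4, b5, b6]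
      · rw [hb_zero hp2 hlt he hk]
        simp only [m1, mem_insert, mem_singleton, Prod.mk.injEq]
        omega
    have h2 : m.B = m1.B := by
      ext ⟨k, i⟩
      rcases Nat.lt_or_ge (i + k + 1) 3 with hk | hk
      · have hk2 : k ≤ 1 := by omega
        have hi2 : i ≤ 1 := by omega
        interval_cases k <;> interval_cases i <;> first | omega | simp [m1, b7, b8, b9]
      · rw [B_zero hp2 hlt he hk]
        have : ¬ ((1, 0) : ℕ × ℕ) = (k, i) := by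
          rw [Prod.mk.injEq]
          omega
        simp [m1, this]
    cases m
    simp only [m1] at h1 h2 ⊢
    rw [h1, h2]

end Vale.Agent.P257.V4.A.F3V
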