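import Vale.Agent.P257.V4.A.A0b
import Vale.Agent.P257.V4.A.Out

/-!
# P257, V(4), part A: assembly of F4, `Ext^7_{3p²+4p} = 0`

The three special multidegrees are `e3 = (3p, 3p+1, 0)`, `e2 = (2p, p+2, 2)` (degree `7`) and
`e8 = (3p, p+1, 2)` (degree `8`).
-/

namespace Vale.Agent.P257.V4.A.F4

open MvPolynomial

/-- multidegree of `h_{11} b_{20}^3` -/
noncomputable def e3 (p : ℕ) : ℕ →₀ ℕ :=
  Finsupp.single 0 (3 * p) + Finsupp.single 1 (3 * p + 1)

/-- multidegree of `h_{11} h_{12} h_{21} b_{20} b_{10}` -/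
noncomputable def e2 (p : ℕ) : ℕ →₀ ℕ :=
  Finsupp.single 0 (2 * p) + Finsupp.single 1 (p + 2) + Finsupp.single 2 2

/-- multidegree of `h_{12} h_{21} b_{20} b_{10}^2` (degree `8`) -/
noncomputable def e8 (p : ℕ) : ℕ →₀ ℕ :=
  Finsupp.single 0 (3 * p) + Finsupp.single 1 (p + 1) + Finsupp.single 2 2

/-- the weight `3 p² + 4 p` -/
def D (p : ℕ) : ℕ := 3 * p ^ 2 + 4 * p

theorem wtE_e3 (p : ℕ) : wtE p (e3 p) = D p := by
  rw [e3, map_add, wtE_single, wtE_single, D]
  ring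

theorem wtE_e2 (p : ℕ) : wtE p (e2 p) = D p := by
  rw [e2, map_add, map_add, wtE_single, wtE_single, wtE_single, D]
  ring

theorem wtE_e8 (p : ℕ) : wtE p (e8 p) = D p := by
  rw [e8, map_add, map_add, wtE_single, wtE_single, wtE_single, D]
  ring

/-- The level `3 e_0 + e_1 + e_2 + ...`. -/
noncomputable def W : (ℕ →₀ ℕ) →+ ℕ := Finsupp.weight fun k => if k = 0 then 3 else 1

theorem W_single (k a : ℕ) : W (Finsupp.single k a) = a * if k = 0 then 3 else 1 := by
  rw [W, Finsupp.weight_single, smul_eq_mul]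

theorem isLevel_W {p : ℕ} (hp : 4 ≤ p) : IsLevel p W :=
  isLevel_weight fun k => by
    rw [if_neg (Nat.succ_ne_zero k)]
    split_ifs <;> omega

theorem W_e3 (p : ℕ) : W (e3 p) = 12 * p + 1 := by
  rw [e3, map_add, W_single, W_single, if_pos rfl, if_neg (by norm_num)]
  ring

theorem W_e2 (p : ℕ) : W (e2 p) = 7 * p + 4 := by
  rw [e2, map_add, map_add, W_single, W_single, W_single, if_pos rfl, if_neg (by norm_num),
    if_neg (by norm_num)]
  ring

theorem W_e8 (p : ℕ) : W (e8 p) = 10 * p + 3 := by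
  rw [e8, map_add, map_add, W_single, W_single, W_single, if_pos rfl, if_neg (by norm_num),
    if_neg (by norm_num)]
  ring

/-- The inputs of the assembly of F4. -/
structure Data (p : ℕ) [Fact p.Prime] : Type where
  /-- the cochain with leading part `A3` at `e3` and coboundary `ξ` with leading part `R` at `e8` -/
  X : UC p 7
  /-- the coboundary of `X` -/
  ξ : UC p 8
  /-- the leading part of `X` -/
  A3 : UC p 7
  /-- the leading part of `ξ` -/
  R : UC p 8
  X_wt : Sup (fun e => wtE p e = D p) X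
  X_lev : Sup (fun e => W e ≤ W (e3 p)) X
  X_lead : InJ (comp (e3 p) X - A3)
  X_d : Ch.d 7 (phi p 7 X) = phi p 8 ξ
  ξ_lev : Sup (fun e => W e ≤ W (e8 p)) ξ
  ξ_lead : InJ (comp (e8 p) ξ - R)
  /-- a cochain whose coboundary has leading part `A2` at `e2` -/
  Y : UC p 6
  /-- the coboundary of `Y` -/
  ζ : UC p 7
  /-- the leading part of `ζ` -/
  A2 : UC p 7
  ζ_wt : Sup (fun e => wtE p e = D p) ζ
  ζ_lev : Sup (fun e => W e ≤ W (e2 p)) ζ
  Y_d : Ch.d 6 (phi p 6 Y) = phi p 7 ζ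
  ζ_lead : InJ (comp (e2 p) ζ - A2)
  /-- `R` is not a coboundary -/
  hR : ∀ (c : ZMod p) (f : UC p 7), MH (e8 p) f → InJ (c • R - UC.d 7 f) → c = 0
  /-- the class of `A3` spans the cohomology at `e3` -/
  hA3 : ∀ z : UC p 7, MH (e3 p) z → InJ (UC.d 7 z) →
    ∃ (c : ZMod p) (y : UC p 6), MH (e3 p) y ∧ InJ (z - c • A3 - UC.d 6 y)
  /-- the class of `A2` spans the cohomology at `e2` -/
  hA2 : ∀ z : UC p 7, MH (e2 p) z → InJ (UC.d 7 z) →
    ∃ (c : ZMod p) (y : UC p 6), MH (e2 p) y ∧ InJ (z - c • A2 - UC.d 6 y)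
  /-- all other multidegrees -/
  hV : ∀ e, wtE p e = D p → e ≠ e3 p → e ≠ e2 p → VanA p 7 e

variable {p : ℕ} [Fact p.Prime]

/-- a multiple of an element with small exponents -/
theorem inJ_smul {s : ℕ} {z : UC p s} (h : InJ z) (c : ZMod p) : InJ (c • z) :=
  fun m hm => h m (support_smul hm)

theorem phi_smul' {s : ℕ} (c : ZMod p) (z : UC p s) : phi p s (c • z) = c • phi p s z := by
  obtain ⟨n, rfl⟩ := ZMod.natCast_zmod_surjective c
  rw [Nat.cast_smul_eq_nsmul, Nat.cast_smul_eq_nsmul, map_nsmul]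

theorem dch_smul {s : ℕ} (c : ZMod p) (z : Ch p s) : Ch.d s (c • z) = c • Ch.d s z := by
  obtain ⟨n, rfl⟩ := ZMod.natCast_zmod_surjective c
  rw [Nat.cast_smul_eq_nsmul, Nat.cast_smul_eq_nsmul, map_nsmul]

/-- **F4**. -/
theorem van (hp : 11 ≤ p) (I : Data p) : Ch.Van p 7 (3 * p ^ 2 + 4 * p) := by
  have hW : IsLevel p W := isLevel_W (by omega)
  have h3 := W_e3 p
  have h2 := W_e2 p
  have h8 := W_e8 p
  intro x hx hdx
  -- (1) strip down to the level of `e3`
  obtain ⟨y0, -, z0, hz0, hz0', hx0⟩ := strip_cocycle hW (D := D p) (n := 12 * p + 2)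
    (fun e he hle => I.hV e he (by rintro rfl; omega) (by rintro rfl; omega)) hx hdx
  have hdz0 : Ch.d 7 (phi p 7 z0) = 0 := by
    rw [hx0, map_add, Ch.d_d, zero_add] at hdx
    exact hdx
  -- (2) the component at `e3`
  have hc0 : InJ (UC.d 7 (comp (e3 p) z0)) := by
    refine inJ_d_comp hW (n := 12 * p + 1) (w := 0) (by rw [hdz0, map_zero])
      (hz0'.mono fun e he => by omega) Sup.zero h3
  obtain ⟨c, y1, hy1, hcy⟩ := I.hA3 _ (comp_MH _ _) hc0
  -- `z1 = z0 - c X`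
  have hz1wt : Sup (fun e => wtE p e = D p) (z0 - c • I.X) := hz0.sub (I.X_wt.smul c)
  have hz1lev : Sup (fun e => W e ≤ 12 * p + 1) (z0 - c • I.X) :=
    (hz0'.mono fun e he => by omega).sub ((I.X_lev.mono fun e he => by omega).smul c)
  have hdz1 : Ch.d 7 (phi p 7 (z0 - c • I.X)) = phi p 8 (-(c • I.ξ)) := by
    rw [map_sub, map_sub, hdz0, phi_smul', dch_smul, I.X_d, map_neg, phi_smul', zero_sub]
  have hξlev : Sup (fun e => W e ≤ 10 * p + 3) (-(c • I.ξ)) :=
    ((I.ξ_lev.mono fun e he => by omega).smul c).neg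
  obtain ⟨y2, -, -, z2, hz2, hz2', hzz2⟩ := step_gen hW (D := D p) (n := 12 * p + 1)
    (z := z0 - c • I.X) (fun e he hle hcoc => by
      by_cases hne : e = e3 p
      · subst hne
        refine ⟨y1, hy1, ?_⟩
        have h4 := hcy.sub (inJ_smul I.X_lead c)
        rw [map_sub, map_smul]
        rw [smul_sub] at h4
        have h5 : comp (e3 p) z0 - c • comp (e3 p) I.X - UC.d 6 y1 =
            comp (e3 p) z0 - c • I.A3 - UC.d 6 y1 - (c • comp (e3 p) I.X - c • I.A3) := by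
          ring
        rw [h5]
        exact h4
      · exact I.hV e he hne (by rintro rfl; omega) _ (comp_MH e _) hcoc)
    hz1wt hz1lev (w := -(c • I.ξ)) (hξlev.mono fun e he => by omega) hdz1
  -- (3) strip down to the level of `e8`
  have hdz2 : Ch.d 7 (phi p 7 z2) = phi p 8 (-(c • I.ξ)) := by
    rw [hzz2, map_add, Ch.d_d, zero_add] at hdz1
    exact hdz1
  obtain ⟨y3, -, -, z3, hz3, hz3', hzz3⟩ := strip_bdd hW (D := D p) (n := 10 * p + 4)
    (m := 12 * p + 1) (fun e he hle hlt => I.hV e he (by rintro rfl; omega)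
      (by rintro rfl; omega)) hz2 hz2' (w := -(c • I.ξ)) (hξlev.mono fun e he => by omega) hdz2
  have hdz3 : Ch.d 7 (phi p 7 z3) = phi p 8 (-(c • I.ξ)) := by
    rw [hzz3, map_add, Ch.d_d, zero_add] at hdz2
    exact hdz2
  -- `c = 0`
  have hc : c = 0 := by
    have h4 : phi p 8 (UC.d 7 z3) = phi p 8 (-(c • I.ξ)) := by
      rw [phi_d, hdz3]
    have h5 := lead_sub hW (n := 10 * p + 3) h4 ((hz3'.mono fun e he => by omega).d) hξlev h8
    rw [comp_d] at h5
    refine I.hR c (-(comp (e8 p) z3)) (by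
      have := comp_MH (p := p) (e8 p) (-z3)
      rwa [map_neg] at this) ?_
    have h6 := h5.sub (inJ_smul I.ξ_lead c)
    rw [map_neg, map_smul] at h6
    rw [map_neg]
    have h7 : c • I.R - -UC.d 7 (comp (e8 p) z3) =
        (UC.d 7 (comp (e8 p) z3) - -(c • comp (e8 p) I.ξ)) -
          c • (comp (e8 p) I.ξ - I.R) := by
      rw [smul_sub]
      ring
    rw [h7]
    exact h6
  subst hc
  rw [zero_smul, sub_zero] at hzz2
  rw [zero_smul, neg_zero, map_zero] at hdz3
  -- (4) strip down to the level of `e2`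
  obtain ⟨y4, -, -, z4, hz4, hz4', hzz4⟩ := strip_bdd hW (D := D p) (n := 7 * p + 5)
    (m := 10 * p + 4) (fun e he hle hlt => I.hV e he (by rintro rfl; omega)
      (by rintro rfl; omega)) hz3 hz3' (w := 0) Sup.zero (by rw [hdz3, map_zero])
  have hdz4 : Ch.d 7 (phi p 7 z4) = 0 := by
    rw [hzz4, map_add, Ch.d_d, zero_add] at hdz3
    exact hdz3
  -- (5) the component at `e2`
  have hc4 : InJ (UC.d 7 (comp (e2 p) z4)) := by
    refine inJ_d_comp hW (n := 7 * p + 4) (w := 0) (by rw [hdz4, map_zero])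
      (hz4'.mono fun e he => by omega) Sup.zero h2
  obtain ⟨c', y5, hy5, hcy5⟩ := I.hA2 _ (comp_MH _ _) hc4
  have hdz5 : Ch.d 7 (phi p 7 (z4 - c' • I.ζ)) = 0 := by
    rw [map_sub, map_sub, hdz4, phi_smul', dch_smul, ← I.Y_d, Ch.d_d, smul_zero, sub_zero]
  obtain ⟨y6, -, -, z6, hz6, hz6', hzz6⟩ := step_gen hW (D := D p) (n := 7 * p + 4)
    (z := z4 - c' • I.ζ) (fun e he hle hcoc => by
      by_cases hne : e = e2 p
      · subst hne
        refine ⟨y5, hy5, ?_⟩
        have h4 := hcy5.sub (inJ_smul I.ζ_lead c')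
        rw [map_sub, map_smul]
        rw [smul_sub] at h4
        have h5 : comp (e2 p) z4 - c' • comp (e2 p) I.ζ - UC.d 6 y5 =
            comp (e2 p) z4 - c' • I.A2 - UC.d 6 y5 - (c' • comp (e2 p) I.ζ - c' • I.A2) := by
          ring
        rw [h5]
        exact h4
      · exact I.hV e he (by rintro rfl; omega) hne _ (comp_MH e _) hcoc)
    (hz4.sub (I.ζ_wt.smul c'))
    ((hz4'.mono fun e he => by omega).sub ((I.ζ_lev.mono fun e he => by omega).smul c'))
    (w := 0) Sup.zero (by rw [hdz5, map_zero])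
  have hdz6 : Ch.d 7 (phi p 7 z6) = 0 := by
    rw [hzz6, map_add, Ch.d_d, zero_add] at hdz5
    exact hdz5
  -- (6) strip the rest
  obtain ⟨y7, -, -, z7, -, hz7', hzz7⟩ := strip_bdd hW (D := D p) (n := 0)
    (m := 7 * p + 4) (fun e he hle hlt => I.hV e he (by rintro rfl; omega)
      (by rintro rfl; omega)) hz6 hz6' (w := 0) Sup.zero (by rw [hdz6, map_zero])
  rw [eq_zero_of_level hz7', map_zero, add_zero] at hzz7
  refine ⟨y0 + phi p 6 y2 + phi p 6 y3 + phi p 6 y4 + phi p 6 y6 + phi p 6 y7 +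
    c' • phi p 6 I.Y, ?_⟩
  have h9 : phi p 7 z4 = Ch.d 6 (phi p 6 y6) + Ch.d 6 (phi p 6 y7) +
      c' • Ch.d 6 (phi p 6 I.Y) := by
    have : phi p 7 z4 = phi p 7 (z4 - c' • I.ζ) + c' • phi p 7 I.ζ := by
      rw [map_sub, phi_smul', sub_add_cancel]
    rw [this, hzz6, hzz7, I.Y_d]
  rw [hx0, hzz2, hzz3, hzz4, h9, map_add, map_add, map_add, map_add, map_add, map_add, dch_smul]
  ring

end Vale.Agent.P257.V4.A.F4
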