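import Vale.Agent.P257.V4.A.Uniq
import Vale.Agent.P257.V4.A.F4Asm

/-!
# P257, V(4), part A: the only monomial of degree `7` and multidegree `e2`
-/

namespace Vale.Agent.P257.V4.A.F4

open MvPolynomial MG

variable {p : ℕ}

theorem e2_apply (k : ℕ) : e2 p k =
    if k = 0 then 2 * p else if k = 1 then p + 2 else if k = 2 then 2 else 0 := by
  rw [e2, Finsupp.add_apply, Finsupp.add_apply, Finsupp.single_apply, Finsupp.single_apply,
    Finsupp.single_apply]
  split_ifs <;> omega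

/-- the letters inside `{0, 1, 2}` -/
def L012 : Finset (ℕ × ℕ) := {(0, 0), (0, 1), (0, 2), (1, 0), (1, 1), (2, 0)}

theorem mem_L012 {τ : ℕ × ℕ} (h : τ.1 + τ.2 ≤ 2) : τ ∈ L012 := by
  obtain ⟨i, k⟩ := τ
  dsimp only at h
  have h1 : (i = 0 ∧ k = 0) ∨ (i = 0 ∧ k = 1) ∨ (i = 0 ∧ k = 2) ∨ (i = 1 ∧ k = 0) ∨
    (i = 1 ∧ k = 1) ∨ (i = 2 ∧ k = 0) := by omega
  rcases h1 with ⟨rfl, rfl⟩ | ⟨rfl, rfl⟩ | ⟨rfl, rfl⟩ | ⟨rfl, rfl⟩ | ⟨rfl, rfl⟩ | ⟨rfl, rfl⟩ <;>
    decide

theorem sum_L012 {M : Type*} [AddCommMonoid M] (f : ℕ × ℕ → M) :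
    ∑ τ ∈ L012, f τ =
      f (0, 0) + (f (0, 1) + (f (0, 2) + (f (1, 0) + (f (1, 1) + f (2, 0))))) := by
  rw [L012, Finset.sum_insert (by decide), Finset.sum_insert (by decide),
    Finset.sum_insert (by decide), Finset.sum_insert (by decide), Finset.sum_insert (by decide),
    Finset.sum_singleton]

/-- Coordinates of a monomial with letters inside `{0, 1, 2}`. -/
theorem isMo_coord {s : ℕ} {e : ℕ →₀ ℕ} (hp : 0 < p) (he : ∀ k, 3 ≤ k → e k = 0)
    {H : Finset (ℕ × ℕ)} {B : (ℕ × ℕ) →₀ ℕ} (h : IsMo p ∅ s e H B) :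
    H ⊆ L012 ∧ B.support ⊆ L012 ∧
    ∃ h00 h01 h02 h10 h11 h20 : ℕ,
      (h00 = if (0, 0) ∈ H then 1 else 0) ∧ (h01 = if (0, 1) ∈ H then 1 else 0) ∧
      (h02 = if (0, 2) ∈ H then 1 else 0) ∧ (h10 = if (1, 0) ∈ H then 1 else 0) ∧
      (h11 = if (1, 1) ∈ H then 1 else 0) ∧ (h20 = if (2, 0) ∈ H then 1 else 0) ∧
      h00 + h01 + h02 + h10 + h11 + h20 +
        2 * (B (0, 0) + B (0, 1) + B (0, 2) + B (1, 0) + B (1, 1) + B (2, 0)) = s ∧
      h00 + h01 + h02 + p * (B (0, 0) + B (0, 1) + B (0, 2)) = e 0 ∧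
      h01 + h02 + h10 + h11 + p * (B (0, 1) + B (0, 2) + B (1, 0) + B (1, 1)) = e 1 ∧
      h02 + h11 + h20 + p * (B (0, 2) + B (1, 1) + B (2, 0)) = e 2 := by
  classical
  obtain ⟨-, -, h3, h4⟩ := h
  have hj : ∀ j, ∑ τ ∈ H, itv τ.1 τ.2 j + p * ∑ τ ∈ B.support, B τ * itv τ.1 τ.2 j = e j := by
    intro j
    rw [← h4, Finsupp.add_apply, Finsupp.smul_apply, Finsupp.sum, Finsupp.finsetSum_apply,
      Finsupp.finsetSum_apply]
    rfl
  have hit : ∀ τ : ℕ × ℕ, itv τ.1 τ.2 (τ.1 + τ.2) = 1 := fun τ => by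
    rw [itv_apply, if_pos ⟨by omega, le_rfl⟩]
  have h01 : ∀ τ : ℕ × ℕ, e (τ.1 + τ.2) ≠ 0 → τ ∈ L012 := fun τ h => by
    apply mem_L012
    by_contra h'
    exact h (he _ (by omega))
  have hH : H ⊆ L012 := fun τ hτ => h01 τ (by
    have h1 := Finset.single_le_sum (f := fun σ : ℕ × ℕ => itv σ.1 σ.2 (τ.1 + τ.2))
      (fun _ _ => Nat.zero_le _) hτ
    rw [hit] at h1
    have := hj (τ.1 + τ.2)
    omega)
  have hB : B.support ⊆ L012 := fun τ hτ => h01 τ (by
    have h1 := Finset.single_le_sum (f := fun σ : ℕ × ℕ => B σ * itv σ.1 σ.2 (τ.1 + τ.2))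
      (fun _ _ => Nat.zero_le _) hτ
    rw [hit, mul_one] at h1
    have h2 := hj (τ.1 + τ.2)
    have h5 : 0 < B τ := Nat.pos_of_ne_zero (Finsupp.mem_support_iff.1 hτ)
    have h6 : 0 < p * ∑ σ ∈ B.support, B σ * itv σ.1 σ.2 (τ.1 + τ.2) :=
      Nat.mul_pos (by omega) (by omega)
    omega)
  have hsumH : ∀ f : ℕ × ℕ → ℕ, ∑ τ ∈ H, f τ = ∑ τ ∈ L012, if τ ∈ H then f τ else 0 := by
    intro f
    rw [← Finset.sum_filter]
    congr 1
    ext τ
    rw [Finset.mem_filter]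
    exact ⟨fun h => ⟨hH h, h⟩, fun h => h.2⟩
  have hsumB : ∀ f : ℕ × ℕ → ℕ, ∑ τ ∈ B.support, B τ * f τ = ∑ τ ∈ L012, B τ * f τ := by
    intro f
    refine Finset.sum_subset hB fun τ _ hτ => ?_
    rw [Finsupp.notMem_support_iff.1 hτ, zero_mul]
  have hj0 := hj 0
  have hj1 := hj 1
  have hj2 := hj 2
  rw [hsumH, hsumB, sum_L012, sum_L012] at hj0 hj1 hj2
  have hc : H.card + 2 * ∑ τ ∈ B.support, B τ * 1 = s := by
    rw [← h3]
    simp only [mul_one]
    rfl
  rw [Finset.card_eq_sum_ones, hsumH, hsumB, sum_L012, sum_L012] at hc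
  simp only [itv_apply] at hj0 hj1 hj2
  norm_num at hj0 hj1 hj2 hc
  refine ⟨hH, hB, _, _, _, _, _, _, rfl, rfl, rfl, rfl, rfl, rfl, ?_, ?_, ?_, ?_⟩
  · rw [← hc]
    ring
  · rw [← hj0]
    ring
  · rw [← hj1]
    ring
  · rw [← hj2]
    ring

/-- The monomial of degree `7` and multidegree `e2` is `h_{11} h_{12} h_{21} b_{20} b_{10}`. -/
theorem isMo_e2 (hp : 5 ≤ p) {H : Finset (ℕ × ℕ)} {B : (ℕ × ℕ) →₀ ℕ}
    (h : IsMo p ∅ 7 (e2 p) H B) :
    H = {(1, 0), (1, 1), (2, 0)} ∧ B = Finsupp.single (0, 0) 1 + Finsupp.single (0, 1) 1 := by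
  classical
  obtain ⟨hH, hB, h00, h01, h02, h10, h11, h20, e00, e01, e02, e10, e11, e20, hs, h0, h1, h2⟩ :=
    isMo_coord (by omega) (fun k hk => by
      rw [e2_apply, if_neg (by omega), if_neg (by omega), if_neg (by omega)]) h
  rw [e2_apply, if_pos rfl] at h0
  rw [e2_apply, if_neg (by omega), if_pos rfl] at h1
  rw [e2_apply, if_neg (by omega), if_neg (by omega), if_pos rfl] at h2
  have l00 : h00 ≤ 1 := by rw [e00]; split_ifs <;> omega
  have l01 : h01 ≤ 1 := by rw [e01]; split_ifs <;> omega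
  have l02 : h02 ≤ 1 := by rw [e02]; split_ifs <;> omega
  have l10 : h10 ≤ 1 := by rw [e10]; split_ifs <;> omega
  have l11 : h11 ≤ 1 := by rw [e11]; split_ifs <;> omega
  have l20 : h20 ≤ 1 := by rw [e20]; split_ifs <;> omega
  obtain ⟨a, ha⟩ : ∃ a, a = B (0, 0) + B (0, 1) + B (0, 2) := ⟨_, rfl⟩
  obtain ⟨b, hb⟩ : ∃ b, b = B (0, 1) + B (0, 2) + B (1, 0) + B (1, 1) := ⟨_, rfl⟩
  obtain ⟨c, hc⟩ : ∃ c, c = B (0, 2) + B (1, 1) + B (2, 0) := ⟨_, rfl⟩
  rw [← ha] at h0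
  rw [← hb] at h1
  rw [← hc] at h2
  have hc0 : c = 0 := by
    by_contra hne
    have : p * 1 ≤ p * c := Nat.mul_le_mul_left _ (by omega)
    omega
  have ha2 : a = 2 := by
    rcases Nat.lt_trichotomy a 2 with h | h | h
    · have : p * a ≤ p * 1 := Nat.mul_le_mul_left _ (by omega)
      omega
    · exact h
    · have : p * 3 ≤ p * a := Nat.mul_le_mul_left _ (by omega)
      omega
  have hb1 : b = 1 := by
    rcases Nat.lt_trichotomy b 1 with h | h | h
    · have : b = 0 := by omega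
      subst this
      omega
    · exact h
    · have : p * 2 ≤ p * b := Nat.mul_le_mul_left _ (by omega)
      omega
  subst hc0 ha2 hb1
  have f00 : h00 = 0 := by omega
  have f01 : h01 = 0 := by omega
  have f02 : h02 = 0 := by omega
  have f10 : h10 = 1 := by omega
  have f11 : h11 = 1 := by omega
  have f20 : h20 = 1 := by omega
  have m00 : (0, 0) ∉ H := fun h => by rw [if_pos h] at e00; omega
  have m01 : (0, 1) ∉ H := fun h => by rw [if_pos h] at e01; omega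
  have m02 : (0, 2) ∉ H := fun h => by rw [if_pos h] at e02; omega
  have m10 : (1, 0) ∈ H := by by_contra h; rw [if_neg h] at e10; omega
  have m11 : (1, 1) ∈ H := by by_contra h; rw [if_neg h] at e11; omega
  have m20 : (2, 0) ∈ H := by by_contra h; rw [if_neg h] at e20; omega
  constructor
  · ext τ
    simp only [Finset.mem_insert, Finset.mem_singleton]
    constructor
    · intro h
      have h1 := hH h
      simp only [L012, Finset.mem_insert, Finset.mem_singleton] at h1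
      rcases h1 with rfl | rfl | rfl | rfl | rfl | rfl
      · exact absurd h m00
      · exact absurd h m01
      · exact absurd h m02
      · exact Or.inl rfl
      · exact Or.inr (Or.inl rfl)
      · exact Or.inr (Or.inr rfl)
    · rintro (rfl | rfl | rfl)
      exacts [m10, m11, m20]
  · ext τ
    rw [Finsupp.add_apply, Finsupp.single_apply, Finsupp.single_apply]
    by_cases h : τ ∈ L012
    · simp only [L012, Finset.mem_insert, Finset.mem_singleton] at h
      rcases h with rfl | rfl | rfl | rfl | rfl | rfl <;> norm_num <;> omega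
    · have h1 : B τ = 0 := by
        by_contra hne
        exact h (hB (Finsupp.mem_support_iff.2 hne))
      have n1 : (0, 0) ≠ τ := by
        rintro rfl
        exact h (by decide)
      have n2 : (0, 1) ≠ τ := by
        rintro rfl
        exact h (by decide)
      rw [h1, if_neg n1, if_neg n2, add_zero]

theorem mo1_e2 (hp : 5 ≤ p) : Mo1 p ∅ 7 (e2 p) := by
  intro H B H' B' h h'
  obtain ⟨h1, h2⟩ := isMo_e2 hp h
  obtain ⟨h3, h4⟩ := isMo_e2 hp h'
  exact ⟨h1.trans h3.symm, h2.trans h4.symm⟩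

end Vale.Agent.P257.V4.A.F4
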