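import Vale.Agent.P257.V4.A.F4X

/-!
# P257, part A, block F4: the statements on `X3`, `xi`, `Y`, `zeta`

Weights, levels and leading parts.
-/

namespace Vale.Agent.P257.V4.A.F4C

open MvPolynomial Finset _root_.Vale.Agent.P257.V4.A.UV

variable {p : ℕ} {s a b n : ℕ}

/-- the level function: `3` at `0`, `1` elsewhere -/
noncomputable def Wl : (ℕ →₀ ℕ) →+ ℕ := Finsupp.weight fun k => if k = 0 then 3 else 1

theorem Wl_single (k x : ℕ) : Wl (Finsupp.single k x) = x * (if k = 0 then 3 else 1) := by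
  rw [Wl, Finsupp.weight_single, smul_eq_mul]

theorem isLevel_Wl (hp : 2 ≤ p) : IsLevel p Wl :=
  isLevel_of_antitone hp
    (fun k => by rcases k with _ | k <;> simp) fun k => by rcases k with _ | k <;> simp

/-- all monomials have weight `D` and level at most `w` -/
def Bd (p D w : ℕ) {s : ℕ} (x : UC p s) : Prop := Sup (fun e => wtE p e = D ∧ Wl e ≤ w) x

namespace Bd

variable {D w D' w' : ℕ} {x y : UC p s}

theorem of_MH {e : ℕ →₀ ℕ} (hx : MH e x) (h : wtE p e = D) (h' : Wl e ≤ w) : Bd p D w x :=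
  sup_of_MH hx ⟨h, h'⟩

theorem mono (hx : Bd p D w x) (h : w ≤ w') : Bd p D w' x :=
  Sup.mono hx fun _ he => ⟨he.1, he.2.trans h⟩

theorem cast (hx : Bd p D w x) (h : w ≤ w') (hD : D = D') : Bd p D' w' x :=
  Sup.mono hx fun _ he => ⟨he.1.trans hD, he.2.trans h⟩

theorem add (hx : Bd p D w x) (hy : Bd p D w y) : Bd p D w (x + y) := Sup.add hx hy
theorem sub (hx : Bd p D w x) (hy : Bd p D w y) : Bd p D w (x - y) := Sup.sub hx hy
theorem neg (hx : Bd p D w x) : Bd p D w (-x) := Sup.neg hx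

theorem cup {x : UC p a} {y : UC p b} (h : a + b = n) (hx : Bd p D w x) (hy : Bd p D' w' y) :
    Bd p (D + D') (w + w') (UC.cup h x y) :=
  Sup.cup (fun e e' he he' => ⟨by rw [map_add, he.1, he'.1], by
    rw [map_add]
    exact add_le_add he.2 he'.2⟩) h hx hy

theorem dot (hx : Bd p D w x) : Bd p (p ^ 2 + D) (1 + w) (dot x) := by
  refine Sup.mul (P := fun e => wtE p e = p ^ 2 ∧ Wl e ≤ 1) (fun e e' he he' => ⟨by
    rw [map_add, he.1, he'.1], by
    rw [map_add]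
    exact add_le_add he.2 he'.2⟩) (sup_of_MH (UC.map_MH _ MH_tt) ⟨?_, ?_⟩) hx
  · rw [wtE_single, one_mul]
  · rw [Wl_single, if_neg (by decide)]

end Bd

theorem Bd_ta : Bd p p 1 (ta p) :=
  Bd.of_MH MH_ta (by rw [wtE_single]; ring) (by rw [Wl_single]; simp)

theorem Bd_tt : Bd p (p ^ 2) 1 (tt p) :=
  Bd.of_MH MH_tt (by rw [wtE_single]; ring) (by rw [Wl_single]; simp)

theorem Bd_ka : Bd p (p + p ^ 2) 2 (ka p) :=
  Bd.of_MH MH_ka (by rw [map_add, wtE_single, wtE_single]; ring)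
    (by rw [map_add, Wl_single, Wl_single]; simp)

theorem Bd_hp : Bd p (p + p ^ 2) 2 (hp p) :=
  Bd.of_MH MH_hp (by rw [map_add, wtE_single, wtE_single]; ring)
    (by rw [map_add, Wl_single, Wl_single]; simp)

theorem Bd_uu : Bd p p (3 * p) (uu p) :=
  Bd.of_MH MH_uu (by rw [wtE_single]; ring) (by rw [Wl_single, if_pos rfl, mul_comm])

theorem Bd_u1 : Bd p (p ^ 2) p (u1 p) :=
  Bd.of_MH MH_u1 (by rw [wtE_single]; ring) (by rw [Wl_single, if_neg (by decide), mul_one])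

theorem Bd_BB : Bd p (p + p ^ 2) (4 * p) (BB p) :=
  Bd.of_MH MH_BB (by rw [map_add, wtE_single, wtE_single]; ring)
    (by
      rw [map_add, Wl_single, Wl_single, if_pos rfl, if_neg (by decide)]
      omega)

theorem MH_GG : MH (Finsupp.single 1 1 + Finsupp.single 2 2) (GG p) := by
  have h : Finsupp.single 1 1 + Finsupp.single 2 2 =
      Finsupp.single 1 1 + Finsupp.single 2 1 + Finsupp.single (2 : ℕ) (1 : ℕ) := by
    rw [add_assoc, ← Finsupp.single_add]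
  have h' : Finsupp.single 1 1 + Finsupp.single 2 2 =
      Finsupp.single (2 : ℕ) (1 : ℕ) + (Finsupp.single 1 1 + Finsupp.single 2 1) := by
    rw [h, add_comm]
  refine MH.add ?_ ?_
  · rw [h]
    exact UC.cup_MH _ MH_ka MH_tt
  · rw [h']
    exact UC.cup_MH _ MH_tt MH_hp

theorem MH_gg : MH (Finsupp.single 1 2 + Finsupp.single 2 1) (gg p) := by
  have h : Finsupp.single 1 2 + Finsupp.single 2 1 =
      Finsupp.single 1 1 + Finsupp.single 2 1 + Finsupp.single (1 : ℕ) (1 : ℕ) := by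
    rw [add_right_comm, ← Finsupp.single_add]
  have h' : Finsupp.single 1 2 + Finsupp.single 2 1 =
      Finsupp.single (2 : ℕ) (1 : ℕ) + 2 • (Finsupp.single 1 1) := by
    rw [Finsupp.smul_single, smul_eq_mul, mul_one, add_comm]
  refine MH.add ?_ ?_
  · rw [h]
    exact UC.cup_MH _ MH_ka MH_ta
  · rw [h']
    exact UC.cup_MH _ MH_tt ((MH_ta.pow 2).smul _)

theorem Bd_GG : Bd p (p + 2 * p ^ 2) 3 (GG p) :=
  Bd.of_MH MH_GG (by rw [map_add, wtE_single, wtE_single]; ring)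
    (by rw [map_add, Wl_single, Wl_single]; simp)

theorem Bd_gg : Bd p (2 * p + p ^ 2) 3 (gg p) :=
  Bd.of_MH MH_gg (by rw [map_add, wtE_single, wtE_single]; ring)
    (by rw [map_add, Wl_single, Wl_single]; simp)

/-! ### `X3` and `xi` -/

section

variable (hp : 2 ≤ p)

include hp

theorem Bd_X1 : Bd p (2 * p + p ^ 2) (4 * p + 1) (X1 p) :=
  ((Bd_ta.cup rfl Bd_BB).cast (by omega) (by ring)).add
    ((Bd_hp.cup rfl Bd_uu).cast (by omega) (by ring))

theorem Bd_X2 : Bd p (3 * p + 2 * p ^ 2) (8 * p + 1) (X2 p) :=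
  ((((Bd_X1 hp).cup rfl Bd_BB).cast (by omega) (by ring)).add
    (((Bd_X1 hp).dot.cup rfl Bd_uu).cast (by omega) (by ring))).sub
    (((Bd_ka.cup rfl Bd_BB).cup rfl Bd_uu).cast (by omega) (by ring))

theorem Bd_X3 : Bd p (3 * p ^ 2 + 4 * p) (12 * p + 1) (X3 p) :=
  (((((Bd_X2 hp).cup rfl Bd_BB).cast (by omega) (by ring)).add
    (((Bd_X2 hp).dot.cup rfl Bd_uu).cast (by omega) (by ring))).sub
    ((((Bd_ka.cup rfl Bd_BB).cup rfl Bd_BB).cup rfl Bd_uu).cast (by omega) (by ring))).sub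
    ((((Bd_ka.cup rfl Bd_BB.dot).cup rfl Bd_uu).cup rfl Bd_uu).cast (by omega) (by ring))

omit hp in
theorem X2_sub [Fact p.Prime] : X2 p - UC.cup rfl (UC.cup (n := 3) rfl (ta p) (BB p)) (BB p) =
    UC.cup rfl (UC.cup (n := 3) rfl (F4C.hp p) (uu p)) (BB p) + UC.cup rfl (dot (X1 p)) (uu p) -
      UC.cup rfl (UC.cup (n := 3) rfl (ka p) (BB p)) (uu p) := by
  have h : UC.cup (n := 5) rfl (X1 p) (BB p) =
      UC.cup rfl (UC.cup (n := 3) rfl (ta p) (BB p)) (BB p) +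
        UC.cup rfl (UC.cup (n := 3) rfl (F4C.hp p) (uu p)) (BB p) := by
    rw [X1, UC.cup_add_left]
  rw [X2, h]
  ring

theorem Bd_X2_sub [Fact p.Prime] : Bd p (3 * p + 2 * p ^ 2) (7 * p + 2)
    (X2 p - UC.cup rfl (UC.cup (n := 3) rfl (ta p) (BB p)) (BB p)) := by
  rw [X2_sub]
  exact ((((Bd_hp.cup rfl Bd_uu).cup rfl Bd_BB).cast (by omega) (by ring)).add
    (((Bd_X1 hp).dot.cup rfl Bd_uu).cast (by omega) (by ring))).sub
    (((Bd_ka.cup rfl Bd_BB).cup rfl Bd_uu).cast (by omega) (by ring))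

theorem Bd_X3_sub_A3 [Fact p.Prime] : Bd p (3 * p ^ 2 + 4 * p) (11 * p + 2) (X3 p - A3 p) := by
  have h : X3 p - A3 p =
      UC.cup rfl (X2 p - UC.cup rfl (UC.cup (n := 3) rfl (ta p) (BB p)) (BB p)) (BB p) +
      UC.cup rfl (dot (X2 p)) (uu p) -
      UC.cup rfl (UC.cup (n := 5) rfl (UC.cup (n := 3) rfl (ka p) (BB p)) (BB p)) (uu p) -
      UC.cup rfl (UC.cup (n := 5) rfl (UC.cup (n := 3) rfl (ka p) (dot (BB p))) (uu p))
        (uu p) := by
    rw [X3, A3, UC.cup_sub_left]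
    ring
  rw [h]
  exact (((((Bd_X2_sub hp).cup rfl Bd_BB).cast (by omega) (by ring)).add
    (((Bd_X2 hp).dot.cup rfl Bd_uu).cast (by omega) (by ring))).sub
    ((((Bd_ka.cup rfl Bd_BB).cup rfl Bd_BB).cup rfl Bd_uu).cast (by omega) (by ring))).sub
    ((((Bd_ka.cup rfl Bd_BB.dot).cup rfl Bd_uu).cup rfl Bd_uu).cast (by omega) (by ring))

omit hp in
theorem Bd_L1 : Bd p (2 * p + p ^ 2) (p + 2) (L1 p) :=
  (((Bd_ta.cup rfl Bd_u1).cup rfl Bd_ta).cast (by omega) (by ring)).neg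

theorem Bd_low2 : Bd p (3 * p + 2 * p ^ 2) (5 * p + 2) (low2 p) :=
  ((((Bd_L1.cup rfl Bd_BB).cast (by omega) (by ring)).sub
    ((((Bd_X1 hp).cup rfl Bd_u1).cup rfl Bd_ta).cast (by omega) (by ring))).add
    ((Bd_L1.dot.cup rfl Bd_uu).cast (by omega) (by ring))).add
    ((((Bd_ka.cup rfl Bd_u1).cup rfl Bd_ta).cup rfl Bd_uu).cast (by omega) (by ring))

theorem Bd_low3 : Bd p (3 * p ^ 2 + 4 * p) (9 * p + 4) (low3 p) := by
  unfold low3
  refine ((((((((Bd.sub (Bd.sub (Bd.sub (Bd.neg ?_) ?_) ?_) ?_).add ?_).add ?_).sub ?_).add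
    ?_).add ?_).add ?_))
  · exact ((((Bd_tt.cup rfl Bd_hp.dot).cup rfl Bd_uu).cup rfl Bd_uu).cup rfl Bd_uu).cast
      (by omega) (by ring)
  · exact ((((Bd_tt.cup rfl Bd_hp).cup rfl Bd_uu.dot).cup rfl Bd_uu).cup rfl Bd_uu).cast
      (by omega) (by ring)
  · exact (((Bd_ka.cup rfl (Bd_tt.cup rfl Bd_uu).dot).cup rfl Bd_uu).cup rfl Bd_uu).cast
      (by omega) (by ring)
  · exact ((((Bd_GG.cup rfl Bd_uu).cup rfl Bd_uu).dot).cup rfl Bd_uu).cast
      (by omega) (by ring)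
  · exact ((Bd_low2 hp).cup rfl Bd_BB).cast (by omega) (by ring)
  · exact ((Bd_low2 hp).dot.cup rfl Bd_uu).cast (by omega) (by ring)
  · exact (((Bd_X2 hp).cup rfl Bd_u1).cup rfl Bd_ta).cast (by omega) (by ring)
  · exact ((((Bd_ka.cup rfl Bd_u1).cup rfl Bd_ta).cup rfl Bd_BB).cup rfl Bd_uu).cast
      (by omega) (by ring)
  · exact ((((Bd_ka.cup rfl Bd_BB).cup rfl Bd_u1).cup rfl Bd_ta).cup rfl Bd_uu).cast
      (by omega) (by ring)
  · exact (((Bd_ka.cup rfl (Bd_u1.cup rfl Bd_ta).dot).cup rfl Bd_uu).cup rfl Bd_uu).cast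
      (by omega) (by ring)

end

/-! ### the special multidegrees -/

theorem MH_A3 : MH (Finsupp.single 0 (3 * p) + Finsupp.single 1 (3 * p + 1)) (A3 p) := by
  have := UC.cup_MH (n := 7) rfl (UC.cup_MH (n := 5) rfl (UC.cup_MH (n := 3) rfl
    (MH_ta (p := p)) MH_BB) MH_BB) MH_BB
  have e : Finsupp.single 0 (3 * p) + Finsupp.single 1 (3 * p + 1) =
      Finsupp.single 1 1 + (Finsupp.single 0 p + Finsupp.single 1 p) +
      (Finsupp.single 0 p + Finsupp.single 1 p) + (Finsupp.single 0 p + Finsupp.single 1 p) := by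
    ext k
    simp only [Finsupp.add_apply, Finsupp.single_apply]
    split_ifs <;> omega
  rw [e]
  exact this

theorem MH_RR : MH (Finsupp.single 0 (3 * p) + Finsupp.single 1 (p + 1) + Finsupp.single 2 2)
    (RR p) := by
  have h1 := UC.cup_MH (n := 8) rfl (UC.cup_MH (n := 6) rfl (UC.cup_MH (n := 4) rfl
    (MH_GG (p := p)) MH_uu) MH_uu) MH_BB
  have h2 := UC.cup_MH (n := 8) rfl (UC.cup_MH (n := 6) rfl (UC.cup_MH (n := 4) rfl
    (MH_GG (p := p)) MH_uu) MH_BB) MH_uu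
  have h3 := UC.cup_MH (n := 8) rfl (UC.cup_MH (n := 6) rfl (UC.cup_MH (n := 4) rfl
    (MH_GG (p := p)) MH_BB) MH_uu) MH_uu
  have e1 : Finsupp.single 0 (3 * p) + Finsupp.single 1 (p + 1) + Finsupp.single 2 2 =
      Finsupp.single 1 1 + Finsupp.single 2 2 + Finsupp.single 0 p + Finsupp.single 0 p +
      (Finsupp.single 0 p + Finsupp.single 1 p) := by
    ext k
    simp only [Finsupp.add_apply, Finsupp.single_apply]
    split_ifs <;> omega
  have e2 : Finsupp.single 0 (3 * p) + Finsupp.single 1 (p + 1) + Finsupp.single 2 2 =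
      Finsupp.single 1 1 + Finsupp.single 2 2 + Finsupp.single 0 p +
      (Finsupp.single 0 p + Finsupp.single 1 p) + Finsupp.single 0 p := by
    rw [e1]
    ac_rfl
  have e3 : Finsupp.single 0 (3 * p) + Finsupp.single 1 (p + 1) + Finsupp.single 2 2 =
      Finsupp.single 1 1 + Finsupp.single 2 2 + (Finsupp.single 0 p + Finsupp.single 1 p) +
      Finsupp.single 0 p + Finsupp.single 0 p := by
    rw [e1]
    ac_rfl
  rw [← e1] at h1
  rw [← e2] at h2
  rw [← e3] at h3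
  exact ((h1.add h2).add h3).neg

/-- multidegree of `h_{11} b_{20}^3` -/
noncomputable def m3 (p : ℕ) : ℕ →₀ ℕ :=
  Finsupp.single 0 (3 * p) + Finsupp.single 1 (3 * p + 1)

/-- multidegree of `h_{11} h_{12} h_{21} b_{20} b_{10}` -/
noncomputable def m2 (p : ℕ) : ℕ →₀ ℕ :=
  Finsupp.single 0 (2 * p) + Finsupp.single 1 (p + 2) + Finsupp.single 2 2

/-- multidegree of `h_{12} h_{21} b_{20} b_{10}^2` (degree `8`) -/
noncomputable def m8 (p : ℕ) : ℕ →₀ ℕ :=
  Finsupp.single 0 (3 * p) + Finsupp.single 1 (p + 1) + Finsupp.single 2 2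

theorem Wl_m3 : Wl (m3 p) = 12 * p + 1 := by
  rw [m3, map_add, Wl_single, Wl_single, if_pos rfl, if_neg (by decide)]
  ring

theorem Wl_m2 : Wl (m2 p) = 7 * p + 4 := by
  rw [m2, map_add, map_add, Wl_single, Wl_single, Wl_single, if_pos rfl, if_neg (by decide),
    if_neg (by decide)]
  ring

theorem Wl_m8 : Wl (m8 p) = 10 * p + 3 := by
  rw [m8, map_add, map_add, Wl_single, Wl_single, Wl_single, if_pos rfl, if_neg (by decide),
    if_neg (by decide)]
  ring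

theorem wtE_m3 : wtE p (m3 p) = 3 * p ^ 2 + 4 * p := by
  rw [m3, map_add, wtE_single, wtE_single]
  ring

theorem wtE_m2 : wtE p (m2 p) = 3 * p ^ 2 + 4 * p := by
  rw [m2, map_add, map_add, wtE_single, wtE_single, wtE_single]
  ring

theorem wtE_m8 : wtE p (m8 p) = 3 * p ^ 2 + 4 * p := by
  rw [m8, map_add, map_add, wtE_single, wtE_single, wtE_single]
  ring

/-- component of a perturbation -/
theorem comp_of_Bd {e : ℕ →₀ ℕ} {x y : UC p s} {D w : ℕ} (hx : MH e x) (hy : Bd p D w y)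
    (h : w < Wl e) : comp e (x + y) = x := by
  rw [map_add, comp_of_MH hx, comp_eq_zero_of_sup hy fun h' => by omega, add_zero]

section

variable [Fact p.Prime]

/-! ### (A) -/

theorem comp_X3 : comp (m3 p) (X3 p) = A3 p := by
  have hp := (Fact.out : p.Prime).two_le
  have h := comp_of_Bd (e := m3 p) MH_A3 (Bd_X3_sub_A3 hp) (by rw [Wl_m3]; omega)
  rwa [add_sub_cancel] at h

theorem sup_X3 : Sup (fun e => wtE p e = 3 * p ^ 2 + 4 * p) (X3 p) :=
  Sup.mono (Bd_X3 (Fact.out : p.Prime).two_le) fun _ h => h.1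

theorem lev_X3 : Sup (fun e => Wl e ≤ Wl (m3 p)) (X3 p) :=
  Sup.mono (Bd_X3 (Fact.out : p.Prime).two_le) fun _ h => by
    rw [Wl_m3]
    exact h.2

theorem lead_X3 : InJ (comp (m3 p) (X3 p) - A3 p) := by
  rw [comp_X3, sub_self]
  exact InJ.zero

theorem dphi_X3 : Ch.d 7 (phi p 7 (X3 p)) = phi p 8 (xi p) := by
  rw [← phi_d]
  exact phi_ext fun B _ _ u hu => vl_dX3 hu

theorem Bd_xi : Bd p (3 * p ^ 2 + 4 * p) (10 * p + 3) (xi p) := by
  have hp := (Fact.out : p.Prime).two_le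
  exact (Bd.of_MH (MH_RR (p := p)) wtE_m8 (by rw [← Wl_m8]; rfl)).add
    ((Bd_low3 hp).mono (by omega))

theorem comp_xi : comp (m8 p) (xi p) = RR p := by
  have hp := (Fact.out : p.Prime).two_le
  exact comp_of_Bd (e := m8 p) MH_RR (Bd_low3 hp) (by rw [Wl_m8]; omega)

theorem sup_xi : Sup (fun e => wtE p e = 3 * p ^ 2 + 4 * p) (xi p) :=
  Sup.mono Bd_xi fun _ h => h.1

theorem lev_xi : Sup (fun e => Wl e ≤ Wl (m8 p)) (xi p) :=
  Sup.mono Bd_xi fun _ h => by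
    rw [Wl_m8]
    exact h.2

theorem lead_xi : InJ (comp (m8 p) (xi p) - RR p) := by
  rw [comp_xi, sub_self]
  exact InJ.zero

/-! ### the cocycles `G`, `g` -/

omit [Fact p.Prime] in
theorem d_GG : UC.d 2 (GG p) = 0 := by
  rw [GG, map_add, d_cup_odd (by decide), d_cup_odd (by decide), d_ka, d_tt, d_hp]
  apply ext_vl
  intro B _ _ u
  simp only [vl_add, vl_sub, vl_neg, vl_cup, vl_zero, ← add_assoc, Nat.reduceAdd]
  ring

theorem d_ta2 : UC.d 1 (ta p ^ 2) = - (2 : ZMod p) • UC.cup rfl (ta p) (ta p) := by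
  apply ext_vl
  intro B _ _ u
  rw [vl_d1, vl_smul, vl_pow, vl_pow, vl_pow, vl_cup]
  simp only [vl_ta]
  change en 1 1 (u 1) (u 2) ^ 2 - en 1 1 (u 0) (u 2) ^ 2 + en 1 1 (u 0) (u 1) ^ 2 =
    -(2 : ZMod p) • (en 1 1 (u 0) (u 1) * en 1 1 (u 1) (u 2))
  rw [en_one 1 (u 0) (u 1) (u 2), neg_smul, ofNat_smul_eq_nsmul (R := ZMod p), nsmul_eq_mul]
  push_cast
  ring

theorem d_gg (h2 : p ≠ 2) : UC.d 2 (gg p) = 0 := by
  have h2' : (2 : ZMod p) ≠ 0 := by
    have h3 : ((2 : ℕ) : ZMod p) ≠ 0 := by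
      rw [Ne, ZMod.natCast_eq_zero_iff]
      intro h
      exact h2 ((Nat.prime_dvd_prime_iff_eq Fact.out Nat.prime_two).1 h)
    exact_mod_cast h3
  have hd : UC.d 1 ((2⁻¹ : ZMod p) • ta p ^ 2) = - UC.cup rfl (ta p) (ta p) := by
    rw [map_smul, d_ta2, smul_smul, mul_neg, inv_mul_cancel₀ h2', neg_smul, one_smul]
  rw [gg, map_add, d_cup_odd (by decide), d_cup_odd (by decide), d_ka, d_tt, d_ta, hd]
  apply ext_vl
  intro B _ _ u
  simp only [vl_add, vl_sub, vl_neg, vl_cup, vl_zero, ← add_assoc, Nat.reduceAdd]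
  ring

/-! ### (B) -/

/-- the cochain `g b_{20}^2` -/
noncomputable def YY (p : ℕ) : UC p 6 := UC.cup rfl (UC.cup (n := 4) rfl (gg p) (BB p)) (BB p)

/-- the leading part of its coboundary -/
noncomputable def A2 (p : ℕ) : UC p 7 :=
  - (UC.cup rfl (UC.cup (n := 5) rfl (UC.cup (n := 3) rfl (gg p) (tt p)) (uu p)) (BB p) +
    UC.cup rfl (UC.cup (n := 5) rfl (UC.cup (n := 4) rfl (gg p) (BB p)) (tt p)) (uu p))

/-- the lower part of its coboundary -/
noncomputable def lowY (p : ℕ) : UC p 7 :=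
  UC.cup rfl (UC.cup (n := 5) rfl (UC.cup (n := 4) rfl (gg p) (u1 p)) (ta p)) (BB p) +
    UC.cup rfl (UC.cup (n := 6) rfl (UC.cup (n := 4) rfl (gg p) (BB p)) (u1 p)) (ta p)

/-- the coboundary of `YY` (after `phi`) -/
noncomputable def zeta (p : ℕ) : UC p 7 := A2 p + lowY p

theorem vl_dYY (h2 : p ≠ 2) {B : Type} [CommRing B] [Algebra (ZMod p) B] {u : ℕ → Un B}
    (hu : Adm p u) : vl (UC.d 6 (YY p)) u = vl (zeta p) u := by
  have h : UC.d 6 (YY p) = UC.cup rfl (UC.cup (n := 5) rfl (gg p) (UC.d 2 (BB p))) (BB p) +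
      UC.cup rfl (UC.cup (n := 4) rfl (gg p) (BB p)) (UC.d 2 (BB p)) := by
    rw [YY, d_cup_even (by decide), d_cup_even (by decide), d_gg h2]
    apply ext_vl
    intro B _ _ u
    simp only [vl_add, vl_cup, vl_zero]
    ring
  rw [h, zeta, A2, lowY]
  simp only [vl_add, vl_neg, vl_cup, vl_dBB hu, ← add_assoc, Nat.reduceAdd]
  ring

theorem dphi_YY (h2 : p ≠ 2) : Ch.d 6 (phi p 6 (YY p)) = phi p 7 (zeta p) := by
  rw [← phi_d]
  exact phi_ext fun B _ _ u hu => vl_dYY h2 hu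

omit [Fact p.Prime] in
theorem MH_A2 : MH (m2 p) (A2 p) := by
  have h1 := UC.cup_MH (n := 7) rfl (UC.cup_MH (n := 5) rfl (UC.cup_MH (n := 3) rfl
    (MH_gg (p := p)) MH_tt) MH_uu) MH_BB
  have h2 := UC.cup_MH (n := 7) rfl (UC.cup_MH (n := 5) rfl (UC.cup_MH (n := 4) rfl
    (MH_gg (p := p)) MH_BB) MH_tt) MH_uu
  have e1 : m2 p = Finsupp.single 1 2 + Finsupp.single 2 1 + Finsupp.single 2 1 +
      Finsupp.single 0 p + (Finsupp.single 0 p + Finsupp.single 1 p) := by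
    ext k
    simp only [m2, Finsupp.add_apply, Finsupp.single_apply]
    split_ifs <;> omega
  have e2 : m2 p = Finsupp.single 1 2 + Finsupp.single 2 1 +
      (Finsupp.single 0 p + Finsupp.single 1 p) + Finsupp.single 2 1 + Finsupp.single 0 p := by
    rw [e1]
    ac_rfl
  rw [← e1] at h1
  rw [← e2] at h2
  exact (h1.add h2).neg

omit [Fact p.Prime] in
theorem Bd_lowY : Bd p (3 * p ^ 2 + 4 * p) (5 * p + 4) (lowY p) :=
  ((((Bd_gg.cup rfl Bd_u1).cup rfl Bd_ta).cup rfl Bd_BB).cast (by omega) (by ring)).add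
    ((((Bd_gg.cup rfl Bd_BB).cup rfl Bd_u1).cup rfl Bd_ta).cast (by omega) (by ring))

theorem Bd_zeta : Bd p (3 * p ^ 2 + 4 * p) (7 * p + 4) (zeta p) := by
  have hp := (Fact.out : p.Prime).two_le
  exact (Bd.of_MH (MH_A2 (p := p)) wtE_m2 (by rw [← Wl_m2])).add (Bd_lowY.mono (by omega))

theorem comp_zeta : comp (m2 p) (zeta p) = A2 p := by
  have hp := (Fact.out : p.Prime).two_le
  exact comp_of_Bd (e := m2 p) MH_A2 Bd_lowY (by rw [Wl_m2]; omega)

theorem sup_zeta : Sup (fun e => wtE p e = 3 * p ^ 2 + 4 * p) (zeta p) :=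
  Sup.mono Bd_zeta fun _ h => h.1

theorem lev_zeta : Sup (fun e => Wl e ≤ Wl (m2 p)) (zeta p) :=
  Sup.mono Bd_zeta fun _ h => by
    rw [Wl_m2]
    exact h.2

theorem lead_zeta : InJ (comp (m2 p) (zeta p) - A2 p) := by
  rw [comp_zeta, sub_self]
  exact InJ.zero

end

end Vale.Agent.P257.V4.A.F4C
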