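import Vale.Agent.P257.V4.A.F4Coch

/-!
# P257, V(4): the determinant cocycle `g_3` of multidegree `(3, 2, 1)` and its nonvanishing
-/

namespace Vale.Agent.P257.V4.A.G3

open MvPolynomial Finset _root_.Vale.Agent.P257.V4.A.UV _root_.Vale.Agent.P257.V4.A.F4C

variable {p : ℕ}

/-- the variable `t_{0,j+1}` of the vertex `r + 1` -/
noncomputable abbrev xx (p : ℕ) (r : Fin 3) (j : ℕ) : UC p 3 := X (r, (0, j))

/-- the determinant of the first rows -/
noncomputable def g3 (p : ℕ) : UC p 3 :=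
  xx p 0 0 * (xx p 1 1 * xx p 2 2 - xx p 1 2 * xx p 2 1) -
    xx p 0 1 * (xx p 1 0 * xx p 2 2 - xx p 1 2 * xx p 2 0) +
    xx p 0 2 * (xx p 1 0 * xx p 2 1 - xx p 1 1 * xx p 2 0)

/-- the multidegree `(3, 2, 1)` -/
noncomputable def eG : ℕ →₀ ℕ :=
  Finsupp.single 0 3 + Finsupp.single 1 2 + Finsupp.single 2 1

theorem itv0 : itv 0 0 = Finsupp.single 0 1 := by simp [itv]
theorem itv1 : itv 0 1 = Finsupp.single 0 1 + Finsupp.single 1 1 := by
  simp [itv, Finset.sum_range_succ]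
theorem itv2 : itv 0 2 = Finsupp.single 0 1 + Finsupp.single 1 1 + Finsupp.single 2 1 := by
  simp [itv, Finset.sum_range_succ]

theorem eG_eq : eG = itv 0 0 + (itv 0 1 + itv 0 2) := by
  rw [itv0, itv1, itv2, eG]
  ext k
  simp only [Finsupp.add_apply, Finsupp.single_apply]
  split_ifs <;> omega

theorem MH_X (r : Fin 3) (j : ℕ) : MH (itv 0 j) (xx p r j) :=
  isWeightedHomogeneous_X _ _ _

theorem MH_g3 : MH eG (g3 p) := by
  have key : ∀ (r1 r2 r3 : Fin 3), MH eG (xx p r1 0 * (xx p r2 1 * xx p r3 2)) := by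
    intro r1 r2 r3
    rw [eG_eq]
    exact (MH_X r1 0).mul ((MH_X r2 1).mul (MH_X r3 2))
  have h : g3 p = xx p 0 0 * (xx p 1 1 * xx p 2 2) - xx p 0 0 * (xx p 2 1 * xx p 1 2) -
      xx p 1 0 * (xx p 0 1 * xx p 2 2) + xx p 2 0 * (xx p 0 1 * xx p 1 2) +
      xx p 1 0 * (xx p 2 1 * xx p 0 2) - xx p 2 0 * (xx p 1 1 * xx p 0 2) := by
    unfold g3
    ring
  rw [h]
  exact (((((key _ _ _).sub (key _ _ _)).sub (key _ _ _)).add (key _ _ _)).add
    (key _ _ _)).sub (key _ _ _)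

section values

variable {B : Type} [CommRing B] [Algebra (ZMod p) B]

omit [Algebra (ZMod p) B] in
theorem en_three (i : ℕ) (a b c : Un B) :
    en i 3 a c = en i 3 b c + en i 2 b c * en (i + 2) 1 a b + en i 1 b c * en (i + 1) 2 a b +
      en i 3 a b := by
  have h : c * a⁻¹ = (c * b⁻¹) * (b * a⁻¹) := by group
  unfold en
  rw [h, Un.mul_e]
  simp [Finset.Nat.antidiagonal_succ, Un.e_zero]
  ring

/-- the determinant -/
def dt (x1 x2 x3 y1 y2 y3 z1 z2 z3 : B) : B :=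
  x1 * (y2 * z3 - y3 * z2) - x2 * (y1 * z3 - y3 * z1) + x3 * (y1 * z2 - y2 * z1)

theorem vl_g3 (u : ℕ → Un B) : vl (g3 p) u =
    dt (en 0 1 (u 0) (u 1)) (en 0 2 (u 0) (u 1)) (en 0 3 (u 0) (u 1))
      (en 0 1 (u 0) (u 2)) (en 0 2 (u 0) (u 2)) (en 0 3 (u 0) (u 2))
      (en 0 1 (u 0) (u 3)) (en 0 2 (u 0) (u 3)) (en 0 3 (u 0) (u 3)) := by
  unfold g3
  simp only [vl_add, vl_sub, vl_mul, vl_X]
  rfl

/-- the sequence `a, b, c, d, d, …` -/
def sq4 {B : Type} [CommRing B] (a b c d : Un B) : ℕ → Un B := fun k =>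
  if k = 0 then a else if k = 1 then b else if k = 2 then c else d

theorem vl_d3 (x : UC p 3) (u : ℕ → Un B) :
    vl (UC.d 3 x) u = vl x (sq4 (u 1) (u 2) (u 3) (u 4)) - vl x (sq4 (u 0) (u 2) (u 3) (u 4)) +
      vl x (sq4 (u 0) (u 1) (u 3) (u 4)) - vl x (sq4 (u 0) (u 1) (u 2) (u 4)) +
      vl x (sq4 (u 0) (u 1) (u 2) (u 3)) := by
  rw [vl_d, Finset.sum_range_succ, Finset.sum_range_succ, Finset.sum_range_succ,
    Finset.sum_range_succ, Finset.sum_range_one]
  have h0 : vl x (fun k => u (om 0 k)) = vl x (sq4 (u 1) (u 2) (u 3) (u 4)) :=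
    vl_congr _ fun i hi => by interval_cases i <;> rfl
  have h1 : vl x (fun k => u (om 1 k)) = vl x (sq4 (u 0) (u 2) (u 3) (u 4)) :=
    vl_congr _ fun i hi => by interval_cases i <;> rfl
  have h2 : vl x (fun k => u (om 2 k)) = vl x (sq4 (u 0) (u 1) (u 3) (u 4)) :=
    vl_congr _ fun i hi => by interval_cases i <;> rfl
  have h3 : vl x (fun k => u (om 3 k)) = vl x (sq4 (u 0) (u 1) (u 2) (u 4)) :=
    vl_congr _ fun i hi => by interval_cases i <;> rfl
  have h4 : vl x (fun k => u (om 4 k)) = vl x (sq4 (u 0) (u 1) (u 2) (u 3)) :=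
    vl_congr _ fun i hi => by interval_cases i <;> rfl
  rw [h0, h1, h2, h3, h4]
  ring

end values

/-- `g_3` is a cocycle, exactly. -/
theorem d_g3 : UC.d 3 (g3 p) = 0 := by
  apply ext_vl
  intro B _ _ u
  rw [vl_d3, vl_g3, vl_g3, vl_g3, vl_g3, vl_g3, vl_zero]
  simp only [sq4, if_true, if_false, one_ne_zero, OfNat.ofNat_ne_zero, OfNat.ofNat_ne_one,
    Nat.reduceEqDiff]
  rw [en_one 0 (u 0) (u 1) (u 2), en_one 0 (u 0) (u 1) (u 3), en_one 0 (u 0) (u 1) (u 4),
    en_two 0 (u 0) (u 1) (u 2), en_two 0 (u 0) (u 1) (u 3), en_two 0 (u 0) (u 1) (u 4),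
    en_three 0 (u 0) (u 1) (u 2), en_three 0 (u 0) (u 1) (u 3), en_three 0 (u 0) (u 1) (u 4)]
  unfold dt
  ring

/-! ### nonvanishing -/

section nonvanishing

variable {B : Type} [CommRing B]

/-- the matrix with first row `(1, a, b, c)` -/
def rw3 (a b c : B) : Un B := Un.mk' fun i k =>
  if i = 0 then (if k = 0 then a else if k = 1 then b else if k = 2 then c else 0) else 0

theorem rw3_e_succ (a b c : B) (i n : ℕ) (hi : i ≠ 0) : (rw3 a b c).e i (n + 1) = 0 := by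
  rw [rw3, Un.mk'_e_succ, if_neg hi]

theorem rw3_mul (a b c a' b' c' : B) :
    rw3 a b c * rw3 a' b' c' = rw3 (a + a') (b + b') (c + c') := by
  ext i n
  rw [Un.mul_e]
  rcases n with _ | n
  · simp [Un.e_zero]
  · rw [Finset.sum_eq_add_of_mem (0, n + 1) (n + 1, 0)
      (HasAntidiagonal.mem_antidiagonal.2 (by simp)) (HasAntidiagonal.mem_antidiagonal.2 (by simp))
      (by simp)]
    · simp only [Un.e_zero, mul_one, one_mul, add_zero, rw3, Un.mk'_e_succ]
      split_ifs <;> ring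
    · rintro ⟨x, y⟩ hx ⟨h1, h2⟩
      rw [HasAntidiagonal.mem_antidiagonal] at hx
      have hx' : x + y = n + 1 := hx
      have hy : y ≠ 0 := by
        rintro rfl
        exact h2 (by rw [Prod.mk.injEq]; omega)
      have hx0 : x ≠ 0 := by
        rintro rfl
        exact h1 (by rw [Prod.mk.injEq]; omega)
      obtain ⟨y, rfl⟩ := Nat.exists_eq_succ_of_ne_zero hy
      change _ * (rw3 a' b' c').e (i + x) (y + 1) = 0
      rw [rw3_e_succ _ _ _ _ _ (by omega), mul_zero]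

theorem rw3_zero : rw3 (0 : B) 0 0 = 1 := by
  ext i n
  rcases n with _ | n
  · simp [Un.e_zero]
  · simp [rw3]

theorem rw3_mul_inv (a b c a' b' c' : B) :
    rw3 a b c * (rw3 a' b' c')⁻¹ = rw3 (a - a') (b - b') (c - c') := by
  rw [mul_inv_eq_iff_eq_mul, rw3_mul, sub_add_cancel, sub_add_cancel, sub_add_cancel]

/-- first row with entries given by a function `Fin 3 → B` -/
def rv (v : Fin 3 → B) : Un B := rw3 (v 0) (v 1) (v 2)

theorem rv_mul (v w : Fin 3 → B) : rv v * rv w = rv (v + w) := rw3_mul _ _ _ _ _ _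

variable [Algebra (ZMod p) B]

/-- value of a 2-cochain on `0, v, v + w` -/
noncomputable def F2 (f : UC p 2) (v w : Fin 3 → B) : B := vl f (sq (rv 0) (rv v) (rv (v + w)))

/-- value of a 3-cochain on `0, v, v + w, v + w + z` -/
noncomputable def F3 (f : UC p 3) (v w z : Fin 3 → B) : B :=
  vl f (sq4 (rv 0) (rv v) (rv (v + w)) (rv (v + w + z)))

theorem vl_sq_tr (f : UC p 2) (a b c g : Un B) : vl f (sq (a * g) (b * g) (c * g)) =
    vl f (sq a b c) := by
  rw [← vl_mul_right f (sq a b c) g]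
  exact vl_congr _ fun i hi => by interval_cases i <;> rfl

theorem F3_d (f : UC p 2) (v w z : Fin 3 → B) :
    F3 (UC.d 2 f) v w z = F2 f w z - F2 f (v + w) z + F2 f v (w + z) - F2 f v w := by
  unfold F3
  rw [vl_d2]
  change vl f (sq (rv v) (rv (v + w)) (rv (v + w + z))) -
    vl f (sq (rv 0) (rv (v + w)) (rv (v + w + z))) + vl f (sq (rv 0) (rv v) (rv (v + w + z))) -
    vl f (sq (rv 0) (rv v) (rv (v + w))) = _
  have h1 : vl f (sq (rv v) (rv (v + w)) (rv (v + w + z))) = F2 f w z := by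
    have e1 : rv v = rv 0 * rv v := by rw [rv_mul, zero_add]
    have e2 : rv (v + w) = rv w * rv v := by rw [rv_mul, add_comm]
    have e3 : rv (v + w + z) = rv (w + z) * rv v := by
      rw [rv_mul]
      congr 1
      abel
    rw [e2, e3]
    nth_rw 1 [e1]
    rw [vl_sq_tr]
    rfl
  rw [h1]
  unfold F2
  rw [add_assoc v w z]

/-- the alternating sum over the orders of three elements -/
noncomputable def La (f : UC p 3) (x y z : Fin 3 → B) : B :=
  F3 f x y z - F3 f x z y - F3 f y x z + F3 f y z x + F3 f z x y - F3 f z y x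

theorem La_d (f : UC p 2) (x y z : Fin 3 → B) : La (UC.d 2 f) x y z = 0 := by
  unfold La
  rw [F3_d, F3_d, F3_d, F3_d, F3_d, F3_d, add_comm y x, add_comm z x, add_comm z y]
  ring

theorem en_rv (v w : Fin 3 → B) (k : Fin 3) : en 0 ((k : ℕ) + 1) (rv v) (rv w) = w k - v k := by
  unfold en rv
  rw [rw3_mul_inv]
  fin_cases k <;> simp [rw3]

theorem F3_g3 (v w z : Fin 3 → B) : F3 (g3 p) v w z =
    dt (v 0) (v 1) (v 2) (w 0) (w 1) (w 2) (z 0) (z 1) (z 2) := by
  unfold F3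
  rw [vl_g3]
  simp only [sq4, if_true, if_false, one_ne_zero, OfNat.ofNat_ne_zero, OfNat.ofNat_ne_one,
    Nat.reduceEqDiff]
  have h1 : ∀ x : Fin 3 → B, en 0 1 (rv 0) (rv x) = x 0 := fun x => by
    have := en_rv (0 : Fin 3 → B) x 0
    rw [Pi.zero_apply, sub_zero] at this
    exact this
  have h2 : ∀ x : Fin 3 → B, en 0 2 (rv 0) (rv x) = x 1 := fun x => by
    have := en_rv (0 : Fin 3 → B) x 1
    rw [Pi.zero_apply, sub_zero] at this
    exact this
  have h3 : ∀ x : Fin 3 → B, en 0 3 (rv 0) (rv x) = x 2 := fun x => by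
    have := en_rv (0 : Fin 3 → B) x 2
    rw [Pi.zero_apply, sub_zero] at this
    exact this
  rw [h1, h1, h1, h2, h2, h2, h3, h3, h3]
  simp only [Pi.add_apply]
  unfold dt
  ring

theorem La_g3 (x y z : Fin 3 → B) : La (g3 p) x y z =
    6 * dt (x 0) (x 1) (x 2) (y 0) (y 1) (y 2) (z 0) (z 1) (z 2) := by
  unfold La
  simp only [F3_g3]
  unfold dt
  ring

theorem La_sub (f g : UC p 3) (x y z : Fin 3 → B) : La (f - g) x y z = La f x y z - La g x y z := by
  unfold La F3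
  simp only [vl_sub]
  ring

theorem La_smul (c : ZMod p) (f : UC p 3) (x y z : Fin 3 → B) :
    La (c • f) x y z = c • La f x y z := by
  unfold La F3
  simp only [vl_smul, smul_sub, smul_add]

/-- values of elements of `J` on matrices whose entries have vanishing `p`-th powers -/
theorem vl_J {s : ℕ} {f : UC p s} (hf : InJ f) (I : Ideal B) (u : ℕ → Un B)
    (h : ∀ r i k : ℕ, en i (k + 1) (u 0) (u (r + 1)) ^ p ∈ I) : vl f u ∈ I := by
  rw [inJ_iff_mem] at hf
  refine Submodule.span_induction ?_ ?_ (fun a b _ _ ha hb => ?_) (fun a b _ hb => ?_) hf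
  · rintro _ ⟨⟨r, i, k⟩, rfl⟩
    change vl (X (r, (i, k)) ^ p) u ∈ I
    rw [vl_pow, vl_X]
    exact h _ _ _
  · rw [vl_zero]
    exact I.zero_mem
  · rw [vl_add]
    exact I.add_mem ha hb
  · rw [smul_eq_mul, vl_mul]
    exact I.mul_mem_left _ hb

omit [Algebra (ZMod p) B] in
theorem rv_e_pow [Fact p.Prime] {I : Ideal B} {v : Fin 3 → B} (hv : ∀ k, v k ^ p ∈ I) (i k : ℕ) :
    (rv v).e i (k + 1) ^ p ∈ I := by
  have h0 : (0 : B) ^ p ∈ I := by
    rw [zero_pow (Fact.out : p.Prime).ne_zero]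
    exact I.zero_mem
  rw [rv, rw3, Un.mk'_e_succ]
  split_ifs
  · exact hv 0
  · exact hv 1
  · exact hv 2
  · exact h0
  · exact h0

theorem F3_J [Fact p.Prime] [CharP B p] {f : UC p 3} (hf : InJ f) {I : Ideal B}
    {x y z : Fin 3 → B} (hx : ∀ k, x k ^ p ∈ I) (hy : ∀ k, y k ^ p ∈ I) (hz : ∀ k, z k ^ p ∈ I) :
    F3 f x y z ∈ I := by
  have hxy : ∀ k, (x + y) k ^ p ∈ I := fun k => by
    rw [Pi.add_apply, add_pow_char]
    exact I.add_mem (hx k) (hy k)
  have hxyz : ∀ k, (x + y + z) k ^ p ∈ I := fun k => by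
    rw [Pi.add_apply, add_pow_char]
    exact I.add_mem (hxy k) (hz k)
  refine vl_J hf I _ fun r i k => ?_
  have h0 : (sq4 (rv 0) (rv x) (rv (x + y)) (rv (x + y + z)) 0 : Un B)⁻¹ = 1 := by
    change (rv (0 : Fin 3 → B))⁻¹ = 1
    have : rv (0 : Fin 3 → B) = 1 := rw3_zero
    rw [this, inv_one]
  unfold en
  rw [h0, mul_one]
  rcases r with _ | _ | r
  · exact rv_e_pow hx i k
  · exact rv_e_pow hxy i k
  · exact rv_e_pow hxyz i k

end nonvanishing

theorem six_ne [Fact p.Prime] (hp : 5 ≤ p) : (6 : ZMod p) ≠ 0 := by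
  intro h
  have h1 : ((6 : ℕ) : ZMod p) = 0 := by exact_mod_cast h
  rw [ZMod.natCast_eq_zero_iff] at h1
  have h2 := Nat.le_of_dvd (by norm_num) h1
  have h3 : (p : ℕ).Prime := Fact.out
  interval_cases p
  · omega
  · revert h3
    norm_num

/-- `g_3` is not a coboundary modulo `p`-th powers -/
theorem not_bd_g3 [Fact p.Prime] (hp : 5 ≤ p) (c : ZMod p) (f : UC p 2)
    (h : InJ (c • g3 p - UC.d 2 f)) : c = 0 := by
  set t : Polynomial (ZMod p) := Polynomial.X with ht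
  set I : Ideal (Polynomial (ZMod p)) := Ideal.span {t ^ p} with hI
  have htI : t ^ p ∈ I := Ideal.subset_span rfl
  have h0I : (0 : Polynomial (ZMod p)) ^ p ∈ I := by
    rw [zero_pow (Fact.out : p.Prime).ne_zero]
    exact I.zero_mem
  have hx : ∀ k, (![t, 0, 0] : Fin 3 → Polynomial (ZMod p)) k ^ p ∈ I := fun k => by
    fin_cases k
    exacts [htI, h0I, h0I]
  have hy : ∀ k, (![0, t, 0] : Fin 3 → Polynomial (ZMod p)) k ^ p ∈ I := fun k => by
    fin_cases k
    exacts [h0I, htI, h0I]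
  have hz : ∀ k, (![0, 0, t] : Fin 3 → Polynomial (ZMod p)) k ^ p ∈ I := fun k => by
    fin_cases k
    exacts [h0I, h0I, htI]
  have key : La (c • g3 p - UC.d 2 f) ![t, 0, 0] ![0, t, 0] ![0, 0, t] ∈ I := by
    unfold La
    exact I.sub_mem (I.add_mem (I.add_mem (I.sub_mem (I.sub_mem (F3_J h hx hy hz)
      (F3_J h hx hz hy)) (F3_J h hy hx hz)) (F3_J h hy hz hx)) (F3_J h hz hx hy))
      (F3_J h hz hy hx)
  rw [La_sub, La_smul, La_d, sub_zero, La_g3, hI, Ideal.mem_span_singleton, ht,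
    Polynomial.X_pow_dvd_iff] at key
  have h3 := key 3 (by omega)
  have h6 : (Polynomial.C 6 : Polynomial (ZMod p)) = 6 := map_ofNat Polynomial.C 6
  have h4 : (6 * dt (Polynomial.X : Polynomial (ZMod p)) 0 0 0 Polynomial.X 0 0 0 Polynomial.X) =
      Polynomial.C 6 * Polynomial.X ^ 3 := by
    rw [h6]
    unfold dt
    ring
  have h5 : (6 * dt ((![Polynomial.X, 0, 0] : Fin 3 → Polynomial (ZMod p)) 0)
      ((![Polynomial.X, 0, 0] : Fin 3 → Polynomial (ZMod p)) 1)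
      ((![Polynomial.X, 0, 0] : Fin 3 → Polynomial (ZMod p)) 2)
      ((![0, Polynomial.X, 0] : Fin 3 → Polynomial (ZMod p)) 0)
      ((![0, Polynomial.X, 0] : Fin 3 → Polynomial (ZMod p)) 1)
      ((![0, Polynomial.X, 0] : Fin 3 → Polynomial (ZMod p)) 2)
      ((![0, 0, Polynomial.X] : Fin 3 → Polynomial (ZMod p)) 0)
      ((![0, 0, Polynomial.X] : Fin 3 → Polynomial (ZMod p)) 1)
      ((![0, 0, Polynomial.X] : Fin 3 → Polynomial (ZMod p)) 2)) =
      Polynomial.C 6 * Polynomial.X ^ 3 := h4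
  rw [h5, Polynomial.smul_eq_C_mul, ← mul_assoc, ← Polynomial.C_mul,
    Polynomial.coeff_C_mul_X_pow, if_pos rfl] at h3
  exact (mul_eq_zero.1 h3).resolve_right (six_ne hp)

end Vale.Agent.P257.V4.A.G3
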