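import Vale.Agent.P257.V4.A.UVal
import Vale.Agent.P257.V4.A.A0b
import Vale.Agent.P257.V4.A.CupCh

/-!
# P257, part A, block F4: explicit cochains

`uu, BB` are the 2-cochains `b_{10}, b_{20}`, `ta, tt, ka, hp` the 1-cochains `t_12, t_23, t_13,
t_12 t_23 - t_13` of the unitriangular model.
-/

namespace Vale.Agent.P257.V4.A.F4C

open MvPolynomial Finset _root_.Vale.Agent.P257.V4.A.UV

variable {p : ℕ}

/-! ### identities of `Phi` -/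

section phi

variable {R : Type} [CommRing R]

theorem Phi_smul (a x y : R) : Ch.Phi p (a * x) (a * y) = a ^ p * Ch.Phi p x y := by
  unfold Ch.Phi
  rw [Finset.mul_sum]
  refine Finset.sum_congr rfl fun j hj => ?_
  rw [Finset.mem_Ioo] at hj
  have : a ^ p = a ^ j * a ^ (p - j) := by rw [← pow_add, Nat.add_sub_cancel' hj.2.le]
  rw [mul_pow, mul_pow, this, zsmul_eq_mul, zsmul_eq_mul]
  ring

/-- The identity behind `d b_{20} = b_{11} h_{11} - h_{12} b_{10}`. -/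
theorem Phi_big [Fact p.Prime] (x1 x2 x3 a2 a3 c1 c2 : R) :
    (Ch.Phi p x2 (a3 * c2) + Ch.Phi p (x2 + a3 * c2) x3) -
    (Ch.Phi p (x2 + a2 * c1 + x1) (a3 * (c2 + c1)) +
      Ch.Phi p (x2 + a2 * c1 + x1 + a3 * (c2 + c1)) x3) +
    (Ch.Phi p x1 ((a3 + a2) * c1) + Ch.Phi p (x1 + (a3 + a2) * c1) (x3 + a3 * c2 + x2)) -
    (Ch.Phi p x1 (a2 * c1) + Ch.Phi p (x1 + a2 * c1) x2) =
    a3 ^ p * Ch.Phi p c1 c2 - c1 ^ p * Ch.Phi p a2 a3 := by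
  have key : ((Ch.Phi p (X 1) (X 4 * X 6) + Ch.Phi p (X 1 + X 4 * X 6) (X 2)) -
    (Ch.Phi p (X 1 + X 3 * X 5 + X 0) (X 4 * (X 6 + X 5)) +
      Ch.Phi p (X 1 + X 3 * X 5 + X 0 + X 4 * (X 6 + X 5)) (X 2)) +
    (Ch.Phi p (X 0) ((X 4 + X 3) * X 5) +
      Ch.Phi p (X 0 + (X 4 + X 3) * X 5) (X 2 + X 4 * X 6 + X 1)) -
    (Ch.Phi p (X 0) (X 3 * X 5) + Ch.Phi p (X 0 + X 3 * X 5) (X 1)) :
      MvPolynomial (Fin 7) ℤ) =
    Ch.Phi p (X 4 * X 5) (X 4 * X 6) - Ch.Phi p (X 5 * X 3) (X 5 * X 4) := by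
    have hp : (p : MvPolynomial (Fin 7) ℤ) ≠ 0 := by
      have : p ≠ 0 := (Fact.out : p.Prime).ne_zero
      exact_mod_cast this
    apply mul_left_cancel₀ hp
    simp only [mul_sub, mul_add (p : MvPolynomial (Fin 7) ℤ), Ch.p_mul_Phi]
    ring
  have h := congrArg (MvPolynomial.eval₂Hom (Int.castRingHom R) ![x1, x2, x3, a2, a3, c1, c2]) key
  simp only [map_sub, map_add, Ch.map_Phi, map_mul, MvPolynomial.coe_eval₂Hom,
    MvPolynomial.eval₂_X, Matrix.cons_val_zero, Matrix.cons_val_one, Matrix.cons_val] at h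
  rw [h, Phi_smul, Phi_smul]

end phi

/-! ### the basic cochains -/

/-- `t_{i,i+k+1}` as a 1-cochain -/
noncomputable abbrev tl (p i k : ℕ) : UC p 1 := X (0, (i, k))

/-- `t_12`, `t_23`, `t_13` -/
noncomputable def ta (p : ℕ) : UC p 1 := tl p 1 0
@[inherit_doc ta] noncomputable def tt (p : ℕ) : UC p 1 := tl p 2 0
@[inherit_doc ta] noncomputable def ka (p : ℕ) : UC p 1 := tl p 1 1

/-- `t_12 t_23 - t_13` -/
noncomputable def hp (p : ℕ) : UC p 1 := ta p * tt p - ka p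

/-- restriction of a 1-cochain to the first edge of a triangle -/
noncomputable def fr (x : UC p 1) : UC p 2 := UC.map (Ch.front (by omega : 1 ≤ 2)) x
/-- restriction of a 1-cochain to the last edge of a triangle -/
noncomputable def ba (x : UC p 1) : UC p 2 := UC.map (Ch.back (by omega : 1 ≤ 2)) x

/-- `b_{10}` -/
noncomputable def uu (p : ℕ) : UC p 2 := Ch.Phi p (fr (tl p 0 0)) (ba (tl p 0 0))

/-- `b_{11}` -/
noncomputable def u1 (p : ℕ) : UC p 2 := Ch.Phi p (fr (tl p 1 0)) (ba (tl p 1 0))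

/-- `b_{20}` -/
noncomputable def BB (p : ℕ) : UC p 2 :=
  Ch.Phi p (fr (tl p 0 1)) (ba (tl p 0 0) * fr (tl p 1 0)) +
  Ch.Phi p (fr (tl p 0 1) + ba (tl p 0 0) * fr (tl p 1 0)) (ba (tl p 0 1))

section values

variable {B : Type} [CommRing B] [Algebra (ZMod p) B]

/-- the entry `(i, i+k)` of `b a⁻¹` -/
def en (i k : ℕ) (a b : Un B) : B := (b * a⁻¹).e i k

omit [Algebra (ZMod p) B] in
theorem en_one (i : ℕ) (a b c : Un B) : en i 1 a c = en i 1 b c + en i 1 a b := by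
  have h : c * a⁻¹ = (c * b⁻¹) * (b * a⁻¹) := by group
  unfold en
  rw [h, Un.mul_e, Finset.Nat.antidiagonal_succ]
  simp [Un.e_zero]
  ring

omit [Algebra (ZMod p) B] in
theorem en_two (i : ℕ) (a b c : Un B) :
    en i 2 a c = en i 2 b c + en i 1 b c * en (i + 1) 1 a b + en i 2 a b := by
  have h : c * a⁻¹ = (c * b⁻¹) * (b * a⁻¹) := by group
  unfold en
  rw [h, Un.mul_e]
  simp [Finset.Nat.antidiagonal_succ, Un.e_zero]
  ring

theorem vl_tl (i k : ℕ) (u : ℕ → Un B) : vl (tl p i k) u = en i (k + 1) (u 0) (u 1) := vl_X _ _ _ _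

theorem vl_fr (x : UC p 1) (u : ℕ → Un B) : vl (fr x) u = vl x u :=
  vl_map (Ch.front (by omega : 1 ≤ 2)) (fun i => i) (fun _ => rfl) x u

theorem vl_ba (x : UC p 1) (u : ℕ → Un B) : vl (ba x) u = vl x (fun k => u (1 + k)) := by
  apply vl_map _ (fun i => 1 + i)
  intro i
  change 1 + (i : ℕ) = 2 - 1 + i
  omega

theorem vl_Phi {s : ℕ} (x y : UC p s) (u : ℕ → Un B) :
    vl (Ch.Phi p x y) u = Ch.Phi p (vl x u) (vl y u) :=
  Ch.map_Phi (UC.ev (uch s u)).toRingHom x y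

/-! values of the basic cochains -/

theorem vl_ta (u : ℕ → Un B) : vl (ta p) u = en 1 1 (u 0) (u 1) := vl_tl _ _ _
theorem vl_tt (u : ℕ → Un B) : vl (tt p) u = en 2 1 (u 0) (u 1) := vl_tl _ _ _
theorem vl_ka (u : ℕ → Un B) : vl (ka p) u = en 1 2 (u 0) (u 1) := vl_tl _ _ _
theorem vl_hp (u : ℕ → Un B) :
    vl (hp p) u = en 1 1 (u 0) (u 1) * en 2 1 (u 0) (u 1) - en 1 2 (u 0) (u 1) := by
  rw [hp, vl_sub, vl_mul, vl_ta, vl_tt, vl_ka]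
theorem vl_uu (u : ℕ → Un B) :
    vl (uu p) u = Ch.Phi p (en 0 1 (u 0) (u 1)) (en 0 1 (u 1) (u 2)) := by
  rw [uu, vl_Phi, vl_fr, vl_ba, vl_tl, vl_tl]
theorem vl_u1 (u : ℕ → Un B) :
    vl (u1 p) u = Ch.Phi p (en 1 1 (u 0) (u 1)) (en 1 1 (u 1) (u 2)) := by
  rw [u1, vl_Phi, vl_fr, vl_ba, vl_tl, vl_tl]
theorem vl_BB (u : ℕ → Un B) :
    vl (BB p) u =
      Ch.Phi p (en 0 2 (u 0) (u 1)) (en 0 1 (u 1) (u 2) * en 1 1 (u 0) (u 1)) +
      Ch.Phi p (en 0 2 (u 0) (u 1) + en 0 1 (u 1) (u 2) * en 1 1 (u 0) (u 1))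
        (en 0 2 (u 1) (u 2)) := by
  rw [BB, vl_add, vl_Phi, vl_Phi, vl_add, vl_mul, vl_fr, vl_ba, vl_fr, vl_ba, vl_tl, vl_tl, vl_tl,
    vl_tl]

/-! differentials -/

theorem vl_d1 (x : UC p 1) (u : ℕ → Un B) :
    vl (UC.d 1 x) u = vl x (fun k => u (1 + k)) - vl x (fun k => u (2 * k)) + vl x u := by
  rw [vl_d, Finset.sum_range_succ, Finset.sum_range_succ, Finset.sum_range_one]
  have h0 : vl x (fun k => u (om 0 k)) = vl x (fun k => u (1 + k)) :=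
    vl_congr _ fun i _ => by rw [om_ge (by omega), add_comm]
  have h1 : vl x (fun k => u (om 1 k)) = vl x (fun k => u (2 * k)) :=
    vl_congr _ fun i hi => by
      interval_cases i <;> rfl
  have h2 : vl x (fun k => u (om 2 k)) = vl x u :=
    vl_congr _ fun i hi => by rw [om_lt (by omega)]
  rw [h0, h1, h2]
  ring

end values

section d1

theorem d_tl (i : ℕ) : UC.d 1 (tl p i 0) = 0 := by
  apply ext_vl
  intro B _ _ u
  rw [vl_d1, vl_tl, vl_tl, vl_tl, vl_zero]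
  change en i 1 (u 1) (u 2) - en i 1 (u 0) (u 2) + en i 1 (u 0) (u 1) = 0
  rw [en_one i (u 0) (u 1) (u 2)]
  ring

theorem d_ta : UC.d 1 (ta p) = 0 := d_tl 1
theorem d_tt : UC.d 1 (tt p) = 0 := d_tl 2

theorem d_ka : UC.d 1 (ka p) = - UC.cup rfl (tt p) (ta p) := by
  apply ext_vl
  intro B _ _ u
  rw [vl_d1, vl_neg, vl_cup, vl_ka, vl_ka, vl_ka, vl_tt, vl_ta]
  change en 1 2 (u 1) (u 2) - en 1 2 (u 0) (u 2) + en 1 2 (u 0) (u 1) = -(_ * en 1 1 (u 1) (u 2))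
  rw [en_two 1 (u 0) (u 1) (u 2)]
  ring

theorem d_hp : UC.d 1 (hp p) = - UC.cup rfl (ta p) (tt p) := by
  apply ext_vl
  intro B _ _ u
  rw [vl_d1, vl_neg, vl_cup, vl_hp, vl_hp, vl_hp, vl_tt, vl_ta]
  change en 1 1 (u 1) (u 2) * en 2 1 (u 1) (u 2) - en 1 2 (u 1) (u 2) -
    (en 1 1 (u 0) (u 2) * en 2 1 (u 0) (u 2) - en 1 2 (u 0) (u 2)) +
    (en 1 1 (u 0) (u 1) * en 2 1 (u 0) (u 1) - en 1 2 (u 0) (u 1)) =
    -(_ * en 2 1 (u 1) (u 2))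
  rw [en_two 1 (u 0) (u 1) (u 2), en_one 1 (u 0) (u 1) (u 2), en_one 2 (u 0) (u 1) (u 2)]
  ring

/-- the sequence `a, b, c, c, …` -/
def sq {B : Type} [CommRing B] (a b c : Un B) : ℕ → Un B := fun k =>
  if k = 0 then a else if k = 1 then b else c

theorem vl_d2 {B : Type} [CommRing B] [Algebra (ZMod p) B] (x : UC p 2) (u : ℕ → Un B) :
    vl (UC.d 2 x) u = vl x (sq (u 1) (u 2) (u 3)) - vl x (sq (u 0) (u 2) (u 3)) +
      vl x (sq (u 0) (u 1) (u 3)) - vl x (sq (u 0) (u 1) (u 2)) := by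
  rw [vl_d, Finset.sum_range_succ, Finset.sum_range_succ, Finset.sum_range_succ,
    Finset.sum_range_one]
  have h0 : vl x (fun k => u (om 0 k)) = vl x (sq (u 1) (u 2) (u 3)) :=
    vl_congr _ fun i hi => by interval_cases i <;> rfl
  have h1 : vl x (fun k => u (om 1 k)) = vl x (sq (u 0) (u 2) (u 3)) :=
    vl_congr _ fun i hi => by interval_cases i <;> rfl
  have h2 : vl x (fun k => u (om 2 k)) = vl x (sq (u 0) (u 1) (u 3)) :=
    vl_congr _ fun i hi => by interval_cases i <;> rfl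
  have h3 : vl x (fun k => u (om 3 k)) = vl x (sq (u 0) (u 1) (u 2)) :=
    vl_congr _ fun i hi => by interval_cases i <;> rfl
  rw [h0, h1, h2, h3]
  ring

variable [Fact p.Prime]

theorem d_uu : UC.d 2 (uu p) = 0 := by
  apply ext_vl
  intro B _ _ u
  rw [vl_d2, vl_uu, vl_uu, vl_uu, vl_uu, vl_zero]
  change Ch.Phi p (en 0 1 (u 1) (u 2)) (en 0 1 (u 2) (u 3)) -
    Ch.Phi p (en 0 1 (u 0) (u 2)) (en 0 1 (u 2) (u 3)) +
    Ch.Phi p (en 0 1 (u 0) (u 1)) (en 0 1 (u 1) (u 3)) -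
    Ch.Phi p (en 0 1 (u 0) (u 1)) (en 0 1 (u 1) (u 2)) = 0
  rw [en_one 0 (u 0) (u 1) (u 2), en_one 0 (u 1) (u 2) (u 3), add_comm (en 0 1 (u 1) (u 2)),
    add_comm (en 0 1 (u 2) (u 3))]
  exact Ch.Phi_cocycle _ _ _

theorem d_u1 : UC.d 2 (u1 p) = 0 := by
  apply ext_vl
  intro B _ _ u
  rw [vl_d2, vl_u1, vl_u1, vl_u1, vl_u1, vl_zero]
  change Ch.Phi p (en 1 1 (u 1) (u 2)) (en 1 1 (u 2) (u 3)) -
    Ch.Phi p (en 1 1 (u 0) (u 2)) (en 1 1 (u 2) (u 3)) +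
    Ch.Phi p (en 1 1 (u 0) (u 1)) (en 1 1 (u 1) (u 3)) -
    Ch.Phi p (en 1 1 (u 0) (u 1)) (en 1 1 (u 1) (u 2)) = 0
  rw [en_one 1 (u 0) (u 1) (u 2), en_one 1 (u 1) (u 2) (u 3), add_comm (en 1 1 (u 1) (u 2)),
    add_comm (en 1 1 (u 2) (u 3))]
  exact Ch.Phi_cocycle _ _ _

/-- `d b_{20} = b_{11} ∪ t_01^p - t_12^p ∪ b_{10}` in the unitriangular model. -/
theorem d_BB : UC.d 2 (BB p) =
    UC.cup rfl (u1 p) (tl p 0 0 ^ p) - UC.cup rfl (ta p ^ p) (uu p) := by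
  apply ext_vl
  intro B _ _ u
  rw [vl_d2, vl_BB, vl_BB, vl_BB, vl_BB, vl_sub, vl_cup, vl_cup, vl_pow, vl_pow, vl_tl, vl_ta,
    vl_u1, vl_uu]
  have h := Phi_big (p := p) (en 0 2 (u 0) (u 1)) (en 0 2 (u 1) (u 2)) (en 0 2 (u 2) (u 3))
    (en 0 1 (u 1) (u 2)) (en 0 1 (u 2) (u 3)) (en 1 1 (u 0) (u 1)) (en 1 1 (u 1) (u 2))
  rw [← en_two 0 (u 0) (u 1) (u 2), ← en_two 0 (u 1) (u 2) (u 3), ← en_one 0 (u 1) (u 2) (u 3),
    ← en_one 1 (u 0) (u 1) (u 2)] at h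
  change _ = Ch.Phi p (en 1 1 (u 0) (u 1)) (en 1 1 (u 1) (u 2)) * en 0 1 (u 2) (u 3) ^ p -
    en 1 1 (u 0) (u 1) ^ p * Ch.Phi p (en 0 1 (u 1) (u 2)) (en 0 1 (u 2) (u 3))
  rw [mul_comm (Ch.Phi p (en 1 1 (u 0) (u 1)) (en 1 1 (u 1) (u 2))), ← h]
  rfl

end d1

end Vale.Agent.P257.V4.A.F4C
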