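import Vale.Agent.P257.V4.A.MG4
import Vale.Agent.P257.V4.A.UVal

/-!
# P257, V(4), part A: products in the complexes with coefficients

`prd x w` is the cup product of two cochains with the same coefficient vertex (the last one).
-/

namespace Vale.Agent.P257.V4.A.MG

open MvPolynomial _root_.Vale.Agent.P257.V4.A.UV

variable {p : ℕ}

/-! ### index maps which keep the last vertex -/

section keep

variable {m n : ℕ} (α : Fin (m + 2) → Fin (n + 2)) (h1 : α (Fin.last (m + 1)) = Fin.last (n + 1))
  (h2 : ∀ k, k ≠ Fin.last (m + 1) → α k ≠ Fin.last (n + 1))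

variable {S : Finset (ℕ × ℕ)} {τ : ℕ × ℕ}

include h1 h2

theorem pderiv_map_X_keep (hS : Row S) (hτ : τ ∉ S)
    (v : Fin (m + 1) × (ℕ × ℕ)) (hv : v ∈ ES (insert τ S) m) :
    pderiv (Fin.last n, τ) (UC.map α (X v : UC p (m + 1)) : UC p (n + 1)) =
      UC.map α (pderiv (Fin.last m, τ) (X v : UC p (m + 1))) := by
  classical
  obtain ⟨r, ⟨a, b⟩⟩ := v
  set K := kerSub (pderiv (Fin.last n, τ) :
    Derivation (ZMod p) (UC p (n + 1)) (UC p (n + 1))) with hK
  have hc : ∀ a i, (((UC.univ p (n + 1)).g (α 0))⁻¹).e a i ∈ K :=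
    un_inv_mem K _ fun a i => univ_mem_ker τ _ (h2 0 (by
      intro h
      have := congrArg Fin.val h
      simp at this)) a i
  rw [UC.map_X]
  by_cases hr : r = Fin.last m
  · subst hr
    have eu : (UC.univ p (n + 1)).g (Fin.last (n + 1)) =
        Un.mk' fun i k => X (Fin.last n, (i, k)) := by
      rw [← Fin.succ_last]
      exact UC.univ_g_succ _
    rw [Fin.succ_last, h1, eu, Un.mul_e, map_sum]
    have h3 : ∀ x ∈ Finset.HasAntidiagonal.antidiagonal (b + 1),
        pderiv (Fin.last n, τ) ((Un.mk' fun i k => X (Fin.last n, (i, k)) :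
          Un (UC p (n + 1))).e a x.1 * (((UC.univ p (n + 1)).g (α 0))⁻¹).e (a + x.1) x.2) =
        if x = (b + 1, 0) ∧ (a, b) = τ then 1 else 0 := by
      rintro ⟨x, y⟩ hx
      rw [Finset.HasAntidiagonal.mem_antidiagonal] at hx
      dsimp only at hx ⊢
      rw [Derivation.leibniz, show pderiv (Fin.last n, τ)
        ((((UC.univ p (n + 1)).g (α 0))⁻¹).e (a + x) y) = 0 from hc _ _, smul_zero, zero_add]
      rcases x with _ | x
      · rw [Un.e_zero, Derivation.map_one_eq_zero, smul_zero, if_neg]
        rintro ⟨h, -⟩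
        simp at h
      · rw [Un.mk'_e_succ]
        by_cases hx2 : (a, x) = τ
        · rw [hx2, pderiv_X_self]
          by_cases hxb : x = b
          · subst hxb
            have hy : y = 0 := by omega
            subst hy
            rw [Un.e_zero, if_pos ⟨rfl, hx2⟩, smul_eq_mul, mul_one]
          · exfalso
            have h3 : (a, b) ∈ insert τ S := hv rfl
            rcases Finset.mem_insert.1 h3 with h4 | h4
            · rw [← h4] at hx2
              exact hxb (congrArg Prod.snd hx2)
            · exact hτ (hx2 ▸ hS a b x h4 (by omega))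
        · rw [pderiv_X_of_ne, smul_zero, if_neg]
          · rintro ⟨h, h2⟩
            rw [Prod.mk.injEq] at h
            have : x = b := by omega
            exact hx2 (this ▸ h2)
          · intro h
            exact hx2 (congrArg Prod.snd h)
    rw [Finset.sum_congr rfl h3]
    by_cases h4 : (a, b) = τ
    · rw [h4, pderiv_X_self, map_one, Finset.sum_eq_single (b + 1, 0)]
      · rw [if_pos ⟨rfl, rfl⟩]
      · intro x _ hx
        rw [if_neg]
        exact fun h => hx h.1
      · intro h
        exact (h (Finset.HasAntidiagonal.mem_antidiagonal.2 (by simp))).elim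
    · rw [pderiv_X_of_ne, map_zero]
      · refine Finset.sum_eq_zero fun x _ => ?_
        rw [if_neg]
        exact fun h => h4 h.2
      · intro h
        exact h4 (congrArg Prod.snd h)
  · rw [pderiv_X_of_ne, map_zero]
    · refine un_mul_mem K _ _ (fun a i => univ_mem_ker τ _ (h2 _ ?_) a i) hc _ _
      rw [← Fin.succ_last]
      intro h
      exact hr (Fin.succ_injective _ h)
    · intro h
      exact hr (congrArg Prod.fst h)

theorem pderiv_map_keep (hS : Row S) (hτ : τ ∉ S) {f : UC p (m + 1)}
    (hf : Dep (ES (insert τ S) m) f) :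
    pderiv (Fin.last n, τ) (UC.map α f : UC p (n + 1)) =
      UC.map α (pderiv (Fin.last m, τ) f) := by
  have h := dep_iff.1 hf
  rw [supported_eq_adjoin_X] at h
  induction h using Algebra.adjoin_induction with
  | mem x hx =>
    obtain ⟨v, hv, rfl⟩ := hx
    exact pderiv_map_X_keep α h1 h2 hS hτ v hv
  | algebraMap c =>
    rw [AlgHom.commutes, Derivation.map_algebraMap, Derivation.map_algebraMap, map_zero]
  | add x y hx hy ihx ihy =>
    rw [map_add, map_add, map_add, map_add, ihx (dep_iff.2 hx), ihy (dep_iff.2 hy)]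
  | mul x y hx hy ihx ihy =>
    rw [map_mul, Derivation.leibniz, Derivation.leibniz, map_add, smul_eq_mul, smul_eq_mul,
      smul_eq_mul, smul_eq_mul, map_mul, map_mul, ihx (dep_iff.2 hx), ihy (dep_iff.2 hy)]

theorem dep_map_keep [Fact p.Prime] (hS : Row S) {f : UC p (m + 1)} (hf : Dep (ES S m) f) :
    Dep (ES S n) (UC.map α f : UC p (n + 1)) := by
  rw [dep_iff]
  have h := dep_iff.1 hf
  set K := (supported (ZMod p) (ES S n)).toSubring with hK
  have hc : ∀ a i, (((UC.univ p (n + 1)).g (α 0))⁻¹).e a i ∈ K :=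
    un_inv_mem K _ fun a i => univ_mem_supp S _ (h2 0 (by
      intro h
      have := congrArg Fin.val h
      simp at this)) a i
  rw [supported_eq_adjoin_X] at h
  induction h using Algebra.adjoin_induction with
  | algebraMap c => rw [AlgHom.commutes]; exact Subalgebra.algebraMap_mem _ _
  | add x y hx hy ihx ihy =>
    rw [map_add]
    exact add_mem (ihx (dep_iff.2 hx)) (ihy (dep_iff.2 hy))
  | mul x y hx hy ihx ihy =>
    rw [map_mul]
    exact mul_mem (ihx (dep_iff.2 hx)) (ihy (dep_iff.2 hy))
  | mem x hx =>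
    obtain ⟨⟨r, ⟨a, b⟩⟩, hv, rfl⟩ := hx
    change _ ∈ K
    rw [UC.map_X]
    by_cases hr : r = Fin.last m
    · subst hr
      have eu : (UC.univ p (n + 1)).g (Fin.last (n + 1)) =
          Un.mk' fun i k => X (Fin.last n, (i, k)) := by
        rw [← Fin.succ_last]
        exact UC.univ_g_succ _
      rw [Fin.succ_last, h1, eu, Un.mul_e]
      refine K.sum_mem fun x hx => K.mul_mem ?_ (hc _ _)
      rw [Finset.HasAntidiagonal.mem_antidiagonal] at hx
      obtain ⟨x, y⟩ := x
      dsimp only at hx ⊢
      rcases x with _ | x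
      · rw [Un.e_zero]
        exact K.one_mem
      · rw [Un.mk'_e_succ]
        refine X_mem_supported.2 ?_
        intro _
        have h3 : (a, b) ∈ S := hv rfl
        by_cases hxb : x = b
        · rwa [hxb]
        · exact hS a b x h3 (by omega)
    · refine un_mul_mem K _ _ (fun a i => univ_mem_supp S _ (h2 _ ?_) a i) hc _ _
      rw [← Fin.succ_last]
      intro h
      exact hr (Fin.succ_injective _ h)

end keep

/-! ### the product -/

/-- the vertices `0, …, s` and the last one -/
def fr (s b : ℕ) : Fin (s + 2) → Fin (s + b + 2) :=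
  fun i => ⟨if (i : ℕ) ≤ s then i else s + b + 1, by have := i.2; split_ifs <;> omega⟩

/-- the vertices `s, s + 1, …` -/
def bk (s b : ℕ) : Fin (b + 2) → Fin (s + b + 2) := fun i => ⟨s + i, by have := i.2; omega⟩

theorem fr_last (s b : ℕ) : fr s b (Fin.last (s + 1)) = Fin.last (s + b + 1) := by
  apply Fin.ext
  simp [fr]

theorem fr_ne (s b : ℕ) (k : Fin (s + 2)) (hk : k ≠ Fin.last (s + 1)) :
    fr s b k ≠ Fin.last (s + b + 1) := by
  intro h
  have h1 := congrArg Fin.val h
  have h2 : (k : ℕ) ≠ s + 1 := fun h => hk (Fin.ext h)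
  have := k.2
  simp only [fr, Fin.val_last] at h1
  split_ifs at h1 <;> omega

theorem bk_last (s b : ℕ) : bk s b (Fin.last (b + 1)) = Fin.last (s + b + 1) := by
  apply Fin.ext
  simp [bk]
  omega

theorem bk_ne (s b : ℕ) (k : Fin (b + 2)) (hk : k ≠ Fin.last (b + 1)) :
    bk s b k ≠ Fin.last (s + b + 1) := by
  intro h
  have h1 := congrArg Fin.val h
  have h2 : (k : ℕ) ≠ b + 1 := fun h => hk (Fin.ext h)
  have := k.2
  simp only [bk, Fin.val_last] at h1
  omega

/-- The cup product of two cochains with coefficients. -/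
noncomputable def prd {s b : ℕ} (x : UC p (s + 1)) (w : UC p (b + 1)) : UC p (s + b + 1) :=
  UC.map (fr s b) x * UC.map (bk s b) w

section

variable {s b : ℕ} {B : Type} [CommRing B] [Algebra (ZMod p) B]

theorem prd_add_left (x x' : UC p (s + 1)) (w : UC p (b + 1)) :
    prd (x + x') w = prd x w + prd x' w := by
  rw [prd, prd, prd, map_add, add_mul]

theorem prd_sub_left (x x' : UC p (s + 1)) (w : UC p (b + 1)) :
    prd (x - x') w = prd x w - prd x' w := by
  rw [prd, prd, prd, map_sub, sub_mul]

theorem prd_smul_left (k : ZMod p) (x : UC p (s + 1)) (w : UC p (b + 1)) :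
    prd (k • x) w = k • prd x w := by
  rw [prd, prd, map_smul, smul_mul_assoc]

theorem prd_add_right (x : UC p (s + 1)) (w w' : UC p (b + 1)) :
    prd x (w + w') = prd x w + prd x w' := by
  rw [prd, prd, prd, map_add, mul_add]

theorem prd_sub_right (x : UC p (s + 1)) (w w' : UC p (b + 1)) :
    prd x (w - w') = prd x w - prd x w' := by
  rw [prd, prd, prd, map_sub, mul_sub]

theorem prd_neg_right (x : UC p (s + 1)) (w : UC p (b + 1)) :
    prd x (-w) = - prd x w := by
  rw [prd, prd, map_neg, mul_neg]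

theorem prd_one (x : UC p (s + 1)) : prd x (1 : UC p 1) = x := by
  rw [prd, map_one, mul_one]
  have : fr s 0 = id := by
    funext k
    apply Fin.ext
    have := k.2
    simp only [fr, id]
    split_ifs <;> omega
  rw [this, UC.map, UChain.res_id, UC.ev_univ]

theorem prd_InJ_left [Fact p.Prime] {x : UC p (s + 1)} (hx : InJ x) (w : UC p (b + 1)) :
    InJ (prd x w) := (UC.map_InJ _ hx).mul_right _

theorem prd_InJ_right [Fact p.Prime] (x : UC p (s + 1)) {w : UC p (b + 1)} (hw : InJ w) :
    InJ (prd x w) := (UC.map_InJ _ hw).mul_left _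

theorem prd_MH {x : UC p (s + 1)} {w : UC p (b + 1)} {e e' : ℕ →₀ ℕ}
    (hx : MH e x) (hw : MH e' w) : MH (e + e') (prd x w) :=
  (UC.map_MH _ hx).mul (UC.map_MH _ hw)

theorem prd_Dep [Fact p.Prime] {S : Finset (ℕ × ℕ)} (hS : Row S) {x : UC p (s + 1)}
    {w : UC p (b + 1)} (hx : Dep (ES S s) x) (hw : Dep (ES S b) w) :
    Dep (ES S (s + b)) (prd x w) := by
  rw [dep_iff]
  exact mul_mem (dep_iff.1 (dep_map_keep (fr s b) (fr_last s b) (fr_ne s b) hS hx))
    (dep_iff.1 (dep_map_keep (bk s b) (bk_last s b) (bk_ne s b) hS hw))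

theorem pderiv_prd [Fact p.Prime] {S : Finset (ℕ × ℕ)} {τ : ℕ × ℕ} (hS : Row S) (hτ : τ ∉ S)
    {x : UC p (s + 1)} {w : UC p (b + 1)} (hx : Dep (ES S s) x)
    (hw : Dep (ES (insert τ S) b) w) :
    pderiv (Fin.last (s + b), τ) (prd x w) = prd x (pderiv (Fin.last b, τ) w) := by
  rw [prd, prd, Derivation.leibniz, pderiv_map_keep (bk s b) (bk_last s b) (bk_ne s b) hS hτ hw,
    pderiv_map_keep (fr s b) (fr_last s b) (fr_ne s b) hS hτ
      (hx.mono (ES_mono (Finset.subset_insert _ _) _)), pderiv_eq_zero hτ hx, map_zero, smul_zero,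
    add_zero, smul_eq_mul]

theorem iter_prd [Fact p.Prime] {S : Finset (ℕ × ℕ)} {τ : ℕ × ℕ} (hS : Row S) (hτ : τ ∉ S)
    {x : UC p (s + 1)} {w : UC p (b + 1)} (hx : Dep (ES S s) x)
    (hw : Dep (ES (insert τ S) b) w) (k : ℕ) :
    (pderiv (Fin.last (s + b), τ))^[k] (prd x w) = prd x ((pderiv (Fin.last b, τ))^[k] w) := by
  induction k with
  | zero => rfl
  | succ k ih =>
    rw [Function.iterate_succ_apply', ih, Function.iterate_succ_apply',
      pderiv_prd hS hτ hx (hw.iterate_pderiv _ k)]

/-! ### values -/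

theorem vl_dE (x : UC p (s + 1)) (u : ℕ → Un B) :
    vl (dE s x) u = ∑ i ∈ Finset.range (s + 2), (-1 : B) ^ i * vl x (fun k => u (om i k)) := by
  rw [dE_apply, vl_sum, Finset.sum_range]
  refine Finset.sum_congr rfl fun i _ => ?_
  rw [vl_smul, Algebra.smul_def, map_pow, map_neg, map_one]
  congr 1
  apply vl_map
  intro k
  rw [dl, Fin.succAbove, om]
  simp only [Fin.lt_def, Fin.val_castSucc]
  split_ifs <;> rfl

theorem vl_prd (x : UC p (s + 1)) (w : UC p (b + 1)) (u : ℕ → Un B) :
    vl (prd x w) u = vl x (fun i => u (if i ≤ s then i else s + b + 1)) *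
      vl w (fun i => u (s + i)) := by
  rw [prd, vl_mul]
  congr 1
  · apply vl_map _ (fun i => if i ≤ s then i else s + b + 1)
    intro i
    rfl
  · apply vl_map _ (fun i => s + i)
    intro i
    rfl

/-- The Leibniz rule with coefficients, on values. -/
theorem vl_dE_prd (x : UC p (s + 1)) (w : UC p (b + 1)) (u : ℕ → Un B) :
    vl (dE (s + b) (prd x w)) u = vl (prd (dE s x) w) u +
      (-1 : B) ^ s * vl (prd x (dE b w)) u := by
  rw [vl_prd, vl_prd, vl_dE, vl_dE, vl_dE]
  have hc : ∀ i, vl (prd x w) (fun k => u (om i k)) =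
      vl x (fun k => u (om i (if k ≤ s then k else s + b + 1))) *
        vl w (fun k => u (om i (s + k))) := fun i => vl_prd _ _ _
  simp only [hc]
  have e1 : s + b + 2 = (s + 1) + (b + 1) := by omega
  rw [e1, Finset.sum_range_add, Finset.sum_range_succ _ (s + 1), Finset.sum_range_succ' _ (b + 1)]
  have hA : ∑ i ∈ Finset.range (s + 1), (-1 : B) ^ i *
      (vl x (fun k => u (om i (if k ≤ s then k else s + b + 1))) *
        vl w (fun k => u (om i (s + k)))) =
      (∑ i ∈ Finset.range (s + 1), (-1 : B) ^ i * vl x (fun k => u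
        (if om i k ≤ s + 1 then om i k else s + 1 + b + 1))) *
        vl w (fun k => u (s + 1 + k)) := by
    rw [Finset.sum_mul]
    refine Finset.sum_congr rfl fun i hi => ?_
    have hi := Finset.mem_range.1 hi
    have h1 : vl w (fun k => u (om i (s + k))) = vl w (fun k => u (s + 1 + k)) :=
      vl_congr _ fun k _ => by
        rw [om_ge (by omega)]
        congr 1
        omega
    have h2 : vl x (fun k => u (om i (if k ≤ s then k else s + b + 1))) =
        vl x (fun k => u (if om i k ≤ s + 1 then om i k else s + 1 + b + 1)) :=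
      vl_congr _ fun k _ => by
        congr 1
        rw [om, om]
        split_ifs <;> omega
    rw [h1, h2]
    ring
  have hB : ∑ i ∈ Finset.range (b + 1), (-1 : B) ^ (s + 1 + i) *
      (vl x (fun k => u (om (s + 1 + i) (if k ≤ s then k else s + b + 1))) *
        vl w (fun k => u (om (s + 1 + i) (s + k)))) =
      (-1 : B) ^ s * (vl x (fun k => u (if k ≤ s then k else s + (b + 1) + 1)) *
        ∑ i ∈ Finset.range (b + 1), (-1 : B) ^ (i + 1) *
        vl w (fun k => u (s + om (i + 1) k))) := by
    rw [Finset.mul_sum, Finset.mul_sum]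
    refine Finset.sum_congr rfl fun i hi => ?_
    have hi := Finset.mem_range.1 hi
    have h1 : vl x (fun k => u (om (s + 1 + i) (if k ≤ s then k else s + b + 1))) =
        vl x (fun k => u (if k ≤ s then k else s + (b + 1) + 1)) :=
      vl_congr _ fun k hk => by
        congr 1
        rw [om]
        split_ifs <;> omega
    have h2 : vl w (fun k => u (om (s + 1 + i) (s + k))) =
        vl w (fun k => u (s + om (i + 1) k)) :=
      vl_congr _ fun k _ => by
        congr 1
        rw [om, om]
        split_ifs <;> omega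
    rw [h1, h2]
    ring
  rw [hA, hB]
  have h3 : vl x (fun k => u (if om (s + 1) k ≤ s + 1 then om (s + 1) k else s + 1 + b + 1)) =
      vl x (fun k => u (if k ≤ s then k else s + (b + 1) + 1)) :=
    vl_congr _ fun k hk => by
      congr 1
      rw [om]
      split_ifs <;> omega
  have h4 : vl w (fun k => u (s + om 0 k)) = vl w (fun k => u (s + 1 + k)) :=
    vl_congr _ fun k _ => by
      rw [om_ge (by omega)]
      congr 1
      omega
  rw [h3, h4]
  ring

end

section

variable {s : ℕ}

theorem vl_neg_one_smul {n : ℕ} {B : Type} [CommRing B] [Algebra (ZMod p) B] (k : ℕ)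
    (x : UC p n) (u : ℕ → Un B) : vl (((-1 : ZMod p) ^ k) • x) u = (-1 : B) ^ k * vl x u := by
  rw [vl_smul, Algebra.smul_def, map_pow, map_neg, map_one]

/-- The Leibniz rule, degree `0` on the right. -/
theorem dE_prd_zero (x : UC p (s + 1)) (w : UC p (0 + 1)) :
    dE (s) (prd (s := s) (b := 0) x w) = (prd (s := s + 1) (b := 0) (dE s x) w +
      ((-1 : ZMod p) ^ s) • prd (s := s) (b := 1) x (dE 0 w) : UC p (s + 2)) := by
  apply ext_vl
  intro B _ _ u
  rw [vl_add, vl_neg_one_smul]
  exact vl_dE_prd (b := 0) x w u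

/-- The Leibniz rule, degree `1` on the right. -/
theorem dE_prd_one (x : UC p (s + 1)) (w : UC p (1 + 1)) :
    dE (s + 1) (prd (s := s) (b := 1) x w) = (prd (s := s + 1) (b := 1) (dE s x) w +
      ((-1 : ZMod p) ^ s) • prd (s := s) (b := 2) x (dE 1 w) : UC p (s + 3)) := by
  apply ext_vl
  intro B _ _ u
  rw [vl_add, vl_neg_one_smul]
  exact vl_dE_prd (b := 1) x w u

/-- The Leibniz rule, degree `2` on the right. -/
theorem dE_prd_two (x : UC p (s + 1)) (w : UC p (2 + 1)) :
    dE (s + 2) (prd (s := s) (b := 2) x w) = (prd (s := s + 1) (b := 2) (dE s x) w +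
      ((-1 : ZMod p) ^ s) • prd (s := s) (b := 3) x (dE 2 w) : UC p (s + 4)) := by
  apply ext_vl
  intro B _ _ u
  rw [vl_add, vl_neg_one_smul]
  exact vl_dE_prd (b := 2) x w u

/-- The differential with the last vertex fixed is the full differential up to the last face. -/
theorem dE_eq_d (x : UC p (s + 1)) :
    dE s x = UC.d (s + 1) x - ((-1 : ZMod p) ^ (s + 2)) • UC.map Fin.castSucc x := by
  rw [dE_apply, UC.d_apply, Fin.sum_univ_castSucc (n := s + 2), Fin.val_last]
  have h1 : ((Fin.last (s + 2)).succAbove : Fin (s + 2) → Fin (s + 3)) = Fin.castSucc := by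
    funext k
    exact Fin.succAbove_last_apply k
  rw [h1, add_sub_cancel_right]
  rfl

/-- Products of cochains with constant coefficients. -/
theorem prd_castSucc {b : ℕ} (x : UC p s) (w : UC p b) :
    (prd (UC.map Fin.castSucc x : UC p (s + 1)) (UC.map Fin.castSucc w : UC p (b + 1)) :
      UC p (s + b + 1)) = UC.map Fin.castSucc (UC.cup rfl x w : UC p (s + b)) := by
  apply ext_vl
  intro B _ _ u
  rw [vl_prd, vl_map (n := s + b + 1) Fin.castSucc (fun i => i) (fun _ => rfl), vl_cup,
    vl_map (n := s + 1) Fin.castSucc (fun i => i) (fun _ => rfl),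
    vl_map (n := b + 1) Fin.castSucc (fun i => i) (fun _ => rfl)]
  congr 1
  apply vl_congr
  intro i hi
  rw [if_pos hi]

end

end Vale.Agent.P257.V4.A.MG
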