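import Vale.Agent.P257.V4.A.Uniq
import Vale.Agent.P257.V4.A.Prd
import Vale.Agent.P257.V4.A.F4Coch

/-!
# P257, V(4), part A: division by `h` and by `b_{10}` at the end of a product

* `h_div`: if `c ∪ [t_{i,i+1}]` is a coboundary modulo `J` then so is the cocycle `c`;
* `u_div`: if `c ∪ uu` is a coboundary modulo `J` then so is the cocycle `c`.

Both hold under vanishing conditions for coefficients in the comodule of the letter. The cochain
`c ∪ w`, read with its last vertex as coefficient variable, is its own primitive.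
-/

namespace Vale.Agent.P257.V4.A.MG

open MvPolynomial _root_.Vale.Agent.P257.V4.A.UV _root_.Vale.Agent.P257.V4.A.F4C

variable {p : ℕ}

theorem prd_eq_cup {n b : ℕ} (c : UC p n) (w : UC p (b + 1)) :
    (prd (UC.map Fin.castSucc c : UC p (n + 1)) w : UC p (n + b + 1)) =
      UC.cup (show n + (b + 1) = n + b + 1 by omega) c w := by
  apply ext_vl
  intro B _ _ u
  rw [vl_prd, vl_cup, vl_map (n := n + 1) Fin.castSucc (fun i => i) (fun _ => rfl)]
  congr 1
  apply vl_congr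
  intro i hi
  rw [if_pos hi]

theorem row_empty : Row ∅ := fun _ _ _ h => absurd h (Finset.notMem_empty _)

theorem row_single (i : ℕ) : Row (insert (i, 0) (∅ : Finset (ℕ × ℕ))) := by
  intro a k k' h hk
  rw [insert_empty_eq, Finset.mem_singleton, Prod.mk.injEq] at h
  omega

section

variable [Fact p.Prime]

omit [Fact p.Prime] in
theorem dep_const {n : ℕ} (S : Finset (ℕ × ℕ)) (c : UC p n) :
    Dep (ES S n) (UC.map Fin.castSucc c : UC p (n + 1)) := by
  rw [map_castSucc_eq]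
  exact (dep_rename c).mono (ES_mono (Finset.empty_subset _) _)

theorem cup_Dep {n b m : ℕ} (h : n + (b + 1) = m + 1) {S : Finset (ℕ × ℕ)} (hS : Row S)
    (c : UC p n) {w : UC p (b + 1)} (hw : Dep (ES S b) w) : Dep (ES S m) (UC.cup h c w) := by
  obtain rfl : m = n + b := by omega
  rw [← prd_eq_cup]
  exact prd_Dep hS (dep_const S c) hw

theorem pderiv_cup {n b m : ℕ} (h : n + (b + 1) = m + 1) {S : Finset (ℕ × ℕ)} (hS : Row S)
    {τ : ℕ × ℕ} (hτ : τ ∉ S) (c : UC p n) {w : UC p (b + 1)} (hw : Dep (ES (insert τ S) b) w) :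
    pderiv (Fin.last m, τ) (UC.cup h c w) = UC.cup h c (pderiv (Fin.last b, τ) w) := by
  obtain rfl : m = n + b := by omega
  rw [← prd_eq_cup, ← prd_eq_cup]
  exact pderiv_prd hS hτ (dep_const S c) hw

theorem iter_cup {n b m : ℕ} (h : n + (b + 1) = m + 1) {S : Finset (ℕ × ℕ)} (hS : Row S)
    {τ : ℕ × ℕ} (hτ : τ ∉ S) (c : UC p n) {w : UC p (b + 1)} (hw : Dep (ES (insert τ S) b) w)
    (k : ℕ) : (pderiv (Fin.last m, τ))^[k] (UC.cup h c w) =
      UC.cup h c ((pderiv (Fin.last b, τ))^[k] w) := by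
  obtain rfl : m = n + b := by omega
  rw [← prd_eq_cup, ← prd_eq_cup]
  exact iter_prd hS hτ (dep_const S c) hw k

omit [Fact p.Prime] in
theorem cup_one_eq {n : ℕ} (h : n + (0 + 1) = n + 1) (c : UC p n) :
    UC.cup h c (1 : UC p (0 + 1)) = UC.map Fin.castSucc c := by
  apply ext_vl
  intro B _ _ u
  rw [vl_cup, vl_one, mul_one, vl_map (n := n + 1) Fin.castSucc (fun i => i) (fun _ => rfl)]

/-- If a cochain with last vertex as coefficient variable is compared with a constant one. -/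
theorem cyc_self {n : ℕ} {e : ℕ →₀ ℕ} {S : Finset (ℕ × ℕ)} {w : UC p (n + 1)}
    (hw : MH e w) (hD : Dep (ES S n) w) (hdw : InJ (UC.d (n + 1) w)) {f : UC p n} (hf : MH e f)
    (h : InJ (w - UC.d n f)) :
    Cyc S n e (w + ((-1 : ZMod p) ^ (n + 2)) • (UC.map Fin.castSucc f : UC p (n + 1))) where
  dep := by
    refine hD.add (Dep.smul ?_ _)
    rw [map_castSucc_eq]
    exact (dep_rename f).mono (ES_mono (Finset.empty_subset _) _)
  mh := hw.add ((UC.map_MH _ hf).smul _)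
  inJ := by
    rw [map_add, map_smul, dE_castSucc, dE_eq_d]
    have h1 : UC.d (n + 1) w - (-1 : ZMod p) ^ (n + 2) • (UC.map Fin.castSucc w : UC p (n + 2)) +
        (-1 : ZMod p) ^ (n + 2) • (UC.map Fin.castSucc (UC.d n f) : UC p (n + 2)) =
        UC.d (n + 1) w - (-1 : ZMod p) ^ (n + 2) •
          (UC.map Fin.castSucc (w - UC.d n f) : UC p (n + 2)) := by
      rw [map_sub, smul_sub]
      ring
    rw [h1]
    exact hdw.sub ((UC.map_InJ _ h).smul _)

/-- from coefficients to constants -/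
theorem exists_of_bd {n : ℕ} {e : ℕ →₀ ℕ} {c : UC p (n + 1)}
    (h : Bd ∅ (n + 1) e (UC.map Fin.castSucc c : UC p (n + 2))) :
    ∃ y : UC p n, MH e y ∧ InJ (c - UC.d n y) := by
  obtain ⟨g, hg1, hg2, hg3⟩ := h
  obtain ⟨y, rfl⟩ := exists_rename hg1
  refine ⟨y, MH_of_rename hg2, ?_⟩
  apply InJ_of_rename
  rw [← map_castSucc_eq, map_sub, ← dE_castSucc, map_castSucc_eq y]
  exact hg3

/-- **Division by `h`.** -/
theorem h_div {n i : ℕ} {e : ℕ →₀ ℕ} {c : UC p (n + 1)} (hc : MH e c)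
    (hdc : InJ (UC.d (n + 1) c)) {f : UC p (n + 1)} (hf : MH (e + itv i 0) f)
    (h : InJ (UC.cup (show n + 1 + (0 + 1) = n + 1 + 1 from rfl) c (tl p i 0) -
      UC.d (n + 1) f))
    (v0 : V p (insert (i, 0) ∅) (n + 1) (e + itv i 0))
    (v1 : ∀ e1, e = e1 + itv i 0 → V p (insert (i, 0) ∅) n e1)
    (v2 : ∀ t, n = t + 1 → ∀ e2, e = e2 + p • itv i 0 → V p ∅ t e2) :
    ∃ y : UC p n, MH e y ∧ InJ (c - UC.d n y) := by
  have hτ : ((i, 0) : ℕ × ℕ) ∉ (∅ : Finset (ℕ × ℕ)) := Finset.notMem_empty _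
  have hxD : Dep (ES (insert (i, 0) ∅) 0) (tl p i 0) := by
    rw [dep_iff]
    refine X_mem_supported.2 ?_
    intro _
    exact Finset.mem_insert_self _ _
  have hw : MH (e + itv i 0) (UC.cup (show n + 1 + (0 + 1) = n + 1 + 1 from rfl) c
      (tl p i 0)) := UC.cup_MH _ hc (MH.X _)
  have hwD := cup_Dep (show n + 1 + (0 + 1) = n + 1 + 1 from rfl) (row_single i) c hxD
  have hdw : InJ (UC.d (n + 1 + 1) (UC.cup (show n + 1 + (0 + 1) = n + 1 + 1 from rfl) c
      (tl p i 0))) := by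
    rw [UV.d_cup]
    have h0 : UC.d (0 + 1) (tl p i 0) = 0 := d_tl i
    rw [h0]
    exact (UC.cup_InJ_left _ hdc _).add (InJ.smul (UC.cup_InJ_right _ _ InJ.zero) _)
  have hz := cyc_self hw hwD hdw hf h
  obtain ⟨β, b1, b2, b3⟩ := v0 _ hz.dep hz.mh hz.inJ
  have hpd : pderiv (Fin.last (n + 1), (i, 0)) (UC.cup
      (show n + 1 + (0 + 1) = n + 1 + 1 from rfl) c (tl p i 0)) = UC.map Fin.castSucc c := by
    rw [pderiv_cup (show n + 1 + (0 + 1) = n + 1 + 1 from rfl) row_empty hτ c hxD]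
    have : pderiv (Fin.last 0, (i, 0)) (tl p i 0) = 1 := pderiv_X_self _
    rw [this, cup_one_eq]
  have hpf : pderiv (Fin.last (n + 1), (i, 0)) (UC.map Fin.castSucc f : UC p (n + 1 + 1)) = 0 :=
    pderiv_eq_zero hτ (dep_const ∅ f)
  have hb := InJ_pderiv (Fin.last (n + 1), (i, 0)) b3
  rw [map_sub, map_add, Derivation.map_smul, hpf, hpd, smul_zero, add_zero,
    pderiv_dE row_empty hτ b1] at hb
  have hB : Bd (insert (i, 0) ∅) (n + 1) e (UC.map Fin.castSucc c : UC p (n + 2)) :=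
    ⟨_, b1.pderiv _, MH_pderiv (Fin.last n, (i, 0)) b2 rfl, hb⟩
  by_cases hle : itv i 0 ≤ e
  · obtain ⟨e1, he1⟩ : ∃ e1, e = e1 + itv i 0 := ⟨e - itv i 0, (tsub_add_cancel_of_le hle).symm⟩
    refine exists_of_bd (bd_of_insert (τ := (i, 0)) row_empty (row_single i) hτ he1 ?_ ?_
      (dep_const ∅ c) hB)
    · intro t ht
      obtain rfl : t = n := by omega
      exact v1 _ he1
    · intro t ht e2 he2
      exact v2 t (by omega) e2 he2
  · refine exists_of_bd (bd_of_pderiv (τ := (i, 0)) (b1.pderiv _)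
      (MH_pderiv (Fin.last n, (i, 0)) b2 rfl) hb ?_)
    have h1 : pderiv (Fin.last n, (i, 0)) (pderiv (Fin.last n, (i, 0)) β) = 0 := by
      have := iter_eq_zero (Fin.last n, (i, 0)) 1
        (MH_pderiv (Fin.last n, (i, 0)) b2 rfl : MH e _) (by
          rw [one_smul]
          exact hle)
      exact this
    rw [h1]
    exact InJ.zero

/-! ### division by `b_{i,0}` -/

/-- the derivative of `Phi` in the second variable -/
theorem deriv_Phi {R : Type} [CommRing R] [Algebra (ZMod p) R] (D : Derivation (ZMod p) R R)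
    {x y : R} (hx : D x = 0) (hy : D y = 1) :
    D (Ch.Phi p x y) = (x + y) ^ (p - 1) - y ^ (p - 1) := by
  have hp : p.Prime := Fact.out
  obtain ⟨m, hm⟩ : ∃ m, p = m + 1 := ⟨p - 1, by have := hp.pos; omega⟩
  have hterm : ∀ j ∈ Finset.Ioo 0 p, D (((p.choose j / p : ℕ) : ℤ) • (x ^ j * y ^ (p - j))) =
      x ^ j * y ^ (m - j) * (m.choose j : ℕ) := by
    intro j hj
    rw [Finset.mem_Ioo] at hj
    have h1 : p * (p.choose j / p) = p.choose j :=
      Nat.mul_div_cancel' (hp.dvd_choose_self (by omega) hj.2)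
    have h2 := Nat.choose_mul_succ_eq m j
    rw [← hm, ← h1] at h2
    have h3 : p.choose j / p * (p - j) = m.choose j := by
      apply Nat.eq_of_mul_eq_mul_left hp.pos
      rw [← mul_assoc, ← h2, mul_comm]
    obtain ⟨c, hc⟩ : ∃ c, c = p.choose j / p := ⟨_, rfl⟩
    rw [← hc] at h3 ⊢
    rw [map_zsmul, Derivation.leibniz, Derivation.leibniz_pow, Derivation.leibniz_pow, hx, hy,
      smul_zero, smul_zero, smul_zero, add_zero, smul_eq_mul, smul_eq_mul, mul_one, nsmul_eq_mul,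
      zsmul_eq_mul, ← h3]
    have h4 : p - j - 1 = m - j := by omega
    rw [h4, Nat.cast_mul, Int.cast_natCast]
    ring
  unfold Ch.Phi
  rw [map_sum, Finset.sum_congr rfl hterm]
  have h5 : (x + y) ^ (p - 1) = ∑ j ∈ Finset.range p, x ^ j * y ^ (m - j) * (m.choose j : ℕ) := by
    have : p - 1 = m := by omega
    rw [this, add_pow, ← hm]
  rw [h5]
  have h6 : Finset.Ioo 0 p = (Finset.range p).erase 0 := by
    ext j
    simp only [Finset.mem_Ioo, Finset.mem_erase, Finset.mem_range]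
    omega
  have h7 : (0 : ℕ) ∈ Finset.range p := Finset.mem_range.2 hp.pos
  rw [h6, ← Finset.add_sum_erase _ _ h7, pow_zero, one_mul, Nat.choose_zero_right, Nat.cast_one,
    mul_one, Nat.sub_zero]
  have : p - 1 = m := by omega
  rw [this]
  ring

omit [Fact p.Prime] in
theorem fr_tl (i : ℕ) : F4C.fr (tl p i 0) = X (0, (i, 0)) := by
  apply ext_vl
  intro B _ _ u
  rw [vl_fr, vl_tl, vl_X]
  rfl

theorem ba_tl (i : ℕ) : F4C.ba (tl p i 0) = X (1, (i, 0)) - X (0, (i, 0)) := by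
  apply ext_vl
  intro B _ _ u
  rw [vl_ba, vl_tl, vl_sub, vl_X, vl_X]
  have h := en_one i (u 0) (u 1) (u 2)
  change en i 1 (u 1) (u 2) = en i 1 (u 0) (u 2) - en i 1 (u 0) (u 1)
  rw [h]
  ring

/-- the cocycle `b_{i,0}` -/
noncomputable def ui (p i : ℕ) : UC p 2 := Ch.Phi p (F4C.fr (tl p i 0)) (F4C.ba (tl p i 0))

omit [Fact p.Prime] in
theorem ui_zero : ui p 0 = uu p := rfl

theorem d_ui (i : ℕ) : UC.d 2 (ui p i) = 0 := by
  have hv : ∀ {B : Type} [CommRing B] [Algebra (ZMod p) B] (u : ℕ → Un B),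
      vl (ui p i) u = Ch.Phi p (en i 1 (u 0) (u 1)) (en i 1 (u 1) (u 2)) := by
    intro B _ _ u
    rw [ui, vl_Phi, vl_fr, vl_ba, vl_tl, vl_tl]
  apply ext_vl
  intro B _ _ u
  rw [vl_d2, hv, hv, hv, hv, vl_zero]
  change Ch.Phi p (en i 1 (u 1) (u 2)) (en i 1 (u 2) (u 3)) -
    Ch.Phi p (en i 1 (u 0) (u 2)) (en i 1 (u 2) (u 3)) +
    Ch.Phi p (en i 1 (u 0) (u 1)) (en i 1 (u 1) (u 3)) -
    Ch.Phi p (en i 1 (u 0) (u 1)) (en i 1 (u 1) (u 2)) = 0
  rw [en_one i (u 0) (u 1) (u 2), en_one i (u 1) (u 2) (u 3), add_comm (en i 1 (u 1) (u 2)),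
    add_comm (en i 1 (u 2) (u 3))]
  exact Ch.Phi_cocycle _ _ _

omit [Fact p.Prime] in
theorem Phi_MH {n : ℕ} {e : ℕ →₀ ℕ} {x y : UC p n} (hx : MH e x) (hy : MH e y) :
    MH (p • e) (Ch.Phi p x y) := by
  unfold Ch.Phi
  refine MH.sum fun j hj => ?_
  rw [Finset.mem_Ioo] at hj
  rw [← Int.cast_smul_eq_zsmul (ZMod p)]
  refine MH.smul ?_ _
  have h := (hx.pow j).mul (hy.pow (p - j))
  rwa [← add_smul, Nat.add_sub_cancel' hj.2.le] at h

omit [Fact p.Prime] in
theorem ui_MH (i : ℕ) : MH (p • itv i 0) (ui p i) :=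
  Phi_MH (UC.map_MH _ (MH.X _)) (UC.map_MH _ (MH.X _))

theorem ui_Dep (i : ℕ) : Dep (ES (insert (i, 0) ∅) 1) (ui p i) := by
  have h1 : ((1 : Fin 2), ((i, 0) : ℕ × ℕ)) ∈ ES (insert (i, 0) ∅) 1 :=
    fun _ => Finset.mem_insert_self _ _
  have h0 : ((0 : Fin 2), ((i, 0) : ℕ × ℕ)) ∈ ES (insert (i, 0) ∅) 1 := fun h => by
    exact absurd h (show (0 : Fin 2) ≠ Fin.last 1 by decide)
  rw [ui, fr_tl, ba_tl, dep_iff, Ch.Phi]
  refine sum_mem fun j _ => zsmul_mem (mul_mem (pow_mem (X_mem_supported.2 h0) _)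
    (pow_mem (sub_mem (X_mem_supported.2 h1) (X_mem_supported.2 h0)) _)) _

theorem pderiv_ui (i : ℕ) : pderiv (Fin.last 1, (i, 0)) (ui p i) =
    - dE 0 ((tl p i 0) ^ (p - 1)) := by
  have h1 : pderiv (Fin.last 1, (i, 0)) (F4C.fr (tl p i 0)) = 0 := by
    rw [fr_tl]
    refine pderiv_X_of_ne ?_
    intro h
    exact (show (0 : Fin 2) ≠ Fin.last 1 by decide) (congrArg Prod.fst h)
  have h2 : pderiv (Fin.last 1, (i, 0)) (F4C.ba (tl p i 0)) = 1 := by
    rw [ba_tl, map_sub]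
    have h3 : pderiv (Fin.last 1, (i, 0)) (X (0, (i, 0)) : UC p 2) = 0 := by
      rw [← fr_tl]
      exact h1
    have h4 : pderiv (Fin.last 1, (i, 0)) (X (1, (i, 0)) : UC p 2) = 1 := pderiv_X_self _
    rw [h3, h4, sub_zero]
  rw [ui, deriv_Phi _ h1 h2]
  apply ext_vl
  intro B _ _ u
  rw [vl_neg, vl_dE, vl_sub, vl_pow, vl_pow, vl_add, vl_fr, vl_ba, vl_tl, vl_tl,
    Finset.sum_range_succ, Finset.sum_range_one]
  simp only [vl_pow, vl_tl]
  have h := en_one i (u 0) (u 1) (u 2)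
  change (en i 1 (u 0) (u 1) + en i 1 (u 1) (u 2)) ^ (p - 1) - en i 1 (u 1) (u 2) ^ (p - 1) =
    -((-1) ^ 0 * en i 1 (u 1) (u 2) ^ (p - 1) + (-1) ^ 1 * en i 1 (u 0) (u 2) ^ (p - 1))
  rw [h]
  ring

theorem dE_cup {n : ℕ} (c : UC p n) (w : UC p (0 + 1)) :
    dE n (UC.cup (show n + (0 + 1) = n + 1 from rfl) c w) =
      prd (s := n + 1) (b := 0) (UC.map Fin.castSucc (UC.d n c)) w +
        ((-1 : ZMod p) ^ n) • UC.cup (show n + (1 + 1) = n + 1 + 1 from rfl) c (dE 0 w) := by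
  have h := dE_prd_zero (s := n) (UC.map Fin.castSucc c) w
  rw [dE_castSucc] at h
  exact (congrArg (dE n) (prd_eq_cup c w)).symm.trans (h.trans (congrArg
    (fun z => prd (s := n + 1) (b := 0) (UC.map Fin.castSucc (UC.d n c)) w +
      ((-1 : ZMod p) ^ n) • z) (prd_eq_cup c (dE 0 w))))

omit [Fact p.Prime] in
theorem tl_MH (i : ℕ) : MH (itv i 0) (tl p i 0) := MH.X _

omit [Fact p.Prime] in
theorem tl_pow_MH (i k : ℕ) : MH (k • itv i 0) ((tl p i 0) ^ k) := (tl_MH i).pow k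

/-- **Division by `b_{i,0}`.** -/
theorem u_div {n i : ℕ} {e : ℕ →₀ ℕ} {c : UC p (n + 1)} (hc : MH e c)
    (hdc : InJ (UC.d (n + 1) c)) {f : UC p (n + 2)} (hf : MH (e + p • itv i 0) f)
    (h : InJ (UC.cup (show n + 1 + (1 + 1) = n + 2 + 1 from rfl) c (ui p i) -
      UC.d (n + 2) f))
    (v0 : V p (insert (i, 0) ∅) (n + 2) (e + p • itv i 0))
    (v1 : V p (insert (i, 0) ∅) (n + 1) (e + (p - 1) • itv i 0)) :
    ∃ y : UC p n, MH e y ∧ InJ (c - UC.d n y) := by
  have hp : p.Prime := Fact.out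
  have hp1 : p - 1 + 1 = p := Nat.sub_add_cancel hp.one_le
  have hτ : ((i, 0) : ℕ × ℕ) ∉ (∅ : Finset (ℕ × ℕ)) := Finset.notMem_empty _
  have hw : MH (e + p • itv i 0) (UC.cup (show n + 1 + (1 + 1) = n + 2 + 1 from rfl) c
      (ui p i)) := UC.cup_MH _ hc (ui_MH i)
  have hwD := cup_Dep (show n + 1 + (1 + 1) = n + 2 + 1 from rfl) (row_single i) c (ui_Dep i)
  have hdw : InJ (UC.d (n + 2 + 1) (UC.cup (show n + 1 + (1 + 1) = n + 2 + 1 from rfl) c
      (ui p i))) := by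
    rw [UV.d_cup]
    have h0 : UC.d (1 + 1) (ui p i) = 0 := d_ui i
    rw [h0]
    exact (UC.cup_InJ_left _ hdc _).add (InJ.smul (UC.cup_InJ_right _ _ InJ.zero) _)
  have hz := cyc_self hw hwD hdw hf h
  obtain ⟨β, b1, b2, b3⟩ := v0 _ hz.dep hz.mh hz.inJ
  -- the cochain `γ = c ∪ t^(p-1)`
  have hxD : Dep (ES (insert (i, 0) ∅) 0) (tl p i 0) := by
    rw [dep_iff]
    refine X_mem_supported.2 ?_
    intro _
    exact Finset.mem_insert_self _ _
  have hgD : Dep (ES (insert (i, 0) ∅) 0) ((tl p i 0) ^ (p - 1)) := by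
    rw [dep_iff]
    exact pow_mem (dep_iff.1 hxD) _
  obtain ⟨γ, hγ⟩ : ∃ γ, γ = UC.cup (show n + 1 + (0 + 1) = n + 1 + 1 from rfl) c
    ((tl p i 0) ^ (p - 1)) := ⟨_, rfl⟩
  have hγD : Dep (ES (insert (i, 0) ∅) (n + 1)) γ := by
    rw [hγ]
    exact cup_Dep _ (row_single i) c hgD
  have hγM : MH (e + (p - 1) • itv i 0) γ := by
    rw [hγ]
    exact UC.cup_MH _ hc (tl_pow_MH i (p - 1))
  -- its differential
  have hdγ : InJ (dE (n + 1) γ - ((-1 : ZMod p) ^ (n + 1)) •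
      UC.cup (show n + 1 + (1 + 1) = n + 2 + 1 from rfl) c (dE 0 ((tl p i 0) ^ (p - 1)))) := by
    rw [hγ, dE_cup, add_sub_cancel_right]
    exact prd_InJ_left (UC.map_InJ _ hdc) _
  have hpd : pderiv (Fin.last (n + 2), (i, 0)) (UC.cup
      (show n + 1 + (1 + 1) = n + 2 + 1 from rfl) c (ui p i)) =
      - UC.cup (show n + 1 + (1 + 1) = n + 2 + 1 from rfl) c (dE 0 ((tl p i 0) ^ (p - 1))) := by
    rw [pderiv_cup (show n + 1 + (1 + 1) = n + 2 + 1 from rfl) row_empty hτ c (ui_Dep i),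
      pderiv_ui, UC.cup, map_neg, mul_neg]
    rfl
  have hpf : pderiv (Fin.last (n + 2), (i, 0)) (UC.map Fin.castSucc f : UC p (n + 2 + 1)) = 0 :=
    pderiv_eq_zero hτ (dep_const ∅ f)
  have hb := InJ_pderiv (Fin.last (n + 2), (i, 0)) b3
  rw [map_sub, map_add, Derivation.map_smul, hpf, hpd, smul_zero, add_zero,
    pderiv_dE row_empty hτ b1] at hb
  -- the cocycle `∂β + (-1)^(n+1) γ`
  have hcoc : InJ (dE (n + 1) (pderiv (Fin.last (n + 1), (i, 0)) β +
      ((-1 : ZMod p) ^ (n + 1)) • γ)) := by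
    have h1 := (hdγ.smul ((-1 : ZMod p) ^ (n + 1))).sub hb
    rw [smul_sub, smul_smul, ← mul_pow, neg_one_mul, neg_neg, one_pow, one_smul] at h1
    rw [map_add, map_smul]
    refine (congrArg InJ ?_).mp h1
    abel
  have hMp : MH (e + (p - 1) • itv i 0) (pderiv (Fin.last (n + 1), (i, 0)) β) :=
    MH_pderiv (Fin.last (n + 1), (i, 0)) b2 (by
      rw [add_assoc]
      congr 1
      change p • itv i 0 = (p - 1) • itv i 0 + itv i 0
      rw [← succ_nsmul, hp1])
  obtain ⟨δ, d1, d2, d3⟩ := v1 _ ((b1.pderiv _).add (hγD.smul _)) (hMp.add (hγM.smul _)) hcoc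
  -- the `(p-1)`-st derivative
  have h8 := InJ_iter (Fin.last (n + 1), (i, 0)) (p - 1) d3
  have hsplit : ∀ (k : ℕ) (a b : UC p (n + 1 + 1)), (pderiv (Fin.last (n + 1), (i, 0)))^[k]
      (a + b) = (pderiv (Fin.last (n + 1), (i, 0)))^[k] a +
        (pderiv (Fin.last (n + 1), (i, 0)))^[k] b := by
    intro k a b
    induction k with
    | zero => rfl
    | succ k ih => rw [Function.iterate_succ_apply', ih, map_add, Function.iterate_succ_apply',
        Function.iterate_succ_apply']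
  have hsmul : ∀ (k : ℕ) (r : ZMod p) (a : UC p (n + 1 + 1)),
      (pderiv (Fin.last (n + 1), (i, 0)))^[k] (r • a) =
        r • (pderiv (Fin.last (n + 1), (i, 0)))^[k] a := by
    intro k r a
    induction k with
    | zero => rfl
    | succ k ih => rw [Function.iterate_succ_apply', ih, Derivation.map_smul,
        Function.iterate_succ_apply']
  rw [iter_sub, hsplit, hsmul, iter_dE row_empty hτ _ d1, ← Function.iterate_succ_apply,
    Function.iterate_succ_apply', pderiv_iter, zero_add, hγ,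
    iter_cup (show n + 1 + (0 + 1) = n + 1 + 1 from rfl) row_empty hτ c hgD] at h8
  have hfac : (pderiv (Fin.last 0, (i, 0)))^[p - 1] ((tl p i 0) ^ (p - 1)) =
      (Nat.factorial (p - 1) : ZMod p) • (1 : UC p (0 + 1)) := by
    have h1 := iter_X_pow (p := p) (s := 1) (Fin.last 0, (i, 0)) (p - 1) (g := 1)
      (Derivation.map_one_eq_zero _)
    rw [mul_one] at h1
    exact h1
  have hne : ((-1 : ZMod p) ^ (n + 1)) * (Nat.factorial (p - 1) : ZMod p) ≠ 0 := by
    refine mul_ne_zero (pow_ne_zero _ (neg_ne_zero.2 one_ne_zero)) ?_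
    intro h0
    rw [ZMod.natCast_eq_zero_iff, hp.dvd_factorial] at h0
    have := hp.pos
    omega
  have hcup : UC.cup (show n + 1 + (0 + 1) = n + 1 + 1 from rfl) c
      ((Nat.factorial (p - 1) : ZMod p) • (1 : UC p (0 + 1))) =
      (Nat.factorial (p - 1) : ZMod p) • (UC.map Fin.castSucc c : UC p (n + 1 + 1)) := by
    rw [← cup_one_eq (show n + 1 + (0 + 1) = n + 1 + 1 from rfl), UC.cup, UC.cup, map_smul,
      mul_smul_comm]
  rw [hfac, hcup, smul_smul] at h8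
  have h9 := h8.smul ((((-1 : ZMod p) ^ (n + 1)) * (Nat.factorial (p - 1) : ZMod p))⁻¹)
  rw [smul_sub, smul_smul, inv_mul_cancel₀ hne, one_smul, ← map_smul] at h9
  refine exists_of_bd (bd_of_pderiv (τ := (i, 0)) ((d1.iterate_pderiv _ _).smul _)
    ((MH_iter (Fin.last n, (i, 0)) (p - 1) d2 rfl).smul _) h9 ?_)
  rw [Derivation.map_smul, pderiv_iter, smul_zero]
  exact InJ.zero

end

end Vale.Agent.P257.V4.A.MG
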