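import Vale.Agent.P257.V4.A.Lead
import Vale.Agent.P257.V4.A.HDivU
import Vale.Agent.P257.V4.A.F3V
import Vale.Agent.P257.V4.A.G3
import Vale.Agent.P257.V4.A.F4XY
import Vale.Agent.P257.V4.A.F4U2

/-!
# P257, V(4), part A: block F3

`Ch.Van p 5 (2 * p ^ 2 + 3 * p + 3)`. The only multidegree which is not reducible is
`e1 = (p+3, p+2, 1)`, with the cochain `X = g3 ∪ b_{20}`; the leading form of its coboundary is
`g3 ∪ t_{23} ∪ b_{10}`.
-/

namespace Vale.Agent.P257.V4.A.F3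

open MvPolynomial _root_.Vale.Agent.P257.V4.A.UV _root_.Vale.Agent.P257.V4.A.F4C MG

variable {p : ℕ}

/-- the multidegree of the leading form -/
noncomputable def e2 (p : ℕ) : ℕ →₀ ℕ :=
  Finsupp.single 0 (p + 3) + Finsupp.single 1 2 + Finsupp.single 2 2

/-- the level -/
noncomputable abbrev W1 : (ℕ →₀ ℕ) →+ ℕ := Finsupp.weight fun _ : ℕ => 1

theorem W1_single (k a : ℕ) : W1 (Finsupp.single k a) = a := by
  rw [W1, Finsupp.weight_single, smul_eq_mul, mul_one]

theorem W1_e1 (p : ℕ) : W1 (F3V.e1 p) = 2 * p + 6 := by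
  rw [F3V.e1, map_add, map_add, W1_single, W1_single, W1_single]
  ring

theorem W1_e2 (p : ℕ) : W1 (e2 p) = p + 7 := by
  rw [e2, map_add, map_add, W1_single, W1_single, W1_single]

theorem e2_apply (k : ℕ) : e2 p k =
    if k = 0 then p + 3 else if k = 1 then 2 else if k = 2 then 2 else 0 := by
  rw [e2, Finsupp.add_apply, Finsupp.add_apply, Finsupp.single_apply, Finsupp.single_apply,
    Finsupp.single_apply]
  split_ifs <;> omega

/-! ### no monomials -/

theorem V_of_isMo [Fact p.Prime] {S : Finset (ℕ × ℕ)} (hS : Row S) {s : ℕ} {e : ℕ →₀ ℕ}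
    (h : ∀ H B, ¬ IsMo p S s e H B) : V p S s e := by
  obtain ⟨L, hL⟩ := exists_letters e
  refine V_of_noMo L _ S s e hS hL le_rfl ?_
  rintro ⟨H, B, hHB⟩
  exact h H B hHB

/-- no monomials without the letter `(0,0)` -/
theorem noMo_zero (hp : 0 < p) {s : ℕ} {e : ℕ →₀ ℕ} (he : ∀ k, 3 ≤ k → e k = 0)
    (h : e 1 < e 0) (H : Finset (ℕ × ℕ)) (B : (ℕ × ℕ) →₀ ℕ) :
    ¬ IsMo p (insert (0, 0) ∅) s e H B := by
  intro hM
  have h1 := hM.notMem
  have h2 := hM.eq_zero
  obtain ⟨-, -, h00, h01, h02, h10, h11, h20, e00, e01, e02, e10, e11, e20, hs, h3, h4, h5⟩ :=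
    F4.isMo_coord hp he hM.of_insert
  rw [if_neg h1] at e00
  rw [e00, h2] at h3
  have h6 : p * (0 + B (0, 1) + B (0, 2)) ≤ p * (B (0, 1) + B (0, 2) + B (1, 0) + B (1, 1)) :=
    Nat.mul_le_mul_left _ (by omega)
  omega

/-- no monomials of degree `3` and multidegree `(3,2,2)` without the letter `(2,0)` -/
theorem noMo_two (hp : 3 < p) {e : ℕ →₀ ℕ} (he : ∀ k, 3 ≤ k → e k = 0)
    (h0 : e 0 = 3) (h1 : e 1 = 2) (h2 : e 2 = 2) (H : Finset (ℕ × ℕ)) (B : (ℕ × ℕ) →₀ ℕ) :
    ¬ IsMo p (insert (2, 0) ∅) 3 e H B := by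
  intro hM
  have k1 := hM.notMem
  have k2 := hM.eq_zero
  obtain ⟨-, -, h00, h01, h02, h10, h11, h20, e00, e01, e02, e10, e11, e20, hs, h3, h4, h5⟩ :=
    F4.isMo_coord (by omega) he hM.of_insert
  have l00 : h00 ≤ 1 := by rw [e00]; split_ifs <;> omega
  have l01 : h01 ≤ 1 := by rw [e01]; split_ifs <;> omega
  have l02 : h02 ≤ 1 := by rw [e02]; split_ifs <;> omega
  rw [if_neg k1] at e20
  have a0 : B (0, 0) + B (0, 1) + B (0, 2) = 0 := by
    by_contra hne
    have : p * 1 ≤ p * (B (0, 0) + B (0, 1) + B (0, 2)) := Nat.mul_le_mul_left _ (by omega)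
    omega
  have a1 : B (0, 1) + B (0, 2) + B (1, 0) + B (1, 1) = 0 := by
    by_contra hne
    have : p * 1 ≤ p * (B (0, 1) + B (0, 2) + B (1, 0) + B (1, 1)) :=
      Nat.mul_le_mul_left _ (by omega)
    omega
  have a2 : B (0, 2) + B (1, 1) + B (2, 0) = 0 := by omega
  rw [a0, mul_zero] at h3
  rw [a1, mul_zero] at h4
  rw [a2, mul_zero] at h5
  omega

/-- no monomials of degree `2` and multidegree `(3,…)` -/
theorem noMo_three (hp : 3 < p) {e : ℕ →₀ ℕ} (he : ∀ k, 3 ≤ k → e k = 0)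
    (h0 : e 0 = 3) (H : Finset (ℕ × ℕ)) (B : (ℕ × ℕ) →₀ ℕ) :
    ¬ IsMo p (insert (2, 0) ∅) 2 e H B := by
  intro hM
  obtain ⟨-, -, h00, h01, h02, h10, h11, h20, e00, e01, e02, e10, e11, e20, hs, h3, h4, h5⟩ :=
    F4.isMo_coord (by omega) he hM.of_insert
  have a0 : B (0, 0) + B (0, 1) + B (0, 2) = 0 := by
    by_contra hne
    have : p * 1 ≤ p * (B (0, 0) + B (0, 1) + B (0, 2)) := Nat.mul_le_mul_left _ (by omega)
    omega
  rw [a0, mul_zero] at h3
  omega

/-! ### uniqueness of the monomial at `e1` -/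

theorem mono_of_isMo {s : ℕ} {e : ℕ →₀ ℕ} {H : Finset (ℕ × ℕ)} {B : (ℕ × ℕ) →₀ ℕ}
    (h : IsMo p ∅ s e H B) :
    (⟨H.map ⟨Prod.swap, Prod.swap_injective⟩, B.mapDomain Prod.swap⟩ : ML.Mono).s = s ∧
    ∀ k, (⟨H.map ⟨Prod.swap, Prod.swap_injective⟩, B.mapDomain Prod.swap⟩ : ML.Mono).e p k =
      e k := by
  classical
  obtain ⟨-, -, h3, h4⟩ := h
  constructor
  · rw [← h3]
    unfold ML.Mono.s ML.Mono.nb
    rw [Finset.card_map, Finsupp.sum_mapDomain_index (fun _ => rfl) (fun _ _ _ => rfl)]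
  · intro k
    rw [← h4]
    unfold ML.Mono.e ML.Mono.hcov ML.Mono.bcov
    rw [Finsupp.add_apply, Finsupp.smul_apply, smul_eq_mul]
    congr 1
    · rw [Finset.filter_map, Finset.card_map, Finset.card_filter, Finsupp.finsetSum_apply]
      refine Finset.sum_congr rfl fun x _ => ?_
      rw [itv_apply]
      rfl
    · congr 1
      rw [Finsupp.sum_mapDomain_index (fun _ => by simp) (fun _ _ _ => by split_ifs <;> rfl),
        Finsupp.sum, Finsupp.sum, Finsupp.finsetSum_apply]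
      refine Finset.sum_congr rfl fun x _ => ?_
      rw [Finsupp.smul_apply, itv_apply, smul_eq_mul]
      dsimp only [Prod.fst_swap, Prod.snd_swap]
      split_ifs <;> simp

theorem mo1_e1 (hp : 11 ≤ p) : Mo1 p ∅ 5 (F3V.e1 p) := by
  classical
  intro H B H' B' h h'
  obtain ⟨a1, a2⟩ := mono_of_isMo h
  obtain ⟨b1, b2⟩ := mono_of_isMo h'
  have h1 := (F3V.eq_m1 hp a1 a2).trans (F3V.eq_m1 hp b1 b2).symm
  rw [ML.Mono.mk.injEq] at h1
  refine ⟨Finset.map_injective _ h1.1, Finsupp.mapDomain_injective Prod.swap_injective h1.2⟩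

/-! ### the cochains -/

/-- the cochain `g3 ∪ b_{20}` -/
noncomputable def X (p : ℕ) : UC p 5 := UC.cup (show 3 + 2 = 5 from rfl) (G3.g3 p) (BB p)

/-- the leading part of the coboundary of `X` -/
noncomputable def R (p : ℕ) : UC p 6 :=
  UC.cup (show 4 + 2 = 6 from rfl) (UC.cup (show 3 + 1 = 4 from rfl) (G3.g3 p) (tt p)) (uu p)

/-- the other part of the coboundary of `X` -/
noncomputable def R' (p : ℕ) : UC p 6 :=
  UC.cup (show 5 + 1 = 6 from rfl) (UC.cup (show 3 + 2 = 5 from rfl) (G3.g3 p) (u1 p)) (ta p)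

theorem MH_X : MH (F3V.e1 p) (X p) := by
  have h := UC.cup_MH (show 3 + 2 = 5 from rfl) (G3.MH_g3 (p := p)) MH_BB
  refine (congrArg (fun e => MH e (X p)) ?_).mp h
  ext k
  simp only [F3V.e1, G3.eG, Finsupp.add_apply, Finsupp.single_apply]
  split_ifs <;> omega

theorem MH_R : MH (e2 p) (R p) := by
  have h := UC.cup_MH (show 4 + 2 = 6 from rfl)
    (UC.cup_MH (show 3 + 1 = 4 from rfl) (G3.MH_g3 (p := p)) MH_tt) MH_uu
  refine (congrArg (fun e => MH e (R p)) ?_).mp h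
  ext k
  simp only [e2, G3.eG, Finsupp.add_apply, Finsupp.single_apply]
  split_ifs <;> omega

theorem MH_R' : MH (G3.eG + Finsupp.single 1 p + Finsupp.single 1 1) (R' p) :=
  UC.cup_MH _ (UC.cup_MH _ G3.MH_g3 MH_u1) MH_ta

variable [Fact p.Prime]

theorem d_X : Ch.d 5 (phi p 5 (X p)) = phi p 6 (R p - R' p) := by
  rw [← phi_d]
  refine phi_ext fun B _ _ u hu => ?_
  have h1 : UC.d 5 (X p) = - UC.cup (show 3 + 3 = 6 from rfl) (G3.g3 p) (UC.d 2 (BB p)) := by
    rw [X, d_cup_odd (by decide), G3.d_g3]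
    apply ext_vl
    intro B _ _ u
    simp only [vl_sub, vl_neg, vl_cup, vl_zero]
    ring
  rw [h1, R, R']
  simp only [vl_sub, vl_neg, vl_cup, vl_dBB hu, Nat.reduceAdd]
  ring

/-- the leading form does not bound -/
theorem no_bound (hp : 11 ≤ p) (f : UC p 5) (hf : MH (e2 p) f) (h : InJ (R p - UC.d 5 f)) :
    False := by
  have hcc : MH (G3.eG + Finsupp.single 2 1) (UC.cup (show 3 + 1 = 4 from rfl) (G3.g3 p) (tt p)) :=
    UC.cup_MH _ G3.MH_g3 MH_tt
  have hi0 : itv 0 0 = Finsupp.single 0 1 := G3.itv0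
  have hi2 : itv 2 0 = Finsupp.single 2 1 := by simp [itv]
  have hdc : UC.d 4 (UC.cup (show 3 + 1 = 4 from rfl) (G3.g3 p) (tt p)) = 0 := by
    rw [d_cup_odd (by decide), G3.d_g3, d_tt]
    apply ext_vl
    intro B _ _ u
    simp only [vl_sub, vl_cup, vl_zero]
    ring
  have he2 : G3.eG + Finsupp.single 2 1 + p • itv 0 0 = e2 p := by
    rw [hi0]
    ext k
    simp only [e2, G3.eG, Finsupp.add_apply, Finsupp.smul_apply, Finsupp.single_apply,
      smul_eq_mul]
    split_ifs <;> omega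
  obtain ⟨y, y1, y2⟩ := u_div (n := 3) (i := 0) (e := G3.eG + Finsupp.single 2 1)
    (c := UC.cup (show 3 + 1 = 4 from rfl) (G3.g3 p) (tt p)) hcc
    (by rw [hdc]; exact InJ.zero) (f := f) (by rw [he2]; exact hf) h
    (V_of_isMo (row_single 0) (noMo_zero (by omega) (fun k hk => by
      rw [he2, e2_apply, if_neg (by omega), if_neg (by omega), if_neg (by omega)]) (by
      rw [he2, e2_apply, e2_apply, if_pos rfl, if_neg (by decide), if_pos rfl]
      omega)))
    (V_of_isMo (row_single 0) (noMo_zero (by omega) (fun k hk => by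
      rw [hi0]
      simp only [G3.eG, Finsupp.add_apply, Finsupp.smul_apply, Finsupp.single_apply, smul_eq_mul]
      split_ifs <;> omega) (by
      rw [hi0]
      simp only [G3.eG, Finsupp.add_apply, Finsupp.smul_apply, Finsupp.single_apply, smul_eq_mul]
      norm_num
      omega)))
  obtain ⟨z, z1, z2⟩ := h_div (n := 2) (i := 2) (e := G3.eG) (c := G3.g3 p) G3.MH_g3
    (by rw [G3.d_g3]; exact InJ.zero) (f := y) (by rw [hi2]; exact y1) y2
    (V_of_isMo (row_single 2) (noMo_two (by omega) (fun k hk => by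
      rw [hi2]
      simp only [G3.eG, Finsupp.add_apply, Finsupp.single_apply]
      split_ifs <;> omega) (by rw [hi2]; simp [G3.eG]) (by rw [hi2]; simp [G3.eG])
      (by rw [hi2]; simp [G3.eG])))
    (fun e1 he1 => V_of_isMo (row_single 2) (noMo_three (by omega) (fun k hk => by
      have := DFunLike.congr_fun he1 k
      simp only [G3.eG, Finsupp.add_apply, Finsupp.single_apply] at this
      split_ifs at this <;> omega) (by
      have := DFunLike.congr_fun he1 0
      rw [hi2] at this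
      simpa [G3.eG] using this.symm)))
    (fun t _ e2 he2 => by
      have := DFunLike.congr_fun he2 2
      rw [hi2] at this
      simp [G3.eG] at this
      omega)
  have h1 := G3.not_bd_g3 (by omega) (1 : ZMod p) z (by rwa [one_smul])
  exact one_ne_zero h1

/-- **Block F3.** -/
theorem f3 (hp : 11 ≤ p) : Ch.Van p 5 (2 * p ^ 2 + 3 * p + 3) := by
  have hW : IsLevel p W1 := isLevel_degree (by omega)
  have hne : G3.eG + Finsupp.single 1 p + Finsupp.single 1 1 ≠ e2 p := by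
    intro h
    have := DFunLike.congr_fun h 2
    rw [e2_apply] at this
    simp [G3.eG] at this
  have hWR' : W1 (G3.eG + Finsupp.single 1 p + Finsupp.single 1 1) ≤ W1 (e2 p) := by
    rw [W1_e2, G3.eG, map_add, map_add, map_add, map_add, W1_single, W1_single, W1_single,
      W1_single, W1_single]
    omega
  have hR : Sup (fun e => W1 e ≤ W1 (e2 p)) (R p) := sup_of_MH MH_R le_rfl
  have hR' : Sup (fun e => W1 e ≤ W1 (e2 p)) (R' p) := sup_of_MH MH_R' hWR'
  refine van_of_lead (s := 4) hW (e₁ := F3V.e1 p) (e₂ := e2 p) (F3V.wtE_e1 p)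
    (by rw [W1_e1, W1_e2]; omega)
    (fun e he h => red_of_vanA hW he (F3V.van5 hp e he h)) (mo1_e1 hp) (X := X p)
    (sup_of_MH MH_X (F3V.wtE_e1 p)) (sup_of_MH MH_X le_rfl) (ξ := R p - R' p)
    (hR.sub hR') d_X ?_
  intro f hf hb
  rw [map_sub, comp_of_MH MH_R, comp_of_MH_ne MH_R' hne, sub_zero] at hb
  exact no_bound hp f hf hb

end Vale.Agent.P257.V4.A.F3
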