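import Vale.Agent.P257.V4.A.F4Coch
import Mathlib.Tactic.LinearCombination

/-!
# P257, part A, block F4: multidegrees of the explicit cochains, multiplication by `t_23`

`dot z` is the product of `z` with `t_23` of the edge from the first to the last vertex.
-/

namespace Vale.Agent.P257.V4.A.F4C

open MvPolynomial Finset _root_.Vale.Agent.P257.V4.A.UV

variable {p : ℕ} {s a b n : ℕ}

/-! ### multidegrees -/

theorem MH.zsmul' {e : ℕ →₀ ℕ} {x : UC p s} (hx : MH e x) (k : ℤ) : MH e (k • x) := by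
  rw [← Int.cast_smul_eq_zsmul (ZMod p)]
  exact hx.smul _

theorem MH_Phi {e : ℕ →₀ ℕ} {x y : UC p s} (hx : MH e x) (hy : MH e y) :
    MH (p • e) (Ch.Phi p x y) := by
  unfold Ch.Phi
  refine MH.sum fun j hj => MH.zsmul' ?_ _
  rw [Finset.mem_Ioo] at hj
  have h : p • e = j • e + (p - j) • e := by
    rw [← add_smul, Nat.add_sub_cancel' hj.2.le]
  rw [h]
  exact (hx.pow _).mul (hy.pow _)

theorem itw_one (i : ℕ) : itw i 1 = Finsupp.single i 1 := by
  simp [itw]

theorem itw_two (i : ℕ) : itw i 2 = Finsupp.single i 1 + Finsupp.single (i + 1) 1 := by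
  simp [itw, Finset.sum_range_succ]

theorem MH_tl (i k : ℕ) : MH (itw i (k + 1)) (tl p i k) := MH.X (0, (i, k))

theorem MH_tl0 (i : ℕ) : MH (Finsupp.single i 1) (tl p i 0) := by
  have := MH_tl (p := p) i 0
  rwa [zero_add, itw_one] at this

theorem MH_ta : MH (Finsupp.single 1 1) (ta p) := MH_tl0 1
theorem MH_tt : MH (Finsupp.single 2 1) (tt p) := MH_tl0 2

theorem MH_ka : MH (Finsupp.single 1 1 + Finsupp.single 2 1) (ka p) := by
  have := MH_tl (p := p) 1 1
  rwa [show 1 + 1 = 2 from rfl, itw_two] at this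

theorem MH_hp : MH (Finsupp.single 1 1 + Finsupp.single 2 1) (hp p) :=
  (MH_ta.mul MH_tt).sub MH_ka

theorem MH_fr {e : ℕ →₀ ℕ} {x : UC p 1} (hx : MH e x) : MH e (fr x) := UC.map_MH _ hx
theorem MH_ba {e : ℕ →₀ ℕ} {x : UC p 1} (hx : MH e x) : MH e (ba x) := UC.map_MH _ hx

theorem MH_uu : MH (Finsupp.single 0 p) (uu p) := by
  have := MH_Phi (MH_fr (MH_tl0 (p := p) 0)) (MH_ba (MH_tl0 (p := p) 0))
  rwa [Finsupp.smul_single, smul_eq_mul, mul_one] at this

theorem MH_u1 : MH (Finsupp.single 1 p) (u1 p) := by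
  have := MH_Phi (MH_fr (MH_tl0 (p := p) 1)) (MH_ba (MH_tl0 (p := p) 1))
  rwa [Finsupp.smul_single, smul_eq_mul, mul_one] at this

theorem MH_BB : MH (Finsupp.single 0 p + Finsupp.single 1 p) (BB p) := by
  have h2 : MH (Finsupp.single 0 1 + Finsupp.single 1 1) (tl p 0 1) := by
    have := MH_tl (p := p) 0 1
    rwa [show 1 + 1 = 2 from rfl, itw_two] at this
  have h3 : MH (Finsupp.single 0 1 + Finsupp.single 1 1) (ba (tl p 0 0) * fr (tl p 1 0)) :=
    (MH_ba (MH_tl0 0)).mul (MH_fr (MH_tl0 1))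
  have := (MH_Phi (MH_fr h2) h3).add (MH_Phi ((MH_fr h2).add h3) (MH_ba h2))
  rw [smul_add, Finsupp.smul_single, Finsupp.smul_single, smul_eq_mul, mul_one] at this
  exact this

/-! ### `dot` -/

/-- multiplication by `t_23` of the edge from the first to the last vertex -/
noncomputable def dot (z : UC p s) : UC p s :=
  UC.map (fun i : Fin (1 + 1) => if (i : ℕ) = 0 then (0 : Fin (s + 1)) else Fin.last s) (tt p) * z

theorem MH_dot {e : ℕ →₀ ℕ} {z : UC p s} (hz : MH e z) : MH (Finsupp.single 2 1 + e) (dot z) :=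
  (UC.map_MH _ MH_tt).mul hz

theorem vl_dot {B : Type} [CommRing B] [Algebra (ZMod p) B] (z : UC p s) (u : ℕ → Un B) :
    vl (dot z) u = en 2 1 (u 0) (u s) * vl z u := by
  rw [dot, vl_mul, vl_map _ (fun i => if i = 0 then 0 else s), vl_tt]
  · rfl
  · intro i
    split_ifs <;> rfl

theorem dot_add (x y : UC p s) : dot (x + y) = dot x + dot y := mul_add _ _ _
theorem dot_sub (x y : UC p s) : dot (x - y) = dot x - dot y := mul_sub _ _ _
theorem dot_neg (x : UC p s) : dot (-x) = - dot x := mul_neg _ _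

/-- `dot` is a derivation. -/
theorem dot_cup (h : a + b = n) (x : UC p a) (y : UC p b) :
    dot (UC.cup h x y) = UC.cup h (dot x) y + UC.cup h x (dot y) := by
  subst h
  apply ext_vl
  intro B _ _ u
  rw [vl_add, vl_dot, vl_cup, vl_cup, vl_cup, vl_dot, vl_dot, en_one 2 (u 0) (u a) (u (a + b))]
  simp only [add_zero]
  ring

theorem dot_ta : dot (ta p) = ka p + hp p := by
  apply ext_vl
  intro B _ _ u
  rw [vl_dot, vl_add, vl_ta, vl_ka, vl_hp]
  ring

/-- The differential of `dot z`. -/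
theorem d_dot (z : UC p s) :
    UC.d s (dot z) = - UC.cup (show 1 + s = s + 1 by omega) (tt p) z +
      ((-1 : ZMod p) ^ s) • UC.cup rfl z (tt p) + dot (UC.d s z) := by
  apply ext_vl
  intro B _ _ u
  rw [vl_add, vl_add, vl_neg, vl_smul, vl_cup, vl_cup, vl_d, vl_dot, vl_d, vl_tt, vl_tt,
    Algebra.smul_def, map_pow, map_neg, map_one]
  simp only [vl_dot]
  rw [Finset.sum_range_succ, Finset.sum_range_succ', Finset.sum_range_succ _ (s + 1),
    Finset.sum_range_succ' _ s]
  have e1 : ∀ j ∈ range s, (-1 : B) ^ (j + 1) * (en 2 1 (u (om (j + 1) 0)) (u (om (j + 1) s)) *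
      vl z (fun k => u (om (j + 1) k))) = en 2 1 (u 0) (u (s + 1)) *
      ((-1 : B) ^ (j + 1) * vl z (fun k => u (om (j + 1) k))) := by
    intro j hj
    rw [mem_range] at hj
    rw [om_lt (by omega), om_ge (by omega)]
    ring
  rw [Finset.sum_congr rfl e1, ← Finset.mul_sum]
  have e2 : vl z (fun k => u (om (s + 1) k)) = vl z u := vl_congr _ fun i hi => by
    rw [om_lt (by omega)]
  have e3 : (fun k => u (om 0 k)) = fun k => u (1 + k) := by
    funext k
    rw [om_ge (by omega), add_comm]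
  rw [e2, e3, om_ge (Nat.zero_le 0), om_ge (Nat.zero_le s), om_lt (show 0 < s + 1 by omega),
    om_lt (show s < s + 1 by omega)]
  have c1 := en_one 2 (u 0) (u 1) (u (s + 1))
  have c2 := en_one 2 (u 0) (u s) (u (s + 1))
  generalize ∑ j ∈ range s, (-1 : B) ^ (j + 1) * vl z (fun k => u (om (j + 1) k)) = S
  simp only [pow_zero, zero_add, pow_succ, Nat.add_zero]
  linear_combination (-(vl z fun k => u (1 + k))) * c1 + (-1 : B) ^ s * (vl z u) * c2

theorem d_dot_odd (hs : Odd s) (z : UC p s) :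
    UC.d s (dot z) = - UC.cup (show 1 + s = s + 1 by omega) (tt p) z -
      UC.cup rfl z (tt p) + dot (UC.d s z) := by
  rw [d_dot, hs.neg_one_pow, neg_smul, one_smul, ← sub_eq_add_neg]

theorem d_dot_even (hs : Even s) (z : UC p s) :
    UC.d s (dot z) = - UC.cup (show 1 + s = s + 1 by omega) (tt p) z +
      UC.cup rfl z (tt p) + dot (UC.d s z) := by
  rw [d_dot, hs.neg_one_pow, one_smul]

theorem d_cup_odd (ha : Odd a) (h : a + b = n) (x : UC p a) (y : UC p b) :
    UC.d n (UC.cup h x y) = UC.cup (show (a + 1) + b = n + 1 by omega) (UC.d a x) y -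
      UC.cup (show a + (b + 1) = n + 1 by omega) x (UC.d b y) := by
  rw [d_cup, ha.neg_one_pow, neg_smul, one_smul, ← sub_eq_add_neg]

theorem d_cup_even (ha : Even a) (h : a + b = n) (x : UC p a) (y : UC p b) :
    UC.d n (UC.cup h x y) = UC.cup (show (a + 1) + b = n + 1 by omega) (UC.d a x) y +
      UC.cup (show a + (b + 1) = n + 1 by omega) x (UC.d b y) := by
  rw [d_cup, ha.neg_one_pow, one_smul]

end Vale.Agent.P257.V4.A.F4C
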