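import Vale.Agent.P257.V4.A.DivideC
import Vale.Agent.P257.V4.A.F4Dot

/-!
# P257, V(4): the cochains `b_{10}`, `b_{20}` and the division lemma for two terms
-/

namespace Vale.Agent.P257.V4.A.DV

open MvPolynomial MG F4C

variable {p : ℕ} [Fact p.Prime] {S : Finset (ℕ × ℕ)} {τ : ℕ × ℕ}

/-! ### the derivative of `Phi` -/

theorem deriv_Phi {n : ℕ} (D : Derivation (ZMod p) (UC p n) (UC p n)) (x y : UC p n)
    (hx : D x = 0) :
    D (Ch.Phi p x y) = ((x + y) ^ (p - 1) - y ^ (p - 1)) * D y := by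
  have hp := (Fact.out : p.Prime)
  obtain ⟨q, hq⟩ : ∃ q, p = q + 1 := ⟨p - 1, by have := hp.pos; omega⟩
  have hq1 : p - 1 = q := by omega
  have h1 : ∀ j ∈ Finset.Ioo 0 p, D (((p.choose j / p : ℕ) : ℤ) • (x ^ j * y ^ (p - j))) =
      x ^ j * y ^ (q - j) * ((q.choose j : ℕ) : UC p n) * D y := by
    intro j hj
    rw [Finset.mem_Ioo] at hj
    have hd : p ∣ p.choose j := Nat.Prime.dvd_choose_self hp (by omega) hj.2
    have hc : (p.choose j / p) * (p - j) = q.choose j := by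
      apply Nat.eq_of_mul_eq_mul_left hp.pos
      rw [← mul_assoc, Nat.mul_div_cancel' hd]
      have h := Nat.choose_mul_succ_eq q j
      rw [← hq] at h
      rw [← h, mul_comm]
    have hD : D (x ^ j * y ^ (p - j)) = ((p - j : ℕ) : UC p n) * (x ^ j * y ^ (q - j) * D y) := by
      rw [Derivation.leibniz, Derivation.leibniz_pow, Derivation.leibniz_pow, hx, smul_zero,
        smul_zero, smul_zero, add_zero, nsmul_eq_mul, smul_eq_mul, smul_eq_mul]
      have : p - j - 1 = q - j := by omega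
      rw [this]
      ring
    rw [map_zsmul, hD, zsmul_eq_mul, ← mul_assoc, Int.cast_natCast, ← Nat.cast_mul, hc]
    ring
  rw [Ch.Phi, map_sum, Finset.sum_congr rfl h1, ← Finset.sum_mul, hq1]
  congr 1
  rw [add_pow, Finset.sum_range_succ']
  simp only [pow_zero, one_mul, Nat.sub_zero, Nat.choose_zero_right, Nat.cast_one, mul_one]
  rw [add_sub_cancel_right]
  refine Finset.sum_bij' (fun j _ => j - 1) (fun j _ => j + 1) ?_ ?_ ?_ ?_ ?_
  · intro j hj
    rw [Finset.mem_Ioo] at hj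
    rw [Finset.mem_range]
    omega
  · intro j hj
    rw [Finset.mem_range] at hj
    rw [Finset.mem_Ioo]
    omega
  · intro j hj
    rw [Finset.mem_Ioo] at hj
    omega
  · intro j hj
    omega
  · intro j hj
    rw [Finset.mem_Ioo] at hj
    have : j - 1 + 1 = j := by omega
    rw [this]

theorem Phi_mem {R : Type} [CommRing R] [Algebra (ZMod p) R] (K : Subalgebra (ZMod p) R) {x y : R}
    (hx : x ∈ K) (hy : y ∈ K) : Ch.Phi p x y ∈ K :=
  sum_mem fun _ _ => zsmul_mem (mul_mem (pow_mem hx _) (pow_mem hy _)) _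

/-! ### first and last edge -/

omit [Fact p.Prime] in
theorem fr_eq_cst (x : UC p 1) : fr x = cst x := rfl

theorem lst_ba : Lst (Ch.back (by omega : 1 ≤ 2) : Fin (0 + 2) → Fin (1 + 2)) := by
  constructor
  · rfl
  · decide

theorem dep_ba (hS : Row S) {x : UC p 1} (hx : Dep (ES S 0) x) : Dep (ES S 1) (ba x) :=
  dep_mapL hS lst_ba hx

theorem dep_tl {i k : ℕ} (h : (i, k) ∈ S) : Dep (ES S 0) (tl p i k) := by
  rw [dep_iff]
  exact X_mem_supported.2 fun _ => h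

omit [Fact p.Prime] in
theorem pderiv_fr (x : UC p 1) : pderiv ((1 : Fin 2), τ) (fr x) = 0 := by
  rw [fr_eq_cst]
  exact pderiv_eq_zero (Finset.notMem_empty τ) (dep_cst x)

omit [Fact p.Prime] in
theorem pderiv_ba (hS : Row S) (hτ : τ ∉ S) {x : UC p 1} (hx : Dep (ES (insert τ S) 0) x) :
    pderiv ((1 : Fin 2), τ) (ba x) = ba (pderiv ((0 : Fin 1), τ) x) :=
  pderiv_mapL hS hτ lst_ba hx

theorem dE_zero_eq (x : UC p 1) : dE 0 x = ba x - UC.map (dl 1) x := by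
  apply UV.ext_vl
  intro B _ _ u
  rw [vl_dE, UV.vl_sub, vl_ba, UV.vl_map (dl 1) (UV.om 1) (by
    intro i
    fin_cases i <;> rfl), Finset.sum_range_succ, Finset.sum_range_one]
  have : UV.vl x (fun k => u (UV.om 0 k)) = UV.vl x (fun k => u (1 + k)) :=
    UV.vl_congr _ fun k _ => by
      rw [UV.om_ge (Nat.zero_le _)]
      congr 1
      omega
  rw [this]
  ring

omit [Fact p.Prime] in
theorem map_dl_tl_zero : (UC.map (dl 1) (tl p 0 0) : UC p 2) = fr (tl p 0 0) + ba (tl p 0 0) := by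
  apply UV.ext_vl
  intro B _ _ u
  rw [UV.vl_map (dl 1) (UV.om 1) (by
    intro i
    fin_cases i <;> rfl), UV.vl_add, vl_fr, vl_ba, vl_tl, vl_tl, vl_tl]
  change en 0 1 (u 0) (u 2) = en 0 1 (u 0) (u 1) + en 0 1 (u 1) (u 2)
  rw [en_one 0 (u 0) (u 1) (u 2)]
  ring

omit [Fact p.Prime] in
theorem map_dl_tl_one : (UC.map (dl 1) (tl p 0 1) : UC p 2) =
    fr (tl p 0 1) + ba (tl p 0 0) * fr (tl p 1 0) + ba (tl p 0 1) := by
  apply UV.ext_vl
  intro B _ _ u
  rw [UV.vl_map (dl 1) (UV.om 1) (by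
    intro i
    fin_cases i <;> rfl), UV.vl_add, UV.vl_add, UV.vl_mul, vl_fr, vl_fr, vl_ba, vl_ba, vl_tl,
    vl_tl, vl_tl, vl_tl, vl_tl]
  change en 0 2 (u 0) (u 2) = en 0 2 (u 0) (u 1) + en 0 1 (u 1) (u 2) * en 1 1 (u 0) (u 1) +
    en 0 2 (u 1) (u 2)
  rw [en_two 0 (u 0) (u 1) (u 2)]
  ring

omit [Fact p.Prime] in
theorem ba_pow (x : UC p 1) (k : ℕ) : ba (x ^ k) = ba x ^ k := map_pow _ _ _

omit [Fact p.Prime] in
theorem ba_one : ba (1 : UC p 1) = 1 := map_one _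

omit [Fact p.Prime] in
theorem ba_zero : ba (0 : UC p 1) = 0 := map_zero _

theorem row_empty : Row ∅ := fun _ _ _ h _ => absurd h (Finset.notMem_empty _)

theorem row_zero (i : ℕ) : Row (insert (i, 0) ∅) := by
  intro a b b' h hb
  rw [Finset.mem_insert, Prod.mk.injEq] at h
  rcases h with ⟨-, rfl⟩ | h
  · omega
  · exact absurd h (Finset.notMem_empty _)

theorem row_one (i : ℕ) : Row (insert (i, 1) (insert (i, 0) ∅)) := by
  intro a b b' h hb
  rw [Finset.mem_insert, Prod.mk.injEq] at h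
  rcases h with ⟨rfl, rfl⟩ | h
  · obtain rfl : b' = 0 := by omega
    exact Finset.mem_insert_of_mem (Finset.mem_insert_self _ _)
  · exact Finset.mem_insert_of_mem (row_zero i a b b' h hb)

/-- `b_{10}`. -/
theorem isB_uu : IsB p ∅ (0, 0) (uu p) where
  mh := by
    have h : p • itv (0, 0).1 (0, 0).2 = Finsupp.single 0 p := by
      simp [itv]
    rw [h]
    exact MH_uu
  dep := by
    rw [dep_iff, uu]
    refine Phi_mem _ (dep_iff.1 (dep_cst _)) (dep_iff.1 (dep_ba (row_zero 0) (dep_tl ?_)))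
    exact Finset.mem_insert_self _ _
  cocy := by
    rw [d_uu]
    exact InJ.zero
  der := by
    have h1 : pderiv ((1 : Fin 2), ((0 : ℕ), (0 : ℕ))) (uu p) =
        (fr (tl p 0 0) + ba (tl p 0 0)) ^ (p - 1) - ba (tl p 0 0) ^ (p - 1) := by
      rw [uu, deriv_Phi _ _ _ (pderiv_fr _), pderiv_ba row_empty (Finset.notMem_empty _)
        (dep_tl (Finset.mem_insert_self _ _)), pderiv_X_self, ba_one, mul_one]
    have h2 : dE 0 (X (Fin.last 0, ((0 : ℕ), (0 : ℕ))) ^ (p - 1) : UC p 1) =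
        ba (tl p 0 0) ^ (p - 1) - (fr (tl p 0 0) + ba (tl p 0 0)) ^ (p - 1) := by
      rw [dE_zero_eq, ba_pow, map_pow]
      change ba (tl p 0 0) ^ (p - 1) - (UC.map (dl 1) (tl p 0 0)) ^ (p - 1) = _
      rw [map_dl_tl_zero]
    change InJ (pderiv ((1 : Fin 2), ((0 : ℕ), (0 : ℕ))) (uu p) + _)
    rw [h1, h2, sub_add_sub_cancel, sub_self]
    exact InJ.zero

/-- `b_{20}`. -/
theorem isB_BB : IsB p (insert (0, 0) ∅) (0, 1) (BB p) where
  mh := by
    have h : p • itv (0, 1).1 (0, 1).2 = Finsupp.single 0 p + Finsupp.single 1 p := by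
      simp [itv, Finset.sum_range_succ]
    rw [h]
    exact MH_BB
  dep := by
    rw [dep_iff, BB]
    have h1 := dep_iff.1 (dep_ba (row_one 0) (dep_tl (p := p) (i := 0) (k := 1)
      (Finset.mem_insert_self _ _)))
    have h0 := dep_iff.1 (dep_ba (row_one 0) (dep_tl (p := p) (i := 0) (k := 0)
      (Finset.mem_insert_of_mem (Finset.mem_insert_self _ _))))
    have h2 : fr (tl p 0 1) ∈ supported (ZMod p) (ES (insert (0, 1) (insert (0, 0) ∅)) 1) :=
      dep_iff.1 (dep_cst _)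
    have h3 : fr (tl p 1 0) ∈ supported (ZMod p) (ES (insert (0, 1) (insert (0, 0) ∅)) 1) :=
      dep_iff.1 (dep_cst _)
    exact add_mem (Phi_mem _ h2 (mul_mem h0 h3)) (Phi_mem _ (add_mem h2 (mul_mem h0 h3)) h1)
  cocy := by
    rw [d_BB]
    have h1 : InJ (tl p 0 0 ^ p) := PJ.X_pow _ le_rfl
    have h2 : InJ (ta p ^ p) := PJ.X_pow _ le_rfl
    exact (UC.cup_InJ_right _ _ h1).sub (UC.cup_InJ_left _ h2 _)
  der := by
    have hτ : ((0 : ℕ), (1 : ℕ)) ∉ (insert ((0 : ℕ), (0 : ℕ)) ∅ : Finset (ℕ × ℕ)) := by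
      simp
    have hy : pderiv ((1 : Fin 2), ((0 : ℕ), (1 : ℕ))) (ba (tl p 0 0) * fr (tl p 1 0)) = 0 := by
      rw [Derivation.leibniz, pderiv_fr, smul_zero, zero_add, pderiv_ba (row_zero 0) hτ
        (dep_tl (Finset.mem_insert_of_mem (Finset.mem_insert_self _ _))), pderiv_X_of_ne, ba_zero,
        smul_zero]
      simp
    have h1 : pderiv ((1 : Fin 2), ((0 : ℕ), (1 : ℕ))) (BB p) =
        (fr (tl p 0 1) + ba (tl p 0 0) * fr (tl p 1 0) + ba (tl p 0 1)) ^ (p - 1) -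
          ba (tl p 0 1) ^ (p - 1) := by
      rw [BB, map_add, deriv_Phi _ _ _ (pderiv_fr _), hy, mul_zero, zero_add,
        deriv_Phi _ _ _ (by rw [map_add, pderiv_fr, hy, add_zero]), pderiv_ba (row_zero 0) hτ
        (dep_tl (Finset.mem_insert_self _ _)), pderiv_X_self, ba_one, mul_one]
    have h2 : dE 0 (X (Fin.last 0, ((0 : ℕ), (1 : ℕ))) ^ (p - 1) : UC p 1) =
        ba (tl p 0 1) ^ (p - 1) -
          (fr (tl p 0 1) + ba (tl p 0 0) * fr (tl p 1 0) + ba (tl p 0 1)) ^ (p - 1) := by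
      rw [dE_zero_eq, ba_pow, map_pow]
      change ba (tl p 0 1) ^ (p - 1) - (UC.map (dl 1) (tl p 0 1)) ^ (p - 1) = _
      rw [map_dl_tl_one]
    change InJ (pderiv ((1 : Fin 2), ((0 : ℕ), (1 : ℕ))) (BB p) + _)
    rw [h1, h2, sub_add_sub_cancel, sub_self]
    exact InJ.zero

/-! ### two terms -/

/-- Division by `b` of a coboundary which is a sum of two products. -/
theorem sum_desc (hS : Row S) (hS' : Row (insert τ S)) (hτ : τ ∉ S) {b : UC p 2}
    (hb : IsB p S τ b) {a1 b1 a2 b2 n : ℕ} (h1 : a1 + b1 = n) (h2 : a2 + b2 = n)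
    {c1 : UC p a1} {d1 : UC p b1} {c2 : UC p a2} {d2 : UC p b2}
    {ec1 ed1 ec2 ed2 e0 : ℕ →₀ ℕ} (hc1 : InJ (UC.d a1 c1)) (hd1 : InJ (UC.d b1 d1))
    (hc2 : InJ (UC.d a2 c2)) (hd2 : InJ (UC.d b2 d2))
    (mc1 : MH ec1 c1) (md1 : MH ed1 d1) (mc2 : MH ec2 c2) (md2 : MH ed2 d2)
    (he1 : ec1 + ed1 = e0) (he2 : ec2 + ed2 = e0)
    (hV1 : V p (insert τ S) (n + 1) (e0 + p • itv τ.1 τ.2))
    (hV2 : V p (insert τ S) n (e0 + (p - 1) • itv τ.1 τ.2)) (k1 k2 : ZMod p)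
    (H : Bd S (n + 2) (e0 + p • itv τ.1 τ.2) (UC.map Fin.castSucc
      (k1 • UC.cup (show (a1 + 2) + b1 = n + 2 by omega) (UC.cup (rfl : a1 + 2 = a1 + 2) c1 b) d1 +
       k2 • UC.cup (show (a2 + 2) + b2 = n + 2 by omega) (UC.cup (rfl : a2 + 2 = a2 + 2) c2 b) d2 :
        UC p (n + 2)))) :
    Bd S n e0 (UC.map Fin.castSucc (k1 • UC.cup h1 c1 d1 + k2 • UC.cup h2 c2 d2 : UC p n)) := by
  have hp1 : p - 1 + 1 = p := Nat.sub_add_cancel (Fact.out : p.Prime).one_le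
  have he : e0 + p • itv τ.1 τ.2 = e0 + (p - 1) • itv τ.1 τ.2 + itv τ.1 τ.2 := by
    rw [add_assoc, ← succ_nsmul, hp1]
  have r1 := rel_cup_cst hS hS' hτ hb h1 mc1 md1 hc1 hd1 he (by rw [he1])
  have r2 := rel_cup_cst hS hS' hτ hb h2 mc2 md2 hc2 hd2 he (by rw [he2])
  have r := (r1.smul k1).add (r2.smul k2)
  rw [← cst_smul, ← cst_smul, ← cst_smul, ← cst_smul, ← cst_add, ← cst_add] at r
  exact r.bd_of hS hτ he rfl H hV1 hV2

end Vale.Agent.P257.V4.A.DV
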