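import Vale.Agent.P257.V4.A.F4Of
import Vale.Agent.P257.V4.A.SumDiv

/-!
# P257, V(4), part A: F4, `Ext^7_P` vanishes in weight `3p² + 4p`
-/

namespace Vale.Agent.P257.V4.A.F4

/-- **F4**: `Ext^7_P = 0` in weight `3p² + 4p`, for every prime `p ≥ 11`. -/
theorem f4 {p : ℕ} [Fact p.Prime] (hp : 11 ≤ p) : Ch.Van p 7 (3 * p ^ 2 + 4 * p) :=
  f4_of hp DV.isB_uu DV.isB_BB

end Vale.Agent.P257.V4.A.F4
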