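import Vale.Agent.P257.V4.A.Chain
import Mathlib.Algebra.MvPolynomial.PDeriv

/-!
# P257 / V4, part A: the cochains `A`, `B`, `w`, `h` of F4 (helper110)

`sk k n a b` is the coefficient `k` of `g_b g_a⁻¹` on chains of length `n`.
-/

open MvPolynomial

namespace Vale.Agent.P257.V4.A.F4A

open Ch H

variable {p : ℕ} [Fact p.Prime]

/-! ### edges -/

variable (p) in
/-- the coefficient `k` of the edge from `a` to `b` -/
noncomputable def sk (k n : ℕ) (a b : Fin (n + 1)) : Ch p n :=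
  ((univ p n).g b * ((univ p n).g a)⁻¹).a k

theorem ev_sk {B : Type} [CommRing B] [Algebra (ZMod p) B] {n : ℕ} (c : Chain p n B) (k : ℕ)
    (a b : Fin (n + 1)) : ev c (sk p k n a b) = (c.g b * (c.g a)⁻¹).a k := by
  have h := congrArg (fun z : Chain p n B => (z.g b * (z.g a)⁻¹).a k) (univ_map_ev c)
  rw [← h, sk, Chain.map_g, Chain.map_g, ← G.map_inv, ← G.map_mul, G.map_a]

theorem map_sk {m n : ℕ} (α : Fin (m + 1) → Fin (n + 1)) (k : ℕ) (a b : Fin (m + 1)) :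
    Ch.map α (sk p k m a b) = sk p k n (α a) (α b) := by
  rw [Ch.map, ev_sk, sk, Chain.res_g, Chain.res_g, mul_inv_rev, inv_inv, mul_assoc,
    inv_mul_cancel_left]

theorem mul_a_two {B : Type} [CommRing B] (x y : G p B) :
    (x * y).a 2 = x.a 2 + x.a 1 * y.a 1 ^ p + y.a 2 := by
  rw [G.mul_a, Finset.Nat.sum_antidiagonal_eq_sum_range_succ
    (fun i j => x.a i * y.a j ^ (p ^ i)), Finset.sum_range_succ, Finset.sum_range_succ,
    Finset.sum_range_one]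
  simp only [G.a_zero, one_pow, one_mul, mul_one, pow_zero, pow_one, Nat.sub_self, Nat.sub_zero,
    Nat.reduceSub]
  ring

theorem sk_one_add {n : ℕ} (a b c : Fin (n + 1)) :
    sk p 1 n a c = sk p 1 n b c + sk p 1 n a b := by
  have h : (univ p n).g c * ((univ p n).g a)⁻¹ =
      ((univ p n).g c * ((univ p n).g b)⁻¹) * ((univ p n).g b * ((univ p n).g a)⁻¹) := by
    rw [mul_assoc, inv_mul_cancel_left]
  rw [sk, h, G.mul_a_one]
  rfl

theorem sk_two_add {n : ℕ} (a b c : Fin (n + 1)) :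
    sk p 2 n a c = sk p 2 n b c + sk p 1 n b c * sk p 1 n a b ^ p + sk p 2 n a b := by
  have h : (univ p n).g c * ((univ p n).g a)⁻¹ =
      ((univ p n).g c * ((univ p n).g b)⁻¹) * ((univ p n).g b * ((univ p n).g a)⁻¹) := by
    rw [mul_assoc, inv_mul_cancel_left]
  rw [sk, h, mul_a_two]
  rfl

theorem sk_isWt (k n : ℕ) (a b : Fin (n + 1)) : IsWt (Ch.N p k) (sk p k n a b) :=
  ((homG_univ b).mul (homG_univ a).inv) k

/-! ### dependence on `z` -/

theorem sk_mem_FR {s : ℕ} {a b : Fin (s + 2)} (ha : a ≠ Fin.last (s + 1))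
    (hb : b ≠ Fin.last (s + 1)) (k : ℕ) : sk p k (s + 1) a b ∈ FR p 0 s := by
  rw [sk, G.mul_a]
  exact Subring.sum_mem _ fun ij _ => Subring.mul_mem _ (univ_mem_FR hb _)
    (Subring.pow_mem _ (inv_mem _ (univ_mem_FR ha) _) _)

/-- the edge to `z`: its first coefficient is `z_1` plus a constant -/
theorem sk_one_last {s : ℕ} {a : Fin (s + 2)} (ha : a ≠ Fin.last (s + 1)) :
    ∃ r ∈ FR p 0 s, sk p 1 (s + 1) a (Fin.last (s + 1)) = X (zv s 0) + r := by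
  refine ⟨(((univ p (s + 1)).g a)⁻¹).a 1, inv_mem _ (univ_mem_FR ha) _, ?_⟩
  rw [sk, G.mul_a_one, show (Fin.last (s + 1)) = (Fin.last s).succ from rfl, univ_g_succ,
    G.mk_a_succ]

/-- the edge to `z`: its second coefficient is `z_2 + z_1 r^p + r'` -/
theorem sk_two_last {s : ℕ} {a : Fin (s + 2)} (ha : a ≠ Fin.last (s + 1)) :
    ∃ r ∈ FR p 0 s, ∃ r' ∈ FR p 0 s,
      sk p 2 (s + 1) a (Fin.last (s + 1)) = X (zv s 1) + X (zv s 0) * r ^ p + r' := by
  refine ⟨(((univ p (s + 1)).g a)⁻¹).a 1, inv_mem _ (univ_mem_FR ha) _,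
    (((univ p (s + 1)).g a)⁻¹).a 2, inv_mem _ (univ_mem_FR ha) _, ?_⟩
  rw [sk, mul_a_two, show (Fin.last (s + 1)) = (Fin.last s).succ from rfl, univ_g_succ,
    G.mk_a_succ, G.mk_a_succ]

/-! ### first derivatives -/

theorem Dop_eq_pderiv (l s : ℕ) (x : Ch p (s + 1)) : Dop l 0 s x = pderiv (zv s l) x := by
  rw [x.as_sum, map_sum, map_sum]
  refine Finset.sum_congr rfl fun e _ => ?_
  rw [Dop_monomial, pderiv_monomial, pow_zero, Nat.choose_one_right]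

theorem pderiv_FR {l s : ℕ} {x : Ch p (s + 1)} (hx : x ∈ FR p 0 s) : pderiv (zv s l) x = 0 := by
  rw [x.as_sum, map_sum]
  refine Finset.sum_eq_zero fun e he => ?_
  rw [pderiv_monomial, hx e he l (Nat.zero_le _), Nat.cast_zero, mul_zero, map_zero]

theorem pderiv_pow_p' {σ : Type} (v : σ) (x : MvPolynomial σ (ZMod p)) :
    pderiv v (x ^ p) = 0 := by
  rw [Derivation.leibniz_pow, ← Nat.cast_smul_eq_nsmul (ZMod p), ZMod.natCast_self, zero_smul]

theorem pderiv_Phi {σ : Type} (v : σ) {x y : MvPolynomial σ (ZMod p)} (hx : pderiv v x = 1)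
    (hy : pderiv v y = 0) :
    pderiv v (Phi p x y) = (x + y) ^ (p - 1) - x ^ (p - 1) := by
  have hr : p - 1 + 1 = p := pred_add_one
  rw [Phi_eq_range, map_sum, add_pow, Finset.sum_range_succ, Nat.sub_self, pow_zero,
    Nat.choose_self, Nat.cast_one, mul_one, mul_one, add_sub_cancel_right]
  refine Finset.sum_congr rfl fun m hm => ?_
  rw [map_zsmul, Derivation.leibniz, Derivation.leibniz_pow, Derivation.leibniz_pow, hx, hy,
    smul_zero, smul_zero, smul_zero, zero_add, ← choose_aux (Finset.mem_range.1 hm)]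
  simp only [smul_eq_mul, mul_one, zsmul_eq_mul, nsmul_eq_mul, Nat.add_sub_cancel]
  generalize p.choose (m + 1) / p = q
  push_cast
  ring

/-! ### the identity of transpotences -/

/-- `((u + v + w)^p - u^p - v^p - w^p) / p` -/
def P3 (p : ℕ) {R : Type} [CommRing R] (u v w : R) : R := Phi p u v + Phi p (u + v) w

omit [Fact p.Prime] in
theorem map_P3 {R S : Type} [CommRing R] [CommRing S] (f : R →+* S) (u v w : R) :
    f (P3 p u v w) = P3 p (f u) (f v) (f w) := by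
  rw [P3, P3, map_add, map_Phi, map_Phi, map_add]

theorem P3_big {R : Type} [CommRing R] (a b c d e f : R) :
    P3 p (a + b + c) (d + e) f + P3 p a b c + Phi p d e =
      P3 p a (b + d) (c + e + f) + P3 p c e f + Phi p b d := by
  unfold P3
  have h1 := Phi_cocycle (p := p) (a + b + c) d e
  have h2 := Phi_cocycle (p := p) a b d
  have h3 := Phi_cocycle (p := p) (a + b + d) (c + e) f
  have h4 := Phi_cocycle (p := p) (a + b + d) c e
  have h5 := Phi_cocycle (p := p) (a + b) d c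
  have h6 := Phi_cocycle (p := p) (a + b) c d
  have e1 : a + (b + d) = a + b + d := by ring
  have e2 : a + b + c + (d + e) = a + b + d + (c + e) := by ring
  have e3 : a + b + d + c = a + b + c + d := by ring
  have e4 : d + c = c + d := by ring
  have e5 : Phi p d c = Phi p c d := Phi_comm d c
  rw [e1, e2]
  rw [e3] at h4
  rw [e4, e5] at h5
  linear_combination h1 - h2 - h3 - h4 + h5 - h6

omit [Fact p.Prime] in
theorem Phi_smul' {R : Type} [CommRing R] (a x y : R) : Phi p (a * x) (a * y) = a ^ p * Phi p x y := by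
  unfold Phi
  rw [Finset.mul_sum]
  refine Finset.sum_congr rfl fun j hj => ?_
  rw [Finset.mem_Ioo] at hj
  have : a ^ p = a ^ j * a ^ (p - j) := by rw [← pow_add, Nat.add_sub_cancel' hj.2.le]
  rw [mul_pow, mul_pow, this, zsmul_eq_mul, zsmul_eq_mul]
  ring

/-! ### the cochains -/

variable (p)

/-- `B_20(g_0, g_1, z)` -/
noncomputable def cA : Ch p 2 :=
  P3 p (sk p 2 2 1 2) (sk p 1 2 1 2 * sk p 1 2 0 1 ^ p) (sk p 2 2 0 1)

/-- `b_20` with coefficients in the functions of `z_1` -/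
noncomputable def cB : Ch p 3 := dE 1 (cA p)

/-- `D_0 B = d w` -/
noncomputable def cw : Ch p 2 := -(sk p 1 2 0 1 ^ (p ^ 2) * sk p 1 2 1 2 ^ (p - 1))

/-- `-z_1^{p^2}` -/
noncomputable def ctt : Ch p 1 := -X (zv 0 0) ^ (p ^ 2)

/-- `h_21` with coefficients in the functions of `z_1` -/
noncomputable def chh : Ch p 2 := dE 0 (X (zv 0 1) ^ p)

variable {p}

theorem cB_eq : cB p = P3 p (sk p 2 3 1 2) (sk p 1 3 1 2 * sk p 1 3 0 1 ^ p) (sk p 2 3 0 1) +
    sk p 1 3 2 3 ^ p * Phi p (sk p 1 3 1 2 ^ p) (sk p 1 3 0 1 ^ p) -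
    sk p 1 3 0 1 ^ (p ^ 2) * Phi p (sk p 1 3 2 3) (sk p 1 3 1 2) := by
  have c0 : cof 1 0 (cA p) = P3 p (sk p 2 3 2 3) (sk p 1 3 2 3 * sk p 1 3 1 2 ^ p) (sk p 2 3 1 2) := by
    rw [cA, cof, map_P3, map_mul, map_pow, map_sk, map_sk, map_sk, map_sk]
    rfl
  have c1 : cof 1 1 (cA p) = P3 p (sk p 2 3 2 3) (sk p 1 3 2 3 * sk p 1 3 0 2 ^ p) (sk p 2 3 0 2) := by
    rw [cA, cof, map_P3, map_mul, map_pow, map_sk, map_sk, map_sk, map_sk]
    rfl
  have c2 : cof 1 2 (cA p) = P3 p (sk p 2 3 1 3) (sk p 1 3 1 3 * sk p 1 3 0 1 ^ p) (sk p 2 3 0 1) := by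
    rw [cA, cof, map_P3, map_mul, map_pow, map_sk, map_sk, map_sk, map_sk]
    rfl
  have key := P3_big (p := p) (sk p 2 3 2 3) (sk p 1 3 2 3 * sk p 1 3 1 2 ^ p) (sk p 2 3 1 2)
    (sk p 1 3 2 3 * sk p 1 3 0 1 ^ p) (sk p 1 3 1 2 * sk p 1 3 0 1 ^ p) (sk p 2 3 0 1)
  have e1 : Phi p (sk p 1 3 2 3 * sk p 1 3 0 1 ^ p) (sk p 1 3 1 2 * sk p 1 3 0 1 ^ p) =
      sk p 1 3 0 1 ^ (p ^ 2) * Phi p (sk p 1 3 2 3) (sk p 1 3 1 2) := by
    rw [mul_comm (sk p 1 3 2 3), mul_comm (sk p 1 3 1 2), Phi_smul', ← pow_mul, ← pow_two]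
  have e2 : Phi p (sk p 1 3 2 3 * sk p 1 3 1 2 ^ p) (sk p 1 3 2 3 * sk p 1 3 0 1 ^ p) =
      sk p 1 3 2 3 ^ p * Phi p (sk p 1 3 1 2 ^ p) (sk p 1 3 0 1 ^ p) := Phi_smul' _ _ _
  rw [e1, e2] at key
  rw [cB, dE_apply, Fin.sum_univ_three, c0, c1, c2, sk_one_add (p := p) 0 1 2,
    sk_two_add (p := p) 0 1 2, sk_one_add (p := p) 1 2 3, sk_two_add (p := p) 1 2 3]
  rw [show (sk p 1 3 1 2 + sk p 1 3 0 1) ^ p = sk p 1 3 1 2 ^ p + sk p 1 3 0 1 ^ p from
    add_pow_p _ _]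
  rw [show ((0 : Fin 3) : ℕ) = 0 from rfl, show ((1 : Fin 3) : ℕ) = 1 from rfl,
    show ((2 : Fin 3) : ℕ) = 2 from rfl]
  simp only [pow_zero, one_smul, pow_one, neg_smul, even_two, Even.neg_pow, one_pow, mul_add,
    add_mul]
  linear_combination key

theorem pderiv_sk_one {s : ℕ} {a : Fin (s + 2)} (ha : a ≠ Fin.last (s + 1)) :
    pderiv (zv s 0) (sk p 1 (s + 1) a (Fin.last (s + 1))) = 1 := by
  obtain ⟨r, hr, h⟩ := sk_one_last (p := p) ha
  rw [h, map_add, pderiv_X_self, pderiv_FR hr, add_zero]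

theorem pderiv_sk_free {l s k : ℕ} {a b : Fin (s + 2)} (ha : a ≠ Fin.last (s + 1))
    (hb : b ≠ Fin.last (s + 1)) : pderiv (zv s l) (sk p k (s + 1) a b) = 0 :=
  pderiv_FR (sk_mem_FR ha hb k)

theorem pderiv_P3_FR {l s : ℕ} {x y z : Ch p (s + 1)} (hx : x ∈ FR p 0 s) (hy : y ∈ FR p 0 s)
    (hz : z ∈ FR p 0 s) : pderiv (zv s l) (P3 p x y z) = 0 := by
  have hPhi : ∀ {x y : Ch p (s + 1)}, x ∈ FR p 0 s → y ∈ FR p 0 s → Phi p x y ∈ FR p 0 s := by
    intro x y hx hy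
    unfold Phi
    exact Subring.sum_mem _ fun j _ => Subring.zsmul_mem _ (Subring.mul_mem _
      (Subring.pow_mem _ hx _) (Subring.pow_mem _ hy _)) _
  exact pderiv_FR (Subring.add_mem _ (hPhi hx hy) (hPhi (Subring.add_mem _ hx hy) hz))

theorem dE_cw : dE 1 (cw p) = - (sk p 1 3 0 1 ^ (p ^ 2) *
    ((sk p 1 3 2 3 + sk p 1 3 1 2) ^ (p - 1) - sk p 1 3 2 3 ^ (p - 1))) := by
  have c0 : cof 1 0 (cw p) = -(sk p 1 3 1 2 ^ (p ^ 2) * sk p 1 3 2 3 ^ (p - 1)) := by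
    rw [cw, cof, map_neg, map_mul, map_pow, map_pow, map_sk, map_sk]
    rfl
  have c1 : cof 1 1 (cw p) = -(sk p 1 3 0 2 ^ (p ^ 2) * sk p 1 3 2 3 ^ (p - 1)) := by
    rw [cw, cof, map_neg, map_mul, map_pow, map_pow, map_sk, map_sk]
    rfl
  have c2 : cof 1 2 (cw p) = -(sk p 1 3 0 1 ^ (p ^ 2) * sk p 1 3 1 3 ^ (p - 1)) := by
    rw [cw, cof, map_neg, map_mul, map_pow, map_pow, map_sk, map_sk]
    rfl
  rw [dE_apply, Fin.sum_univ_three, c0, c1, c2, sk_one_add (p := p) 0 1 2,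
    sk_one_add (p := p) 1 2 3, add_pow_pow 2]
  rw [show ((0 : Fin 3) : ℕ) = 0 from rfl, show ((1 : Fin 3) : ℕ) = 1 from rfl,
    show ((2 : Fin 3) : ℕ) = 2 from rfl]
  simp only [pow_zero, one_smul, pow_one, neg_smul, even_two, Even.neg_pow, one_pow]
  ring

/-- `D_0 B = d w` -/
theorem D0_cB : Dop 0 0 2 (cB p) = dE 1 (cw p) := by
  have h2 : (2 : Fin 4) ≠ Fin.last (2 + 1) := by decide
  have h1 : (1 : Fin 4) ≠ Fin.last (2 + 1) := by decide
  have h0 : (0 : Fin 4) ≠ Fin.last (2 + 1) := by decide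
  have f01 : ∀ k, sk p k 3 0 1 ∈ FR p 0 2 := sk_mem_FR h0 h1
  have f12 : ∀ k, sk p k 3 1 2 ∈ FR p 0 2 := sk_mem_FR h1 h2
  have d23 : pderiv (zv 2 0) (sk p 1 3 2 3) = 1 := pderiv_sk_one h2
  have e1 : pderiv (zv 2 0) (Phi p (sk p 1 3 1 2 ^ p) (sk p 1 3 0 1 ^ p)) = 0 := by
    have := pderiv_P3_FR (l := 0) (Subring.pow_mem _ (f12 1) p) (Subring.pow_mem _ (f01 1) p)
      (Subring.zero_mem _)
    rw [P3, map_add] at this
    have h3 : Phi p (sk p 1 3 1 2 ^ p + sk p 1 3 0 1 ^ p) (0 : Ch p 3) = 0 := by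
      unfold Phi
      refine Finset.sum_eq_zero fun j hj => ?_
      rw [zero_pow (by have := Finset.mem_Ioo.1 hj; omega), mul_zero, smul_zero]
    rwa [h3, map_zero, add_zero] at this
  have e2 : pderiv (zv 2 0) (sk p 1 3 0 1 ^ (p ^ 2)) = 0 := pderiv_FR (Subring.pow_mem _ (f01 1) _)
  rw [Dop_eq_pderiv, cB_eq, map_sub, map_add, pderiv_P3_FR (f12 2) (Subring.mul_mem _ (f12 1)
    (Subring.pow_mem _ (f01 1) _)) (f01 2), Derivation.leibniz, Derivation.leibniz, e1, e2,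
    pderiv_pow_p', pderiv_Phi _ d23 (pderiv_FR (f12 1)), dE_cw]
  simp only [smul_eq_mul]
  ring

/-- `D(Phi ..)`: the derivative of `A` with respect to `z_2` -/
theorem D1_cA : Dop 1 0 1 (cA p) = - dE 0 (tau p 1 0 0 ^ (p - 1)) := by
  have h1 : (1 : Fin 3) ≠ Fin.last (1 + 1) := by decide
  have h0 : (0 : Fin 3) ≠ Fin.last (1 + 1) := by decide
  have f01 : ∀ k, sk p k 2 0 1 ∈ FR p 0 1 := sk_mem_FR h0 h1
  obtain ⟨r, hr, r', hr', e2⟩ := sk_two_last (p := p) (s := 1) h1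
  obtain ⟨r'', hr'', e1⟩ := sk_one_last (p := p) (s := 1) h1
  have d2 : pderiv (zv 1 1) (sk p 2 2 1 2) = 1 := by
    change pderiv (zv 1 1) (sk p 2 2 1 (Fin.last 2)) = 1
    rw [e2, map_add, map_add, pderiv_X_self, Derivation.leibniz, pderiv_X_of_ne (by simp [zv]),
      pderiv_pow_p', pderiv_FR hr']
    simp
  have d1 : pderiv (zv 1 1) (sk p 1 2 1 2) = 0 := by
    change pderiv (zv 1 1) (sk p 1 2 1 (Fin.last 2)) = 0
    rw [e1, map_add, pderiv_X_of_ne (by simp [zv]), pderiv_FR hr'', add_zero]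
  have d3 : pderiv (zv 1 1) (sk p 1 2 1 2 * sk p 1 2 0 1 ^ p) = 0 := by
    rw [Derivation.leibniz, d1, pderiv_pow_p']
    simp
  have e3 : tau p 1 0 0 = sk p 2 1 0 1 := by
    rw [tau, pow_zero, pow_one, sk, univ_g_zero, inv_one, mul_one,
      show (1 : Fin 2) = (0 : Fin 1).succ from rfl, univ_g_succ, G.mk_a_succ]
    rfl
  have c0 : cof 0 0 (sk p 2 1 0 1) = sk p 2 2 1 2 := by
    rw [cof, map_sk]; rfl
  have c1 : cof 0 1 (sk p 2 1 0 1) = sk p 2 2 0 2 := by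
    rw [cof, map_sk]; rfl
  rw [Dop_eq_pderiv, cA, P3, map_add, pderiv_Phi _ d2 d3, pderiv_Phi _ (by rw [map_add, d2, d3,
    add_zero]) (pderiv_FR (f01 2)), e3, dE_apply, Fin.sum_univ_two, map_pow, map_pow, c0, c1,
    sk_two_add (p := p) 0 1 2]
  rw [show ((0 : Fin 2) : ℕ) = 0 from rfl, show ((1 : Fin 2) : ℕ) = 1 from rfl]
  simp only [pow_zero, one_smul, pow_one, neg_smul]
  ring

/-! ### `h` -/

theorem chh_eq : chh p = -(sk p 1 2 1 2 ^ p * sk p 1 2 0 1 ^ (p ^ 2) + sk p 2 2 0 1 ^ p) := by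
  have e3 : (X (zv 0 1) : Ch p 1) = sk p 2 1 0 1 := by
    rw [sk, univ_g_zero, inv_one, mul_one,
      show (1 : Fin 2) = (0 : Fin 1).succ from rfl, univ_g_succ, G.mk_a_succ]
    rfl
  have c0 : cof 0 0 (sk p 2 1 0 1) = sk p 2 2 1 2 := by
    rw [cof, map_sk]; rfl
  have c1 : cof 0 1 (sk p 2 1 0 1) = sk p 2 2 0 2 := by
    rw [cof, map_sk]; rfl
  rw [chh, e3, dE_apply, Fin.sum_univ_two, map_pow, map_pow, c0, c1, sk_two_add (p := p) 0 1 2,
    add_pow_p, add_pow_p, mul_pow, ← pow_mul, ← pow_two]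
  rw [show ((0 : Fin 2) : ℕ) = 0 from rfl, show ((1 : Fin 2) : ℕ) = 1 from rfl]
  simp only [pow_zero, one_smul, pow_one, neg_smul]
  ring

theorem D0_chh : Dop 0 0 1 (chh p) = 0 := by
  have h1 : (1 : Fin 3) ≠ Fin.last (1 + 1) := by decide
  have h0 : (0 : Fin 3) ≠ Fin.last (1 + 1) := by decide
  rw [Dop_eq_pderiv, chh_eq, map_neg, map_add, pderiv_pow_p', Derivation.leibniz, pderiv_pow_p',
    pderiv_FR (Subring.pow_mem _ (sk_mem_FR h0 h1 1) _)]
  simp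

/-! ### the cocycle conditions -/

theorem dE_cB : dE 2 (cB p) = 0 := dE_dE 1 _

theorem dE_chh : dE 1 (chh p) = 0 := dE_dE 0 _

/-! ### the top derivative of `w` -/

theorem iter_pderiv_pow {σ : Type} (v : σ) {x c : MvPolynomial σ (ZMod p)} (hx : pderiv v x = 1)
    (hc : pderiv v c = 0) (m : ℕ) : (pderiv v)^[m] (c * x ^ m) = m.factorial • c := by
  induction m with
  | zero => simp
  | succ m ih =>
    have h1 : pderiv v (c * x ^ (m + 1)) = (m + 1) • (c * x ^ m) := by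
      rw [Derivation.leibniz, hc, Derivation.leibniz_pow, hx]
      simp only [smul_eq_mul, mul_one, mul_zero, add_zero, Nat.add_sub_cancel, nsmul_eq_mul]
      ring
    have h2 : ∀ (n k : ℕ) (y : MvPolynomial σ (ZMod p)),
        (pderiv v)^[k] (n • y) = n • (pderiv v)^[k] y := by
      intro n k
      induction k with
      | zero => intro y; rfl
      | succ k ih => intro y; rw [Function.iterate_succ_apply, map_nsmul, ih,
          Function.iterate_succ_apply]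
    rw [Function.iterate_succ_apply, h1, h2, ih, Nat.factorial_succ, mul_smul]

theorem iter_D0_cw : (Dop 0 0 1)^[p - 1] (cw p) = dE 0 (ctt p) := by
  have h1 : (1 : Fin 3) ≠ Fin.last (1 + 1) := by decide
  have h0 : (0 : Fin 3) ≠ Fin.last (1 + 1) := by decide
  have e3 : (X (zv 0 0) : Ch p 1) = sk p 1 1 0 1 := by
    rw [sk, univ_g_zero, inv_one, mul_one,
      show (1 : Fin 2) = (0 : Fin 1).succ from rfl, univ_g_succ, G.mk_a_succ]
    rfl
  have c0 : cof 0 0 (sk p 1 1 0 1) = sk p 1 2 1 2 := by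
    rw [cof, map_sk]; rfl
  have c1 : cof 0 1 (sk p 1 1 0 1) = sk p 1 2 0 2 := by
    rw [cof, map_sk]; rfl
  have e4 : (⇑(Dop 0 0 1) : Ch p 2 → Ch p 2) = ⇑(pderiv (zv 1 0) : Derivation (ZMod p) (Ch p 2) _) :=
    funext fun x => Dop_eq_pderiv 0 1 x
  have e5 : cw p = (-(sk p 1 2 0 1 ^ (p ^ 2))) * sk p 1 2 1 2 ^ (p - 1) := by rw [cw]; ring
  have e6 := iter_pderiv_pow (zv 1 0) (x := sk p 1 2 1 2) (c := -(sk p 1 2 0 1 ^ (p ^ 2)))
    (pderiv_sk_one h1) (by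
    rw [map_neg, pderiv_FR (Subring.pow_mem _ (sk_mem_FR h0 h1 1) _), neg_zero]) (p - 1)
  rw [e4, e5, e6, ← Nat.cast_smul_eq_nsmul (ZMod p), ZMod.wilsons_lemma, neg_one_smul, neg_neg, ctt, e3, dE_apply,
    Fin.sum_univ_two, map_neg, map_neg, map_pow, map_pow, c0, c1, sk_one_add (p := p) 0 1 2,
    add_pow_pow 2]
  rw [show ((0 : Fin 2) : ℕ) = 0 from rfl, show ((1 : Fin 2) : ℕ) = 1 from rfl]
  simp only [pow_zero, one_smul, pow_one, neg_smul]
  ring

/-! ### exponents of `z_1`, `z_2` -/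

/-- no `z_j` for `j > 1` (0-based), exponent of `z_1` at most `a`, of `z_2` at most `b` -/
def ZD (a b : ℕ) {s : ℕ} (x : Ch p (s + 1)) : Prop :=
  ∀ e ∈ x.support, e (zv s 0) ≤ a ∧ e (zv s 1) ≤ b ∧ ∀ j, 1 < j → e (zv s j) = 0

section ZD

variable {s : ℕ} {a b a' b' : ℕ} {x y : Ch p (s + 1)}

theorem ZD.mono (h : ZD a b x) (ha : a ≤ a') (hb : b ≤ b') : ZD a' b' x := fun e he =>
  ⟨(h e he).1.trans ha, (h e he).2.1.trans hb, (h e he).2.2⟩

theorem ZD.add (hx : ZD a b x) (hy : ZD a b y) : ZD a b (x + y) := by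
  classical
  intro e he
  rcases Finset.mem_union.1 (support_add he) with h | h
  · exact hx e h
  · exact hy e h

theorem ZD.neg (hx : ZD a b x) : ZD a b (-x) := by
  intro e he
  exact hx e (by rwa [support_neg] at he)

theorem ZD.sub (hx : ZD a b x) (hy : ZD a b y) : ZD a b (x - y) := by
  rw [sub_eq_add_neg]
  exact hx.add hy.neg

theorem ZD.mul (hx : ZD a b x) (hy : ZD a' b' y) : ZD (a + a') (b + b') (x * y) := by
  classical
  intro e he
  obtain ⟨e1, h1, e2, h2, rfl⟩ := Finset.mem_add.1 (support_mul _ _ he)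
  have k1 := hx e1 h1
  have k2 := hy e2 h2
  refine ⟨?_, ?_, fun j hj => ?_⟩
  · rw [Finsupp.add_apply]; omega
  · rw [Finsupp.add_apply]; omega
  · rw [Finsupp.add_apply, k1.2.2 j hj, k2.2.2 j hj]

theorem ZD.one : ZD 0 0 (1 : Ch p (s + 1)) := by
  intro e he
  rw [← C_1, C_apply] at he
  have := Finset.mem_singleton.1 (support_monomial_subset he)
  rw [this]
  exact ⟨le_rfl, le_rfl, fun _ _ => rfl⟩

theorem ZD.pow (hx : ZD a b x) (n : ℕ) : ZD (n * a) (n * b) (x ^ n) := by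
  induction n with
  | zero => rw [pow_zero, zero_mul, zero_mul]; exact ZD.one
  | succ n ih =>
    rw [pow_succ]
    exact (ih.mul hx).mono (by rw [Nat.succ_mul]) (by rw [Nat.succ_mul])

theorem ZD.zero : ZD a b (0 : Ch p (s + 1)) := by
  intro e he
  simp at he

theorem ZD.sum {ι : Type} (S : Finset ι) {f : ι → Ch p (s + 1)} (h : ∀ i ∈ S, ZD a b (f i)) :
    ZD a b (∑ i ∈ S, f i) :=
  Finset.sum_induction f (ZD a b) (fun _ _ => ZD.add) ZD.zero h

theorem ZD.zsmul (n : ℤ) (hx : ZD a b x) : ZD a b (n • x) := by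
  intro e he
  refine hx e ?_
  rw [mem_support_iff] at he ⊢
  intro h
  rw [coeff_smul, h, smul_zero] at he
  exact he rfl

theorem ZD_FR (hx : x ∈ FR p 0 s) : ZD 0 0 x := fun e he =>
  ⟨(hx e he 0 le_rfl).le, (hx e he 1 (Nat.zero_le _)).le, fun j _ => hx e he j (Nat.zero_le _)⟩

theorem ZD_X0 : ZD 1 0 (X (zv s 0) : Ch p (s + 1)) := by
  intro e he
  rw [X] at he
  have := Finset.mem_singleton.1 (support_monomial_subset he)
  rw [this]
  refine ⟨by rw [Finsupp.single_eq_same], ?_, fun j hj => ?_⟩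
  · rw [Finsupp.single_apply, if_neg (by simp [zv])]
  · rw [Finsupp.single_apply, if_neg]
    intro h
    rw [Prod.mk.injEq] at h
    omega

theorem ZD_X1 : ZD 0 1 (X (zv s 1) : Ch p (s + 1)) := by
  intro e he
  rw [X] at he
  have := Finset.mem_singleton.1 (support_monomial_subset he)
  rw [this]
  refine ⟨?_, by rw [Finsupp.single_eq_same], fun j hj => ?_⟩
  · rw [Finsupp.single_apply, if_neg (by simp [zv])]
  · rw [Finsupp.single_apply, if_neg]
    intro h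
    rw [Prod.mk.injEq] at h
    omega

theorem ZD_sk_free {k : ℕ} {u v : Fin (s + 2)} (hu : u ≠ Fin.last (s + 1))
    (hv : v ≠ Fin.last (s + 1)) : ZD 0 0 (sk p k (s + 1) u v) := ZD_FR (sk_mem_FR hu hv k)

theorem ZD_sk_one {u : Fin (s + 2)} (hu : u ≠ Fin.last (s + 1)) :
    ZD 1 0 (sk p 1 (s + 1) u (Fin.last (s + 1))) := by
  obtain ⟨r, hr, h⟩ := sk_one_last (p := p) hu
  rw [h]
  exact ZD_X0.add ((ZD_FR hr).mono (Nat.zero_le _) le_rfl)

theorem ZD_sk_two {u : Fin (s + 2)} (hu : u ≠ Fin.last (s + 1)) :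
    ZD 1 1 (sk p 2 (s + 1) u (Fin.last (s + 1))) := by
  obtain ⟨r, hr, r', hr', h⟩ := sk_two_last (p := p) hu
  rw [h]
  refine ((ZD_X1.mono (Nat.zero_le _) le_rfl).add ?_).add
    ((ZD_FR hr').mono (Nat.zero_le _) (Nat.zero_le _))
  exact (ZD_X0.mul ((ZD_FR hr).pow p)).mono (by simp) (by simp)

theorem ZD_Phi (hx : ZD a b x) (hy : ZD 0 0 y) : ZD ((p - 1) * a) ((p - 1) * b) (Phi p x y) := by
  unfold Phi
  refine ZD.sum _ fun j hj => ?_
  have hj := Finset.mem_Ioo.1 hj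
  refine ZD.zsmul _ (((hx.pow j).mul (hy.pow (p - j))).mono ?_ ?_) <;>
  · rw [mul_zero, add_zero]
    exact Nat.mul_le_mul_right _ (by omega)

theorem ZD_Phi' (hx : ZD 1 1 x) (hy : ZD 1 0 y) : ZD p (p - 1) (Phi p x y) := by
  unfold Phi
  refine ZD.sum _ fun j hj => ?_
  have hj := Finset.mem_Ioo.1 hj
  refine ZD.zsmul _ (((hx.pow j).mul (hy.pow (p - j))).mono ?_ ?_)
  · omega
  · omega

end ZD

/-- functions of `z_1` -/
theorem mem_CC_of_ZD {s a : ℕ} {x : Ch p (s + 1)} (hx : ZD a 0 x) : x ∈ M p 0 0 s := by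
  intro e he
  refine ⟨fun j hj => ?_, by rw [pow_zero]; exact one_dvd _⟩
  rcases Nat.eq_or_lt_of_le hj with h | h
  · rw [← h]
    exact Nat.le_zero.1 (hx e he).2.1
  · exact (hx e he).2.2 j h

/-- functions of `z_1`, `z_2` with exponent of `z_2` smaller than `p` -/
theorem mem_Ext_of_ZD {s a K : ℕ} {x : Ch p (s + 1)} (hx : ZD a (p - 1) x) :
    x ∈ H.Ext (M p 1 K) 1 0 s := by
  rw [x.as_sum]
  refine AddSubgroup.sum_mem _ fun e he => ?_
  obtain ⟨_, h1, h2⟩ := hx e he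
  have hp : 0 < p := (Fact.out : p.Prime).pos
  have h3 : Finsupp.single (zv s 1) (e (zv s 1)) + (e - Finsupp.single (zv s 1) (e (zv s 1))) =
      e := by
    rw [add_tsub_cancel_of_le]
    rw [Finsupp.single_le_iff]
  have h4 : (monomial e (coeff e x) : Ch p (s + 1)) = tau p 1 0 s ^ (e (zv s 1)) *
      monomial (e - Finsupp.single (zv s 1) (e (zv s 1))) (coeff e x) := by
    rw [tau, ← pow_mul, pow_zero, one_mul, X_pow_eq_monomial, monomial_mul, h3, one_mul]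
  have h5 : (monomial (e - Finsupp.single (zv s 1) (e (zv s 1))) (coeff e x) :
      Ch p (s + 1)) ∈ MS p 1 K s := by
    refine monomial_mem_SR _ ⟨fun j hj => ?_, ?_⟩
    · rw [Finsupp.tsub_apply, h2 j hj, Nat.zero_sub]
    · rw [Finsupp.tsub_apply, Finsupp.single_eq_same, Nat.sub_self]
      exact dvd_zero _
  rw [h4]
  exact tau_mul_mem_Tr (by omega) h5

theorem ZD_cA : ZD p (p - 1) (cA p) := by
  have h1 : (1 : Fin 3) ≠ Fin.last (1 + 1) := by decide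
  have h0 : (0 : Fin 3) ≠ Fin.last (1 + 1) := by decide
  have u : ZD 1 1 (sk p 2 2 1 2) := ZD_sk_two h1
  have v : ZD 1 0 (sk p 1 2 1 2 * sk p 1 2 0 1 ^ p) :=
    ((ZD_sk_one h1).mul ((ZD_sk_free h0 h1 (k := 1)).pow p)).mono (by simp) (by simp)
  have w : ZD 1 0 (sk p 2 2 0 1) := (ZD_sk_free h0 h1).mono (Nat.zero_le _) le_rfl
  exact (ZD_Phi' u v).add (ZD_Phi' (u.add (v.mono le_rfl (Nat.zero_le _))) w)

theorem ZD_cB : ZD p 0 (cB p) := by
  have h2 : (2 : Fin 4) ≠ Fin.last (2 + 1) := by decide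
  have h1 : (1 : Fin 4) ≠ Fin.last (2 + 1) := by decide
  have h0 : (0 : Fin 4) ≠ Fin.last (2 + 1) := by decide
  have z23 : ZD 1 0 (sk p 1 3 2 3) := ZD_sk_one h2
  have z12 : ∀ k, ZD 0 0 (sk p k 3 1 2) := fun k => ZD_sk_free h1 h2
  have z01 : ∀ k, ZD 0 0 (sk p k 3 0 1) := fun k => ZD_sk_free h0 h1
  rw [cB_eq]
  refine ((ZD.add ?_ ?_).add ?_).sub ?_
  · exact (ZD_Phi (z12 2) (((z12 1).mul ((z01 1).pow p)).mono (by simp) (by simp))).mono
      (by simp) (by simp)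
  · refine (ZD_Phi (((z12 2).add (((z12 1).mul ((z01 1).pow p)).mono (by simp) (by simp))))
      (z01 2)).mono (by simp) (by simp)
  · exact ((z23.pow p).mul (ZD_Phi ((z12 1).pow p) (((z01 1).pow p).mono (by simp)
      (by simp)))).mono (by simp) (by simp)
  · exact (((z01 1).pow (p ^ 2)).mul (ZD_Phi z23 (z12 1))).mono (by simp) (by simp)

theorem ZD_cw : ZD (p - 1) 0 (cw p) := by
  have h1 : (1 : Fin 3) ≠ Fin.last (1 + 1) := by decide
  have h0 : (0 : Fin 3) ≠ Fin.last (1 + 1) := by decide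
  have z12 : ZD 1 0 (sk p 1 2 1 2) := ZD_sk_one h1
  have z01 : ZD 0 0 (sk p 1 2 0 1) := ZD_sk_free h0 h1
  exact (((z01.pow (p ^ 2)).mul (z12.pow (p - 1))).mono (by simp) (by simp)).neg

theorem ZD_chh : ZD p 0 (chh p) := by
  have h1 : (1 : Fin 3) ≠ Fin.last (1 + 1) := by decide
  have h0 : (0 : Fin 3) ≠ Fin.last (1 + 1) := by decide
  have z12 : ZD 1 0 (sk p 1 2 1 2) := ZD_sk_one h1
  have z01 : ∀ k, ZD 0 0 (sk p k 2 0 1) := fun k => ZD_sk_free h0 h1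
  rw [chh_eq]
  refine (ZD.add ?_ ?_).neg
  · exact ((z12.pow p).mul ((z01 1).pow (p ^ 2))).mono (by simp) (by simp)
  · exact ((z01 2).pow p).mono (by simp) (by simp)

theorem cB_mem : cB p ∈ M p 0 0 2 := mem_CC_of_ZD ZD_cB

theorem cw_mem : cw p ∈ M p 0 0 1 := mem_CC_of_ZD ZD_cw

theorem chh_mem : chh p ∈ M p 0 0 1 := mem_CC_of_ZD ZD_chh

theorem cA_mem (K : ℕ) : cA p ∈ H.Ext (M p 1 K) 1 0 1 := mem_Ext_of_ZD ZD_cA

/-! ### weights -/

theorem Phi_isWt {n D : ℕ} {x y : Ch p n} (hx : IsWt D x) (hy : IsWt D y) :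
    IsWt (p * D) (Phi p x y) := by
  unfold Phi
  refine IsWt.sum _ fun j hj => IsWt.zsmul (((hx.pow j).mul (hy.pow (p - j))).cast ?_) _
  have hj := Finset.mem_Ioo.1 hj
  rw [← Nat.add_mul]
  congr 1
  omega

omit [Fact p.Prime] in
theorem N_two' : Ch.N p 2 = p + 1 := by
  rw [N_succ, N_one, pow_one, add_comm]

theorem cA_isWt : IsWt (p ^ 2 + p) (cA p) := by
  have e1 : IsWt (p + 1) (sk p 2 2 1 2) := (sk_isWt 2 2 1 2).cast N_two'
  have e2 : IsWt (p + 1) (sk p 2 2 0 1) := (sk_isWt 2 2 0 1).cast N_two'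
  have e3 : IsWt (p + 1) (sk p 1 2 1 2 * sk p 1 2 0 1 ^ p) :=
    ((sk_isWt 1 2 1 2).mul ((sk_isWt 1 2 0 1).pow p)).cast (by rw [N_one]; ring)
  exact (((Phi_isWt e1 e3).add (Phi_isWt (e1.add e3) e2))).cast (by ring)

theorem cB_isWt : IsWt (p ^ 2 + p) (cB p) := dE_isWt cA_isWt

theorem chh_isWt : IsWt (p ^ 2 + p) (chh p) :=
  dE_isWt (((isWt_X _ _).pow p).cast (by rw [N_two']; ring))

theorem cw_isWt : IsWt (p ^ 2 + p - 1) (cw p) := by
  have hp2 : 2 ≤ p := (Fact.out : p.Prime).two_le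
  exact ((((sk_isWt 1 2 0 1).pow (p ^ 2)).mul ((sk_isWt 1 2 1 2).pow (p - 1))).cast
    (by rw [N_one]; omega)).neg

theorem ctt_isWt : IsWt (p ^ 2) (ctt p) :=
  (((isWt_X _ _).pow (p ^ 2)).cast (by rw [N_one, mul_one])).neg

end Vale.Agent.P257.V4.A.F4A
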