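import Vale.Agent.P257.V4.A.HMap

/-!
# P257 / V4, part A: division by a two-cochain for the letter `t_2` (helper886)

Coefficients in functions of `z_1, …, z_l`; the letter is `z_{l+1}`.
-/

open MvPolynomial

namespace Vale.Agent.P257.V4.A.HC

open Ch H ML

variable {p : ℕ} [Fact p.Prime]

/-! ### the coefficient systems `M l k` truncated in the letter `z_{l+1}^{p^j}` -/

variable (p) in
/-- `M l k` truncated in the letter `z_{l+1}^{p^j}` -/
noncomputable def TT (l j k : ℕ) : CS p := Ext (M p l k) l j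

theorem TT_succ (l j : ℕ) : TT p l j (j + 1) = M p l j := Ext_M l j

theorem Ext_TT (l j k : ℕ) : Ext (TT p l j (k + 1)) l k = TT p l j k := by
  rw [TT, H.Ext, Tr_comm]
  change Ext (Ext (M p l (k + 1)) l k) l j = _
  rw [Ext_M]
  rfl

theorem stepData_TT {l j k : ℕ} (hjk : j < k) : StepData (TT p l j (k + 1)) l k where
  cof_mem _ i _ h := cof_mem_Tr (stepData_M (by omega)) i h
  dig s x hx := by
    classical
    obtain ⟨f, hf, rfl⟩ := hx
    refine Dig_sum _ fun b hb => ?_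
    intro e he
    obtain ⟨e1, h1, e2, h2, rfl⟩ := Finset.mem_add.1 (support_mul _ _ he)
    rw [tau, ← pow_mul, X_pow_eq_monomial] at h1
    have h1' := Finset.mem_singleton.1 (support_monomial_subset h1)
    obtain ⟨m, hm⟩ := (hf b e2 h2).2
    rw [Finsupp.add_apply, h1', Finsupp.single_eq_same, hm, pow_succ, mul_assoc,
      Nat.add_mul_div_left _ _ (Nat.pow_pos (Fact.out : p.Prime).pos), Nat.div_eq_of_lt]
    · simp
    · have hb := Finset.mem_range.1 hb
      calc p ^ j * b < p ^ j * p := Nat.mul_lt_mul_of_pos_left hb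
            (Nat.pow_pos (Fact.out : p.Prime).pos)
        _ = p ^ (j + 1) := (pow_succ _ _).symm
        _ ≤ p ^ k := Nat.pow_le_pow_right (Fact.out : p.Prime).pos hjk
  comp_mem _ _ _ h := comp_mem_Tr (fun _ _ _ h => comp_mem_M h) h
  r_mem s i x hx := by
    obtain ⟨f, hf, rfl⟩ := hx
    rw [Finset.mul_sum]
    refine AddSubgroup.sum_mem _ fun b hb => ?_
    rw [mul_left_comm]
    exact tau_mul_mem_Tr (Finset.mem_range.1 hb)
      (Subring.mul_mem (MS p l (k + 1) (s + 1)) (FR_le_MS (cof_tau_sub_mem l k s i)) (hf b))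
  r_free s i e he := cof_tau_sub_mem l k s i e he l le_rfl

theorem V_TT {l j : ℕ} (W k : ℕ) (hk : j + 1 ≤ k) :
    ∀ s w, w ≤ W → NoMonoIn (Alive l k \ {(l, j)}) p s w → V (TT p l j k) s w := by
  refine tower (TT p l j) l (fun k => Alive l k \ {(l, j)}) (j + 1) W
    (fun k hk => stepData_TT (by omega)) (fun k _ => Ext_TT l j k) (fun k hk h => ?_)
    (fun k hk => ?_) (fun s w hw hno => ?_) k hk
  · rcases h.1 with h | ⟨_, h⟩
    · exact lt_irrefl _ h
    · exact lt_irrefl _ h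
  · ext ⟨a, b⟩
    simp only [Alive, Set.mem_insert_iff, Prod.mk.injEq, Set.mem_sdiff, Set.mem_ofPred_eq,
      Set.mem_singleton_iff]
    omega
  · rw [TT_succ]
    refine V_M W l j s w hw (hno.mono ?_)
    rintro ⟨a, b⟩ hab
    simp only [Alive, Set.mem_sdiff, Set.mem_ofPred_eq, Set.mem_singleton_iff, Prod.mk.injEq] at hab ⊢
    omega

/-! ### division -/

/-- the data of the division by `dE 1 A`, `A` with `D A = - dE (τ^(p-1))` -/
structure DivData (p : ℕ) [Fact p.Prime] (l K : ℕ) (A : Ch p 2) : Prop where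
  pos : 0 < K
  mem : A ∈ Ext (M p l K) l 0 1
  wt : IsWt (p * Ch.N p (l + 1)) A
  D : Dop l 0 1 A = - dE 0 (tau p l 0 0 ^ (p - 1))
  dmem : dE 1 A ∈ M p l K 2

variable {l K : ℕ} {A : Ch p 2}

theorem Ext_le {s : ℕ} {x : Ch p (s + 1)} (hx : x ∈ Ext (M p l K) l 0 s) :
    x ∈ M p l 0 s := by
  obtain ⟨f, hf, rfl⟩ := hx
  refine Subring.sum_mem (MS p l 0 s) fun b _ => Subring.mul_mem _
    (Subring.pow_mem _ tau_mem_M _) ?_
  intro e he
  refine ⟨(hf b e he).1, ?_⟩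
  rw [pow_zero]
  exact one_dvd _

theorem M_le {s : ℕ} {x : Ch p (s + 1)} (hx : x ∈ M p l K s) : x ∈ M p l 0 s := by
  intro e he
  refine ⟨(hx e he).1, ?_⟩
  rw [pow_zero]
  exact one_dvd _

/-- `D (A ∪ c) = - dE (τ^(p-1) c)` for a cocycle `c` -/
theorem Dop_A_cup (h : DivData p l K A) {s : ℕ} {c : Ch p (s + 1)} (hc : c ∈ M p l K s)
    (hd : dE s c = 0) : Dop l 0 (s + 1) (cupE (Nat.add_comm 1 s) A c) =
      - dE s (tau p l 0 s ^ (p - 1) * c) := by
  have hN := stepData_M (p := p) (l := l) h.pos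
  rw [Dop_cupE _ (Ext_le h.mem) (M_le hc), Dop_of_dig (hN.dig _ _ hc), cupE_zero_right,
    add_zero, h.D, cupE_neg_left, ← cupE_tau, dE_cupE, hd, cupE_zero_right, smul_zero, add_zero]

theorem dE_A_cup {s : ℕ} {c : Ch p (s + 1)} (hd : dE s c = 0) :
    dE (s + 1) (cupE (Nat.add_comm 1 s) A c) = cupE (by omega : 2 + s = s + 2) (dE 1 A) c := by
  rw [dE_cupE, hd, cupE_zero_right, smul_zero, add_zero]

theorem div (h : DivData p l K A) {s w : ℕ} (hw : p * Ch.N p (l + 1) ≤ w)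
    (h0 : V (Ext (M p l K) l 0) (s + 2) w)
    (h1 : V (Ext (M p l K) l 0) (s + 1) (w - Ch.N p (l + 1)))
    {x : Ch p (s + 3)} (hx : x ∈ M p l K (s + 2)) (hxw : IsWt w x) (hd : dE (s + 2) x = 0) :
    ∃ c ∈ M p l K s, IsWt (w - p * Ch.N p (l + 1)) c ∧ dE s c = 0 ∧
      ∃ y ∈ M p l K (s + 1), IsWt w y ∧
        x = cupE (by omega : 2 + s = s + 2) (dE 1 A) c + dE (s + 1) y := by
  have hN := stepData_M (p := p) (l := l) h.pos
  have e1 : p ^ 0 * Ch.N p (l + 1) = Ch.N p (l + 1) := by rw [pow_zero, one_mul]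
  obtain ⟨a, ha, c, hc, hax, hdc, hD, hcw, -⟩ := step_top hN (s := s) (w := w) h0 (by
    rw [e1]; exact fun _ => h1) hx hxw hd
  rw [e1] at hcw
  have hcw := hcw hw
  have hA := cupE_mem_Tr (Nat.add_comm 1 s) h.mem hc
  have h3 : a + cupE (Nat.add_comm 1 s) A c ∈ M p l K (s + 1) := by
    refine mem_of_Dop_eq_zero hN (AddSubgroup.add_mem _ ha hA) ?_
    rw [map_add, hD, Dop_A_cup h hc hdc, add_neg_cancel]
  refine ⟨-c, AddSubgroup.neg_mem _ hc, hcw.neg, by rw [map_neg, hdc, neg_zero],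
    comp _ w (a + cupE (Nat.add_comm 1 s) A c), hN.comp_mem _ _ _ h3, comp_isWt _ _, ?_⟩
  have h5 : IsWt w (cupE (by omega : 2 + s = s + 2) (dE 1 A) c) :=
    (cupE_isWt _ (dE_isWt h.wt) hcw).cast (by omega)
  rw [← comp_dE, map_add, map_add, hax, dE_A_cup hdc, comp_same hxw, comp_same h5, cupE_neg_right]
  ring

/-- the multiplication by `dE A` is injective -/
theorem inj (h : DivData p l K A) {s w : ℕ} (hw : p * Ch.N p (l + 1) ≤ w)
    (h0 : V (Ext (M p l K) l 0) (s + 2) w)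
    (h1 : V (Ext (M p l K) l 0) (s + 1) (w - Ch.N p (l + 1)))
    {c : Ch p (s + 2)} (hc : c ∈ M p l K (s + 1)) (hcw : IsWt (w - p * Ch.N p (l + 1)) c)
    (hd : dE (s + 1) c = 0) {n : Ch p (s + 3)} (hn : n ∈ M p l K (s + 2)) (hnw : IsWt w n)
    (he : cupE (by omega : 2 + (s + 1) = s + 3) (dE 1 A) c = dE (s + 2) n) :
    ∃ r ∈ M p l K s, IsWt (w - p * Ch.N p (l + 1)) r ∧ dE s r = c := by
  have hN := stepData_M (p := p) (l := l) h.pos
  have hp1 : p - 1 + 1 = p := pred_add_one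
  have hNp := N_pos (p := p) l
  have hA := cupE_mem_Tr (Nat.add_comm 1 (s + 1)) h.mem hc
  have hAw : IsWt w (cupE (Nat.add_comm 1 (s + 1)) A c) := (cupE_isWt _ h.wt hcw).cast (by omega)
  obtain ⟨m, hm, hmw, hmx⟩ := h0 (cupE (Nat.add_comm 1 (s + 1)) A c - n)
    (AddSubgroup.sub_mem _ hA (mem_Ext_of_mem hn)) (hAw.sub hnw)
    (by rw [map_sub, dE_A_cup hd, he, sub_self])
  -- `D m + τ^(p-1) c` is a cocycle
  have e1 : N p (l + 1) ≤ w := le_trans (Nat.le_mul_of_pos_left _ (Fact.out : p.Prime).pos) hw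
  have e2 : IsWt (w - N p (l + 1)) (Dop l 0 (s + 1) m) := Dop_isWt (by
    rw [pow_zero, one_mul, Nat.sub_add_cancel e1]; exact hmw)
  have e0 : p * N p (l + 1) = (p - 1) * N p (l + 1) + N p (l + 1) := by
    have h7 : ∀ q t : ℕ, (q + 1) * t = q * t + t := fun q t => by ring
    have h8 := h7 (p - 1) (N p (l + 1))
    rwa [hp1] at h8
  have hr0 : Finset.range p = Finset.range (p - 1 + 1) := by rw [hp1]
  have e3 : IsWt (w - N p (l + 1)) (tau p l 0 (s + 1) ^ (p - 1) * c) := by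
    refine ((tau_pow_isWt (p := p) (l := l) (k := 0) (p - 1) (s + 1)).mul hcw).cast ?_
    rw [pow_zero, one_mul]
    omega
  have e4 : dE (s + 1) (Dop l 0 (s + 1) m + tau p l 0 (s + 1) ^ (p - 1) * c) = 0 := by
    rw [map_add, ← Dop_dE hN hm, hmx, map_sub, Dop_of_dig (hN.dig _ _ hn), sub_zero,
      Dop_A_cup h hc hd, neg_add_cancel]
  have e5 : tau p l 0 (s + 1) ^ (p - 1) * c ∈ Ext (M p l K) l 0 (s + 1) :=
    tau_mul_mem_Tr (by omega) hc
  obtain ⟨r, hr, hrw, hrx⟩ := h1 _ (AddSubgroup.add_mem _ (Tr_mono (by omega) (Dop_mem hN hm)) e5)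
    (e2.add e3) e4
  obtain ⟨f, hf1, hf2, hf3, hf4⟩ := exists_wt hN.comp_mem hr hrw
  have hb' : r - tau p l 0 s ^ (p - 1) * f (p - 1) ∈ Tr (M p l K) l 0 (p - 1) s := by
    have : r - tau p l 0 s ^ (p - 1) * f (p - 1) =
        ∑ i ∈ Finset.range (p - 1), tau p l 0 s ^ i * f i := by
      rw [hf4, hr0, Finset.sum_range_succ, add_sub_cancel_right]
    rw [this]
    exact ⟨f, hf1, rfl⟩
  have k1 : tau p l 0 (s + 1) ^ (p - 1) * (dE s (f (p - 1)) - c) ∈
      Tr (M p l K) l 0 (p - 1) (s + 1) := by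
    have k2 := dE_mem_Tr hN hb'
    have k3 := dE_tau_mul hN (p - 1) (hf1 (p - 1))
    have k4 := Dop_mem hN hm
    have k5 := AddSubgroup.sub_mem _ k4 (AddSubgroup.add_mem _ k2 k3)
    rw [map_sub, hrx] at k5
    convert k5 using 1
    ring
  obtain ⟨g, hg, hg'⟩ := k1
  have k6 := indep hN p le_rfl (fun i => if i = p - 1 then dE s (f (p - 1)) - c else - g i)
    (fun i => by
      split_ifs
      · exact AddSubgroup.sub_mem _ (dE_mem' hN.cof_mem (hf1 _)) hc
      · exact (M p l K _).neg_mem (hg i)) (by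
      rw [hr0, Finset.sum_range_succ, if_pos rfl, hg', ← Finset.sum_add_distrib]
      refine Finset.sum_eq_zero fun i hi => ?_
      rw [if_neg (by have := Finset.mem_range.1 hi; omega)]
      ring) (p - 1) (by omega)
  rw [if_pos rfl] at k6
  refine ⟨f (p - 1), hf1 _, (hf2 (p - 1) ?_).cast ?_, sub_eq_zero.1 k6⟩
  · rw [pow_zero, one_mul]
    omega
  · rw [pow_zero, one_mul]
    omega

end Vale.Agent.P257.V4.A.HC
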