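import Vale.Agent.P257.V4.A.F4A
import Vale.Agent.P257.V4.A.HDiv

/-!
# P257 / V4, part A: `cA` is a division datum for the letter `t_2` over the functions of `z_1`
-/

open MvPolynomial

namespace Vale.Agent.P257.V4.A.F4A

open Ch H

variable {p : ℕ} [Fact p.Prime]

theorem mem_M_of_ZD {s a K : ℕ} {x : Ch p (s + 1)} (hx : ZD a 0 x) : x ∈ M p 1 K s := by
  intro e he
  refine ⟨fun j hj => (hx e he).2.2 j hj, ?_⟩
  rw [Nat.le_zero.1 (hx e he).2.1]
  exact dvd_zero _

theorem divData {K : ℕ} (hK : 0 < K) : HC.DivData p 1 K (cA p) where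
  pos := hK
  mem := cA_mem K
  wt := cA_isWt.cast (by rw [N_two']; ring)
  D := D1_cA
  dmem := mem_M_of_ZD ZD_cB

end Vale.Agent.P257.V4.A.F4A
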