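import Vale.Agent.P257.V4.A.F4DFun

/-!
# P257, V(4), part A, block F4 (D): the value of the functional

`hR`: the 8-cocycle `- G (u u B + u B u + B u u)` is not a coboundary modulo `p`-th powers.
-/

namespace Vale.Agent.P257.V4.A.F4D

open Finset MvPolynomial F2

/-! ### the value of the functional on the cocycle -/

section value

variable {p : ℕ} {K : Type} [CommRing K]

/-- `G` on the abelian subgroup -/
def Gf (z : ℕ → K × K) : K :=
  ((z 1).1 - (z 0).1) * ((z 2).2 - (z 1).2) - ((z 1).2 - (z 0).2) * ((z 2).1 - (z 1).1)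

/-- `b_{10}` on the abelian subgroup -/
def Uf (p : ℕ) (z : ℕ → K × K) : K := Ch.Phi p ((z 1).2 - (z 0).2) ((z 2).2 - (z 1).2)

/-- `b_{20}` on the abelian subgroup -/
def Bf (p : ℕ) (z : ℕ → K × K) : K := Ch.Phi p ((z 1).1 - (z 0).1) ((z 2).1 - (z 1).1)

/-- `u u B + u B u + B u u` on the abelian subgroup -/
def Wf (p : ℕ) : (ℕ → K × K) → K :=
  cp 2 (Uf p) (cp 2 (Uf p) (Bf p)) + cp 2 (Uf p) (cp 2 (Bf p) (Uf p)) +
    cp 2 (Bf p) (cp 2 (Uf p) (Uf p))

theorem isC_Gf : IsC 2 (Gf (K := K)) where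
  loc z z' h := by
    unfold Gf
    rw [h 0 (by omega), h 1 (by omega), h 2 (by omega)]
  inv c z := by
    unfold Gf
    simp only [Prod.fst_add, Prod.snd_add, add_sub_add_left_eq_sub]

theorem kill_Uf [Fact p.Prime] : Kill 2 (Uf p (K := K)) where
  loc z z' h := by
    unfold Uf
    rw [h 0 (by omega), h 1 (by omega), h 2 (by omega)]
  inv c z := by
    unfold Uf
    simp only [Prod.snd_add, add_sub_add_left_eq_sub]
  kill c z := by
    simp only [I, sum_range_succ, sum_range_zero, Uf, ins]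
    simp only [zero_add, pow_zero, one_smul, pow_one, neg_smul, Nat.le_refl, if_true,
      Nat.zero_le, show ¬ (1 ≤ 0) by omega, show ¬ (2 ≤ 0) by omega, show ¬ (2 ≤ 1) by omega,
      if_false, Nat.sub_self, show 2 - 1 = 1 by omega, Prod.snd_add, add_sub_cancel_right,
      add_sub_add_left_eq_sub]
    rw [Ch.Phi_comm, ← sub_eq_add_neg, sub_self]

theorem kill_Bf [Fact p.Prime] : Kill 2 (Bf p (K := K)) where
  loc z z' h := by
    unfold Bf
    rw [h 0 (by omega), h 1 (by omega), h 2 (by omega)]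
  inv c z := by
    unfold Bf
    simp only [Prod.fst_add, add_sub_add_left_eq_sub]
  kill c z := by
    simp only [I, sum_range_succ, sum_range_zero, Bf, ins]
    simp only [zero_add, pow_zero, one_smul, pow_one, neg_smul, Nat.le_refl, if_true,
      Nat.zero_le, show ¬ (1 ≤ 0) by omega, show ¬ (2 ≤ 0) by omega, show ¬ (2 ≤ 1) by omega,
      if_false, Nat.sub_self, show 2 - 1 = 1 by omega, Prod.fst_add, add_sub_cancel_right,
      add_sub_add_left_eq_sub]
    rw [Ch.Phi_comm, ← sub_eq_add_neg, sub_self]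

theorem kill_Wf [Fact p.Prime] : Kill 6 (Wf p (K := K)) :=
  ((kill_Uf.cp rfl (kill_Uf.cp rfl kill_Bf)).add (kill_Uf.cp rfl (kill_Bf.cp rfl kill_Uf))).add
    (kill_Bf.cp rfl (kill_Uf.cp rfl kill_Uf))

theorem I_Gf (c : K × K) (z : ℕ → K × K) :
    I 2 c Gf z = 2 * (c.1 * ((z 1).2 - (z 0).2) - c.2 * ((z 1).1 - (z 0).1)) := by
  simp only [I, sum_range_succ, sum_range_zero, Gf, ins]
  simp only [zero_add, pow_zero, one_smul, pow_one, neg_smul, Nat.le_refl, if_true,
    Nat.zero_le, show ¬ (1 ≤ 0) by omega, show ¬ (2 ≤ 0) by omega, show ¬ (2 ≤ 1) by omega,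
    if_false, Nat.sub_self, show 2 - 1 = 1 by omega, Prod.fst_add, Prod.snd_add]
  ring

theorem I_I_Gf (c c' : K × K) (z : ℕ → K × K) :
    I 1 c' (I 2 c Gf) z = 2 * (c.1 * c'.2 - c.2 * c'.1) := by
  rw [I, sum_range_one, pow_zero, one_smul, I_Gf, ins_zero]
  unfold ins
  rw [if_neg (by omega), Nat.sub_self, Prod.fst_add, Prod.snd_add]
  ring

theorem I_I_GW [Fact p.Prime] (c c' : K × K) (z : ℕ → K × K) :
    I 7 c' (I 8 c (cp 2 Gf (Wf p))) z = 2 * (c.1 * c'.2 - c.2 * c'.1) * Wf p z := by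
  have e1 : I 8 c (cp 2 Gf (Wf p)) = cp 1 (I 2 c (Gf (K := K))) (Wf p) := by
    funext z
    rw [I_cp (show 2 + 6 = 8 by rfl) isC_Gf kill_Wf.toIsC, kill_Wf.kill, mul_zero, smul_zero,
      add_zero, cp]
  rw [e1, I_cp (show 1 + 6 = 7 by rfl) (isC_Gf.I c) kill_Wf.toIsC, kill_Wf.kill, mul_zero,
    smul_zero, add_zero, I_I_Gf]
  rfl

end value

section value2

variable {p : ℕ}

theorem it_X_pow (l a m : ℕ) :
    it l a (X l ^ m : KK p) = (m.descFactorial a : KK p) * X l ^ (m - a) := by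
  induction a generalizing m with
  | zero => rw [it_zero, Nat.descFactorial_zero, Nat.cast_one, one_mul, Nat.sub_zero]
  | succ a ih =>
    rcases m with _ | m
    · rw [pow_zero, it_succ, Derivation.map_one_eq_zero, map_zero, Nat.zero_descFactorial_succ,
        Nat.cast_zero, zero_mul]
    · have h1 : pderiv l (X l ^ (m + 1) : KK p) = (m + 1 : ℕ) • (X l ^ m : KK p) := by
        rw [Derivation.leibniz_pow, pderiv_X_self, Nat.add_sub_cancel, smul_eq_mul, mul_one]
      rw [it_succ, h1, map_nsmul, ih, Nat.succ_descFactorial_succ, Nat.add_sub_add_right,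
        nsmul_eq_mul, Nat.cast_mul, mul_assoc]

theorem pderiv_Phi {k a b : ℕ} (ha : a ≠ k) (hb : b ≠ k) :
    pderiv k (Ch.Phi p (X a) (X b) : KK p) = 0 := by
  unfold Ch.Phi
  rw [map_sum]
  refine sum_eq_zero fun j _ => ?_
  rw [map_zsmul, Derivation.leibniz, Derivation.leibniz_pow, Derivation.leibniz_pow,
    pderiv_X_of_ne ha, pderiv_X_of_ne hb]
  simp

variable [Fact p.Prime]

theorem it_Phi {k l : ℕ} (h : k ≠ l) :
    it k 1 (it l (p - 1) (Ch.Phi p (X k) (X l) : KK p)) = -1 := by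
  have hp : p.Prime := Fact.out
  have hp2 := hp.two_le
  unfold Ch.Phi
  rw [map_sum, map_sum, Finset.sum_eq_single 1]
  · have e1 : ((p.choose 1 / p : ℕ) : ℤ) = 1 := by
      rw [Nat.choose_one_right, Nat.div_self hp.pos]
      rfl
    have e2 : it l (p - 1) (X k ^ 1 * X l ^ (p - 1) : KK p) = ((p - 1).factorial : KK p) * X k := by
      rw [mul_comm, it_mul, it_X_pow, Nat.descFactorial_self, Nat.sub_self, pow_zero, mul_one,
        pow_one]
      rw [pow_one, pderiv_X_of_ne h]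
    rw [e1, one_smul, e2, mul_comm, it_mul, it_one, pderiv_X_self, one_mul]
    · have := congrArg (algebraMap (ZMod p) (KK p)) (ZMod.wilsons_lemma p)
      rwa [map_natCast, map_neg, map_one] at this
    · exact Derivation.map_natCast _ _
  · intro j hj hj1
    rw [mem_Ioo] at hj
    have e2 : it l (p - 1) (X k ^ j * X l ^ (p - j) : KK p) = 0 := by
      rw [mul_comm, it_mul, it_X_pow, Nat.descFactorial_eq_zero_iff_lt.2 (by omega),
        Nat.cast_zero, zero_mul, zero_mul]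
      rw [Derivation.leibniz_pow, pderiv_X_of_ne h, smul_zero, smul_zero]
    rw [map_zsmul, map_zsmul, e2, map_zero, smul_zero]
  · intro h1
    exact absurd (mem_Ioo.2 ⟨one_pos, by omega⟩) h1

theorem it_Phi_mul {k l : ℕ} (h : k ≠ l) {Q : KK p} (hk : pderiv k Q = 0) (hl : pderiv l Q = 0) :
    it k 1 (it l (p - 1) (Ch.Phi p (X k) (X l) * Q)) = - Q := by
  rw [it_mul hl, it_mul hk, it_Phi h, neg_one_mul]

/-- the value of the functional on the basic product -/
theorem kap_value : kap p (X 7 * (X 6 * (Ch.Phi p (X 4) (X 5) * (Ch.Phi p (X 2) (X 3) *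
    Ch.Phi p (X 0) (X 1))))) = -1 := by
  have h2 : ∀ k, 4 ≤ k → pderiv k (Ch.Phi p (X 2) (X 3) * Ch.Phi p (X 0) (X 1) : KK p) = 0 := by
    intro k hk
    rw [Derivation.leibniz, pderiv_Phi (by omega) (by omega), pderiv_Phi (by omega) (by omega),
      smul_zero, smul_zero, add_zero]
  have h3 : ∀ k, 6 ≤ k → pderiv k (Ch.Phi p (X 4) (X 5) * (Ch.Phi p (X 2) (X 3) *
      Ch.Phi p (X 0) (X 1)) : KK p) = 0 := by
    intro k hk
    rw [Derivation.leibniz, h2 k (by omega), pderiv_Phi (by omega) (by omega), smul_zero,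
      smul_zero, add_zero]
  have h4 : pderiv 7 (X 6 * (Ch.Phi p (X 4) (X 5) * (Ch.Phi p (X 2) (X 3) *
      Ch.Phi p (X 0) (X 1))) : KK p) = 0 := by
    rw [Derivation.leibniz, h3 7 (by omega), pderiv_X_of_ne (by omega), smul_zero, smul_zero,
      add_zero]
  rw [kap_apply, it_mul h4, it_one 7, pderiv_X_self, one_mul, it_mul (h3 6 le_rfl), it_one 6,
    pderiv_X_self, one_mul, it_Phi_mul (by omega) (h2 4 le_rfl) (h2 5 (by omega)), map_neg,
    map_neg, it_Phi_mul (by omega) (pderiv_Phi (by omega) (by omega))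
      (pderiv_Phi (by omega) (by omega)), neg_neg, it_Phi (by omega), map_neg, map_one]

theorem SS_succ_sub (j : ℕ) : SS p (j + 1) - SS p j = X j := by
  rw [SS, SS, sum_range_succ, add_sub_cancel_left]

theorem Wf_ww : Wf p (ww p) = 3 * (Ch.Phi p (X 4) (X 5) * (Ch.Phi p (X 2) (X 3) *
    Ch.Phi p (X 0) (X 1))) := by
  have h : ∀ j, SS p (j + 1) - SS p j = X j := SS_succ_sub
  have h1 := h 0
  have h2 := h 1
  have h3 := h 2
  have h4 := h 3
  have h5 := h 4
  have h6 := h 5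
  simp only [Nat.reduceAdd] at h1 h2 h3 h4 h5 h6
  simp only [Wf, Pi.add_apply, cp, Uf, Bf, ww, Nat.reduceAdd, h1, h2, h3, h4, h5, h6]
  ring

theorem I_neg {M K : Type} [AddCommGroup M] [CommRing K] (n : ℕ) (c : M) (F : (ℕ → M) → K) :
    I n c (-F) = - I n c F := by
  funext z
  simp only [I, Pi.neg_apply, smul_neg, sum_neg_distrib]

/-- The value of the functional. -/
theorem Lam_value {R : UC p 8}
    (hR : (fun z : ℕ → KK p × KK p => ev p 8 z R) = - cp 2 Gf (Wf p)) : Lam R = 6 := by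
  have e1 : (2 * ((c1 p).1 * (c2 p).2 - (c1 p).2 * (c2 p).1) * Wf p (ww p) : KK p) =
      (6 : ZMod p) • (X 7 * (X 6 * (Ch.Phi p (X 4) (X 5) * (Ch.Phi p (X 2) (X 3) *
        Ch.Phi p (X 0) (X 1))))) := by
    rw [Wf_ww, Algebra.smul_def, map_ofNat]
    change 2 * (X 6 * X 7 - 0 * 0) * _ = _
    ring
  rw [Lam, hR, I_neg, I_neg, Pi.neg_apply, I_I_GW, e1, map_neg, map_smul, kap_value]
  simp

theorem six_ne_zero' (hp : 5 ≤ p) : (6 : ZMod p) ≠ 0 := by
  intro h
  have h1 : ((6 : ℕ) : ZMod p) = 0 := by exact_mod_cast h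
  rw [ZMod.natCast_eq_zero_iff] at h1
  have h2 := Nat.le_of_dvd (by omega) h1
  interval_cases p
  · omega
  · exact absurd (Fact.out : (6 : ℕ).Prime) (by decide)

/-- **(D)**: the cocycle is not a coboundary. -/
theorem eq_zero_of (hp : 5 ≤ p) {R : UC p 8}
    (hR : (fun z : ℕ → KK p × KK p => ev p 8 z R) = - cp 2 Gf (Wf p)) (c : ZMod p)
    (f : UC p 7) (h : InJ (c • R - UC.d 7 f)) : c = 0 := by
  have h1 := Lam_inJ h
  rw [Lam_sub, Lam_d, Lam_smul, Lam_value hR, sub_zero, mul_eq_zero] at h1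
  exact h1.resolve_right (six_ne_zero' hp)

end value2

/-! ### the cochains of `F4Coch` on the abelian subgroup -/

section coch

variable {p : ℕ} {K : Type} [CommRing K] [Algebra (ZMod p) K]

theorem ev_vl {n : ℕ} (z : ℕ → K × K) (f : UC p n) :
    ev p n z f = UV.vl f fun j => rho (z j) := rfl

theorem en_rho (i k : ℕ) (a b : K × K) : F4C.en i k (rho a) (rho b) = (rho (b - a)).e i k := by
  rw [F4C.en, rho_mul_inv]

theorem ev_ta (z : ℕ → K × K) : ev p 1 z (F4C.ta p) = 0 := by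
  rw [ev_vl, F4C.vl_ta, en_rho]
  rfl

theorem ev_tt (z : ℕ → K × K) : ev p 1 z (F4C.tt p) = (z 1).2 - (z 0).2 := by
  rw [ev_vl, F4C.vl_tt, en_rho]
  rfl

theorem ev_ka (z : ℕ → K × K) : ev p 1 z (F4C.ka p) = (z 1).1 - (z 0).1 := by
  rw [ev_vl, F4C.vl_ka, en_rho]
  rfl

theorem ev_hp (z : ℕ → K × K) : ev p 1 z (F4C.hp p) = - ((z 1).1 - (z 0).1) := by
  rw [F4C.hp, map_sub, map_mul, ev_ta, ev_ka, zero_mul, zero_sub]

theorem ev_uu : (fun z : ℕ → K × K => ev p 2 z (F4C.uu p)) = Uf p := by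
  funext z
  rw [ev_vl, F4C.vl_uu, en_rho, en_rho]
  rfl

theorem Phi_zero_right {R : Type} [CommRing R] (x : R) : Ch.Phi p x 0 = 0 := by
  unfold Ch.Phi
  refine sum_eq_zero fun j hj => ?_
  rw [mem_Ioo] at hj
  rw [zero_pow (by omega), mul_zero, smul_zero]

theorem ev_BB : (fun z : ℕ → K × K => ev p 2 z (F4C.BB p)) = Bf p := by
  funext z
  have h : (rho (z 1 - z 0)).e 1 1 = 0 := rfl
  rw [ev_vl, F4C.vl_BB, en_rho, en_rho, en_rho, en_rho, h, mul_zero, Phi_zero_right, zero_add,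
    add_zero]
  rfl

/-- the 2-cocycle `G = t_13 ∪ t_23 + t_23 ∪ (t_12 t_23 - t_13)` -/
noncomputable def GG (p : ℕ) : UC p 2 :=
  UC.cup rfl (F4C.ka p) (F4C.tt p) + UC.cup rfl (F4C.tt p) (F4C.hp p)

theorem ev_GG : (fun z : ℕ → K × K => ev p 2 z (GG p)) = Gf := by
  funext z
  have e1 := congrFun (ev_cup (K := K) (show 1 + 1 = 2 from rfl) (F4C.ka p) (F4C.tt p)) z
  have e2 := congrFun (ev_cup (K := K) (show 1 + 1 = 2 from rfl) (F4C.tt p) (F4C.hp p)) z
  simp only [cp, ev_ka, ev_tt, ev_hp, Nat.reduceAdd, zero_add] at e1 e2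
  rw [GG, map_add, e1, e2, Gf]
  ring

/-- a product of four 2-cochains, nested to the left -/
noncomputable def w4 (x y z w : UC p 2) : UC p 8 :=
  UC.cup (show 6 + 2 = 8 from rfl) (UC.cup (show 4 + 2 = 6 from rfl)
    (UC.cup (show 2 + 2 = 4 from rfl) x y) z) w

/-- the 8-cocycle `- (G u u B + G u B u + G B u u)` -/
noncomputable def RR (p : ℕ) : UC p 8 :=
  - (w4 (GG p) (F4C.uu p) (F4C.uu p) (F4C.BB p) + w4 (GG p) (F4C.uu p) (F4C.BB p) (F4C.uu p) +
      w4 (GG p) (F4C.BB p) (F4C.uu p) (F4C.uu p))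

theorem ev_add {n : ℕ} (f g : UC p n) : (fun z : ℕ → K × K => ev p n z (f + g)) =
    (fun z => ev p n z f) + fun z => ev p n z g := by
  funext z
  exact map_add _ _ _

theorem ev_neg {n : ℕ} (f : UC p n) : (fun z : ℕ → K × K => ev p n z (-f)) =
    - fun z => ev p n z f := by
  funext z
  exact map_neg _ _

theorem ev_w4 (x y z w : UC p 2) : (fun a : ℕ → K × K => ev p 8 a (w4 x y z w)) =
    cp 6 (cp 4 (cp 2 (fun a => ev p 2 a x) fun a => ev p 2 a y) fun a => ev p 2 a z)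
      fun a => ev p 2 a w := by
  rw [w4, ev_cup, ev_cup, ev_cup]

theorem ev_RR : (fun z : ℕ → K × K => ev p 8 z (RR p)) = - cp 2 Gf (Wf p) := by
  rw [RR, ev_neg, ev_add, ev_add, ev_w4, ev_w4, ev_w4, ev_uu, ev_BB, ev_GG]
  congr 1
  funext z
  simp only [Wf, cp, Pi.add_apply, add_assoc, Nat.reduceAdd]
  ring

end coch

/-- **(D)** for the cocycle `RR`. -/
theorem hR {p : ℕ} [Fact p.Prime] (hp : 5 ≤ p) (c : ZMod p) (f : UC p 7)
    (h : InJ (c • RR p - UC.d 7 f)) : c = 0 := eq_zero_of hp ev_RR c f h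

end Vale.Agent.P257.V4.A.F4D
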