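import Mathlib.Algebra.MvPolynomial.PDeriv
import Mathlib.Algebra.MvPolynomial.Supported
import Mathlib.RingTheory.MvPolynomial.WeightedHomogeneous
import Mathlib.RingTheory.MvPolynomial.EulerIdentity
import Mathlib.Algebra.Field.ZMod
import Mathlib.Data.Nat.Factorial.Basic
import Mathlib.Data.Nat.Prime.Factorial

/-!
# P257, V(4): polynomials modulo `p`-th powers of the variables

`PJ p z`: every monomial of `z` is divisible by the `p`-th power of some variable.  Three lemmas on
the derivation `∂ = pderiv v` modulo `PJ`: the kernel of `∂` (`pj_sub_cut`), the image of `∂`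
(`pj_sub_pderiv_intg`), and `∂ ^ p = 0`.
-/

namespace Vale.Agent.P257.V4.A.MG

open MvPolynomial

variable {p : ℕ} {σ : Type*}

/-- Every monomial of `z` is divisible by the `p`-th power of some variable. -/
def PJ (p : ℕ) {σ : Type*} (z : MvPolynomial σ (ZMod p)) : Prop :=
  ∀ m ∈ z.support, ∃ v, p ≤ m v

theorem PJ.zero : PJ p (0 : MvPolynomial σ (ZMod p)) := by
  intro m hm
  simp at hm

theorem PJ.add {a b : MvPolynomial σ (ZMod p)} (ha : PJ p a) (hb : PJ p b) : PJ p (a + b) := by
  classical
  intro m hm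
  rcases Finset.mem_union.1 (support_add hm) with h | h
  · exact ha m h
  · exact hb m h

theorem PJ.neg {a : MvPolynomial σ (ZMod p)} (ha : PJ p a) : PJ p (-a) := by
  intro m hm
  rw [support_neg] at hm
  exact ha m hm

theorem PJ.sub {a b : MvPolynomial σ (ZMod p)} (ha : PJ p a) (hb : PJ p b) : PJ p (a - b) := by
  rw [sub_eq_add_neg]
  exact ha.add hb.neg

theorem PJ.mul_left {a : MvPolynomial σ (ZMod p)} (ha : PJ p a) (b : MvPolynomial σ (ZMod p)) :
    PJ p (b * a) := by
  classical
  intro m hm
  obtain ⟨x, -, y, hy, rfl⟩ := Finset.mem_add.1 (support_mul _ _ hm)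
  obtain ⟨v, hv⟩ := ha y hy
  exact ⟨v, by rw [Finsupp.add_apply]; omega⟩

theorem PJ.mul_right {a : MvPolynomial σ (ZMod p)} (ha : PJ p a) (b : MvPolynomial σ (ZMod p)) :
    PJ p (a * b) := by
  rw [mul_comm]
  exact ha.mul_left b

theorem PJ.sum {ι : Type*} (s : Finset ι) (f : ι → MvPolynomial σ (ZMod p))
    (h : ∀ i ∈ s, PJ p (f i)) : PJ p (∑ i ∈ s, f i) := by
  classical
  induction s using Finset.induction_on with
  | empty => rw [Finset.sum_empty]; exact PJ.zero
  | insert a s ha ih =>
    rw [Finset.sum_insert ha]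
    exact (h a (Finset.mem_insert_self _ _)).add
      (ih fun i hi => h i (Finset.mem_insert_of_mem hi))

theorem PJ.zsmul {a : MvPolynomial σ (ZMod p)} (ha : PJ p a) (n : ℤ) : PJ p (n • a) := by
  rw [zsmul_eq_mul]
  exact ha.mul_left _

theorem PJ.of_eq_zero {a : MvPolynomial σ (ZMod p)} (h : a = 0) : PJ p a := by
  rw [h]
  exact PJ.zero

/-- A polynomial which is a constant and lies in `PJ` is zero. -/
theorem PJ.X_pow (v : σ) {n : ℕ} (hn : p ≤ n) : PJ p (X v ^ n : MvPolynomial σ (ZMod p)) := by
  classical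
  intro m hm
  rw [X_pow_eq_monomial] at hm
  have := support_monomial_subset hm
  rw [Finset.mem_singleton] at this
  subst this
  exact ⟨v, by simpa using hn⟩

section deriv

variable [Fact p.Prime]

/-! ### coefficients of iterated derivatives -/

theorem coeff_iterate_pderiv (v : σ) (k : ℕ) (f : MvPolynomial σ (ZMod p)) (m : σ →₀ ℕ) :
    coeff m ((pderiv v)^[k] f) =
      coeff (m + Finsupp.single v k) f * ((m v + 1).ascFactorial k : ℕ) := by
  induction k generalizing m with
  | zero => simp
  | succ k ih =>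
    rw [Function.iterate_succ_apply', coeff_pderiv, ih, add_assoc, ← Finsupp.single_add,
      add_comm 1 k, mul_assoc]
    congr 1
    have e : (m + Finsupp.single v 1 : σ →₀ ℕ) v + 1 = m v + 1 + 1 := by
      rw [Finsupp.add_apply, Finsupp.single_eq_same]
    rw [e, Nat.ascFactorial_succ, ← Nat.succ_ascFactorial, mul_comm (m v + 1)]
    push_cast
    rfl

theorem iterate_pderiv_p (v : σ) (f : MvPolynomial σ (ZMod p)) : (pderiv v)^[p] f = 0 := by
  ext m
  rw [coeff_iterate_pderiv, coeff_zero]
  have h : p ∣ (m v + 1).ascFactorial p :=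
    (Nat.dvd_factorial (Fact.out : p.Prime).pos le_rfl).trans (Nat.factorial_dvd_ascFactorial _ _)
  rw [(ZMod.natCast_eq_zero_iff _ _).2 h, mul_zero]

theorem PJ.pderiv {f : MvPolynomial σ (ZMod p)} (hf : PJ p f) (v : σ) : PJ p (pderiv v f) := by
  intro m hm
  rw [mem_support_iff, coeff_pderiv] at hm
  obtain ⟨w, hw⟩ := hf _ (mem_support_iff.2 (left_ne_zero_of_mul hm))
  by_cases hwv : w = v
  · subst hwv
    rw [Finsupp.add_apply, Finsupp.single_eq_same] at hw
    have h2 : ((m w : ZMod p) + 1) ≠ 0 := right_ne_zero_of_mul hm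
    refine ⟨w, ?_⟩
    by_contra h
    have h3 : m w + 1 = p := by omega
    apply h2
    have : ((m w + 1 : ℕ) : ZMod p) = 0 := by rw [h3, ZMod.natCast_self]
    simpa using this
  · refine ⟨w, ?_⟩
    rwa [Finsupp.add_apply, Finsupp.single_eq_of_ne hwv, add_zero] at hw

theorem PJ.iterate_pderiv {f : MvPolynomial σ (ZMod p)} (hf : PJ p f) (v : σ) (k : ℕ) :
    PJ p ((MvPolynomial.pderiv v)^[k] f) := by
  induction k with
  | zero => exact hf
  | succ k ih =>
    rw [Function.iterate_succ_apply']
    exact ih.pderiv v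

/-! ### killing a variable -/

open Classical in
/-- Put the variable `v` equal to zero. -/
noncomputable def cut (v : σ) (f : MvPolynomial σ (ZMod p)) : MvPolynomial σ (ZMod p) :=
  ∑ m ∈ f.support with m v = 0, monomial m (coeff m f)

open Classical in
theorem coeff_cut (v : σ) (f : MvPolynomial σ (ZMod p)) (m : σ →₀ ℕ) :
    coeff m (cut v f) = if m v = 0 then coeff m f else 0 := by
  rw [cut, coeff_sum]
  simp only [coeff_monomial]
  rw [Finset.sum_ite_eq']
  simp only [Finset.mem_filter, mem_support_iff]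
  by_cases h : m v = 0
  · by_cases h2 : coeff m f = 0 <;> simp [h, h2]
  · simp [h]

/-- The kernel of `∂` modulo `p`-th powers. -/
theorem pj_sub_cut (v : σ) {f : MvPolynomial σ (ZMod p)} (hf : PJ p (pderiv v f)) :
    PJ p (f - cut v f) := by
  classical
  intro m hm
  rw [mem_support_iff, coeff_sub, coeff_cut] at hm
  by_cases h : m v = 0
  · rw [if_pos h, sub_self] at hm
    exact absurd rfl hm
  · rw [if_neg h, sub_zero] at hm
    by_contra hc
    push Not at hc
    have e : m - Finsupp.single v 1 + Finsupp.single v 1 = m := by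
      ext w
      by_cases hw : w = v
      · subst hw
        simp
        omega
      · simp [Finsupp.single_eq_of_ne hw]
    have h1 : coeff (m - Finsupp.single v 1) (pderiv v f) ≠ 0 := by
      rw [coeff_pderiv, e]
      refine mul_ne_zero hm ?_
      have e2 : (((m - Finsupp.single v 1 : σ →₀ ℕ) v : ℕ) : ZMod p) + 1 = ((m v : ℕ) : ZMod p) := by
        rw [Finsupp.tsub_apply, Finsupp.single_eq_same]
        have : m v = (m v - 1) + 1 := by omega
        conv_rhs => rw [this]
        push_cast
        rfl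
      rw [e2]
      intro h0
      rw [ZMod.natCast_eq_zero_iff] at h0
      exact absurd (Nat.le_of_dvd (Nat.pos_of_ne_zero h) h0) (not_le.2 (hc v))
    obtain ⟨w, hw⟩ := hf _ (mem_support_iff.2 h1)
    have := hc w
    rw [Finsupp.tsub_apply] at hw
    omega

/-! ### integration -/

/-- A primitive with respect to the variable `v` (as far as possible). -/
noncomputable def intg (v : σ) (f : MvPolynomial σ (ZMod p)) : MvPolynomial σ (ZMod p) :=
  ∑ m ∈ f.support, monomial (m + Finsupp.single v 1) (coeff m f * ((m v : ZMod p) + 1)⁻¹)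

open Classical in
theorem coeff_intg (v : σ) (f : MvPolynomial σ (ZMod p)) (m : σ →₀ ℕ) :
    coeff (m + Finsupp.single v 1) (intg v f) = coeff m f * ((m v : ZMod p) + 1)⁻¹ := by
  rw [intg, coeff_sum]
  have : ∀ x ∈ f.support, coeff (m + Finsupp.single v 1)
      (monomial (x + Finsupp.single v 1) (coeff x f * ((x v : ZMod p) + 1)⁻¹)) =
      if x = m then coeff m f * ((m v : ZMod p) + 1)⁻¹ else 0 := by
    intro x _
    rw [coeff_monomial]
    by_cases h : x = m
    · subst h
      simp
    · rw [if_neg h, if_neg]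
      intro h2
      exact h (add_right_cancel h2)
  rw [Finset.sum_congr rfl this, Finset.sum_ite_eq']
  split_ifs with h
  · rfl
  · rw [notMem_support_iff.1 h, zero_mul]

/-- The image of `∂` modulo `p`-th powers. -/
theorem pj_sub_pderiv_intg (v : σ) {f : MvPolynomial σ (ZMod p)}
    (hf : PJ p ((pderiv v)^[p - 1] f)) : PJ p (f - pderiv v (intg v f)) := by
  classical
  intro m hm
  rw [mem_support_iff, coeff_sub, coeff_pderiv, coeff_intg] at hm
  have hp := (Fact.out : p.Prime)
  by_cases h : (m v : ZMod p) + 1 = 0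
  · rw [h, mul_zero, sub_zero] at hm
    have h1 : p ∣ m v + 1 := by
      rw [← ZMod.natCast_eq_zero_iff]
      simpa using h
    have h2 : p ≤ m v + 1 := Nat.le_of_dvd (Nat.succ_pos _) h1
    by_cases h3 : p ≤ m v
    · exact ⟨v, h3⟩
    · have h4 : m v = p - 1 := by omega
      have e : m - Finsupp.single v (p - 1) + Finsupp.single v (p - 1) = m := by
        ext w
        by_cases hw : w = v
        · subst hw
          simp [h4]
        · simp [Finsupp.single_eq_of_ne hw]
      have h5 : coeff (m - Finsupp.single v (p - 1)) ((pderiv v)^[p - 1] f) ≠ 0 := by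
        rw [coeff_iterate_pderiv, e]
        refine mul_ne_zero hm ?_
        rw [Finsupp.tsub_apply, Finsupp.single_eq_same, h4, Nat.sub_self, zero_add,
          Nat.one_ascFactorial]
        intro h0
        rw [ZMod.natCast_eq_zero_iff, hp.dvd_factorial] at h0
        have := hp.pos
        omega
      obtain ⟨w, hw⟩ := hf _ (mem_support_iff.2 h5)
      refine ⟨w, hw.trans ?_⟩
      rw [Finsupp.tsub_apply]
      omega
  · rw [mul_assoc, inv_mul_cancel₀ h, mul_one, sub_self] at hm
    exact absurd rfl hm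

end deriv

/-! ### variables which occur -/

/-- Only variables of `S` occur in `f`. -/
def Dep (S : Set σ) (f : MvPolynomial σ (ZMod p)) : Prop :=
  ∀ m, coeff m f ≠ 0 → ∀ v, m v ≠ 0 → v ∈ S

theorem dep_iff {S : Set σ} {f : MvPolynomial σ (ZMod p)} :
    Dep S f ↔ f ∈ supported (ZMod p) S := by
  rw [mem_supported]
  constructor
  · intro h v hv
    obtain ⟨m, hm, hv⟩ := (mem_vars_iff_mem_support v).1 (Finset.mem_coe.1 hv)
    exact h m (mem_support_iff.1 hm) v (Finsupp.mem_support_iff.1 hv)
  · intro h m hm v hv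
    exact h (Finset.mem_coe.2 ((mem_vars_iff_mem_support v).2
      ⟨m, mem_support_iff.2 hm, Finsupp.mem_support_iff.2 hv⟩))

theorem Dep.mono {S S' : Set σ} (h : S ⊆ S') {f : MvPolynomial σ (ZMod p)} (hf : Dep S f) :
    Dep S' f := fun m hm v hv => h (hf m hm v hv)

theorem Dep.sub {S : Set σ} {f g : MvPolynomial σ (ZMod p)} (hf : Dep S f) (hg : Dep S g) :
    Dep S (f - g) := dep_iff.2 (sub_mem (dep_iff.1 hf) (dep_iff.1 hg))

section deriv

variable [Fact p.Prime]

theorem Dep.pderiv {S : Set σ} {f : MvPolynomial σ (ZMod p)} (hf : Dep S f) (v : σ) :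
    Dep S (pderiv v f) := by
  intro m hm w hw
  rw [coeff_pderiv] at hm
  refine hf _ (left_ne_zero_of_mul hm) w ?_
  rw [Finsupp.add_apply]
  omega

theorem Dep.iterate_pderiv {S : Set σ} {f : MvPolynomial σ (ZMod p)} (hf : Dep S f) (v : σ)
    (k : ℕ) : Dep S ((MvPolynomial.pderiv v)^[k] f) := by
  induction k with
  | zero => exact hf
  | succ k ih =>
    rw [Function.iterate_succ_apply']
    exact ih.pderiv v

theorem Dep.cut {S : Set σ} {v : σ} {f : MvPolynomial σ (ZMod p)} (hf : Dep (insert v S) f) :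
    Dep S (cut v f) := by
  classical
  intro m hm w hw
  rw [coeff_cut] at hm
  split_ifs at hm with h
  · rcases hf m hm w hw with rfl | h'
    · exact absurd h hw
    · exact h'
  · exact absurd rfl hm

theorem coeff_intg_ne {v : σ} {f : MvPolynomial σ (ZMod p)} {m : σ →₀ ℕ}
    (h : coeff m (intg v f) ≠ 0) : ∃ x, coeff x f ≠ 0 ∧ m = x + Finsupp.single v 1 := by
  classical
  rw [intg, coeff_sum] at h
  obtain ⟨x, hx, hx2⟩ := Finset.exists_ne_zero_of_sum_ne_zero h
  rw [coeff_monomial] at hx2
  split_ifs at hx2 with h2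
  · exact ⟨x, mem_support_iff.1 hx, h2.symm⟩
  · exact absurd rfl hx2

theorem Dep.intg {S : Set σ} {v : σ} {f : MvPolynomial σ (ZMod p)} (hv : v ∈ S) (hf : Dep S f) :
    Dep S (intg v f) := by
  intro m hm w hw
  obtain ⟨x, hx, rfl⟩ := coeff_intg_ne hm
  by_cases hwv : w = v
  · rwa [hwv]
  · refine hf x hx w ?_
    rwa [Finsupp.add_apply, Finsupp.single_eq_of_ne hwv, add_zero] at hw

/-! ### weights -/

variable {M : Type*} [AddCommMonoid M] {w : σ → M}

theorem isWH_cut {v : σ} {f : MvPolynomial σ (ZMod p)} {n : M}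
    (hf : IsWeightedHomogeneous w f n) : IsWeightedHomogeneous w (cut v f) n := by
  classical
  intro m hm
  rw [coeff_cut] at hm
  split_ifs at hm with h
  · exact hf hm
  · exact absurd rfl hm

theorem isWH_intg {v : σ} {f : MvPolynomial σ (ZMod p)} {n : M}
    (hf : IsWeightedHomogeneous w f n) : IsWeightedHomogeneous w (intg v f) (n + w v) := by
  intro m hm
  obtain ⟨x, hx, rfl⟩ := coeff_intg_ne hm
  rw [map_add, hf hx, Finsupp.weight_single, one_smul]

end deriv

theorem isWH_iterate_pderiv {M : Type*} [AddCancelCommMonoid M] {w : σ → M} (v : σ) (k : ℕ)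
    {f : MvPolynomial σ (ZMod p)} {n : M} (hf : IsWeightedHomogeneous w f (n + k • w v)) :
    IsWeightedHomogeneous w ((pderiv v)^[k] f) n := by
  induction k generalizing f with
  | zero => simpa using hf
  | succ k ih =>
    rw [Function.iterate_succ_apply]
    refine ih (hf.pderiv ?_)
    rw [succ_nsmul, add_assoc]

end Vale.Agent.P257.V4.A.MG
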