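import Vale.Agent.P257.V4.A.F2Slant
import Vale.Agent.P257.V4.A.MGPoly
import Vale.Agent.P257.V4.A.F4Coch

/-!
# P257, V(4), part A, block F4 (D): detection on an abelian subgroup

`rho (x, y) = exp (x (e_02 + e_13) + y (e_01 + e_23))` is a homomorphism from pairs to
unitriangular matrices. For cochains of an abelian group the operators
`I_c f (z_0, …, z_{n-1}) = ∑ (-1)^r f (z_0, …, z_r, c + z_r, …, c + z_{n-1})` anticommute with the
differential and are derivations for the cup product. Applying two of them and then an explicit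
differential operator we get a linear functional on `UC p 8` which kills all coboundaries and the
ideal of `p`-th powers, but not the cocycle of F4 (D).
-/

namespace Vale.Agent.P257.V4.A.F4D

open Finset MvPolynomial F2

/-! ### the homomorphism `rho` -/

section rho

variable {K L : Type} [CommRing K] [CommRing L]

/-- the abelian subgroup -/
def rho (z : K × K) : Un K where
  e i n := if n = 0 then 1 else if i = 0 ∧ n = 1 then z.2 else if i = 0 ∧ n = 2 then z.1
    else if i = 0 ∧ n = 3 then z.1 * z.2 else if i = 1 ∧ n = 2 then z.1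
    else if i = 2 ∧ n = 1 then z.2 else 0
  e_zero _ := if_pos rfl

theorem rho_e (z : K × K) (i n : ℕ) : (rho z).e i n =
    if n = 0 then 1 else if i = 0 ∧ n = 1 then z.2 else if i = 0 ∧ n = 2 then z.1
    else if i = 0 ∧ n = 3 then z.1 * z.2 else if i = 1 ∧ n = 2 then z.1
    else if i = 2 ∧ n = 1 then z.2 else 0 := rfl

theorem rho_e_zero_of (z : K × K) {i n : ℕ} (hn : n ≠ 0) (h : 3 < i + n) :
    (rho z).e i n = 0 := by
  rw [rho_e]
  split_ifs <;> first | omega | rfl

theorem rho_add (z w : K × K) : rho (z + w) = rho z * rho w := by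
  ext i n
  rw [Un.mul_e]
  by_cases hn : n = 0
  · subst hn
    simp [Un.e_zero]
  by_cases h : 3 < i + n
  · rw [rho_e_zero_of _ hn h, Finset.sum_eq_zero]
    rintro ⟨a, b⟩ hab
    have hab := mem_antidiagonal.1 hab
    simp only at hab ⊢
    rcases Nat.eq_zero_or_pos b with hb | hb
    · subst hb
      rw [add_zero] at hab
      subst hab
      rw [rho_e_zero_of _ hn h, zero_mul]
    · rw [rho_e_zero_of w (i := i + a) (n := b) hb.ne' (by omega), mul_zero]
  · have hi : i ≤ 2 := by omega
    have hn3 : n ≤ 3 := by omega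
    interval_cases i <;> interval_cases n <;> first
      | omega
      | (simp [Finset.Nat.antidiagonal_succ, rho_e]; try ring)

theorem rho_zero : rho (0 : K × K) = 1 := by
  have h := rho_add (0 : K × K) 0
  rw [add_zero] at h
  exact (left_eq_mul.1 h)

theorem rho_mul_inv (z w : K × K) : rho z * (rho w)⁻¹ = rho (z - w) := by
  rw [mul_inv_eq_iff_eq_mul, ← rho_add, sub_add_cancel]

theorem mapHom_rho (f : K →+* L) (z : K × K) :
    Un.mapHom f (rho z) = rho (f z.1, f z.2) := by
  ext i n
  rw [Un.mapHom_e, rho_e, rho_e]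
  split_ifs <;> simp

end rho

/-! ### cochains of an abelian group -/

section ab

variable {M K : Type} [AddCommGroup M] [CommRing K]

/-- cochains of degree `n` (functions of the first `n + 1` entries, invariant under translations) -/
structure IsC (n : ℕ) (F : (ℕ → M) → K) : Prop where
  loc : ∀ z z' : ℕ → M, (∀ j ≤ n, z j = z' j) → F z = F z'
  inv : ∀ (c : M) (z : ℕ → M), F (fun j => c + z j) = F z

/-- `(z_0, …, z_r, c + z_r, c + z_{r+1}, …)` -/
def ins (r : ℕ) (c : M) (z : ℕ → M) (j : ℕ) : M := if j ≤ r then z j else c + z (j - 1)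

/-- the contraction with `c` of a cochain of degree `n` -/
def I (n : ℕ) (c : M) (F : (ℕ → M) → K) (z : ℕ → M) : K :=
  ∑ r ∈ range n, ((-1 : ℤ) ^ r) • F (ins r c z)

/-- the differential of a cochain of degree `n` -/
def D (n : ℕ) (F : (ℕ → M) → K) (z : ℕ → M) : K :=
  ∑ i ∈ range (n + 2), ((-1 : ℤ) ^ i) • F (fun j => z (dl i j))

/-- the cup product with a cochain of degree `a` -/
def cp (a : ℕ) (F G : (ℕ → M) → K) (z : ℕ → M) : K := F z * G (fun j => z (j + a))

theorem ins_zero (r : ℕ) (c : M) (z : ℕ → M) : ins r c z 0 = z 0 := if_pos (Nat.zero_le _)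

theorem ins_low {r i : ℕ} (hi : i < r) (c : M) (z : ℕ → M) :
    (fun j => ins r c z (dl i j)) = ins (r - 1) c (fun j => z (dl i j)) := by
  funext j
  unfold ins dl
  by_cases h1 : j < i
  · simp only [if_pos h1]
    rw [if_pos (by omega), if_pos (by omega)]
  · simp only [if_neg h1]
    by_cases h2 : j + 1 ≤ r
    · rw [if_pos h2, if_pos (by omega)]
    · rw [if_neg h2, if_neg (by omega), if_neg (show ¬ j - 1 < i by omega), Nat.add_sub_cancel,
        Nat.sub_add_cancel (by omega)]

theorem ins_high {r i : ℕ} (hi : r + 2 ≤ i) (c : M) (z : ℕ → M) :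
    (fun j => ins r c z (dl i j)) = ins r c (fun j => z (dl (i - 1) j)) := by
  funext j
  unfold ins dl
  by_cases h1 : j < i
  · simp only [if_pos h1]
    by_cases h2 : j ≤ r
    · rw [if_pos h2, if_pos h2, if_pos (show j < i - 1 by omega)]
    · rw [if_neg h2, if_neg h2, if_pos (show j - 1 < i - 1 by omega)]
  · simp only [if_neg h1]
    rw [if_neg (show ¬ j + 1 ≤ r by omega), if_neg (show ¬ j ≤ r by omega),
      if_neg (show ¬ j - 1 < i - 1 by omega), Nat.add_sub_cancel, Nat.sub_add_cancel (by omega)]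

theorem ins_mid (r : ℕ) (c : M) (z : ℕ → M) :
    (fun j => ins r c z (dl (r + 1) j)) = fun j => ins (r + 1) c z (dl (r + 1) j) := by
  funext j
  unfold ins dl
  split_ifs <;> first | rfl | omega

/-- `I` and `D` anticommute. -/
theorem I_D {n : ℕ} {F : (ℕ → M) → K} (hF : IsC n F) (c : M) (z : ℕ → M) :
    I (n + 1) c (D n F) z + ∑ i ∈ range (n + 1), ((-1 : ℤ) ^ i) • I n c F (fun j => z (dl i j)) =
      0 := by
  have h1 : I (n + 1) c (D n F) z =
      ∑ r ∈ range (n + 1), ∑ i ∈ range (n + 2), ((-1 : ℤ) ^ (r + i)) •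
        F (fun j => ins r c z (dl i j)) := by
    rw [I]
    refine sum_congr rfl fun r _ => ?_
    rw [D, smul_sum]
    refine sum_congr rfl fun i _ => ?_
    rw [smul_smul, pow_add]
  have h2 : ∑ i ∈ range (n + 1), ((-1 : ℤ) ^ i) • I n c F (fun j => z (dl i j)) =
      ∑ i ∈ range (n + 1), ∑ r ∈ range n, ((-1 : ℤ) ^ (i + r)) •
        F (ins r c (fun j => z (dl i j))) := by
    refine sum_congr rfl fun i _ => ?_
    rw [I, smul_sum]
    refine sum_congr rfl fun r _ => ?_
    rw [smul_smul, pow_add]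
  rw [h1, h2, alt_sum n (fun r i => F (fun j => ins r c z (dl i j)))
    (fun r i => F (ins r c (fun j => z (dl i j))))]
  · have e1 : F (fun j => ins 0 c z (dl 0 j)) = F z := by
      rw [← hF.inv c z]
      rfl
    have e2 : F (fun j => ins n c z (dl (n + 1) j)) = F z := by
      refine hF.loc _ _ fun j hj => ?_
      unfold ins dl
      rw [if_pos (show j < n + 1 by omega), if_pos hj]
    rw [e1, e2, sub_self]
  · intro r i _ hi
    rw [ins_low hi]
  · intro r i hi _
    rw [ins_high hi]
  · intro r _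
    rw [ins_mid]

theorem I_D' {n : ℕ} {F : (ℕ → M) → K} (hF : IsC (n + 1) F) (c : M) :
    I (n + 2) c (D (n + 1) F) = fun z => - D n (I (n + 1) c F) z := by
  funext z
  have := I_D hF c z
  exact eq_neg_of_add_eq_zero_left this

theorem ins_congr {n r : ℕ} (c : M) {z z' : ℕ → M} (h : ∀ j ≤ n, z j = z' j) :
    ∀ j ≤ n + 1, r ≤ n → ins r c z j = ins r c z' j := by
  intro j hj hr
  unfold ins
  split_ifs with h1
  · exact h j (by omega)
  · rw [h (j - 1) (by omega)]

theorem IsC.I {n : ℕ} {F : (ℕ → M) → K} (hF : IsC (n + 1) F) (c : M) :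
    IsC n (I (n + 1) c F) where
  loc z z' h := by
    refine sum_congr rfl fun r hr => ?_
    rw [hF.loc _ _ fun j hj => ins_congr c h j hj (by have := mem_range.1 hr; omega)]
  inv b z := by
    refine sum_congr rfl fun r _ => ?_
    rw [← hF.inv b (ins r c z)]
    congr 2
    funext j
    unfold ins
    split_ifs
    · rfl
    · exact add_left_comm _ _ _

theorem IsC.cp {a b n : ℕ} (h : a + b = n) {F G : (ℕ → M) → K} (hF : IsC a F) (hG : IsC b G) :
    IsC n (cp a F G) where
  loc z z' hz := by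
    unfold F4D.cp
    rw [hF.loc z z' fun j hj => hz j (by omega), hG.loc _ _ fun j hj => hz (j + a) (by omega)]
  inv c z := by
    unfold F4D.cp
    rw [hF.inv, hG.inv c (fun j => z (j + a))]

theorem IsC.add {n : ℕ} {F G : (ℕ → M) → K} (hF : IsC n F) (hG : IsC n G) : IsC n (F + G) where
  loc z z' hz := by
    rw [Pi.add_apply, Pi.add_apply, hF.loc z z' hz, hG.loc z z' hz]
  inv c z := by
    rw [Pi.add_apply, Pi.add_apply, hF.inv, hG.inv]

/-- `I` is a derivation. -/
theorem I_cp {a b n : ℕ} (h : a + b = n) {F G : (ℕ → M) → K} (hF : IsC a F) (hG : IsC b G)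
    (c : M) (z : ℕ → M) :
    I n c (cp a F G) z = I a c F z * G (fun j => z (j + (a - 1))) +
      ((-1 : ℤ) ^ a) • (F z * I b c G (fun j => z (j + a))) := by
  subst h
  rw [I, sum_range_add]
  congr 1
  · rw [I, sum_mul]
    refine sum_congr rfl fun r hr => ?_
    have hr := mem_range.1 hr
    rw [smul_mul_assoc]
    congr 1
    unfold cp
    congr 1
    rw [← hG.inv c (fun j => z (j + (a - 1)))]
    congr 1
    funext j
    unfold ins
    rw [if_neg (by omega)]
    congr 2
    omega
  · rw [I, mul_sum, smul_sum]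
    refine sum_congr rfl fun r hr => ?_
    have hr := mem_range.1 hr
    rw [pow_add, mul_smul, mul_smul_comm]
    congr 2
    unfold cp
    congr 1
    · refine hF.loc _ _ fun j hj => ?_
      unfold ins
      rw [if_pos (by omega)]
    · congr 1
      funext j
      unfold ins
      by_cases hj : j ≤ r
      · rw [if_pos (by omega), if_pos hj]
      · rw [if_neg (by omega), if_neg hj]
        congr 2
        omega

/-- cochains killed by all contractions -/
structure Kill (n : ℕ) (F : (ℕ → M) → K) : Prop extends IsC n F where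
  kill : ∀ (c : M) (z : ℕ → M), I n c F z = 0

theorem Kill.cp {a b n : ℕ} (h : a + b = n) {F G : (ℕ → M) → K} (hF : Kill a F) (hG : Kill b G) :
    Kill n (cp a F G) where
  toIsC := hF.toIsC.cp h hG.toIsC
  kill c z := by
    rw [I_cp h hF.toIsC hG.toIsC, hF.kill, hG.kill, zero_mul, mul_zero, smul_zero, add_zero]

theorem I_add (n : ℕ) (c : M) (F G : (ℕ → M) → K) (z : ℕ → M) :
    I n c (F + G) z = I n c F z + I n c G z := by
  simp [I, sum_add_distrib]

theorem Kill.add {n : ℕ} {F G : (ℕ → M) → K} (hF : Kill n F) (hG : Kill n G) :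
    Kill n (F + G) where
  toIsC := hF.toIsC.add hG.toIsC
  kill c z := by rw [I_add, hF.kill, hG.kill, add_zero]

end ab

/-! ### evaluation of `UC p n` on the abelian subgroup -/

section ev

variable {p : ℕ} {K : Type} [CommRing K] [Algebra (ZMod p) K]

/-- evaluation on a sequence of points of the abelian subgroup -/
noncomputable def ev (p : ℕ) {K : Type} [CommRing K] [Algebra (ZMod p) K] (n : ℕ)
    (z : ℕ → K × K) : UC p n →ₐ[ZMod p] K := E p n fun j => rho (z j)

theorem ev_X (n : ℕ) (z : ℕ → K × K) (v : Fin n × (ℕ × ℕ)) :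
    ev p n z (X v) = (rho (z (v.1 + 1) - z 0)).e v.2.1 (v.2.2 + 1) := by
  rw [ev, E_X, rho_mul_inv]

theorem isC_ev {n : ℕ} (f : UC p n) : IsC n fun z : ℕ → K × K => ev p n z f where
  loc z z' h := by
    have : ev p n z = ev p n z' := E_congr fun j hj => by rw [h j hj, h 0 (Nat.zero_le _)]
    rw [this]
  inv c z := by
    have : ev p n (fun j => c + z j) = ev p n z := E_congr fun j _ => by
      rw [rho_mul_inv, rho_mul_inv, add_sub_add_left_eq_sub]
    rw [this]

theorem ev_d {n : ℕ} (f : UC p n) : (fun z : ℕ → K × K => ev p (n + 1) z (UC.d n f)) =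
    D n fun z => ev p n z f := by
  funext z
  exact E_d _ f

theorem ev_cup {a b n : ℕ} (h : a + b = n) (f : UC p a) (g : UC p b) :
    (fun z : ℕ → K × K => ev p n z (UC.cup h f g)) =
      cp a (fun z => ev p a z f) fun z => ev p b z g := by
  funext z
  have e1 : ev p n z (UC.map (Ch.front (show a ≤ n by omega)) f) = ev p a z f := by
    rw [ev, E_mapα (Ch.front (show a ≤ n by omega)) (fun j => j) (fun j => rfl), ev]
  have e2 : ev p n z (UC.map (Ch.back (show b ≤ n by omega)) g) =
      ev p b (fun j => z (j + a)) g := by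
    rw [ev, E_mapα (Ch.back (show b ≤ n by omega)) (fun j => j + a) (fun j => ?_), ev]
    change n - b + (j : ℕ) = _
    omega
  rw [UC.cup, map_mul, e1, e2, cp]

/-- all differences of the points are killed by `δ` -/
def Kd (δ : Derivation (ZMod p) K K) (m : ℕ) (z : ℕ → K × K) : Prop :=
  ∀ j ≤ m, δ ((z j).1 - (z 0).1) = 0 ∧ δ ((z j).2 - (z 0).2) = 0

theorem Kd.ins {δ : Derivation (ZMod p) K K} {m r : ℕ} {c : K × K} {z : ℕ → K × K}
    (h : Kd δ m z) (h1 : δ c.1 = 0) (h2 : δ c.2 = 0) (hr : r ≤ m) :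
    Kd δ (m + 1) (ins r c z) := by
  intro j hj
  rw [ins_zero]
  unfold F4D.ins
  split_ifs with h3
  · exact h j (by omega)
  · have h4 := h (j - 1) (by omega)
    rw [Prod.fst_add, Prod.snd_add, add_sub_assoc, add_sub_assoc, map_add, map_add, h1, h2, h4.1,
      h4.2, add_zero]
    exact ⟨rfl, rfl⟩

theorem der_rho {δ : Derivation (ZMod p) K K} {z : K × K} (h1 : δ z.1 = 0) (h2 : δ z.2 = 0)
    (i n : ℕ) : δ ((rho z).e i n) = 0 := by
  rw [rho_e]
  split_ifs <;> simp [h1, h2]

theorem der_ev {δ : Derivation (ZMod p) K K} {n : ℕ} {z : ℕ → K × K} (h : Kd δ n z)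
    (f : UC p n) : δ (ev p n z f) = 0 := by
  induction f using MvPolynomial.induction_on with
  | C a => exact (congrArg δ ((ev p n z).commutes a)).trans (δ.map_algebraMap a)
  | add f g hf hg => rw [map_add, map_add, hf, hg, add_zero]
  | mul_X f v hf =>
    have h3 := h (v.1 + 1) v.1.2
    rw [map_mul, Derivation.leibniz, hf, ev_X, der_rho (z := z (v.1 + 1) - z 0) h3.1 h3.2,
      smul_zero, smul_zero, add_zero]

end ev

/-! ### the differential operator -/

section kappa

variable {p : ℕ}

/-- the ring of polynomials in countably many variables -/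
abbrev KK (p : ℕ) : Type := MvPolynomial ℕ (ZMod p)

/-- iterated partial derivatives -/
noncomputable def it (k a : ℕ) : KK p →ₗ[ZMod p] KK p :=
  (pderiv k : Derivation (ZMod p) (KK p) (KK p)).toLinearMap ^ a

theorem it_zero (k : ℕ) (P : KK p) : it k 0 P = P := rfl

theorem it_succ (k a : ℕ) (P : KK p) : it k (a + 1) P = it k a (pderiv k P) := by
  unfold it
  rw [pow_succ]
  rfl

theorem it_one (k : ℕ) (P : KK p) : it k 1 P = pderiv k P := by rw [it_succ, it_zero]

theorem it_eq_iterate (k a : ℕ) (P : KK p) : it k a P = (pderiv k)^[a] P := by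
  induction a generalizing P with
  | zero => rfl
  | succ a ih => rw [it_succ, ih, Function.iterate_succ_apply]

theorem pd_comm (k l : ℕ) (P : KK p) : pderiv k (pderiv l P) = pderiv l (pderiv k P) := by
  have h : ⁅(pderiv k : Derivation (ZMod p) (KK p) (KK p)),
      (pderiv l : Derivation (ZMod p) (KK p) (KK p))⁆ = 0 := by
    apply derivation_ext
    intro m
    rw [Derivation.commutator_apply, pderiv_X, pderiv_X, Derivation.zero_apply]
    rcases eq_or_ne m l with rfl | h1 <;> rcases eq_or_ne m k with rfl | h2 <;>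
      simp_all
  have h2 := congrArg (fun δ => δ P) h
  simp only [Derivation.commutator_apply, Derivation.zero_apply, sub_eq_zero] at h2
  exact h2

theorem it_pderiv (k l a : ℕ) (P : KK p) : pderiv k (it l a P) = it l a (pderiv k P) := by
  induction a generalizing P with
  | zero => rfl
  | succ a ih => rw [it_succ, it_succ, ih, pd_comm]

theorem it_add (k a b : ℕ) (P : KK p) : it k (a + b) P = it k a (it k b P) := by
  unfold it
  rw [pow_add]
  rfl

theorem it_p [Fact p.Prime] (k : ℕ) (P : KK p) : it k p P = 0 := by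
  rw [it_eq_iterate, MG.iterate_pderiv_p]

/-- two derivatives agree on `P` -/
theorem it_agree {k l : ℕ} {P : KK p} (h : pderiv k P = pderiv l P) (m a : ℕ) :
    pderiv k (it m a P) = pderiv l (it m a P) := by
  rw [it_pderiv, it_pderiv, h]

theorem it_kill {k : ℕ} {P : KK p} (h : pderiv k P = 0) (m a : ℕ) :
    pderiv k (it m a P) = 0 := by
  rw [it_pderiv, h, map_zero]

theorem it_pair {k l : ℕ} {P : KK p} (h : pderiv k P = pderiv l P) (a b : ℕ) :
    it k a (it l b P) = it l (a + b) P := by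
  induction a generalizing b with
  | zero => rw [it_zero, Nat.zero_add]
  | succ a ih =>
    rw [it_succ, it_pderiv, h, ← it_succ, ih]
    congr 2
    omega

theorem it_pair_zero [Fact p.Prime] {k l : ℕ} {P : KK p} (h : pderiv k P = pderiv l P) {a b : ℕ}
    (hab : a + b = p) : it k a (it l b P) = 0 := by
  rw [it_pair h, hab, it_p]

theorem it_mul {k a : ℕ} {P Q : KK p} (h : pderiv k Q = 0) : it k a (P * Q) = it k a P * Q := by
  induction a generalizing P with
  | zero => rfl
  | succ a ih =>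
    rw [it_succ, it_succ, Derivation.leibniz, h, smul_zero, zero_add, smul_eq_mul, mul_comm Q, ih]

theorem pderiv_pow_p [Fact p.Prime] (k : ℕ) (P : KK p) : pderiv k (P ^ p) = 0 := by
  rw [Derivation.leibniz_pow, nsmul_eq_mul, CharP.cast_eq_zero, zero_mul]

/-- the value at `0` -/
noncomputable def at0 (p : ℕ) : KK p →ₐ[ZMod p] ZMod p := aeval fun _ => 0

/-- the functional `∂_0 ∂_1^{p-1} ∂_2 ∂_3^{p-1} ∂_4 ∂_5^{p-1} ∂_6 ∂_7 |_0` -/
noncomputable def kap (p : ℕ) : KK p →ₗ[ZMod p] ZMod p :=
  (at0 p).toLinearMap ∘ₗ it 0 1 ∘ₗ it 1 (p - 1) ∘ₗ it 2 1 ∘ₗ it 3 (p - 1) ∘ₗ it 4 1 ∘ₗ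
    it 5 (p - 1) ∘ₗ it 6 1 ∘ₗ it 7 1

theorem kap_apply (P : KK p) : kap p P = at0 p (it 0 1 (it 1 (p - 1) (it 2 1 (it 3 (p - 1)
    (it 4 1 (it 5 (p - 1) (it 6 1 (it 7 1 P)))))))) := rfl

variable [Fact p.Prime]

theorem kap_pow_mul {e : KK p} (he : at0 p e = 0) (Q : KK p) : kap p (Q * e ^ p) = 0 := by
  have h : ∀ k a (P : KK p), it k a (P * e ^ p) = it k a P * e ^ p :=
    fun k a P => it_mul (pderiv_pow_p k e)
  rw [kap_apply, h, h, h, h, h, h, h, h, map_mul, map_pow, he,
    zero_pow (Fact.out : p.Prime).ne_zero, mul_zero]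

/-- the derivations which detect the faces -/
noncomputable def dv (i : ℕ) : Derivation (ZMod p) (KK p) (KK p) :=
  if i = 0 then pderiv 0 else if i = 6 then pderiv 5 else pderiv (i - 1) - pderiv i

theorem kap_dv {i : ℕ} (hi : i < 7) {P : KK p} (h : dv i P = 0) : kap p P = 0 := by
  have hp : 2 ≤ p := (Fact.out : p.Prime).two_le
  have hp' : p - 1 = p - 2 + 1 := by omega
  rw [kap_apply]
  interval_cases i
  · have h1 : pderiv 0 P = 0 := h
    rw [it_one 0, it_kill, map_zero]
    exact it_kill (it_kill (it_kill (it_kill (it_kill (it_kill h1 _ _) _ _) _ _) _ _) _ _) _ _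
  · have h1 : pderiv 0 P = pderiv 1 P := sub_eq_zero.1 h
    rw [it_pair_zero (k := 0) (l := 1), map_zero]
    · exact it_agree (it_agree (it_agree (it_agree (it_agree (it_agree h1 _ _) _ _) _ _) _ _)
        _ _) _ _
    · omega
  · have h1 : pderiv 1 P = pderiv 2 P := sub_eq_zero.1 h
    rw [it_pair_zero (k := 1) (l := 2), map_zero, map_zero]
    · exact it_agree (it_agree (it_agree (it_agree (it_agree h1 _ _) _ _) _ _) _ _) _ _
    · omega
  · have h1 : pderiv 2 P = pderiv 3 P := sub_eq_zero.1 h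
    rw [it_pair_zero (k := 2) (l := 3), map_zero, map_zero, map_zero]
    · exact it_agree (it_agree (it_agree (it_agree h1 _ _) _ _) _ _) _ _
    · omega
  · have h1 : pderiv 3 P = pderiv 4 P := sub_eq_zero.1 h
    rw [it_pair_zero (k := 3) (l := 4), map_zero, map_zero, map_zero, map_zero]
    · exact it_agree (it_agree (it_agree h1 _ _) _ _) _ _
    · omega
  · have h1 : pderiv 4 P = pderiv 5 P := sub_eq_zero.1 h
    rw [it_pair_zero (k := 4) (l := 5), map_zero, map_zero, map_zero, map_zero, map_zero]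
    · exact it_agree (it_agree h1 _ _) _ _
    · omega
  · have h1 : pderiv 5 P = 0 := h
    rw [hp', it_succ 5, it_kill, map_zero, map_zero, map_zero, map_zero, map_zero, map_zero,
      map_zero]
    exact it_kill h1 _ _

end kappa

/-! ### the functional -/

section Lam

variable {p : ℕ}

/-- `S_j = X_0 + … + X_{j-1}` -/
noncomputable def SS (p j : ℕ) : KK p := ∑ k ∈ range j, X k

/-- the diagonal sequence -/
noncomputable def ww (p j : ℕ) : KK p × KK p := (SS p j, SS p j)

/-- the first direction -/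
noncomputable def c1 (p : ℕ) : KK p × KK p := (X 6, 0)
/-- the second direction -/
noncomputable def c2 (p : ℕ) : KK p × KK p := (0, X 7)

/-- the functional -/
noncomputable def Lam (f : UC p 8) : ZMod p :=
  kap p (I 7 (c2 p) (I 8 (c1 p) fun z => ev p 8 z f) (ww p))

theorem Lam_eq (f : UC p 8) : Lam f = ∑ r' ∈ range 7, ((-1 : ℤ) ^ r') • ∑ r ∈ range 8,
    ((-1 : ℤ) ^ r) • kap p (ev p 8 (ins r (c1 p) (ins r' (c2 p) (ww p))) f) := by
  unfold Lam I
  rw [map_sum]
  refine sum_congr rfl fun r' _ => ?_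
  rw [map_zsmul, map_sum]
  congr 1
  refine sum_congr rfl fun r _ => ?_
  rw [map_zsmul]

theorem Lam_sub (f g : UC p 8) : Lam (f - g) = Lam f - Lam g := by
  simp only [Lam_eq, map_sub, smul_sub, sum_sub_distrib]

theorem Lam_add (f g : UC p 8) : Lam (f + g) = Lam f + Lam g := by
  simp only [Lam_eq, map_add, smul_add, sum_add_distrib]

theorem Lam_smul (c : ZMod p) (f : UC p 8) : Lam (c • f) = c * Lam f := by
  simp only [Lam_eq, map_smul, smul_eq_mul, mul_sum, mul_smul_comm]

/-- all coordinates have constant term `0` -/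
def Z0 (z : ℕ → KK p × KK p) : Prop := ∀ j, at0 p (z j).1 = 0 ∧ at0 p (z j).2 = 0

theorem at0_X (k : ℕ) : at0 p (X k) = 0 := aeval_X _ _

theorem Z0_ww : Z0 (ww p) := by
  intro j
  have : at0 p (SS p j) = 0 := by
    rw [SS, map_sum]
    exact sum_eq_zero fun k _ => at0_X k
  exact ⟨this, this⟩

theorem Z0.ins {z : ℕ → KK p × KK p} (h : Z0 z) {c : KK p × KK p} (h1 : at0 p c.1 = 0)
    (h2 : at0 p c.2 = 0) (r : ℕ) : Z0 (ins r c z) := by
  intro j
  unfold F4D.ins
  split_ifs
  · exact h j
  · rw [Prod.fst_add, Prod.snd_add, map_add, map_add, h1, h2, (h (j - 1)).1, (h (j - 1)).2,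
      add_zero]
    exact ⟨rfl, rfl⟩

theorem Z0_c1 : at0 p (c1 p).1 = 0 ∧ at0 p (c1 p).2 = 0 := ⟨at0_X 6, map_zero _⟩
theorem Z0_c2 : at0 p (c2 p).1 = 0 ∧ at0 p (c2 p).2 = 0 := ⟨map_zero _, at0_X 7⟩

theorem at0_rho {z : KK p × KK p} (h1 : at0 p z.1 = 0) (h2 : at0 p z.2 = 0) (i n : ℕ) :
    at0 p ((rho z).e i (n + 1)) = 0 := by
  rw [rho_e, if_neg (Nat.succ_ne_zero n)]
  split_ifs <;> simp [h1, h2]

variable [Fact p.Prime]

theorem kap_ev_inJ {n : ℕ} {z : ℕ → KK p × KK p} (hz : Z0 z) {f : UC p n} (hf : InJ f) :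
    kap p (ev p n z f) = 0 := by
  rw [inJ_iff_mem] at hf
  suffices h : ∀ a : UC p n, kap p (ev p n z (a * f)) = 0 by
    have := h 1
    rwa [one_mul] at this
  induction hf using Submodule.span_induction with
  | zero => intro a; rw [mul_zero, map_zero, map_zero]
  | add x y _ _ hx hy => intro a; rw [mul_add, map_add, map_add, hx, hy, add_zero]
  | smul b x _ hx => intro a; rw [smul_eq_mul, ← mul_assoc]; exact hx _
  | mem x hx =>
    intro a
    obtain ⟨v, rfl⟩ := hx
    rw [map_mul, map_pow, ev_X]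
    refine kap_pow_mul (at0_rho ?_ ?_ _ _) _
    · rw [Prod.fst_sub, map_sub, (hz _).1, (hz _).1, sub_zero]
    · rw [Prod.snd_sub, map_sub, (hz _).2, (hz _).2, sub_zero]

/-- the functional kills the ideal of `p`-th powers -/
theorem Lam_inJ {f : UC p 8} (hf : InJ f) : Lam f = 0 := by
  rw [Lam_eq]
  refine sum_eq_zero fun r' _ => ?_
  rw [sum_eq_zero, smul_zero]
  intro r _
  rw [kap_ev_inJ _ hf, smul_zero]
  exact (Z0_ww.ins Z0_c2.1 Z0_c2.2 r').ins Z0_c1.1 Z0_c1.2 r

theorem dv_X {i k : ℕ} (h : 6 ≤ k) (hi : i < 7) : dv i (X k : KK p) = 0 := by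
  unfold dv
  split_ifs
  · rw [pderiv_X_of_ne (by omega)]
  · rw [pderiv_X_of_ne (by omega)]
  · rw [Derivation.sub_apply, pderiv_X_of_ne (by omega), pderiv_X_of_ne (by omega), sub_zero]

omit [Fact p.Prime] in
theorem pderiv_SS (k j : ℕ) : pderiv k (SS p j) = if k < j then 1 else 0 := by
  rw [SS, map_sum]
  simp only [pderiv_X, Pi.single_apply]
  simp

theorem Kd_ww {i : ℕ} (hi : i < 7) : Kd (dv i) 5 fun j => ww p (dl i j) := by
  have key : ∀ j ≤ 5, dv i (SS p (dl i j) - SS p (dl i 0)) = 0 := by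
    intro j hj
    unfold dv dl
    split_ifs <;> simp only [map_sub, Derivation.sub_apply, pderiv_SS] <;> split_ifs <;>
      first | omega | simp
  exact fun j hj => ⟨key j hj, key j hj⟩

/-- the functional kills coboundaries -/
theorem Lam_d (f : UC p 7) : Lam (UC.d 7 f) = 0 := by
  have hF : IsC 7 fun z : ℕ → KK p × KK p => ev p 7 z f := isC_ev f
  unfold Lam
  rw [ev_d, I_D' hF]
  have e1 : I 7 (c2 p) (fun z => - D 6 (I 7 (c1 p) fun z => ev p 7 z f) z) (ww p) =
      - I 7 (c2 p) (D 6 (I 7 (c1 p) fun z => ev p 7 z f)) (ww p) := by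
    unfold I
    simp only [smul_neg, sum_neg_distrib]
  have e2 := congrFun (I_D' (hF.I (c1 p)) (c2 p)) (ww p)
  rw [e1, e2, neg_neg, D, map_sum]
  refine sum_eq_zero fun i hi => ?_
  have hi := mem_range.1 hi
  rw [map_zsmul, I, map_sum, sum_eq_zero, smul_zero]
  intro r' hr'
  have hr' := mem_range.1 hr'
  rw [map_zsmul, I, map_sum, sum_eq_zero, smul_zero]
  intro r hr
  have hr := mem_range.1 hr
  rw [map_zsmul, kap_dv (show i < 7 by omega) (der_ev _ f), smul_zero]
  exact ((Kd_ww (by omega)).ins (map_zero _) (dv_X (by omega) (by omega)) (by omega)).ins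
    (dv_X (by omega) (by omega)) (map_zero _) (by omega)

end Lam

end Vale.Agent.P257.V4.A.F4D
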