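import Vale.Agent.P257.V4.A.F4D
import Vale.Agent.P257.V4.A.F4XY

/-!
# P257, V(4), part A, block F4 (D): the field `hR` for the cochains of `F4X`
-/

namespace Vale.Agent.P257.V4.A.F4D

theorem RR_eq (p : ℕ) : F4C.RR p = RR p := rfl

/-- **(D)** for the cocycle `F4C.RR`: the field `hR` of `F4.Data`. -/
theorem hR_coch {p : ℕ} [Fact p.Prime] (hp : 5 ≤ p) (c : ZMod p) (f : UC p 7)
    (h : InJ (c • F4C.RR p - UC.d 7 f)) : c = 0 := hR hp c f h

end Vale.Agent.P257.V4.A.F4D
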