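import Vale.Agent.P257.V4.A.MG4

/-!
# P257, V(4): the multigraded engine, relative step and the unique monomial theorem

* `bd_of_insert`: the relative step (a cocycle which bounds in the larger coefficient module);
* `D1_of_mo1`: if there is at most one monomial of degree `s` and multidegree `e` then the
  cohomology is at most one dimensional: any two cocycles are linearly dependent modulo
  coboundaries;
* `exists_combo`: the same for `UC p s`.
-/

namespace Vale.Agent.P257.V4.A.MG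

open MvPolynomial

variable {p : ℕ}

theorem Dep.add {σ : Type*} {S : Set σ} {f g : MvPolynomial σ (ZMod p)} (hf : Dep S f)
    (hg : Dep S g) : Dep S (f + g) := by
  rw [dep_iff] at hf hg ⊢
  exact add_mem hf hg

theorem Dep.smul {σ : Type*} {S : Set σ} {f : MvPolynomial σ (ZMod p)} (hf : Dep S f)
    (c : ZMod p) : Dep S (c • f) := by
  rw [dep_iff] at hf ⊢
  exact Subalgebra.smul_mem _ hf c

variable [Fact p.Prime] {S : Finset (ℕ × ℕ)} {τ : ℕ × ℕ}

/-! ### parts of the step -/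

/-- the last part of the step -/
theorem bd_of_pderiv {s : ℕ} {e : ℕ →₀ ℕ} {f : UC p (s + 2)} {α : UC p (s + 1)}
    (h1 : Dep (ES (insert τ S) s) α) (h2 : MH e α) (h3 : InJ (f - dE s α))
    (h4 : InJ (pderiv (Fin.last s, τ) α)) : Bd S (s + 1) e f := by
  have hcut := InJ_sub_cut _ h4
  refine ⟨cut (Fin.last s, τ) α, ?_, MH_cut _ h2, ?_⟩
  · apply Dep.cut
    rw [← ES_insert]
    exact h1
  · have := h3.add (dE_InJ hcut)
    rwa [map_sub, sub_add_sub_cancel] at this

/-- the integration step, from a suitable `β` -/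
theorem bd_of_beta {t : ℕ} {e e1 : ℕ →₀ ℕ} (hS : Row S) (hS' : Row (insert τ S)) (hτ : τ ∉ S)
    (he : e = e1 + itv τ.1 τ.2) {f : UC p (t + 3)} {α : UC p (t + 2)}
    (h1 : Dep (ES (insert τ S) (t + 1)) α) (h2 : MH e α) (h3 : InJ (f - dE (t + 1) α))
    {β : UC p (t + 1)} (b1 : Dep (ES (insert τ S) t) β) (b2 : MH e1 β)
    (b3 : InJ (pderiv (Fin.last (t + 1), τ) α - dE t β))
    (b4 : InJ ((pderiv (Fin.last t, τ))^[p - 1] β)) : Bd S (t + 2) e f := by
  have hmem : (Fin.last t, τ) ∈ ES (insert τ S) t := fun _ => Finset.mem_insert_self _ _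
  have hδ := b1.intg hmem
  have hδM : MH e (intg (Fin.last t, τ) β) := by
    rw [he]
    exact MH_intg (Fin.last t, τ) b2
  refine bd_of_pderiv (τ := τ) (α := α - dE t (intg (Fin.last t, τ) β)) (h1.sub (dE_Dep hS' hδ))
    (h2.sub (dE_MH hδM)) ?_ ?_
  · rw [map_sub, dE_dE, sub_zero]
    exact h3
  · rw [map_sub, pderiv_dE hS hτ hδ]
    have := b3.add (dE_InJ (InJ_sub_intg _ b4))
    rwa [map_sub, sub_add_sub_cancel] at this

/-- The correction of `β`, when the class of its top coefficient vanishes. -/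
theorem beta_fix {t : ℕ} {e e1 e2 : ℕ →₀ ℕ} (hS : Row S) (hS' : Row (insert τ S)) (hτ : τ ∉ S)
    (he : e = e1 + itv τ.1 τ.2) (hee2 : e = e2 + p • itv τ.1 τ.2) {a : UC p (t + 2)}
    {β : UC p (t + 1)} (hβ : Dep (ES (insert τ S) t) β) (hβ1 : MH e1 β)
    (hβ2 : InJ (a - dE t β))
    (hB : Bd S t e2 (cut (Fin.last t, τ) ((pderiv (Fin.last t, τ))^[p - 1] β))) :
    ∃ β' : UC p (t + 1), Dep (ES (insert τ S) t) β' ∧
      MH e1 β' ∧ InJ (a - dE t β') ∧ InJ ((pderiv (Fin.last t, τ))^[p - 1] β') := by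
  have hp := (Fact.out : p.Prime)
  have hp1 : p - 1 + 1 = p := Nat.sub_add_cancel hp.one_le
  have he1 : e1 = e2 + (p - 1) • mw (Fin.last t, τ) := by
    have h3 : e2 + (p - 1) • itv τ.1 τ.2 + itv τ.1 τ.2 = e1 + itv τ.1 τ.2 := by
      rw [add_assoc, ← succ_nsmul, hp1, ← hee2, he]
    exact (add_right_cancel h3).symm
  obtain ⟨c, hc⟩ : ∃ c, c = (pderiv (Fin.last t, τ))^[p - 1] β := ⟨_, rfl⟩
  have hDc : pderiv (Fin.last t, τ) c = 0 := by
    rw [hc]
    exact pderiv_iter _ _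
  have hcut : InJ (c - cut (Fin.last t, τ) c) :=
    InJ_sub_cut _ (by rw [hDc]; exact InJ.zero)
  rw [← hc] at hB
  rcases t with _ | t
  · refine ⟨β, hβ, hβ1, hβ2, ?_⟩
    rw [← hc]
    exact hcut.of_sub hB
  · obtain ⟨γ, hγ1, hγ2, hγ3⟩ := hB
    have hDγ : pderiv (Fin.last t, τ) γ = 0 := pderiv_eq_zero hτ hγ1
    obtain ⟨γ', hγ'⟩ : ∃ γ' : UC p (t + 1), γ' = ((Nat.factorial (p - 1) : ZMod p))⁻¹ •
      (X (Fin.last t, τ) ^ (p - 1) * γ) := ⟨_, rfl⟩
    have hfac : (Nat.factorial (p - 1) : ZMod p) ≠ 0 := by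
      intro h0
      rw [ZMod.natCast_eq_zero_iff, hp.dvd_factorial] at h0
      have := hp.pos
      omega
    have hγ'D : (pderiv (Fin.last t, τ))^[p - 1] γ' = γ := by
      have h := iter_X_pow (Fin.last t, τ) (p - 1)
        (g := (((Nat.factorial (p - 1) : ZMod p))⁻¹ • γ)) (by
          rw [Derivation.map_smul, hDγ, smul_zero])
      rw [hγ', ← mul_smul_comm, h, smul_smul, mul_inv_cancel₀ hfac, one_smul]
    have hγ'M : MH e1 γ' := by
      have he1' : e1 = (p - 1) • mw (Fin.last t, τ) + e2 := he1.trans (add_comm _ _)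
      rw [hγ', he1']
      exact (((MH.X (p := p) (Fin.last t, τ)).pow (p - 1)).mul hγ2).smul _
    have hγ'S : Dep (ES (insert τ S) t) γ' := by
      rw [hγ', dep_iff]
      refine Subalgebra.smul_mem _ (mul_mem (pow_mem (X_mem_supported.2 ?_) _)
        (dep_iff.1 (hγ1.mono (ES_mono (Finset.subset_insert _ _) _)))) _
      intro _
      exact Finset.mem_insert_self _ _
    refine ⟨β - dE t γ', hβ.sub (dE_Dep hS' hγ'S), hβ1.sub (dE_MH hγ'M), ?_, ?_⟩
    · rw [map_sub, dE_dE, sub_zero]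
      exact hβ2
    · rw [iter_sub, iter_dE hS hτ _ hγ'S, hγ'D, ← hc]
      have := hcut.add hγ3
      rwa [sub_add_sub_cancel] at this

/-- The top coefficient of `β` is a cocycle. -/
theorem cyc_top {t : ℕ} {e e1 e2 : ℕ →₀ ℕ} (hS : Row S) (hτ : τ ∉ S)
    (he : e = e1 + itv τ.1 τ.2) (hee2 : e = e2 + p • itv τ.1 τ.2) {α : UC p (t + 2)}
    {β : UC p (t + 1)} (hβ : Dep (ES (insert τ S) t) β) (hβ1 : MH e1 β)
    (hβ2 : InJ (pderiv (Fin.last (t + 1), τ) α - dE t β)) :
    Dep (ES S t) (cut (Fin.last t, τ) ((pderiv (Fin.last t, τ))^[p - 1] β)) ∧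
    MH e2 (cut (Fin.last t, τ) ((pderiv (Fin.last t, τ))^[p - 1] β)) ∧
    InJ (dE t (cut (Fin.last t, τ) ((pderiv (Fin.last t, τ))^[p - 1] β))) := by
  have hp := (Fact.out : p.Prime)
  have hp1 : p - 1 + 1 = p := Nat.sub_add_cancel hp.one_le
  have he1 : e1 = e2 + (p - 1) • mw (Fin.last t, τ) := by
    have h3 : e2 + (p - 1) • itv τ.1 τ.2 + itv τ.1 τ.2 = e1 + itv τ.1 τ.2 := by
      rw [add_assoc, ← succ_nsmul, hp1, ← hee2, he]
    exact (add_right_cancel h3).symm
  obtain ⟨c, hc⟩ : ∃ c, c = (pderiv (Fin.last t, τ))^[p - 1] β := ⟨_, rfl⟩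
  have hDc : pderiv (Fin.last t, τ) c = 0 := by
    rw [hc]
    exact pderiv_iter _ _
  have hcut : InJ (c - cut (Fin.last t, τ) c) :=
    InJ_sub_cut _ (by rw [hDc]; exact InJ.zero)
  rw [← hc]
  refine ⟨?_, ?_, ?_⟩
  · apply Dep.cut
    rw [← ES_insert, hc]
    exact hβ.iterate_pderiv _ _
  · rw [hc]
    exact MH_cut _ (MH_iter _ _ hβ1 he1)
  · have hdc : InJ (dE t c) := by
      rw [hc, ← iter_dE hS hτ _ hβ]
      have h := InJ_iter (Fin.last (t + 1), τ) (p - 1) hβ2
      rw [iter_sub, ← Function.iterate_succ_apply, Function.iterate_succ_apply', pderiv_iter,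
        zero_sub] at h
      have := h.neg
      rwa [neg_neg] at this
    have := hdc.sub (dE_InJ hcut)
    rwa [map_sub, sub_sub_cancel] at this

/-- **The relative step**: a cocycle which bounds in the larger coefficient module. -/
theorem bd_of_insert {s : ℕ} {e e1 : ℕ →₀ ℕ} (hS : Row S) (hS' : Row (insert τ S)) (hτ : τ ∉ S)
    (he : e = e1 + itv τ.1 τ.2) (h1 : ∀ t, s = t + 1 → V p (insert τ S) t e1)
    (h2 : ∀ t, s = t + 2 → ∀ e2, e = e2 + p • itv τ.1 τ.2 → V p S t e2)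
    {f : UC p (s + 1)} (hf : Dep (ES S s) f) (hB : Bd (insert τ S) s e f) : Bd S s e f := by
  rcases s with _ | s
  · exact hB
  · obtain ⟨α, hα1, hα2, hα3⟩ := hB
    have haM : MH e1 (pderiv (Fin.last s, τ) α) := MH_pderiv _ hα2 he
    have haD : Dep (ES (insert τ S) s) (pderiv (Fin.last s, τ) α) := hα1.pderiv _
    have hda : InJ (dE s (pderiv (Fin.last s, τ) α)) := by
      rw [← pderiv_dE hS hτ hα1]
      have h := InJ_pderiv (Fin.last (s + 1), τ) hα3
      rw [map_sub, pderiv_eq_zero hτ hf, zero_sub] at h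
      have := h.neg
      rwa [neg_neg] at this
    obtain ⟨α', h1', h2', h3', h4'⟩ : ∃ α' : UC p (s + 1), Dep (ES (insert τ S) s) α' ∧ MH e α' ∧
        InJ (f - dE s α') ∧ InJ (pderiv (Fin.last s, τ) α') := by
      rcases s with _ | t
      · exact ⟨α, hα1, hα2, hα3, h1 0 rfl _ haD haM hda⟩
      · have hDa : InJ ((pderiv (Fin.last (t + 1), τ))^[p - 1]
            (pderiv (Fin.last (t + 1), τ) α)) := by
          rw [← Function.iterate_succ_apply, Function.iterate_succ_apply', pderiv_iter]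
          exact InJ.zero
        obtain ⟨δ, hδ1, hδ2, hδ3⟩ := step_delta hS hS' hτ he (h1 (t + 1) rfl)
          (fun e2 he2 => h2 t rfl e2 he2) haD haM hda hDa
        refine ⟨α - dE t δ, hα1.sub (dE_Dep hS' hδ1), hα2.sub (dE_MH hδ2), ?_, ?_⟩
        · rw [map_sub, dE_dE, sub_zero]
          exact hα3
        · rw [map_sub]
          exact hδ3
    exact bd_of_pderiv h1' h2' h3' h4'

/-! ### at most one class -/

/-- cocycles modulo `p`-th powers -/
structure Cyc (S : Finset (ℕ × ℕ)) (s : ℕ) (e : ℕ →₀ ℕ) (f : UC p (s + 1)) : Prop where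
  dep : Dep (ES S s) f
  mh : MH e f
  inJ : InJ (dE s f)

theorem Cyc.combo {s : ℕ} {e : ℕ →₀ ℕ} {f g : UC p (s + 1)} (hf : Cyc S s e f)
    (hg : Cyc S s e g) (a b : ZMod p) : Cyc S s e (a • f + b • g) where
  dep := (hf.dep.smul a).add (hg.dep.smul b)
  mh := (hf.mh.smul a).add (hg.mh.smul b)
  inJ := by
    rw [map_add, map_smul, map_smul]
    exact (hf.inJ.smul a).add (hg.inJ.smul b)

omit [Fact p.Prime] in
theorem Cyc.mono {s : ℕ} {e : ℕ →₀ ℕ} {f : UC p (s + 1)} (hf : Cyc S s e f) :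
    Cyc (insert τ S) s e f :=
  ⟨hf.dep.mono (ES_mono (Finset.subset_insert _ _) _), hf.mh, hf.inJ⟩

/-- any two cocycles are linearly dependent modulo coboundaries -/
def D1 (p : ℕ) (S : Finset (ℕ × ℕ)) (s : ℕ) (e : ℕ →₀ ℕ) : Prop :=
  ∀ f g : UC p (s + 1), Cyc S s e f → Cyc S s e g →
    ∃ a b : ZMod p, (a ≠ 0 ∨ b ≠ 0) ∧ Bd S s e (a • f + b • g)

theorem D1_of_V {s : ℕ} {e : ℕ →₀ ℕ} (h : V p S s e) : D1 p S s e := by
  intro f g hf _
  refine ⟨1, 0, Or.inl one_ne_zero, ?_⟩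
  rw [one_smul, zero_smul, add_zero]
  exact h f hf.dep hf.mh hf.inJ

/-- the class may live in the larger coefficient module -/
theorem D1_step0 {s : ℕ} {e e1 : ℕ →₀ ℕ} (hS : Row S) (hS' : Row (insert τ S)) (hτ : τ ∉ S)
    (he : e = e1 + itv τ.1 τ.2) (h0 : D1 p (insert τ S) s e)
    (h1 : ∀ t, s = t + 1 → V p (insert τ S) t e1)
    (h2 : ∀ t, s = t + 2 → ∀ e2, e = e2 + p • itv τ.1 τ.2 → V p S t e2) : D1 p S s e := by
  intro f g hf hg
  obtain ⟨a, b, hab, hB⟩ := h0 f g hf.mono hg.mono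
  exact ⟨a, b, hab, bd_of_insert hS hS' hτ he h1 h2 (hf.combo hg a b).dep hB⟩

theorem exists_alpha {s : ℕ} {e e1 : ℕ →₀ ℕ} (hS : Row S) (hτ : τ ∉ S)
    (he : e = e1 + itv τ.1 τ.2) (h0 : V p (insert τ S) (s + 1) e) {f : UC p (s + 2)}
    (hf : Cyc S (s + 1) e f) : ∃ α : UC p (s + 1), Dep (ES (insert τ S) s) α ∧ MH e α ∧
      InJ (f - dE s α) ∧ Cyc (insert τ S) s e1 (pderiv (Fin.last s, τ) α) := by
  obtain ⟨α, hα1, hα2, hα3⟩ := h0 f (hf.mono (τ := τ)).dep hf.mh hf.inJ
  refine ⟨α, hα1, hα2, hα3, hα1.pderiv _, MH_pderiv _ hα2 he, ?_⟩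
  rw [← pderiv_dE hS hτ hα1]
  have h := InJ_pderiv (Fin.last (s + 1), τ) hα3
  rw [map_sub, pderiv_eq_zero hτ hf.dep, zero_sub] at h
  have := h.neg
  rwa [neg_neg] at this

theorem combo_sub {s : ℕ} {f g : UC p (s + 2)} {α α' : UC p (s + 1)} (h : InJ (f - dE s α))
    (h' : InJ (g - dE s α')) (a b : ZMod p) :
    InJ (a • f + b • g - dE s (a • α + b • α')) := by
  have := (h.smul a).add (h'.smul b)
  rw [map_add, map_smul, map_smul]
  rwa [smul_sub, smul_sub, sub_add_sub_comm] at this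

/-- the class may come from the derivative -/
theorem D1_step1 {s : ℕ} {e e1 : ℕ →₀ ℕ} (hS : Row S) (hS' : Row (insert τ S)) (hτ : τ ∉ S)
    (he : e = e1 + itv τ.1 τ.2) (h0 : V p (insert τ S) (s + 1) e)
    (h1 : D1 p (insert τ S) s e1)
    (h2 : ∀ t, s = t + 1 → ∀ e2, e = e2 + p • itv τ.1 τ.2 → V p S t e2) :
    D1 p S (s + 1) e := by
  intro f g hf hg
  obtain ⟨α, a1, a2, a3, a4⟩ := exists_alpha hS hτ he h0 hf
  obtain ⟨α', a1', a2', a3', a4'⟩ := exists_alpha hS hτ he h0 hg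
  obtain ⟨a, b, hab, hB⟩ := h1 _ _ a4 a4'
  refine ⟨a, b, hab, ?_⟩
  have hα1 : Dep (ES (insert τ S) s) (a • α + b • α') := (a1.smul a).add (a1'.smul b)
  have hα2 : MH e (a • α + b • α') := (a2.smul a).add (a2'.smul b)
  have hα3 := combo_sub a3 a3' a b
  have hpd : a • pderiv (Fin.last s, τ) α + b • pderiv (Fin.last s, τ) α' =
      pderiv (Fin.last s, τ) (a • α + b • α') := by
    rw [map_add, Derivation.map_smul, Derivation.map_smul]
  rw [hpd] at hB
  rcases s with _ | t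
  · exact bd_of_pderiv hα1 hα2 hα3 hB
  · obtain ⟨β, b1, b2, b3⟩ := hB
    have hDa : InJ ((pderiv (Fin.last (t + 1), τ))^[p - 1]
        (pderiv (Fin.last (t + 1), τ) (a • α + b • α'))) := by
      rw [← Function.iterate_succ_apply, Function.iterate_succ_apply', pderiv_iter]
      exact InJ.zero
    obtain ⟨β', c1, c2, c3, c4⟩ := step_beta hS hS' hτ he (fun e2 he2 => h2 t rfl e2 he2) hDa
      b1 b2 b3
    exact bd_of_beta hS hS' hτ he hα1 hα2 hα3 c1 c2 c3 c4

/-- the class may come from the `p`-th power -/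
theorem D1_step2 {t : ℕ} {e e1 e2 : ℕ →₀ ℕ} (hS : Row S) (hS' : Row (insert τ S)) (hτ : τ ∉ S)
    (he : e = e1 + itv τ.1 τ.2) (he2 : e = e2 + p • itv τ.1 τ.2)
    (h0 : V p (insert τ S) (t + 2) e) (h1 : V p (insert τ S) (t + 1) e1)
    (h2 : D1 p S t e2) : D1 p S (t + 2) e := by
  intro f g hf hg
  obtain ⟨α, a1, a2, a3, a4⟩ := exists_alpha hS hτ he h0 hf
  obtain ⟨α', a1', a2', a3', a4'⟩ := exists_alpha hS hτ he h0 hg
  obtain ⟨β, b1, b2, b3⟩ := h1 _ a4.dep a4.mh a4.inJ
  obtain ⟨β', b1', b2', b3'⟩ := h1 _ a4'.dep a4'.mh a4'.inJ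
  obtain ⟨c1, c2, c3⟩ := cyc_top hS hτ he he2 b1 b2 b3
  obtain ⟨c1', c2', c3'⟩ := cyc_top hS hτ he he2 b1' b2' b3'
  obtain ⟨a, b, hab, hB⟩ := h2 _ _ ⟨c1, c2, c3⟩ ⟨c1', c2', c3'⟩
  refine ⟨a, b, hab, ?_⟩
  have hα1 : Dep (ES (insert τ S) (t + 1)) (a • α + b • α') := (a1.smul a).add (a1'.smul b)
  have hα2 : MH e (a • α + b • α') := (a2.smul a).add (a2'.smul b)
  have hα3 := combo_sub a3 a3' a b
  have hβ1 : Dep (ES (insert τ S) t) (a • β + b • β') := (b1.smul a).add (b1'.smul b)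
  have hβ2 : MH e1 (a • β + b • β') := (b2.smul a).add (b2'.smul b)
  have hβ3 := combo_sub b3 b3' a b
  rw [← Derivation.map_smul, ← Derivation.map_smul, ← map_add] at hβ3
  have hlin : a • cut (Fin.last t, τ) ((pderiv (Fin.last t, τ))^[p - 1] β) +
      b • cut (Fin.last t, τ) ((pderiv (Fin.last t, τ))^[p - 1] β') =
      cut (Fin.last t, τ) ((pderiv (Fin.last t, τ))^[p - 1] (a • β + b • β')) := by
    ext m
    simp only [coeff_add, coeff_smul, coeff_cut, coeff_iterate_pderiv, smul_eq_mul]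
    split_ifs <;> ring
  rw [hlin] at hB
  obtain ⟨β'', d1, d2, d3, d4⟩ := beta_fix hS hS' hτ he he2 hβ1 hβ2 hβ3 hB
  exact bd_of_beta hS hS' hτ he hα1 hα2 hα3 d1 d2 d3 d4

/-! ### uniqueness of the monomial -/

/-- `(H, B)` is a monomial of degree `s` and multidegree `e` with all letters outside `S` -/
def IsMo (p : ℕ) (S : Finset (ℕ × ℕ)) (s : ℕ) (e : ℕ →₀ ℕ) (H : Finset (ℕ × ℕ))
    (B : (ℕ × ℕ) →₀ ℕ) : Prop :=
  (∀ τ ∈ H, τ ∉ S) ∧ (∀ τ, B τ ≠ 0 → τ ∉ S) ∧ H.card + 2 * (B.sum fun _ c => c) = s ∧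
    (∑ τ ∈ H, itv τ.1 τ.2) + p • (B.sum fun τ c => c • itv τ.1 τ.2) = e

/-- there is at most one monomial of degree `s` and multidegree `e` with all letters outside `S` -/
def Mo1 (p : ℕ) (S : Finset (ℕ × ℕ)) (s : ℕ) (e : ℕ →₀ ℕ) : Prop :=
  ∀ H B H' B', IsMo p S s e H B → IsMo p S s e H' B' → H = H' ∧ B = B'

section IsMo

variable {s : ℕ} {e e' : ℕ →₀ ℕ} {H : Finset (ℕ × ℕ)} {B : (ℕ × ℕ) →₀ ℕ}

omit [Fact p.Prime] in
theorem IsMo.of_insert (h : IsMo p (insert τ S) s e H B) : IsMo p S s e H B :=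
  ⟨fun σ hσ h' => h.1 σ hσ (Finset.mem_insert_of_mem h'),
    fun σ hσ h' => h.2.1 σ hσ (Finset.mem_insert_of_mem h'), h.2.2⟩

omit [Fact p.Prime] in
theorem IsMo.notMem (h : IsMo p (insert τ S) s e H B) : τ ∉ H :=
  fun h' => h.1 τ h' (Finset.mem_insert_self _ _)

omit [Fact p.Prime] in
theorem IsMo.eq_zero (h : IsMo p (insert τ S) s e H B) : B τ = 0 := by
  by_contra h'
  exact h.2.1 τ h' (Finset.mem_insert_self _ _)

omit [Fact p.Prime] in
theorem IsMo.addH (hτ : τ ∉ S) (h : IsMo p (insert τ S) s e H B) (he : e' = e + itv τ.1 τ.2) :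
    IsMo p S (s + 1) e' (insert τ H) B := by
  subst he
  have hH := h.notMem
  obtain ⟨h1, h2, h3, h4⟩ := h
  refine ⟨?_, fun σ hσ h => h2 σ hσ (Finset.mem_insert_of_mem h), ?_, ?_⟩
  · intro σ hσ
    rcases Finset.mem_insert.1 hσ with rfl | h
    · exact hτ
    · exact fun h' => h1 σ h (Finset.mem_insert_of_mem h')
  · rw [Finset.card_insert_of_notMem hH, ← h3]
    ring
  · rw [Finset.sum_insert hH, ← h4]
    abel

omit [Fact p.Prime] in
theorem IsMo.addB (hτ : τ ∉ S) (h : IsMo p S s e H B) (he : e' = e + p • itv τ.1 τ.2) :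
    IsMo p S (s + 2) e' H (B + Finsupp.single τ 1) := by
  classical
  subst he
  obtain ⟨h1, h2, h3, h4⟩ := h
  refine ⟨h1, ?_, ?_, ?_⟩
  · intro σ hσ
    by_cases h : σ = τ
    · rw [h]
      exact hτ
    · refine h2 σ ?_
      rwa [Finsupp.add_apply, Finsupp.single_eq_of_ne h, add_zero] at hσ
  · rw [Finsupp.sum_add_index' (fun _ => rfl) (fun _ _ _ => rfl), Finsupp.sum_single_index rfl,
      ← h3]
    ring
  · rw [Finsupp.sum_add_index' (fun _ => by simp) (fun _ _ _ => add_smul _ _ _),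
      Finsupp.sum_single_index (by simp), one_smul, ← h4, smul_add]
    abel

end IsMo

omit [Fact p.Prime] in
theorem mo_iff {s : ℕ} {e : ℕ →₀ ℕ} : Mo p S s e ↔ ∃ H B, IsMo p S s e H B := Iff.rfl

omit [Fact p.Prime] in
theorem Mo1.insert {s : ℕ} {e : ℕ →₀ ℕ} (h : Mo1 p S s e) : Mo1 p (insert τ S) s e :=
  fun _ _ _ _ h1 h2 => h _ _ _ _ h1.of_insert h2.of_insert

omit [Fact p.Prime] in
theorem Mo1.subH {s : ℕ} {e e' : ℕ →₀ ℕ} (hτ : τ ∉ S) (he : e' = e + itv τ.1 τ.2)
    (h : Mo1 p S (s + 1) e') : Mo1 p (Insert.insert τ S) s e := by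
  intro H B H' B' h1 h2
  obtain ⟨h3, h4⟩ := h _ _ _ _ (h1.addH hτ he) (h2.addH hτ he)
  refine ⟨?_, h4⟩
  rw [← Finset.erase_insert h1.notMem, h3, Finset.erase_insert h2.notMem]

omit [Fact p.Prime] in
theorem Mo1.subB {s : ℕ} {e e' : ℕ →₀ ℕ} (hτ : τ ∉ S) (he : e' = e + p • itv τ.1 τ.2)
    (h : Mo1 p S (s + 2) e') : Mo1 p S s e := by
  intro H B H' B' h1 h2
  obtain ⟨h3, h4⟩ := h _ _ _ _ (h1.addB hτ he) (h2.addB hτ he)
  exact ⟨h3, add_right_cancel h4⟩

/-- constants are linearly dependent -/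
theorem D1_zero : D1 p S 0 0 := by
  intro f g hf hg
  have key : ∀ z : UC p 1, MH 0 z → z = C (coeff 0 z) := by
    intro z hz
    ext m
    rw [coeff_C]
    split_ifs with h
    · rw [h]
    · by_contra hne
      have h1 := hz hne
      obtain ⟨v, hv⟩ := Finsupp.ne_iff.1 (Ne.symm h)
      have h2 := mw_le_of_MH hz hne (v := v) hv
      have h3 : m v • mw v = 0 := le_antisymm h2 (zero_le)
      rcases smul_eq_zero.1 h3 with h4 | h4
      · exact hv h4
      · exact mw_ne_zero v h4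
  by_cases h : coeff 0 f = 0 ∧ coeff 0 g = 0
  · refine ⟨1, 0, Or.inl one_ne_zero, ?_⟩
    rw [key f hf.mh, h.1, map_zero, smul_zero, zero_smul, add_zero]
    exact InJ.zero
  · refine ⟨coeff 0 g, - coeff 0 f, ?_, ?_⟩
    · by_contra hc
      push Not at hc
      exact h ⟨by simpa using hc.2, hc.1⟩
    · have : coeff 0 g • f + (-coeff 0 f) • g = 0 := by
        rw [key f hf.mh, key g hg.mh]
        simp only [coeff_zero_C, MvPolynomial.smul_eq_C_mul, map_neg]
        ring
      rw [this]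
      exact InJ.zero

/-- **Unique monomials**: if there is at most one monomial then any two cocycles are linearly
dependent modulo coboundaries. -/
theorem D1_of_mo1 (L : Finset (ℕ × ℕ)) (n : ℕ) : ∀ (S : Finset (ℕ × ℕ)) (s : ℕ) (e : ℕ →₀ ℕ),
    Row S → (∀ τ : ℕ × ℕ, itv τ.1 τ.2 ≤ e → τ ∈ L) → (L \ S).card + s ≤ n → Mo1 p S s e →
    D1 p S s e := by
  induction n using Nat.strong_induction_on with
  | _ n ih =>
    intro S s e hS hL hn hM
    by_cases hall : ∀ τ : ℕ × ℕ, itv τ.1 τ.2 ≤ e → τ ∈ S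
    · by_cases hse : s ≠ 0 ∨ e ≠ 0
      · exact D1_of_V (V_top hall hse)
      · push Not at hse
        obtain ⟨rfl, rfl⟩ := hse
        exact D1_zero
    · push Not at hall
      obtain ⟨⟨i, k0⟩, hle0, hnot0⟩ := hall
      have hex : ∃ k, (i, k) ∉ S := ⟨k0, hnot0⟩
      obtain ⟨k, hk, hmin⟩ : ∃ k, (i, k) ∉ S ∧ ∀ k' < k, (i, k') ∈ S :=
        ⟨Nat.find hex, Nat.find_spec hex, fun k' hk' => not_not.1 (Nat.find_min hex hk')⟩
      have hkk0 : k ≤ k0 := by
        by_contra h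
        exact hnot0 (hmin k0 (not_le.1 h))
      have hle : itv i k ≤ e := by
        refine le_trans ?_ hle0
        intro j
        rw [itv_apply, itv_apply]
        split_ifs <;> omega
      have hS' : Row (insert (i, k) S) := by
        intro a b b' hab hb'
        rcases Finset.mem_insert.1 hab with h | h
        · rw [Prod.mk.injEq] at h
          obtain ⟨rfl, rfl⟩ := h
          exact Finset.mem_insert_of_mem (hmin b' hb')
        · exact Finset.mem_insert_of_mem (hS a b b' h hb')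
      have hmemL : (i, k) ∈ L := hL (i, k) hle
      have hcard : (L \ insert (i, k) S).card < (L \ S).card := by
        apply Finset.card_lt_card
        refine ⟨Finset.sdiff_subset_sdiff le_rfl (Finset.subset_insert _ _), ?_⟩
        intro h
        have := h (Finset.mem_sdiff.2 ⟨hmemL, hk⟩)
        exact (Finset.mem_sdiff.1 this).2 (Finset.mem_insert_self _ _)
      obtain ⟨e1, he1⟩ : ∃ e1, e = e1 + itv i k := ⟨e - itv i k, (tsub_add_cancel_of_le hle).symm⟩
      have hle1 : e1 ≤ e := by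
        rw [he1]
        intro j
        exact Nat.le_add_right _ _
      have hle2 : ∀ e2, e = e2 + p • itv i k → e2 ≤ e := by
        intro e2 he2
        rw [he2]
        intro j
        exact Nat.le_add_right _ _
      -- the three vanishing statements
      have v0 : ¬ Mo p (insert (i, k) S) s e → V p (insert (i, k) S) s e := fun h =>
        V_of_noMo L _ _ _ _ hS' hL le_rfl h
      have v1 : ∀ t, ¬ Mo p (insert (i, k) S) t e1 → V p (insert (i, k) S) t e1 := fun t h =>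
        V_of_noMo L _ _ _ _ hS' (fun τ hτ => hL τ (hτ.trans hle1)) le_rfl h
      have v2 : ∀ t e2, e = e2 + p • itv i k → ¬ Mo p S t e2 → V p S t e2 := fun t e2 he2 h =>
        V_of_noMo L _ _ _ _ hS (fun τ hτ => hL τ (hτ.trans (hle2 e2 he2))) le_rfl h
      by_cases c0 : Mo p (insert (i, k) S) s e
      · obtain ⟨H, B, hHB⟩ := mo_iff.1 c0
        refine D1_step0 (τ := (i, k)) hS hS' hk he1 ?_ ?_ ?_
        · exact ih ((L \ insert (i, k) S).card + s) (by omega) _ _ _ hS' hL le_rfl hM.insert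
        · intro t ht
          subst ht
          refine v1 t fun h => ?_
          obtain ⟨H', B', h'⟩ := mo_iff.1 h
          have := (hM _ _ _ _ hHB.of_insert (h'.addH hk he1)).1
          exact hHB.notMem (this ▸ Finset.mem_insert_self _ _)
        · intro t ht e2 he2
          subst ht
          refine v2 t e2 he2 fun h => ?_
          obtain ⟨H', B', h'⟩ := mo_iff.1 h
          have := (hM _ _ _ _ hHB.of_insert (h'.addB hk he2)).2
          have h3 := hHB.eq_zero
          rw [this, Finsupp.add_apply, Finsupp.single_eq_same] at h3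
          omega
      · rcases s with _ | s
        · refine D1_of_V (V_step (τ := (i, k)) hS hS' hk he1 (v0 c0) ?_ ?_)
          · intro t ht
            omega
          · intro t ht
            omega
        · by_cases c1 : Mo p (insert (i, k) S) s e1
          · obtain ⟨H, B, hHB⟩ := mo_iff.1 c1
            refine D1_step1 (τ := (i, k)) hS hS' hk he1 (v0 c0) ?_ ?_
            · exact ih ((L \ insert (i, k) S).card + s) (by omega) _ _ _ hS'
                (fun τ hτ => hL τ (hτ.trans hle1)) le_rfl (hM.subH hk he1)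
            · intro t ht e2 he2
              subst ht
              refine v2 t e2 he2 fun h => ?_
              obtain ⟨H', B', h'⟩ := mo_iff.1 h
              have := (hM _ _ _ _ (hHB.addH hk he1) (h'.addB hk he2)).2
              have h3 := hHB.eq_zero
              rw [this, Finsupp.add_apply, Finsupp.single_eq_same] at h3
              omega
          · rcases s with _ | t
            · refine D1_of_V (V_step (τ := (i, k)) hS hS' hk he1 (v0 c0) ?_ ?_)
              · intro t ht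
                obtain rfl : t = 0 := by omega
                exact v1 0 c1
              · intro t ht
                omega
            · by_cases hpe : p • itv i k ≤ e
              · obtain ⟨e2, he2⟩ : ∃ e2, e = e2 + p • itv i k :=
                  ⟨_, (tsub_add_cancel_of_le hpe).symm⟩
                refine D1_step2 (τ := (i, k)) hS hS' hk he1 he2 (v0 c0) (v1 _ c1) ?_
                exact ih ((L \ S).card + t) (by omega) _ _ _ hS
                  (fun τ hτ => hL τ (hτ.trans (hle2 e2 he2))) le_rfl (hM.subB hk he2)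
              · refine D1_of_V (V_step (τ := (i, k)) hS hS' hk he1 (v0 c0) ?_ ?_)
                · intro t' ht
                  obtain rfl : t' = t + 1 := by omega
                  exact v1 _ c1
                · intro t' ht e2 he2
                  exfalso
                  apply hpe
                  rw [he2]
                  intro j
                  exact Nat.le_add_left _ _

/-- The unique monomial theorem for `UC p s`. -/
theorem exists_combo {s : ℕ} {e : ℕ →₀ ℕ} (h : Mo1 p ∅ (s + 1) e) {z₁ z₂ : UC p (s + 1)}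
    (h₁ : MH e z₁) (h₂ : MH e z₂) (d₁ : InJ (UC.d (s + 1) z₁)) (d₂ : InJ (UC.d (s + 1) z₂)) :
    ∃ a b : ZMod p, (a ≠ 0 ∨ b ≠ 0) ∧ ∃ y : UC p s, MH e y ∧
      InJ (a • z₁ + b • z₂ - UC.d s y) := by
  obtain ⟨L, hL⟩ := exists_letters e
  have hD := D1_of_mo1 (p := p) L _ ∅ (s + 1) e (fun i k k' h => absurd h (Finset.notMem_empty _))
    hL le_rfl h
  have hc : ∀ z : UC p (s + 1), MH e z → InJ (UC.d (s + 1) z) →
      Cyc ∅ (s + 1) e (UC.map Fin.castSucc z) := fun z hz hd =>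
    ⟨by rw [map_castSucc_eq]; exact dep_rename z, UC.map_MH _ hz,
      by rw [dE_castSucc]; exact UC.map_InJ _ hd⟩
  obtain ⟨a, b, hab, g, hg1, hg2, hg3⟩ := hD _ _ (hc z₁ h₁ d₁) (hc z₂ h₂ d₂)
  obtain ⟨y, rfl⟩ := exists_rename hg1
  refine ⟨a, b, hab, y, MH_of_rename hg2, ?_⟩
  apply InJ_of_rename
  rw [← map_castSucc_eq, map_sub, map_add, map_smul, map_smul, ← dE_castSucc,
    map_castSucc_eq y]
  exact hg3

end Vale.Agent.P257.V4.A.MG
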