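import Vale.Agent.P257.V4.A.A0b
import Vale.Agent.P257.V4.A.Uniq
import Vale.Agent.P257.V4.A.F4Asm

/-!
# P257, V(4), part A: the leading form of a transgressive cochain spans

If the cocycles (modulo `p`-th powers) of multidegree `e₁` are pairwise dependent modulo
coboundaries and `X` is a cochain with leading form of multidegree `e₁` whose coboundary has a
leading form of multidegree `e₂` which is not a coboundary, then the leading form of `X` spans.  `hA3_of`: the case of `h_{11} b_{20}^3`, the only monomial of multidegree `e3`.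
-/

namespace Vale.Agent.P257.V4.A.F4

open MvPolynomial MG

/-- Any two cocycles of degree `s + 1` and multidegree `e` are dependent modulo coboundaries. -/
def DepA (p s : ℕ) [Fact p.Prime] (e : ℕ →₀ ℕ) : Prop :=
  ∀ z₁ z₂ : UC p (s + 1), MH e z₁ → MH e z₂ → InJ (UC.d (s + 1) z₁) → InJ (UC.d (s + 1) z₂) →
    ∃ (a b : ZMod p) (y : UC p s), (a ≠ 0 ∨ b ≠ 0) ∧ MH e y ∧
      InJ (a • z₁ + b • z₂ - UC.d s y)

variable {p : ℕ} [Fact p.Prime]

/-- The leading form spans. -/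
theorem span_of_dep {W : (ℕ →₀ ℕ) →+ ℕ} (hW : IsLevel p W) {s D : ℕ} {e₁ e₂ : ℕ →₀ ℕ}
    (h12 : W e₂ < W e₁) {X : UC p (s + 1)} {ξ : UC p (s + 2)}
    (X_wt : Sup (fun e => wtE p e = D) X) (X_lev : Sup (fun e => W e ≤ W e₁) X)
    (X_d : Ch.d (s + 1) (phi p (s + 1) X) = phi p (s + 2) ξ)
    (ξ_lev : Sup (fun e => W e ≤ W e₂) ξ)
    (hR : ∀ f : UC p (s + 1), MH e₂ f → ¬ InJ (comp e₂ ξ - UC.d (s + 1) f))
    (hV : ∀ e, wtE p e = D → W e₂ < W e → e ≠ e₁ → VanA p (s + 1) e)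
    (hD : DepA p s e₁) (z : UC p (s + 1)) (hz : MH e₁ z) (hdz : InJ (UC.d (s + 1) z)) :
    ∃ (c : ZMod p) (y : UC p s), MH e₁ y ∧ InJ (z - c • comp e₁ X - UC.d s y) := by
  have hc0 : InJ (UC.d (s + 1) (comp e₁ X)) :=
    inJ_d_comp hW X_d X_lev (ξ_lev.mono fun e he => lt_of_le_of_lt he h12) rfl
  obtain ⟨a, b, y, hab, hy, hi⟩ := hD z (comp e₁ X) hz (comp_MH _ _) hdz hc0
  by_cases ha : a = 0
  · -- the leading form would be a coboundary
    exfalso
    subst ha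
    have hb : b ≠ 0 := by simpa using hab
    rw [zero_smul, zero_add] at hi
    have h1 : InJ (comp e₁ X - UC.d s (b⁻¹ • y)) := by
      have := inJ_smul hi b⁻¹
      rwa [smul_sub, smul_smul, inv_mul_cancel₀ hb, one_smul, ← map_smul (UC.d s)] at this
    obtain ⟨y1, -, -, z1, hz1, hz1', hzz1⟩ := step_gen hW (D := D) (n := W e₁)
      (z := X) (fun e he hle hcoc => by
        by_cases hne : e = e₁
        · subst hne
          exact ⟨b⁻¹ • y, fun m hm => hy (by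
            rw [coeff_smul, smul_eq_mul] at hm
            exact right_ne_zero_of_mul hm), h1⟩
        · exact hV e he (by omega) hne _ (comp_MH e _) hcoc)
      X_wt X_lev (w := ξ) (ξ_lev.mono fun e he => lt_of_le_of_lt he h12) X_d
    have hdz1 : Ch.d (s + 1) (phi p (s + 1) z1) = phi p (s + 2) ξ := by
      rw [hzz1, map_add, Ch.d_d, zero_add] at X_d
      exact X_d
    obtain ⟨y3, -, -, z3, hz3, hz3', hzz3⟩ := strip_bdd hW (D := D) (n := W e₂ + 1)
      (m := W e₁) (fun e he hle hlt => hV e he (by omega) (by rintro rfl; omega))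
      hz1 hz1' (w := ξ) (ξ_lev.mono fun e he => by omega) hdz1
    have hdz3 : Ch.d (s + 1) (phi p (s + 1) z3) = phi p (s + 2) ξ := by
      rw [hzz3, map_add, Ch.d_d, zero_add] at hdz1
      exact hdz1
    have h4 : phi p (s + 2) (UC.d (s + 1) z3) = phi p (s + 2) ξ := by
      rw [phi_d, hdz3]
    have h5 := lead_sub hW (n := W e₂) h4 ((hz3'.mono fun e he => by omega).d) ξ_lev rfl
    rw [comp_d] at h5
    refine hR (comp e₂ z3) (comp_MH _ _) ?_
    have := h5.neg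
    rwa [neg_sub] at this
  · refine ⟨-(a⁻¹ * b), a⁻¹ • y, fun m hm => hy (by
      rw [coeff_smul, smul_eq_mul] at hm
      exact right_ne_zero_of_mul hm), ?_⟩
    have := inJ_smul hi a⁻¹
    rw [smul_sub, smul_add, smul_smul, smul_smul, inv_mul_cancel₀ ha, one_smul,
      ← map_smul (UC.d s)] at this
    rwa [neg_smul, sub_neg_eq_add]

theorem depA_of_mo1 {s : ℕ} {e : ℕ →₀ ℕ} (h : Mo1 p ∅ (s + 1) e) : DepA p s e := by
  intro z₁ z₂ h₁ h₂ d₁ d₂
  obtain ⟨a, b, hab, y, hy, hi⟩ := exists_combo h h₁ h₂ d₁ d₂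
  exact ⟨a, b, y, hab, hy, hi⟩

/-! ### the multidegree `e3` -/

omit [Fact p.Prime] in
theorem e3_apply (k : ℕ) : e3 p k = if k = 0 then 3 * p else if k = 1 then 3 * p + 1 else 0 := by
  rw [e3, Finsupp.add_apply, Finsupp.single_apply, Finsupp.single_apply]
  split_ifs <;> omega

/-- the letters inside `{0, 1}` -/
def L01 : Finset (ℕ × ℕ) := {(0, 0), (0, 1), (1, 0)}

theorem mem_L01 {τ : ℕ × ℕ} (h : τ.1 + τ.2 ≤ 1) : τ ∈ L01 := by
  obtain ⟨i, k⟩ := τ
  dsimp only at h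
  have h1 : (i = 0 ∧ k = 0) ∨ (i = 0 ∧ k = 1) ∨ (i = 1 ∧ k = 0) := by omega
  rcases h1 with ⟨rfl, rfl⟩ | ⟨rfl, rfl⟩ | ⟨rfl, rfl⟩ <;> decide

theorem sum_L01 {M : Type*} [AddCommMonoid M] (f : ℕ × ℕ → M) :
    ∑ τ ∈ L01, f τ = f (0, 0) + (f (0, 1) + f (1, 0)) := by
  rw [L01, Finset.sum_insert (by decide), Finset.sum_insert (by decide), Finset.sum_singleton]

omit [Fact p.Prime] in
/-- The monomial of degree `7` and multidegree `e3` is `h_{11} b_{20}^3`. -/
theorem isMo_e3 (hp : 3 ≤ p) {H : Finset (ℕ × ℕ)} {B : (ℕ × ℕ) →₀ ℕ}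
    (h : IsMo p ∅ 7 (e3 p) H B) : H = {(1, 0)} ∧ B = Finsupp.single (0, 1) 3 := by
  classical
  obtain ⟨-, -, h3, h4⟩ := h
  have hj : ∀ j, ∑ τ ∈ H, itv τ.1 τ.2 j + p * ∑ τ ∈ B.support, B τ * itv τ.1 τ.2 j = e3 p j := by
    intro j
    rw [← h4, Finsupp.add_apply, Finsupp.smul_apply, Finsupp.sum, Finsupp.finsetSum_apply,
      Finsupp.finsetSum_apply]
    rfl
  have hit : ∀ τ : ℕ × ℕ, itv τ.1 τ.2 (τ.1 + τ.2) = 1 := fun τ => by
    rw [itv_apply, if_pos ⟨by omega, le_rfl⟩]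
  have h01 : ∀ τ : ℕ × ℕ, e3 p (τ.1 + τ.2) ≠ 0 → τ ∈ L01 := fun τ h => by
    apply mem_L01
    rw [e3_apply] at h
    split_ifs at h <;> omega
  have hH : H ⊆ L01 := fun τ hτ => h01 τ (by
    have h1 := Finset.single_le_sum (f := fun σ : ℕ × ℕ => itv σ.1 σ.2 (τ.1 + τ.2))
      (fun _ _ => Nat.zero_le _) hτ
    rw [hit] at h1
    have := hj (τ.1 + τ.2)
    omega)
  have hB : B.support ⊆ L01 := fun τ hτ => h01 τ (by
    have h1 := Finset.single_le_sum (f := fun σ : ℕ × ℕ => B σ * itv σ.1 σ.2 (τ.1 + τ.2))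
      (fun _ _ => Nat.zero_le _) hτ
    rw [hit, mul_one] at h1
    have h2 := hj (τ.1 + τ.2)
    have h5 : 0 < B τ := Nat.pos_of_ne_zero (Finsupp.mem_support_iff.1 hτ)
    have h6 : 0 < p * ∑ σ ∈ B.support, B σ * itv σ.1 σ.2 (τ.1 + τ.2) :=
      Nat.mul_pos (by omega) (by omega)
    omega)
  -- sums over the three letters
  have hsumH : ∀ f : ℕ × ℕ → ℕ, ∑ τ ∈ H, f τ = ∑ τ ∈ L01, if τ ∈ H then f τ else 0 := by
    intro f
    rw [← Finset.sum_filter]
    congr 1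
    ext τ
    rw [Finset.mem_filter]
    exact ⟨fun h => ⟨hH h, h⟩, fun h => h.2⟩
  have hsumB : ∀ f : ℕ × ℕ → ℕ, ∑ τ ∈ B.support, B τ * f τ = ∑ τ ∈ L01, B τ * f τ := by
    intro f
    refine Finset.sum_subset hB fun τ _ hτ => ?_
    rw [Finsupp.notMem_support_iff.1 hτ, zero_mul]
  have hj0 := hj 0
  have hj1 := hj 1
  rw [hsumH, hsumB, sum_L01, sum_L01, e3_apply] at hj0 hj1
  have hc : H.card + 2 * ∑ τ ∈ B.support, B τ * 1 = 7 := by
    rw [← h3]
    simp only [mul_one]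
    rfl
  rw [Finset.card_eq_sum_ones, hsumH, hsumB, sum_L01, sum_L01] at hc
  simp only [itv_apply] at hj0 hj1
  norm_num at hj0 hj1 hc
  obtain ⟨a, ha⟩ : ∃ a, a = B (0, 0) + B (0, 1) := ⟨_, rfl⟩
  obtain ⟨b, hb⟩ : ∃ b, b = B (0, 1) + B (1, 0) := ⟨_, rfl⟩
  rw [← ha] at hj0
  rw [← hb] at hj1
  have ha3 : a = 3 := by
    rcases Nat.lt_trichotomy a 3 with h | h | h
    · have : p * a ≤ p * 2 := Nat.mul_le_mul_left _ (by omega)
      split_ifs at hj0 <;> omega
    · exact h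
    · have : p * 4 ≤ p * a := Nat.mul_le_mul_left _ (by omega)
      split_ifs at hj0 <;> omega
  have hb3 : b = 3 := by
    rcases Nat.lt_trichotomy b 3 with h | h | h
    · have : p * b ≤ p * 2 := Nat.mul_le_mul_left _ (by omega)
      split_ifs at hj1 <;> omega
    · exact h
    · have : p * 4 ≤ p * b := Nat.mul_le_mul_left _ (by omega)
      split_ifs at hj1 <;> omega
  subst ha3 hb3
  have e00 : (0, 0) ∉ H := by
    intro h
    rw [if_pos h] at hj0
    split_ifs at hj0 <;> omega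
  have e01 : (0, 1) ∉ H := by
    intro h
    rw [if_pos h] at hj0
    split_ifs at hj0 <;> omega
  have e10 : (1, 0) ∈ H := by
    by_contra h
    rw [if_neg h, if_neg e01] at hj1
    omega
  rw [if_neg e00, if_neg e01, if_pos e10] at hc
  constructor
  · ext τ
    rw [Finset.mem_singleton]
    constructor
    · intro h
      have h1 := hH h
      simp only [L01, Finset.mem_insert, Finset.mem_singleton] at h1
      rcases h1 with rfl | rfl | rfl
      · exact absurd h e00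
      · exact absurd h e01
      · rfl
    · rintro rfl
      exact e10
  · ext τ
    rw [Finsupp.single_apply]
    split_ifs with h
    · subst h
      omega
    · by_contra hne
      have h1 := hB (Finsupp.mem_support_iff.2 hne)
      simp only [L01, Finset.mem_insert, Finset.mem_singleton] at h1
      rcases h1 with rfl | rfl | rfl
      · omega
      · exact h rfl
      · omega

omit [Fact p.Prime] in
theorem mo1_e3 (hp : 3 ≤ p) : Mo1 p ∅ 7 (e3 p) := by
  intro H B H' B' h h'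
  obtain ⟨h1, h2⟩ := isMo_e3 hp h
  obtain ⟨h3, h4⟩ := isMo_e3 hp h'
  exact ⟨h1.trans h3.symm, h2.trans h4.symm⟩

/-- The field `hA3` of the assembly of F4. -/
theorem hA3_of (hp : 3 ≤ p) {W : (ℕ →₀ ℕ) →+ ℕ} (hW : IsLevel p W) (h12 : W (e8 p) < W (e3 p))
    {X : UC p 7} {ξ : UC p 8} {A3 : UC p 7} {R : UC p 8}
    (X_wt : Sup (fun e => wtE p e = D p) X) (X_lev : Sup (fun e => W e ≤ W (e3 p)) X)
    (X_lead : InJ (comp (e3 p) X - A3)) (X_d : Ch.d 7 (phi p 7 X) = phi p 8 ξ)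
    (ξ_lev : Sup (fun e => W e ≤ W (e8 p)) ξ) (ξ_lead : InJ (comp (e8 p) ξ - R))
    (hR : ∀ (c : ZMod p) (f : UC p 7), MH (e8 p) f → InJ (c • R - UC.d 7 f) → c = 0)
    (hV : ∀ e, wtE p e = D p → W (e8 p) < W e → e ≠ e3 p → VanA p 7 e)
    (z : UC p 7) (hz : MH (e3 p) z) (hdz : InJ (UC.d 7 z)) :
    ∃ (c : ZMod p) (y : UC p 6), MH (e3 p) y ∧ InJ (z - c • A3 - UC.d 6 y) := by
  obtain ⟨c, y, hy, h⟩ := span_of_dep hW h12 X_wt X_lev X_d ξ_lev (fun f hf hi => by
    have h1 : InJ ((1 : ZMod p) • R - UC.d 7 f) := by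
      have := hi.sub ξ_lead
      rwa [one_smul, ← sub_sub_sub_cancel_left]
    exact one_ne_zero (hR 1 f hf h1)) hV (depA_of_mo1 (mo1_e3 hp)) z hz hdz
  refine ⟨c, y, hy, ?_⟩
  have := h.add (inJ_smul X_lead c)
  rw [smul_sub] at this
  have h5 : z - c • comp (e3 p) X - UC.d 6 y + (c • comp (e3 p) X - c • A3) =
      z - c • A3 - UC.d 6 y := by
    ring
  rwa [h5] at this

end Vale.Agent.P257.V4.A.F4
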