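import Vale.Agent.P257.V4.A.F4H
import Vale.Agent.P257.V4.A.F4XY
import Vale.Agent.P257.V4.A.DivideC

/-!
# P257, part A, block F4: the leading form of `d Y` at `e2` is not a coboundary
-/

namespace Vale.Agent.P257.V4.A.F4G

open MvPolynomial Finset _root_.Vale.Agent.P257.V4.A.UV _root_.Vale.Agent.P257.V4.A.F4C
  _root_.Vale.Agent.P257.V4.A.MG _root_.Vale.Agent.P257.V4.A.DV

variable {p : ℕ} [Fact p.Prime]

theorem inJ_d_cup {a b n : ℕ} (h : a + b = n) {x : UC p a} {y : UC p b} (hx : InJ (UC.d a x))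
    (hy : InJ (UC.d b y)) : InJ (UC.d n (UC.cup h x y)) := by
  rw [UV.d_cup]
  refine InJ.add ((UC.map_InJ _ hx).mul_right _) (InJ.smul ((UC.map_InJ _ hy).mul_left _) _)

/-- the class `g ∪ t_23` is not a coboundary in `E(t_01)` -/
theorem gt_zero' (hp : 5 ≤ p) {c : ZMod p}
    (h : MG.Bd {((0 : ℕ), (0 : ℕ))} 3 (Finsupp.single 1 2 + Finsupp.single 2 1 +
      Finsupp.single 2 1) (cst (c • (UC.cup rfl (gg p) (tt p) : UC p 3)))) : c = 0 := by
  obtain ⟨g, h1, h2, h3⟩ := h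
  have h4 : Dep (ES ∅ 2) g := by
    intro m hm v hv hl
    exfalso
    have h5 := h1 m hm v hv hl
    rw [Finset.mem_singleton] at h5
    have h6 := mw_le_of_MH h2 hm hv 0
    rw [Finsupp.smul_apply, mw, h5, itv_apply, if_pos ⟨le_rfl, le_rfl⟩, smul_eq_mul, mul_one,
      Finsupp.add_apply, Finsupp.add_apply, Finsupp.single_eq_of_ne (by decide),
      Finsupp.single_eq_of_ne (by decide)] at h6
    exact hv (by omega)
  have h7 : MG.Bd ∅ 3 (Finsupp.single 1 2 + Finsupp.single 2 1 + Finsupp.single 2 1)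
      (cst (c • (UC.cup rfl (gg p) (tt p) : UC p 3))) := ⟨g, h4, h2, h3⟩
  obtain ⟨y, y1, y2⟩ := bd_cst_iff.1 h7
  have h8 : c • (UC.cup rfl (gg p) (tt p) : UC p 3) - UC.d 2 y = 0 := by
    refine eq_zero_of_InJ (e := Finsupp.single 1 2 + Finsupp.single 2 1 + Finsupp.single 2 1)
      ?_ (((UC.cup_MH rfl MH_gg MH_tt).smul c).sub (UC.d_MH y1)) y2
    intro k
    rw [Finsupp.add_apply, Finsupp.add_apply, Finsupp.single_apply, Finsupp.single_apply]
    split_ifs <;> omega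
  refine gt_zero (G := gg p) (k := 2⁻¹) ?_ (c := c) (f := y) (sub_eq_zero.1 h8).symm
  intro u
  rw [gg, vl_add, vl_cup, vl_cup, vl_ka, vl_ta, vl_tt, vl_smul, vl_pow, vl_ta]
  rfl

/-- The class of `A2` is not zero. -/
theorem A2_zero (hp : 5 ≤ p) (hu : IsB p ∅ ((0 : ℕ), (0 : ℕ)) (uu p))
    (hB : IsB p {((0 : ℕ), (0 : ℕ))} ((0 : ℕ), (1 : ℕ)) (BB p)) {c : ZMod p} {f : UC p 6}
    (hf : MH (m2 p) f) (h : InJ (c • A2 p - UC.d 6 f)) : c = 0 := by
  have hS : Row ∅ := fun _ _ _ h _ => absurd h (Finset.notMem_empty _)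
  have hS' : Row (insert ((0 : ℕ), (0 : ℕ)) ∅) := row1
  have hgg : InJ (UC.d 2 (gg p)) := by
    rw [d_gg (by omega)]
    exact InJ.zero
  have htt : InJ (UC.d 1 (tt p)) := by
    rw [d_tt]
    exact InJ.zero
  have hgt : InJ (UC.d 3 (UC.cup (n := 3) rfl (gg p) (tt p))) := inJ_d_cup _ hgg htt
  have hgB : InJ (UC.d 4 (UC.cup (n := 4) rfl (gg p) (BB p))) := inJ_d_cup _ hgg hB.cocy
  have hgBt : InJ (UC.d 5 (UC.cup (n := 5) rfl (UC.cup (n := 4) rfl (gg p) (BB p)) (tt p))) :=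
    inJ_d_cup _ hgB htt
  obtain ⟨q, hq⟩ : ∃ q, p = q + 1 := ⟨p - 1, by omega⟩
  have hi0 : itv ((0 : ℕ), (0 : ℕ)).1 ((0 : ℕ), (0 : ℕ)).2 = Finsupp.single 0 1 := by
    simp [itv]
  have hi1 : itv ((0 : ℕ), (1 : ℕ)).1 ((0 : ℕ), (1 : ℕ)).2 =
      Finsupp.single 0 1 + Finsupp.single 1 1 := by
    simp [itv, Finset.sum_range_succ]
  -- first division, by `u`
  set E1 : ℕ →₀ ℕ := Finsupp.single 0 (p + q) + Finsupp.single 1 (p + 2) + Finsupp.single 2 2
    with hE1
  have he : m2 p = E1 + itv ((0 : ℕ), (0 : ℕ)).1 ((0 : ℕ), (0 : ℕ)).2 := by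
    rw [hi0, hE1, m2]
    ext k
    simp only [Finsupp.add_apply, Finsupp.single_apply]
    split_ifs <;> omega
  have r1 := rel_cup_cst hS hS' (Finset.notMem_empty _) hu (n := 5) (a := 3) (c := 2) rfl
    (UC.cup_MH (n := 3) rfl (MH_gg (p := p)) MH_tt) MH_BB hgt hB.cocy he (e1 := E1) (by
      rw [hi0, hE1]
      ext k
      simp only [Finsupp.add_apply, Finsupp.single_apply, Finsupp.smul_apply, smul_eq_mul]
      split_ifs <;> omega)
  have r2 := rel_mul_cst hS hS' (Finset.notMem_empty _) hu (a := 5)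
    (UC.cup_MH (n := 5) rfl (UC.cup_MH (n := 4) rfl (MH_gg (p := p)) MH_BB) MH_tt) hgBt he
    (e1 := E1) (by
      rw [hi0, hE1]
      ext k
      simp only [Finsupp.add_apply, Finsupp.single_apply, Finsupp.smul_apply, smul_eq_mul]
      split_ifs <;> omega)
  have r3 := ((r1.add r2).neg).smul c
  have hbd : MG.Bd ∅ 7 (m2 p) (cst (c • A2 p)) := bd_cst_iff.2 ⟨f, hf, h⟩
  have b1 := r3.bd_of hS (Finset.notMem_empty _) he
    (e2 := Finsupp.single 0 p + Finsupp.single 1 (p + 2) + Finsupp.single 2 2) (by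
      rw [hi0, hE1]
      ext k
      simp only [Finsupp.add_apply, Finsupp.single_apply, Finsupp.smul_apply, smul_eq_mul]
      split_ifs <;> omega) (by
      rw [cst_smul, A2, cst_neg, cst_add] at hbd
      exact hbd) (V1 (by
      rw [m2]
      simp only [Finsupp.add_apply, Finsupp.single_apply]
      split_ifs <;> omega)) (V1 (by
      rw [hE1]
      simp only [Finsupp.add_apply, Finsupp.single_apply]
      split_ifs <;> omega))
  -- second division, by `B`
  have b2 := bd_mono (Finset.empty_subset {((0 : ℕ), (0 : ℕ))}) b1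
  set E2 : ℕ →₀ ℕ := Finsupp.single 0 q + Finsupp.single 1 (p + 1) + Finsupp.single 2 2
    with hE2
  have he2 : Finsupp.single 0 p + Finsupp.single 1 (p + 2) + Finsupp.single 2 2 =
      E2 + itv ((0 : ℕ), (1 : ℕ)).1 ((0 : ℕ), (1 : ℕ)).2 := by
    rw [hi1, hE2]
    ext k
    simp only [Finsupp.add_apply, Finsupp.single_apply]
    split_ifs <;> omega
  have hn : ((0 : ℕ), (1 : ℕ)) ∉ ({((0 : ℕ), (0 : ℕ))} : Finset (ℕ × ℕ)) := by decide
  have s1 := rel_mul_cst row1 row2 hn hB (a := 3)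
    (UC.cup_MH (n := 3) rfl (MH_gg (p := p)) MH_tt) hgt he2 (e1 := E2) (by
      rw [hi1, hE2]
      ext k
      simp only [Finsupp.add_apply, Finsupp.single_apply, Finsupp.smul_apply, smul_eq_mul]
      split_ifs <;> omega)
  have s2 := rel_cup_cst row1 row2 hn hB (n := 3) (a := 2) (c := 1) rfl
    (MH_gg (p := p)) MH_tt hgg htt he2 (e1 := E2) (by
      rw [hi1, hE2]
      ext k
      simp only [Finsupp.add_apply, Finsupp.single_apply, Finsupp.smul_apply, smul_eq_mul]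
      split_ifs <;> omega)
  have s3 := ((s1.add s2).neg).smul c
  have b3 := s3.bd_of row1 hn he2
    (e2 := Finsupp.single 1 2 + Finsupp.single 2 1 + Finsupp.single 2 1) (by
      rw [hi1, hE2]
      ext k
      simp only [Finsupp.add_apply, Finsupp.single_apply, Finsupp.smul_apply, smul_eq_mul]
      split_ifs <;> omega) b2 (V2 (by
      simp only [Finsupp.add_apply, Finsupp.single_apply]
      split_ifs <;> omega)) (V2 (by
      rw [hE2]
      simp only [Finsupp.add_apply, Finsupp.single_apply]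
      split_ifs <;> omega))
  have e5 : c • -(cst (UC.cup (n := 3) rfl (gg p) (tt p)) +
      cst (UC.cup (n := 3) rfl (gg p) (tt p))) =
      cst ((-2 * c) • (UC.cup (n := 3) rfl (gg p) (tt p))) := by
    rw [cst_smul]
    module
  rw [e5] at b3
  have h9 := gt_zero' hp b3
  have h10 : (2 : ZMod p) ≠ 0 := by
    have h3 : ((2 : ℕ) : ZMod p) ≠ 0 := by
      rw [Ne, ZMod.natCast_eq_zero_iff]
      intro h
      have := Nat.le_of_dvd (by norm_num) h
      omega
    exact_mod_cast h3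
  rcases mul_eq_zero.1 h9 with h11 | h11
  · exact absurd (neg_eq_zero.1 h11) h10
  · exact h11

end Vale.Agent.P257.V4.A.F4G
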