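import Vale.Agent.P257.V4.A.F4Coch
import Vale.Agent.P257.V4.A.MG4

/-!
# P257, part A, block F4: the class `h_{21} h_{11} h_{12}` is not a coboundary

`gt_zero`: if `c • (g ∪ t_23)` is a coboundary then `c = 0`. The proof evaluates at points of the
Heisenberg group over `F_p`.
-/

namespace Vale.Agent.P257.V4.A.F4G

open MvPolynomial Finset _root_.Vale.Agent.P257.V4.A.UV _root_.Vale.Agent.P257.V4.A.F4C

variable {p : ℕ}

/-! ### The Heisenberg group in rows 1, 2 -/

/-- the matrix `1 + a E12 + b E23 + c E13` -/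
def hm (B : Type) [CommRing B] (a b c : B) : Un B where
  e i n := if n = 0 then 1 else if i = 1 ∧ n = 1 then a else if i = 2 ∧ n = 1 then b else
    if i = 1 ∧ n = 2 then c else 0
  e_zero _ := if_pos rfl

variable {B : Type} [CommRing B]

theorem hm_one (i : ℕ) (a b c : B) : (hm B a b c).e i 1 = if i = 1 then a else if i = 2 then b
    else 0 := by
  simp [hm]

theorem hm_two (i : ℕ) (a b c : B) : (hm B a b c).e i 2 = if i = 1 then c else 0 := by
  simp [hm]

theorem hm_ge (i n : ℕ) (a b c : B) : (hm B a b c).e i (n + 3) = 0 := by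
  simp [hm]

theorem hm_mul (a b c a' b' c' : B) :
    hm B a b c * hm B a' b' c' = hm B (a + a') (b + b') (c + c' + a * b') := by
  ext i n
  rw [Un.mul_e]
  rcases n with _ | _ | _ | n
  · simp [Un.e_zero]
  · simp only [Finset.Nat.antidiagonal_succ, Finset.Nat.antidiagonal_zero]
    simp [Un.e_zero, hm_one]
    split_ifs <;> ring
  · simp only [Finset.Nat.antidiagonal_succ, Finset.Nat.antidiagonal_zero]
    simp [Un.e_zero, hm_one, hm_two]
    split_ifs <;> first | omega | ring
  · rw [hm_ge]
    refine Finset.sum_eq_zero fun x hx => ?_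
    rw [HasAntidiagonal.mem_antidiagonal] at hx
    obtain ⟨x, y⟩ := x
    dsimp only at hx ⊢
    rcases x with _ | _ | _ | x
    · have : y = n + 3 := by omega
      subst this
      rw [hm_ge, mul_zero]
    · rcases n with _ | n
      · have : y = 2 := by omega
        subst this
        rw [hm_one, hm_two]
        split_ifs <;> first | omega | simp
      · have : y = n + 3 := by omega
        subst this
        rw [hm_ge, mul_zero]
    · rcases n with _ | _ | n
      · have : y = 1 := by omega
        subst this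
        rw [hm_one, hm_two]
        split_ifs <;> first | omega | simp
      · have : y = 2 := by omega
        subst this
        rw [hm_two, hm_two]
        split_ifs <;> first | omega | simp
      · have : y = n + 3 := by omega
        subst this
        rw [hm_ge, mul_zero]
    · rw [hm_ge, zero_mul]

theorem hm_inv (a b c : B) : (hm B a b c)⁻¹ = hm B (-a) (-b) (a * b - c) := by
  rw [inv_eq_iff_mul_eq_one, hm_mul]
  ext i n
  rw [Un.one_e]
  simp only [hm]
  split_ifs <;> first | rfl | ring

/-- the inhomogeneous value -/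
noncomputable def ih (f : UC p 2) (a b : Un (ZMod p)) : ZMod p := vl f (sq 1 a (b * a))

theorem d_ih (f : UC p 2) (a b g : Un (ZMod p)) :
    vl (UC.d 2 f) (fun i => if i = 0 then 1 else if i = 1 then a else if i = 2 then b * a
      else g * b * a) = ih f b g - ih f (b * a) g + ih f a (g * b) - ih f a b := by
  rw [vl_d2]
  have h1 : vl f (sq a (b * a) (g * b * a)) = ih f b g := by
    rw [ih, ← vl_mul_right f (sq 1 b (g * b)) a]
    refine vl_congr _ fun i hi => ?_
    interval_cases i
    · change a = 1 * a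
      rw [one_mul]
    · rfl
    · rfl
  change vl f (sq a (b * a) (g * b * a)) - vl f (sq 1 (b * a) (g * b * a)) +
    vl f (sq 1 a (g * b * a)) - vl f (sq 1 a (b * a)) = _
  rw [h1]
  unfold ih
  rw [mul_assoc g b a]

/-- `g ∪ t_23` is not a coboundary -/
theorem gt_zero {G : UC p 2} {k : ZMod p}
    (hG : ∀ u : ℕ → Un (ZMod p), vl G u = en 1 2 (u 0) (u 1) * en 1 1 (u 1) (u 2) +
      en 2 1 (u 0) (u 1) * (k * en 1 1 (u 1) (u 2) ^ 2)) {c : ZMod p} {f : UC p 2}
    (h : UC.d 2 f = c • UC.cup rfl G (tt p)) : c = 0 := by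
  have key : ∀ a b g : Un (ZMod p), ih f b g - ih f (b * a) g + ih f a (g * b) - ih f a b =
      c * ((a.e 1 2 * b.e 1 1 + a.e 2 1 * (k * b.e 1 1 ^ 2)) * g.e 2 1) := by
    intro a b g
    rw [← d_ih, h, vl_smul, vl_cup, hG, vl_tt, smul_eq_mul]
    congr 1
    have e1 : en 1 2 (1 : Un (ZMod p)) a = a.e 1 2 := by
      rw [en, inv_one, mul_one]
    have e2 : en 2 1 (1 : Un (ZMod p)) a = a.e 2 1 := by
      rw [en, inv_one, mul_one]
    have e3 : en 1 1 a (b * a) = b.e 1 1 := by
      rw [en, mul_inv_cancel_right]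
    have e4 : en 2 1 (b * a) (g * b * a) = g.e 2 1 := by
      rw [en, mul_assoc g b a, mul_inv_cancel_right]
    change (en 1 2 1 a * en 1 1 a (b * a) + en 2 1 1 a * (k * en 1 1 a (b * a) ^ 2)) *
      en 2 1 (b * a) (g * b * a) = _
    rw [e1, e2, e3, e4]
  set x : Un (ZMod p) := hm _ 1 0 0 with hx
  set z : Un (ZMod p) := hm _ 0 1 0 with hz
  set w : Un (ZMod p) := hm _ 0 0 1 with hw
  have x1 : x.e 1 1 = 1 := by simp [hx, hm]
  have x2 : x.e 2 1 = 0 := by simp [hx, hm]
  have x3 : x.e 1 2 = 0 := by simp [hx, hm]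
  have z1 : z.e 1 1 = 0 := by simp [hz, hm]
  have z2 : z.e 2 1 = 1 := by simp [hz, hm]
  have z3 : z.e 1 2 = 0 := by simp [hz, hm]
  have w1 : w.e 1 1 = 0 := by simp [hw, hm]
  have w2 : w.e 2 1 = 0 := by simp [hw, hm]
  have w3 : w.e 1 2 = 1 := by simp [hw, hm]
  have hxw : w * x = x * w := by rw [hx, hw, hm_mul, hm_mul]; congr 1 <;> ring
  have hzw : w * z = z * w := by rw [hz, hw, hm_mul, hm_mul]; congr 1 <;> ring
  have hxz : x * z = (z * x) * w := by
    rw [hx, hz, hw, hm_mul, hm_mul, hm_mul]; congr 1 <;> ring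
  have hzxw : w * (z * x) = (z * x) * w := by
    rw [← mul_assoc, hzw, mul_assoc, hxw, ← mul_assoc]
  have q1 : (z * x).e 1 1 = 1 := by rw [hx, hz, hm_mul]; simp [hm]
  -- `(a, b) = (z, x)`, `(x, z)`, `(w, z x)`
  have a1 := key w z x
  have a2 := key z w x
  have a3 := key z x w
  have b1 := key w x z
  have b2 := key x w z
  have b3 := key x z w
  have c3 := key w (z * x) w
  simp only [x1, x2, x3, z1, z2, z3, w1, w2, w3, q1, mul_zero, mul_one, zero_mul, add_zero,
    zero_add, hxw, hzw, hxz, hzxw] at a1 a2 a3 b1 b2 b3 c3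
  linear_combination a1 - a2 + a3 - b1 + b2 - b3 - c3

end Vale.Agent.P257.V4.A.F4G
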