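import Vale.Agent.P257.V4.A.F4G
import Vale.Agent.P257.V4.A.F4Asm
import Vale.Agent.P257.V4.A.Prd
import Vale.Agent.P257.V4.A.Uniq

/-!
# P257, part A, block F4: auxiliary lemmas for the non-vanishing of the class at `e2`
-/

namespace Vale.Agent.P257.V4.A.F4G

open MvPolynomial Finset _root_.Vale.Agent.P257.V4.A.UV _root_.Vale.Agent.P257.V4.A.F4C
  _root_.Vale.Agent.P257.V4.A.MG

variable {p : ℕ} [Fact p.Prime]

/-- all multidegrees small: membership in `J` is vanishing -/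
theorem eq_zero_of_InJ {s : ℕ} {e : ℕ →₀ ℕ} (he : ∀ k, e k < p) {z : UC p s} (hz : MH e z)
    (hJ : InJ z) : z = 0 := by
  rw [← support_eq_empty, Finset.eq_empty_iff_forall_notMem]
  intro m hm
  obtain ⟨v, hv⟩ := hJ m hm
  have hp := (Fact.out : p.Prime).pos
  have h1 := mw_le_of_MH hz (mem_support_iff.1 hm) (v := v) (by omega)
  have h2 := h1 v.2.1
  rw [Finsupp.smul_apply, mw, itv_apply, if_pos ⟨le_rfl, Nat.le_add_right _ _⟩, smul_eq_mul,
    mul_one] at h2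
  have := he v.2.1
  omega

omit [Fact p.Prime] in
/-- No monomial outside `S` if the `0`-th coordinate exceeds the `k`-th one and all letters outside
`S` which cover `0` also cover `k`. -/
theorem not_Mo {S : Finset (ℕ × ℕ)} {k s : ℕ} {e : ℕ →₀ ℕ}
    (hS : ∀ τ : ℕ × ℕ, τ ∉ S → itv τ.1 τ.2 0 ≤ itv τ.1 τ.2 k) (he : e k < e 0) :
    ¬ Mo p S s e := by
  rintro ⟨H, B, h1, h2, -, rfl⟩
  refine absurd he (not_lt.2 ?_)
  rw [Finsupp.add_apply, Finsupp.add_apply, Finsupp.finsetSum_apply, Finsupp.finsetSum_apply,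
    Finsupp.smul_apply, Finsupp.smul_apply, Finsupp.sum, Finsupp.finsetSum_apply,
    Finsupp.finsetSum_apply]
  refine Nat.add_le_add (Finset.sum_le_sum fun τ hτ => hS τ (h1 τ hτ))
    (Nat.mul_le_mul_left _ (Finset.sum_le_sum fun τ hτ => ?_))
  rw [Finsupp.smul_apply, Finsupp.smul_apply]
  exact Nat.mul_le_mul_left _ (hS τ (h2 τ (Finsupp.mem_support_iff.1 hτ)))

theorem V_of_lt {S : Finset (ℕ × ℕ)} (hR : Row S) {k s : ℕ} {e : ℕ →₀ ℕ}
    (hS : ∀ τ : ℕ × ℕ, τ ∉ S → itv τ.1 τ.2 0 ≤ itv τ.1 τ.2 k) (he : e k < e 0) :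
    V p S s e := by
  obtain ⟨L, hL⟩ := exists_letters e
  exact V_of_noMo L _ S s e hR hL le_rfl (not_Mo hS he)

omit [Fact p.Prime] in
theorem row1 : Row {((0 : ℕ), (0 : ℕ))} := by
  intro i k k' h hk
  rw [Finset.mem_singleton, Prod.mk.injEq] at h
  omega

omit [Fact p.Prime] in
theorem row2 : Row (insert ((0 : ℕ), (1 : ℕ)) {((0 : ℕ), (0 : ℕ))}) := by
  intro i k k' h hk
  rw [Finset.mem_insert, Finset.mem_singleton, Prod.mk.injEq, Prod.mk.injEq] at h ⊢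
  omega

/-- `S = {t_01}` -/
theorem V1 {s : ℕ} {e : ℕ →₀ ℕ} (he : e 1 < e 0) : V p {((0 : ℕ), (0 : ℕ))} s e :=
  V_of_lt row1 (k := 1) (fun τ hτ => by
    obtain ⟨i, j⟩ := τ
    rw [Finset.mem_singleton, Prod.mk.injEq] at hτ
    rw [itv_apply, itv_apply]
    dsimp only
    split_ifs <;> omega) he

/-- `S = {t_01, t_02}` -/
theorem V2 {s : ℕ} {e : ℕ →₀ ℕ} (he : e 2 < e 0) :
    V p (insert ((0 : ℕ), (1 : ℕ)) {((0 : ℕ), (0 : ℕ))}) s e :=
  V_of_lt row2 (k := 2) (fun τ hτ => by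
    obtain ⟨i, j⟩ := τ
    rw [Finset.mem_insert, Finset.mem_singleton, Prod.mk.injEq, Prod.mk.injEq] at hτ
    rw [itv_apply, itv_apply]
    dsimp only
    split_ifs <;> omega) he

end Vale.Agent.P257.V4.A.F4G
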