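import Vale.Agent.P257.V4.A.HTow

/-!
# P257 / V4, part A: F4 by first order differentials, the linear algebra (helper110)

`CC = M p 0 0` functions of `z_1`; `K2` digits 0, 1 (and `≥ 3`) of `z_1`; `K1` digit 1 (and `≥ 3`);
`N0 = M p 0 3` digits `≥ 3`.
-/

open MvPolynomial

namespace Vale.Agent.P257.V4.A.F4K

open Ch H

variable {p : ℕ} [Fact p.Prime]

variable (p) in
/-- functions of `z_1` -/
noncomputable abbrev CC : CS p := M p 0 0

variable (p) in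
noncomputable abbrev N0 : CS p := M p 0 3

variable (p) in
noncomputable abbrev K1 : CS p := Ext (N0 p) 0 1

variable (p) in
noncomputable abbrev K2 : CS p := Ext (K1 p) 0 0

theorem Ext_K2 : H.Ext (K2 p) 0 2 = CC p := by
  change Tr (Tr (Tr (N0 p) 0 1 p) 0 0 p) 0 2 p = _
  rw [Tr_comm (Tr (N0 p) 0 1 p), Tr_comm (N0 p)]
  have h1 : Tr (N0 p) 0 2 p = M p 0 2 := Ext_M 0 2
  have h2 : Tr (M p 0 2) 0 1 p = M p 0 1 := Ext_M 0 1
  have h3 : Tr (M p 0 1) 0 0 p = M p 0 0 := Ext_M 0 0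
  rw [h1, h2, h3]

/-! ### step data -/

theorem fr_mul_Tr {N : CS p} {j m s : ℕ} {r : Ch p (s + 1)} (hr : ∀ x ∈ N s, r * x ∈ N s)
    {x : Ch p (s + 1)} (hx : x ∈ Tr N 0 j m s) : r * x ∈ Tr N 0 j m s := by
  obtain ⟨f, hf, rfl⟩ := hx
  rw [Finset.mul_sum]
  refine AddSubgroup.sum_mem _ fun b hb => ?_
  rw [mul_left_comm]
  exact tau_mul_mem_Tr (Finset.mem_range.1 hb) (hr _ (hf b))

theorem fr_mul_N0 {s : ℕ} {r : Ch p (s + 1)} (hr : r ∈ FR p 0 s) {x : Ch p (s + 1)}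
    (hx : x ∈ N0 p s) : r * x ∈ N0 p s :=
  Subring.mul_mem (MS p 0 3 s) (FR_le_MS hr) hx

theorem fr_mul_K1 {s : ℕ} {r : Ch p (s + 1)} (hr : r ∈ FR p 0 s) {x : Ch p (s + 1)}
    (hx : x ∈ K1 p s) : r * x ∈ K1 p s :=
  fr_mul_Tr (fun _ h => fr_mul_N0 hr h) hx

theorem fr_mul_K2 {s : ℕ} {r : Ch p (s + 1)} (hr : r ∈ FR p 0 s) {x : Ch p (s + 1)}
    (hx : x ∈ K2 p s) : r * x ∈ K2 p s :=
  fr_mul_Tr (fun _ h => fr_mul_K1 hr h) hx

theorem dig_Tr {N : CS p} {j k m s : ℕ} (h : ∀ b < m, ∀ x ∈ N s, Dig 0 k (tau p 0 j s ^ b * x))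
    {x : Ch p (s + 1)} (hx : x ∈ Tr N 0 j m s) : Dig 0 k x := by
  obtain ⟨f, hf, rfl⟩ := hx
  exact Dig_sum _ fun b hb => h b (Finset.mem_range.1 hb) _ (hf b)

theorem exp_tau_mul {j b s : ℕ} {x : Ch p (s + 1)} {e : Fin (s + 1) × ℕ →₀ ℕ}
    (he : e ∈ (tau p 0 j s ^ b * x).support) :
    ∃ e' ∈ x.support, e (zv s 0) = p ^ j * b + e' (zv s 0) := by
  classical
  obtain ⟨e1, h1, e2, h2, rfl⟩ := Finset.mem_add.1 (support_mul _ _ he)
  rw [tau, ← pow_mul, X_pow_eq_monomial] at h1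
  have h1' := Finset.mem_singleton.1 (support_monomial_subset h1)
  refine ⟨e2, h2, ?_⟩
  rw [Finsupp.add_apply, h1', Finsupp.single_eq_same]

/-- the exponents of `z_1` in `K1` -/
theorem exp_K1 {s : ℕ} {x : Ch p (s + 1)} (hx : x ∈ K1 p s) {e : Fin (s + 1) × ℕ →₀ ℕ}
    (he : e ∈ x.support) : ∃ b m, b < p ∧ e (zv s 0) = p * b + p ^ 3 * m := by
  classical
  obtain ⟨f, hf, rfl⟩ := hx
  obtain ⟨b, hb, h⟩ := Finset.mem_biUnion.1 (support_sum he)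
  obtain ⟨e', he', h'⟩ := exp_tau_mul h
  obtain ⟨m, hm⟩ := (hf b e' he').2
  exact ⟨b, m, Finset.mem_range.1 hb, by rw [h', hm, pow_one]⟩

theorem exp_K2 {s : ℕ} {x : Ch p (s + 1)} (hx : x ∈ K2 p s) {e : Fin (s + 1) × ℕ →₀ ℕ}
    (he : e ∈ x.support) : ∃ a b m, a < p ∧ b < p ∧ e (zv s 0) = a + (p * b + p ^ 3 * m) := by
  classical
  obtain ⟨f, hf, rfl⟩ := hx
  obtain ⟨a, ha, h⟩ := Finset.mem_biUnion.1 (support_sum he)
  obtain ⟨e', he', h'⟩ := exp_tau_mul h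
  obtain ⟨b, m, hb, hm⟩ := exp_K1 (hf a) he'
  exact ⟨a, b, m, Finset.mem_range.1 ha, hb, by rw [h', hm, pow_zero, one_mul]⟩

theorem sdN0 : StepData (N0 p) 0 1 := stepData_M (by norm_num)

theorem sdK1 : StepData (K1 p) 0 0 where
  cof_mem _ i _ h := cof_mem_Tr sdN0 i h
  dig s x hx e he := by
    obtain ⟨b, m, _, h⟩ := exp_K1 hx he
    rw [h, pow_zero, Nat.div_one]
    push_cast
    simp
  comp_mem _ _ _ h := comp_mem_Tr (fun _ _ _ h => comp_mem_M h) h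
  r_mem s i x hx := fr_mul_K1 (cof_tau_sub_mem 0 0 s i) hx
  r_free s i e he := cof_tau_sub_mem 0 0 s i e he 0 le_rfl

theorem sdK2 : StepData (K2 p) 0 2 where
  cof_mem _ i _ h := cof_mem_Tr sdK1 i h
  dig s x hx e he := by
    obtain ⟨a, b, m, ha, hb, h⟩ := exp_K2 hx he
    have hp : 0 < p := (Fact.out : p.Prime).pos
    have h1 : a + (p * b + p ^ 3 * m) = (a + p * b) + p ^ 2 * (p * m) := by ring
    have h2 : a + p * b < p ^ 2 := by
      have : p * b ≤ p * (p - 1) := Nat.mul_le_mul_left _ (by omega)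
      have h3 : p * (p - 1) + p = p ^ 2 := by
        obtain ⟨q, rfl⟩ : ∃ q, p = q + 1 := ⟨p - 1, by omega⟩
        rw [Nat.add_sub_cancel]
        ring
      omega
    rw [h, h1, Nat.add_mul_div_left _ _ (Nat.pow_pos hp), Nat.div_eq_of_lt h2, zero_add]
    push_cast
    simp
  comp_mem _ _ _ h := comp_mem_Tr (fun _ _ _ h => comp_mem_Tr (fun _ _ _ h => comp_mem_M h) h) h
  r_mem s i x hx := fr_mul_K2 (cof_tau_sub_mem 0 2 s i) hx
  r_free s i e he := cof_tau_sub_mem 0 2 s i e he 0 le_rfl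

theorem sdM1 : StepData (M p 0 1) 0 0 := stepData_M (by norm_num)

theorem Ext_M1 : H.Ext (M p 0 1) 0 0 = CC p := Ext_M 0 0

/-! ### modification of a primitive -/

/-- `Dop` of an element of `Ext N` without top coefficient is onto -/
theorem mem_Tr_of_wt {N : CS p} {l k s w m : ℕ} (hN : StepData N l k)
    (hw : w < m * (p ^ k * Ch.N p (l + 1))) {x : Ch p (s + 1)} (hx : x ∈ H.Ext N l k s)
    (hxw : IsWt w x) : x ∈ Tr N l k m s := by
  obtain ⟨f, hf1, _, hf3, hf4⟩ := exists_wt hN.comp_mem hx hxw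
  rw [hf4]
  refine AddSubgroup.sum_mem _ fun b hb => ?_
  by_cases h : b < m
  · exact tau_mul_mem_Tr h (hf1 b)
  · rw [hf3 b (lt_of_lt_of_le hw (Nat.mul_le_mul_right _ (by omega))), mul_zero]
    exact AddSubgroup.zero_mem _

/-- if `D z = d ε` then `z` may be changed by a coboundary into an element of `N` -/
theorem modify {N : CS p} {l k : ℕ} (hN : StepData N l k) {s w : ℕ}
    (hw : w < (p - 1) * (p ^ k * Ch.N p (l + 1))) {z : Ch p (s + 2)}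
    (hz : z ∈ H.Ext N l k (s + 1)) {ε : Ch p (s + 1)} (hε : ε ∈ H.Ext N l k s) (hεw : IsWt w ε)
    (h : Dop l k (s + 1) z = dE s ε) :
    ∃ x ∈ H.Ext N l k s, z - dE s x ∈ N (s + 1) := by
  obtain ⟨x, hx, hDx⟩ := exists_Dop_eq hN (mem_Tr_of_wt hN hw hε hεw)
  refine ⟨x, hx, mem_of_Dop_eq_zero hN (AddSubgroup.sub_mem _ hz (dE_mem_Tr hN hx)) ?_⟩
  rw [map_sub, Dop_dE hN hx, hDx, h, sub_self]

/-- the same with the differential only -/
theorem modify' {N : CS p} {l k : ℕ} (hN : StepData N l k) {s w w' : ℕ}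
    (hww : w = w' + p ^ k * Ch.N p (l + 1)) (hw : w' < (p - 1) * (p ^ k * Ch.N p (l + 1)))
    (hV : V (H.Ext N l k) (s + 1) w') {z : Ch p (s + 2)}
    (hz : z ∈ H.Ext N l k (s + 1)) (hzw : IsWt w z) (h : Dop l k (s + 2) (dE (s + 1) z) = 0) :
    ∃ z' ∈ N (s + 1), IsWt w z' ∧ dE (s + 1) z' = dE (s + 1) z := by
  subst hww
  have h1 : dE (s + 1) (Dop l k (s + 1) z) = 0 := by rw [← Dop_dE hN hz, h]
  obtain ⟨ε, hε, hεw, hε'⟩ := hV _ (Tr_mono (Nat.sub_le _ _) (Dop_mem hN hz)) (Dop_isWt hzw) h1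
  obtain ⟨x, hx, hx'⟩ := modify hN hw hz hε hεw hε'.symm
  refine ⟨comp _ _ (z - dE s x), hN.comp_mem _ _ _ hx', comp_isWt _ _, ?_⟩
  rw [← comp_dE, map_sub, dE_dE, sub_zero, comp_same (dE_isWt hzw)]

/-! ### iterates -/

theorem Dop_mem' {N : CS p} {l k : ℕ} (hN : StepData N l k) {s m : ℕ} {x : Ch p (s + 1)}
    (hx : x ∈ Tr N l k (m + 1) s) : Dop l k s x ∈ Tr N l k m s := by
  obtain ⟨f, hf, rfl⟩ := hx
  rw [Dop_sum (fun b => hN.dig s _ (hf b))]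
  exact ⟨fun b => (b + 1) • f (b + 1), fun b => (N s).nsmul_mem (hf _) _, rfl⟩

theorem iter_zero {N : CS p} {l k : ℕ} (hN : StepData N l k) {s m : ℕ} {x : Ch p (s + 1)}
    (hx : x ∈ Tr N l k m s) : (Dop l k s)^[m] x = 0 := by
  induction m generalizing x with
  | zero => exact Tr_zero hx
  | succ m ih => rw [Function.iterate_succ_apply, ih (Dop_mem' hN hx)]

theorem iter_add {l k s m : ℕ} (x y : Ch p (s + 1)) :
    (Dop l k s)^[m] (x + y) = (Dop l k s)^[m] x + (Dop l k s)^[m] y := by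
  induction m generalizing x y with
  | zero => rfl
  | succ m ih => simp only [Function.iterate_succ_apply, map_add, ih]

theorem iter_sub {l k s m : ℕ} (x y : Ch p (s + 1)) :
    (Dop l k s)^[m] (x - y) = (Dop l k s)^[m] x - (Dop l k s)^[m] y := by
  induction m generalizing x y with
  | zero => rfl
  | succ m ih => simp only [Function.iterate_succ_apply, map_sub, ih]

theorem iter_smul {l k s m : ℕ} (c : ZMod p) (x : Ch p (s + 1)) :
    (Dop l k s)^[m] (c • x) = c • (Dop l k s)^[m] x := by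
  induction m generalizing x with
  | zero => rfl
  | succ m ih => simp only [Function.iterate_succ_apply, map_smul, ih]

theorem iter_nsmul {l k s m : ℕ} (c : ℕ) (x : Ch p (s + 1)) :
    (Dop l k s)^[m] (c • x) = c • (Dop l k s)^[m] x := by
  rw [← Nat.cast_smul_eq_nsmul (ZMod p), iter_smul, Nat.cast_smul_eq_nsmul]

theorem iter_tau {N : CS p} {l k : ℕ} (hN : StepData N l k) {s : ℕ} (m : ℕ) {x : Ch p (s + 1)}
    (hx : x ∈ N s) : (Dop l k s)^[m] (tau p l k s ^ m * x) = m.factorial • x := by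
  induction m with
  | zero => simp
  | succ m ih =>
    rw [Function.iterate_succ_apply, Dop_tau_mul (hN.dig _ _ hx), ← nsmul_eq_mul, iter_nsmul, ih,
      Nat.factorial_succ, mul_smul]

theorem iter_mem {N : CS p} {l k : ℕ} (hN : StepData N l k) {s : ℕ} (m : ℕ) {x : Ch p (s + 1)}
    (hx : x ∈ H.Ext N l k s) : (Dop l k s)^[m] x ∈ H.Ext N l k s := by
  induction m generalizing x with
  | zero => exact hx
  | succ m ih =>
    rw [Function.iterate_succ_apply]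
    exact ih (Tr_mono (Nat.sub_le _ _) (Dop_mem hN hx))

theorem iter_dE {N : CS p} {l k : ℕ} (hN : StepData N l k) {s : ℕ} (m : ℕ) {x : Ch p (s + 1)}
    (hx : x ∈ H.Ext N l k s) : (Dop l k (s + 1))^[m] (dE s x) = dE s ((Dop l k s)^[m] x) := by
  induction m generalizing x with
  | zero => rfl
  | succ m ih =>
    rw [Function.iterate_succ_apply, Function.iterate_succ_apply, Dop_dE hN hx,
      ih (Tr_mono (Nat.sub_le _ _) (Dop_mem hN hx))]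

theorem iter_top {N : CS p} {l k : ℕ} (hN : StepData N l k) {s : ℕ} {b c : Ch p (s + 1)}
    (hb : b - tau p l k s ^ (p - 1) * c ∈ Tr N l k (p - 1) s) (hc : c ∈ N s) :
    (Dop l k s)^[p - 1] b = (p - 1).factorial • c := by
  have h := iter_zero hN hb
  rw [iter_sub, iter_tau hN _ hc, sub_eq_zero] at h
  exact h

/-! ### the step lemma for one element -/

theorem top_of_prim {N : CS p} {l k : ℕ} (hN : StepData N l k) {s : ℕ} {x : Ch p (s + 3)}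
    {a : Ch p (s + 2)} (ha : a ∈ H.Ext N l k (s + 1)) (hax : dE (s + 1) a = x)
    {b : Ch p (s + 1)} (hb : b ∈ H.Ext N l k s) (hbx : dE s b = Dop l k (s + 1) a) {w : ℕ}
    (hbw : IsWt w b) :
    ∃ a' ∈ H.Ext N l k (s + 1), ∃ c ∈ N s, dE (s + 1) a' = x ∧ dE s c = 0 ∧
      Dop l k (s + 1) a' = dE s (tau p l k s ^ (p - 1) * c) ∧
      ((p - 1) * (p ^ k * Ch.N p (l + 1)) ≤ w →
        IsWt (w - (p - 1) * (p ^ k * Ch.N p (l + 1))) c) ∧
      (w < (p - 1) * (p ^ k * Ch.N p (l + 1)) → c = 0) ∧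
      (Dop l k s)^[p - 1] b = (p - 1).factorial • c := by
  have hpp : p - 1 + 1 = p := pred_add_one
  have hr : Finset.range p = Finset.range (p - 1 + 1) := by rw [hpp]
  obtain ⟨f, hf1, hf2, hf3, hf4⟩ := exists_wt hN.comp_mem hb hbw
  have hb' : b - tau p l k s ^ (p - 1) * f (p - 1) ∈ Tr N l k (p - 1) s := by
    have : b - tau p l k s ^ (p - 1) * f (p - 1) =
        ∑ i ∈ Finset.range (p - 1), tau p l k s ^ i * f i := by
      rw [hf4]
      rw [hr, Finset.sum_range_succ, add_sub_cancel_right]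
    rw [this]
    exact ⟨f, hf1, rfl⟩
  obtain ⟨x₀, hx₀, hDx₀⟩ := exists_Dop_eq hN hb'
  refine ⟨a - dE s x₀, AddSubgroup.sub_mem _ ha (dE_mem_Tr hN hx₀), f (p - 1), hf1 _, ?_, ?_, ?_,
    hf2 _, hf3 _, iter_top hN hb' (hf1 _)⟩
  · rw [map_sub, dE_dE, sub_zero, hax]
  · have e1 : dE s b ∈ Tr N l k (p - 1) (s + 1) := by
      rw [hbx]
      exact Dop_mem hN ha
    have e2 : dE s (b - tau p l k s ^ (p - 1) * f (p - 1)) ∈ Tr N l k (p - 1) (s + 1) :=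
      dE_mem_Tr hN hb'
    have e3 := dE_tau_mul hN (p - 1) (hf1 (p - 1))
    have e4 : tau p l k (s + 1) ^ (p - 1) * dE s (f (p - 1)) ∈ Tr N l k (p - 1) (s + 1) := by
      have := AddSubgroup.sub_mem _ e1 (AddSubgroup.add_mem _ e2 e3)
      rw [map_sub] at this
      convert this using 1
      abel
    obtain ⟨g, hg, hg'⟩ := e4
    have e5 := indep hN p le_rfl (fun i => if i = p - 1 then dE s (f (p - 1)) else - g i)
      (fun i => by
        split_ifs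
        · exact dE_mem' hN.cof_mem (hf1 _)
        · exact (N _).neg_mem (hg i)) (by
        rw [hr, Finset.sum_range_succ, if_pos rfl, hg', ← Finset.sum_add_distrib]
        refine Finset.sum_eq_zero fun i hi => ?_
        rw [if_neg (by have := Finset.mem_range.1 hi; omega)]
        ring) (p - 1) (by omega)
    simpa using e5
  · rw [map_sub, Dop_dE hN hx₀, hDx₀, ← hbx, map_sub, sub_sub_cancel]

/-- the step for an element of `N` which is a coboundary in `Ext N` -/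
theorem step_one {N : CS p} {l k : ℕ} (hN : StepData N l k) {s w w' w'' : ℕ}
    (e1 : w = w' + p ^ k * Ch.N p (l + 1)) (e2 : w' = w'' + (p - 1) * (p ^ k * Ch.N p (l + 1)))
    {x : Ch p (s + 4)} (hxw : IsWt w x) (hxN : x ∈ N (s + 3)) {a : Ch p (s + 3)}
    (ha : a ∈ H.Ext N l k (s + 2)) (haw : IsWt w a) (hax : dE (s + 2) a = x)
    (h1 : V (H.Ext N l k) (s + 2) w') (h2 : V N (s + 1) w'') :
    ∃ y ∈ N (s + 2), IsWt w y ∧ dE (s + 2) y = x := by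
  have h3 : dE (s + 2) (Dop l k (s + 2) a) = 0 := by
    rw [← Dop_dE hN ha, hax, Dop_of_dig (hN.dig _ _ hxN)]
  have h4 : IsWt w' (Dop l k (s + 2) a) := Dop_isWt (haw.cast e1)
  obtain ⟨b, hb, hbw, hbx⟩ := h1 _ (Tr_mono (Nat.sub_le _ _) (Dop_mem hN ha)) h4 h3
  obtain ⟨a', ha', c, hc, hax', hdc, hD, hcw, _, _⟩ := top_of_prim hN ha hax hb hbx hbw
  obtain ⟨γ, hγ, _, hγc⟩ := h2 c hc ((hcw (by omega)).cast (by omega)) hdc
  rw [← hγc] at hD
  exact step_bot hN hxw ha' hax' hγ hD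

/-- the tail of the argument: `α, φ` without digit 2, `χ` a primitive of the top coefficient -/
theorem tail {s u : ℕ} (hu : u < (p - 1) * (p ^ 2 * Ch.N p (0 + 1)))
    {y : Ch p (s + 6)} (hyw : IsWt (u + p ^ 2 + p) y)
    {α : Ch p (s + 5)} (hα : α ∈ K2 p (s + 4)) (hαy : dE (s + 4) α = y)
    {φ : Ch p (s + 4)} (hφ : φ ∈ K2 p (s + 3)) (hφw : IsWt (u + p ^ 2 + p - 1) φ)
    (hφα : Dop 0 0 (s + 4) α = dE (s + 3) φ)
    {χ : Ch p (s + 3)} (hχ : χ ∈ CC p (s + 2))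
    (hχφ : (Dop 0 0 (s + 3))^[p - 1] φ = - dE (s + 2) χ)
    {η : Ch p (s + 2)} (hη : η ∈ CC p (s + 1)) (hηw : IsWt u η)
    (hηχ : Dop 0 2 (s + 2) χ = dE (s + 1) η)
    (h1 : V (K2 p) (s + 2) (u + p ^ 2 - 1)) (h2 : V (K1 p) (s + 1) (u + p ^ 2 - p)) :
    ∃ z ∈ K1 p (s + 4), IsWt (u + p ^ 2 + p) z ∧ dE (s + 4) z = y := by
  have hp2 : 2 ≤ p := (Fact.out : p.Prime).two_le
  have hpp : p ≤ p ^ 2 := Nat.le_self_pow (by norm_num) p
  have eN : Ch.N p (0 + 1) = 1 := by rw [zero_add, N_one]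
  rw [← Ext_K2] at hχ hη
  obtain ⟨x, hx, hx'⟩ := modify sdK2 hu hχ hη hηw hηχ
  obtain ⟨α', hα', c, hc, hαy', hdc, hD, hcw, _, hcφ⟩ := top_of_prim sdK1 hα hαy hφ hφα.symm hφw
  have hwil : ∀ z : Ch p (s + 4), (p - 1).factorial • z = - z := by
    intro z
    rw [← Nat.cast_smul_eq_nsmul (ZMod p), ZMod.wilsons_lemma, neg_one_smul]
  have e3 : dE (s + 2) (χ - dE (s + 1) x) = c := by
    rw [map_sub, dE_dE, sub_zero]
    rw [hχφ, hwil, neg_inj] at hcφ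
    exact hcφ
  have hcw' : IsWt (u + p ^ 2) c := by
    refine (hcw ?_).cast ?_ <;> rw [eN, pow_zero, mul_one, mul_one] <;> omega
  have e4 : dE (s + 2) (comp (s + 3) (u + p ^ 2) (χ - dE (s + 1) x)) = c := by
    rw [← comp_dE, e3, comp_same hcw']
  obtain ⟨γ, hγ, _, hγc⟩ := step_one (s := s) sdK1 (w := u + p ^ 2) (w' := u + p ^ 2 - 1)
    (w'' := u + p ^ 2 - p) (by rw [eN, pow_zero, mul_one]; omega)
    (by rw [eN, pow_zero, mul_one, mul_one]; omega) hcw' hc (sdK2.comp_mem _ _ _ hx')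
    (comp_isWt _ _) e4 h1 h2
  rw [← hγc] at hD
  exact step_bot sdK1 hyw hα' hαy' hγ hD

/-! ### the head -/

/-- the explicit cochains: `Y` with `D_0 Y = dΩ`, `D_0^(p-1) Ω = dU`, `D_2 U = κ Z` -/
structure Quad (p : ℕ) [Fact p.Prime] (s u : ℕ) where
  Y : Ch p (s + 6)
  Om : Ch p (s + 5)
  U : Ch p (s + 4)
  Z : Ch p (s + 4)
  κ : ZMod p
  κ_ne : κ ≠ 0
  Y_mem : Y ∈ CC p (s + 5)
  Om_mem : Om ∈ CC p (s + 4)
  U_mem : U ∈ CC p (s + 3)
  Y_wt : IsWt (u + p ^ 2 + p) Y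
  Om_wt : IsWt (u + p ^ 2 + p - 1) Om
  U_wt : IsWt (u + p ^ 2) U
  D0Y : Dop 0 0 (s + 5) Y = dE (s + 4) Om
  D2Y : Dop 0 2 (s + 5) Y = 0
  D2Om : Dop 0 2 (s + 4) Om = 0
  D0Om : (Dop 0 0 (s + 4))^[p - 1] Om = dE (s + 3) U
  D2U : Dop 0 2 (s + 3) U = κ • Z

theorem K2_sub_CC {s : ℕ} {x : Ch p (s + 1)} (hx : x ∈ K2 p s) : x ∈ CC p s := by
  rw [← Ext_K2]
  exact mem_Ext_of_mem hx

theorem K1_sub_K2 {s : ℕ} {x : Ch p (s + 1)} (hx : x ∈ K1 p s) : x ∈ K2 p s := mem_Ext_of_mem hx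

theorem CC_smul {s : ℕ} (c : ZMod p) {x : Ch p (s + 1)} (hx : x ∈ CC p s) : c • x ∈ CC p s := by
  rw [smul_eq_C_mul]
  exact Subring.mul_mem (MS p 0 0 s) (C_mem_SR c) hx

theorem wt_smul {n w : ℕ} (c : ZMod p) {x : Ch p n} (hx : IsWt w x) : IsWt w (c • x) := by
  rw [smul_eq_C_mul]
  exact ((isWt_C c).mul hx).cast (zero_add _)

theorem iter_wt {s w : ℕ} (m : ℕ) {x : Ch p (s + 1)} (hx : IsWt (w + m) x) :
    IsWt w ((Dop 0 0 s)^[m] x) := by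
  induction m generalizing x with
  | zero => exact hx
  | succ m ih =>
    rw [Function.iterate_succ_apply]
    refine ih (Dop_isWt (hx.cast ?_))
    rw [zero_add, N_one, pow_zero]
    ring

/-- `CC` is stable under `D_2` -/
theorem K2_stable {s : ℕ} {x : Ch p (s + 1)} (hx : x ∈ CC p s) : Dop 0 2 s x ∈ CC p s := by
  rw [← Ext_K2] at hx ⊢
  exact Tr_mono (Nat.sub_le _ _) (Dop_mem sdK2 hx)

theorem head {s u : ℕ} (hu : u + p < (p - 1) * (p ^ 2 * Ch.N p (0 + 1))) (Q : Quad p s u)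
    (gen : ∀ y ∈ CC p (s + 5), IsWt (u + p ^ 2 + p) y → dE (s + 5) y = 0 →
      ∃ c : ZMod p, ∃ α ∈ CC p (s + 4), IsWt (u + p ^ 2 + p) α ∧ y = c • Q.Y + dE (s + 4) α)
    (nc : ∀ (c : ZMod p), ∀ η ∈ CC p (s + 2), IsWt u η → c • Q.Z = dE (s + 2) η → c = 0)
    (v1 : V (CC p) (s + 4) (u + p)) (v2 : V (CC p) (s + 4) (u + p ^ 2 + p - 1))
    (v3 : V (CC p) (s + 3) (u + p - 1)) (v4 : V (CC p) (s + 3) (u + p ^ 2))
    {y : Ch p (s + 6)} (hy : y ∈ K1 p (s + 5)) (hyw : IsWt (u + p ^ 2 + p) y)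
    (hd : dE (s + 5) y = 0) :
    ∃ α ∈ K2 p (s + 4), IsWt (u + p ^ 2 + p) α ∧ dE (s + 4) α = y ∧
      ∃ φ ∈ K2 p (s + 3), IsWt (u + p ^ 2 + p - 1) φ ∧ Dop 0 0 (s + 4) α = dE (s + 3) φ ∧
      ∃ χ ∈ CC p (s + 2), IsWt (u + p ^ 2) χ ∧ (Dop 0 0 (s + 3))^[p - 1] φ = - dE (s + 2) χ := by
  have hp2 : 2 ≤ p := (Fact.out : p.Prime).two_le
  have hpp : p ≤ p ^ 2 := Nat.le_self_pow (by norm_num) p
  have eN : Ch.N p (0 + 1) = 1 := by rw [zero_add, N_one]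
  have hE : ∀ {s : ℕ} {x : Ch p (s + 1)}, x ∈ CC p s → x ∈ H.Ext (K2 p) 0 2 s := by
    intro s x hx; rw [Ext_K2]; exact hx
  have hE1 : ∀ {s : ℕ} {x : Ch p (s + 1)}, x ∈ CC p s → x ∈ H.Ext (M p 0 1) 0 0 s := by
    intro s x hx; rw [Ext_M1]; exact hx
  have hD0 : ∀ {s : ℕ} {x : Ch p (s + 1)}, x ∈ CC p s → ∀ m, (Dop 0 0 s)^[m] x ∈ CC p s := by
    intro s x hx m
    have := iter_mem sdM1 m (hE1 hx)
    rwa [Ext_M1] at this
  obtain ⟨c, α₀, hα₀, hα₀w, hy0⟩ := gen y (K2_sub_CC (K1_sub_K2 hy)) hyw hd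
  -- kill the digit 2 of `α₀`
  have hD2y : Dop 0 2 (s + 5) y = 0 := Dop_of_dig (sdK2.dig _ _ (K1_sub_K2 hy))
  have hex : ∃ α ∈ K2 p (s + 4), IsWt (u + p ^ 2 + p) α ∧ dE (s + 4) α = dE (s + 4) α₀ :=
    modify' sdK2 (w := u + p ^ 2 + p) (w' := u + p)
    (by rw [eN]; ring) hu (by rw [Ext_K2]; exact v1) (hE hα₀) hα₀w (by
      have := congrArg (Dop 0 2 (s + 5)) hy0
      rw [hD2y, map_add, map_smul, Q.D2Y, smul_zero, zero_add] at this
      exact this.symm)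
  obtain ⟨α, hα, hαw, hαα⟩ := hex
  rw [← hαα] at hy0
  -- `φ`
  have hD0y : Dop 0 0 (s + 5) y = 0 := Dop_of_dig (sdK1.dig _ _ hy)
  have hDα : Dop 0 0 (s + 4) α ∈ K2 p (s + 4) := Tr_mono (Nat.sub_le _ _) (Dop_mem sdK1 hα)
  have hDαw : IsWt (u + p ^ 2 + p - 1) (Dop 0 0 (s + 4) α) := Dop_isWt (hαw.cast (by
    rw [eN, pow_zero, mul_one]; omega))
  have h1 : dE (s + 4) (c • Q.Om + Dop 0 0 (s + 4) α) = 0 := by
    have h := congrArg (Dop 0 0 (s + 5)) hy0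
    rw [hD0y, map_add, map_smul, Q.D0Y] at h
    rw [map_add, ZMod.map_smul, ← Dop_dE sdK1 hα]
    exact h.symm
  have hOD : c • Q.Om + Dop 0 0 (s + 4) α ∈ CC p (s + 4) :=
    AddSubgroup.add_mem _ (CC_smul c Q.Om_mem) (K2_sub_CC hDα)
  have hODw : IsWt (u + p ^ 2 + p - 1) (c • Q.Om + Dop 0 0 (s + 4) α) :=
    (wt_smul c Q.Om_wt).add hDαw
  obtain ⟨φ₀, hφ₀, hφ₀w, hφ₀e⟩ := v2 _ hOD hODw h1
  have hex : ∃ φ ∈ K2 p (s + 3), IsWt (u + p ^ 2 + p - 1) φ ∧ dE (s + 3) φ = dE (s + 3) φ₀ :=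
    modify' sdK2 (w := u + p ^ 2 + p - 1) (w' := u + p - 1)
    (by rw [eN]; omega) (by omega) (by rw [Ext_K2]; exact v3) (hE hφ₀) hφ₀w (by
      rw [hφ₀e, map_add, map_smul, Q.D2Om, smul_zero, zero_add]
      exact Dop_of_dig (sdK2.dig _ _ hDα))
  obtain ⟨φ, hφ, hφw, hφe⟩ := hex
  rw [hφ₀e] at hφe
  -- `χ`
  have hI0 : (Dop 0 0 (s + 4))^[p - 1] (Dop 0 0 (s + 4) α) = 0 := by
    rw [← Function.iterate_succ_apply, Nat.succ_eq_add_one, pred_add_one]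
    exact iter_zero sdK1 hα
  have hφI : dE (s + 3) ((Dop 0 0 (s + 3))^[p - 1] φ) = c • dE (s + 3) Q.U := by
    rw [← iter_dE sdK1 _ hφ, hφe, iter_add, iter_smul, Q.D0Om, hI0, add_zero]
  have hUφ : c • Q.U - (Dop 0 0 (s + 3))^[p - 1] φ ∈ CC p (s + 3) :=
    AddSubgroup.sub_mem _ (CC_smul c Q.U_mem) (hD0 (K2_sub_CC hφ) _)
  have hφIw : IsWt (u + p ^ 2) ((Dop 0 0 (s + 3))^[p - 1] φ) := iter_wt (p - 1) (hφw.cast (by
    omega))
  have h2 : dE (s + 3) (c • Q.U - (Dop 0 0 (s + 3))^[p - 1] φ) = 0 := by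
    rw [map_sub, ZMod.map_smul, hφI, sub_self]
  obtain ⟨χ, hχ, hχw, hχe⟩ := v4 _ hUφ ((wt_smul c Q.U_wt).sub hφIw) h2
  -- `c = 0`
  have hc : c = 0 := by
    have h3 := congrArg (Dop 0 2 (s + 3)) hχe
    have h4 : Dop 0 2 (s + 3) ((Dop 0 0 (s + 3))^[p - 1] φ) = 0 :=
      Dop_of_dig (sdK2.dig _ _ (iter_mem sdK1 _ hφ))
    rw [Dop_dE sdK2 (hE hχ), map_sub, map_smul, Q.D2U, h4, sub_zero, smul_smul] at h3
    have h5 := nc (c * Q.κ) _ (K2_stable hχ) (Dop_isWt (hχw.cast (by rw [eN]; ring))) h3.symm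
    exact (mul_eq_zero.1 h5).resolve_right Q.κ_ne
  subst hc
  rw [zero_smul, zero_add] at hy0 hφe
  rw [zero_smul, zero_sub] at hχe
  exact ⟨α, hα, hαw, hy0.symm, φ, hφ, hφw, hφe.symm, χ, hχ, hχw, by rw [hχe, neg_neg]⟩

end Vale.Agent.P257.V4.A.F4K
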