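import Vale.Agent.P257.V4.A.HOne
import Vale.Agent.P257.V4.A.F4K

/-!
# P257 / V4, part A: the systems `CC`, `K2`, `K1`, `N0` of `F4K` (helper898)
-/

open MvPolynomial

namespace Vale.Agent.P257.V4.A.H

open Ch ML F4K

variable {p : ℕ} [Fact p.Prime]

/-- letters alive for `CC` -/
def LC : Set (ℕ × ℕ) := {a | 0 < a.1}

/-- letters alive for `K2` -/
def LK2 : Set (ℕ × ℕ) := {a | 0 < a.1 ∨ a = (0, 2)}

/-- letters alive for `K1` -/
def LK1 : Set (ℕ × ℕ) := {a | 0 < a.1 ∨ a = (0, 0) ∨ a = (0, 2)}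

/-- letters alive for `N0` -/
def LN0 : Set (ℕ × ℕ) := {a | 0 < a.1 ∨ a = (0, 0) ∨ a = (0, 1) ∨ a = (0, 2)}

theorem alive_eq_LC : Alive 0 0 = LC := by
  ext ⟨a, b⟩
  simp [Alive, LC]

theorem notMem_LC : ((0, 2) : ℕ × ℕ) ∉ LC := by
  simp [LC]

theorem insert_LC : insert ((0, 2) : ℕ × ℕ) LC = LK2 := by
  ext ⟨a, b⟩
  simp only [LC, LK2, Set.mem_insert_iff, Set.mem_ofPred_eq, Prod.mk.injEq]
  omega

theorem notMem_LK2 : ((0, 0) : ℕ × ℕ) ∉ LK2 := by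
  simp [LK2]

theorem insert_LK2 : insert ((0, 0) : ℕ × ℕ) LK2 = LK1 := by
  ext ⟨a, b⟩
  simp only [LK1, LK2, Set.mem_insert_iff, Set.mem_ofPred_eq, Prod.mk.injEq]
  omega

theorem notMem_LK1 : ((0, 1) : ℕ × ℕ) ∉ LK1 := by
  simp [LK1]

theorem insert_LK1 : insert ((0, 1) : ℕ × ℕ) LK1 = LN0 := by
  ext ⟨a, b⟩
  simp only [LK1, LN0, Set.mem_insert_iff, Set.mem_ofPred_eq, Prod.mk.injEq]
  omega

theorem V_CC {s w : ℕ} (h : NoMonoIn LC p s w) : V (CC p) s w :=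
  V_M w 0 0 s w le_rfl (by rw [alive_eq_LC]; exact h)

theorem one_CC {s w : ℕ} (h : UM LC p s w) : One (CC p) s w :=
  one_M w 0 0 s w le_rfl (by rw [alive_eq_LC]; exact h)

theorem V_K2 {s w : ℕ} (h : NoMonoIn LK2 p s w) : V (K2 p) s w :=
  V_single (W := w) sdK2 notMem_LC insert_LC (fun s w _ h => by
    rw [Ext_K2]
    exact V_CC h) s w le_rfl h

theorem one_K2 {s w : ℕ} (h : UM LK2 p s w) : One (K2 p) s w :=
  one_single (W := w) sdK2 notMem_LC insert_LC (fun s w _ h => by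
    rw [Ext_K2]
    exact V_CC h) (fun s w _ h => by
    rw [Ext_K2]
    exact one_CC h) s w le_rfl h

theorem V_K1 {s w : ℕ} (h : NoMonoIn LK1 p s w) : V (K1 p) s w :=
  V_single (W := w) sdK1 notMem_LK2 insert_LK2 (fun _ _ _ h => V_K2 h) s w le_rfl h

theorem one_K1 {s w : ℕ} (h : UM LK1 p s w) : One (K1 p) s w :=
  one_single (W := w) sdK1 notMem_LK2 insert_LK2 (fun _ _ _ h => V_K2 h)
    (fun _ _ _ h => one_K2 h) s w le_rfl h

theorem V_N0 {s w : ℕ} (h : NoMonoIn LN0 p s w) : V (N0 p) s w :=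
  V_single (W := w) sdN0 notMem_LK1 insert_LK1 (fun _ _ _ h => V_K1 h) s w le_rfl h

theorem one_N0 {s w : ℕ} (h : UM LN0 p s w) : One (N0 p) s w :=
  one_single (W := w) sdN0 notMem_LK1 insert_LK1 (fun _ _ _ h => V_K1 h)
    (fun _ _ _ h => one_K1 h) s w le_rfl h

end Vale.Agent.P257.V4.A.H
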