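import Vale.Agent.P257.V4.A.F4L
import Vale.Agent.P257.V4.A.HOneK

/-!
# P257 / V4, part A: the inputs of F4 which are empty monomial lists (helper110)
-/

namespace Vale.Agent.P257.V4.A.F4I

open Finset ML

variable {p : ℕ} {m : Mono}

/-- indicator of an exterior letter -/
def ih (m : Mono) (a : ℕ × ℕ) : ℕ := if a ∈ m.H then 1 else 0

theorem ih_le (m : Mono) (a : ℕ × ℕ) : ih m a ≤ 1 := by
  unfold ih
  split_ifs <;> omega

theorem ih_zero {a : ℕ × ℕ} (h : a ∉ m.H) : ih m a = 0 := if_neg h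

theorem H_sub (hp : 2 ≤ p) (hD : m.deg p < p ^ 3) {a : ℕ × ℕ} (ha : a ∈ m.H) : a.1 + a.2 < 3 := by
  have h1 : lw p a ≤ ∑ a ∈ m.H, lw p a := single_le_sum (fun _ _ => Nat.zero_le _) ha
  have h2 : lw p a < p ^ 3 := lt_of_le_of_lt (h1.trans (Nat.le_add_right _ _)) hD
  exact (Nat.pow_lt_pow_iff_right (by omega)).1 (lt_of_le_of_lt (pow_le_lw p a) h2)

theorem B_sub (hp : 2 ≤ p) (hD : m.deg p < p ^ 3) {a : ℕ × ℕ} (ha : m.B a ≠ 0) :
    a.1 + a.2 < 2 := by
  have h0 : m.B.sum (fun a c => c * (p * lw p a)) = ∑ a ∈ m.B.support, m.B a * (p * lw p a) := rfl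
  have h1 : m.B a * (p * lw p a) ≤ m.B.sum fun a c => c * (p * lw p a) := by
    rw [h0]
    exact single_le_sum (f := fun a => m.B a * (p * lw p a)) (fun _ _ => Nat.zero_le _)
      (Finsupp.mem_support_iff.2 ha)
  have h2 : p * lw p a ≤ m.B a * (p * lw p a) := Nat.le_mul_of_pos_left _ (Nat.pos_of_ne_zero ha)
  have h3 : p * lw p a < p ^ 3 := lt_of_le_of_lt (h2.trans (h1.trans (Nat.le_add_left _ _))) hD
  have h4 : p * p ^ (a.1 + a.2) ≤ p * lw p a := Nat.mul_le_mul_left _ (pow_le_lw p a)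
  have h5 : p ^ (a.1 + a.2 + 1) < p ^ 3 := by
    rw [pow_succ, mul_comm]
    exact lt_of_le_of_lt h4 h3
  have h6 := (Nat.pow_lt_pow_iff_right (a := p) (by omega)).1 h5
  omega

/-- the letters below `p^3` -/
def S6 : Finset (ℕ × ℕ) := {(0, 0), (0, 1), (0, 2), (1, 0), (1, 1), (2, 0)}

/-- the polynomial letters below `p^3` -/
def S3 : Finset (ℕ × ℕ) := {(0, 0), (0, 1), (1, 0)}

theorem mem_S6 {a : ℕ × ℕ} (h : a.1 + a.2 < 3) : a ∈ S6 := by
  obtain ⟨x, y⟩ := a
  simp only at h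
  have hx : x < 3 := by omega
  have hy : y < 3 := by omega
  interval_cases x <;> interval_cases y <;> first | omega | decide

theorem mem_S3 {a : ℕ × ℕ} (h : a.1 + a.2 < 2) : a ∈ S3 := by
  obtain ⟨x, y⟩ := a
  simp only at h
  have hx : x < 2 := by omega
  have hy : y < 2 := by omega
  interval_cases x <;> interval_cases y <;> first | omega | decide

theorem sum_H (hp : 2 ≤ p) (hD : m.deg p < p ^ 3) (f : ℕ × ℕ → ℕ) :
    ∑ a ∈ m.H, f a = ∑ a ∈ S6, ih m a * f a := by
  have h1 : ∑ a ∈ m.H, f a = ∑ a ∈ m.H, ih m a * f a :=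
    sum_congr rfl fun a ha => by rw [ih, if_pos ha, one_mul]
  rw [h1]
  refine sum_subset (fun a ha => mem_S6 (H_sub hp hD ha)) fun a _ ha => ?_
  rw [ih_zero ha, zero_mul]

theorem sum_B (hp : 2 ≤ p) (hD : m.deg p < p ^ 3) (f : ℕ × ℕ → ℕ → ℕ) (hf : ∀ a, f a 0 = 0) :
    m.B.sum f = ∑ a ∈ S3, f a (m.B a) :=
  Finsupp.sum_of_support_subset _ (fun _ ha => mem_S3 (B_sub hp hD (Finsupp.mem_support_iff.1 ha)))
    _ fun a _ => hf a

/-- reduction to numbers for weights less than `p ^ 3` -/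
theorem nums (hp : 2 ≤ p) (hD : m.deg p < p ^ 3) :
    m.s = ih m (0, 0) + ih m (0, 1) + ih m (0, 2) + ih m (1, 0) + ih m (1, 1) + ih m (2, 0) +
      2 * (m.B (0, 0) + m.B (0, 1) + m.B (1, 0)) ∧
    m.deg p = (ih m (0, 0) + ih m (1, 0) + ih m (2, 0)) +
      p * ((m.B (0, 0) + m.B (1, 0) + ih m (0, 1) + ih m (1, 0) + ih m (1, 1) + ih m (2, 0)) +
        p * (m.B (0, 1) + m.B (1, 0) + ih m (0, 2) + ih m (1, 1) + ih m (2, 0))) := by
  have hH := sum_H hp hD (fun _ => 1)
  have hH' := sum_H hp hD (lw p)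
  have hB := sum_B hp hD (fun _ c => c) (fun _ => rfl)
  have hB' := sum_B hp hD (fun a c => c * (p * lw p a)) (fun _ => by simp)
  have l00 : lw p (0, 0) = 1 := by simp [lw, NN_one]
  have l01 : lw p (0, 1) = p := by simp [lw, NN_one]
  have l02 : lw p (0, 2) = p ^ 2 := by simp [lw, NN_one]
  have l10 : lw p (1, 0) = 1 + p := by simp [lw, NN_two]
  have l11 : lw p (1, 1) = p * (1 + p) := by simp [lw, NN_two]
  have l20 : lw p (2, 0) = 1 + p + p ^ 2 := by simp [lw, NN_three]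
  have e6 : ∀ f : ℕ × ℕ → ℕ, ∑ a ∈ S6, f a =
      f (0, 0) + f (0, 1) + f (0, 2) + f (1, 0) + f (1, 1) + f (2, 0) := by
    intro f
    rw [S6, sum_insert (by decide), sum_insert (by decide), sum_insert (by decide),
      sum_insert (by decide), sum_insert (by decide), sum_singleton]
    ring
  have e3 : ∀ f : ℕ × ℕ → ℕ, ∑ a ∈ S3, f a = f (0, 0) + f (0, 1) + f (1, 0) := by
    intro f
    rw [S3, sum_insert (by decide), sum_insert (by decide), sum_singleton]
    ring
  rw [e6] at hH hH'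
  rw [e3] at hB hB'
  rw [l00, l01, l02, l10, l11, l20] at hH'
  rw [l00, l01, l10] at hB'
  constructor
  · unfold Mono.s Mono.nb
    rw [hB, card_eq_sum_ones, hH]
    ring
  · unfold Mono.deg
    rw [hB', hH']
    ring

theorem two_digits {p c0 X Y a0 a1 a2 : ℕ} (h : c0 + p * (X + p * Y) = a0 + p * (a1 + p * a2))
    (h0 : a0 < p) (h1 : a1 < p) (g0 : c0 < p) (g1 : X < p) : c0 = a0 ∧ X = a1 ∧ Y = a2 := by
  have hp : 0 < p := by omega
  have k1 := congrArg (· % p) h
  simp only [Nat.add_mul_mod_self_left, Nat.mod_eq_of_lt g0, Nat.mod_eq_of_lt h0] at k1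
  subst k1
  have k2 := Nat.eq_of_mul_eq_mul_left hp (Nat.add_left_cancel h)
  have k3 := congrArg (· % p) k2
  simp only [Nat.add_mul_mod_self_left, Nat.mod_eq_of_lt g1, Nat.mod_eq_of_lt h1] at k3
  subst k3
  exact ⟨rfl, rfl, Nat.eq_of_mul_eq_mul_left hp (Nat.add_left_cancel k2)⟩

/-- no monomial in the letters `h20, h21, h30, b20` -/
theorem noLC (hp : 11 ≤ p) {s D a0 a1 a2 : ℕ} (hs : s ≤ 7) (hD : D = a0 + p * (a1 + p * a2))
    (hlt : D < p ^ 3) (h0 : a0 < p) (h1 : a1 < p)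
    (hno : ∀ a b c d, a ≤ 1 → b ≤ 1 → c ≤ 1 → a + b + c + 2 * d = s → a + c = a0 →
      d + a + b + c = a1 → d + b + c = a2 → False) : NoMonoIn H.LC p s D := by
  intro m hin hms hdeg
  obtain ⟨n1, n2⟩ := nums (p := p) (m := m) (by omega) (by omega)
  have z : ∀ j, ih m (0, j) = 0 := fun j => ih_zero fun h => by
    have := hin.1 _ h
    simp [H.LC] at this
  have zB : ∀ j, m.B (0, j) = 0 := fun j => by
    by_contra h
    have := hin.2 _ h
    simp [H.LC] at this
  have i1 := ih_le m (1, 0)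
  have i2 := ih_le m (1, 1)
  have i3 := ih_le m (2, 0)
  rw [z, z, z, zB, zB] at n1
  rw [z, z, z, zB, zB] at n2
  obtain ⟨q1, q2, q3⟩ := two_digits (by rw [← n2, hdeg, hD]) h0 h1 (by omega) (by omega)
  exact hno (ih m (1, 0)) (ih m (1, 1)) (ih m (2, 0)) (m.B (1, 0)) i1 i2 i3 (by omega) (by omega)
    (by omega) (by omega)

theorem noN0 (hp : 11 ≤ p) : NoMonoIn H.LN0 p 5 (2 * p ^ 2 + 4 * p) := by
  obtain ⟨hc1, hc2⟩ := F4K.cube_big hp
  intro m _ hms hdeg
  obtain ⟨n1, n2⟩ := nums (p := p) (m := m) (by omega) (by omega)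
  have i1 := ih_le m (1, 0)
  have i2 := ih_le m (1, 1)
  have i3 := ih_le m (2, 0)
  have i4 := ih_le m (0, 0)
  have i5 := ih_le m (0, 1)
  have i6 := ih_le m (0, 2)
  obtain ⟨q1, q2, q3⟩ := two_digits (a0 := 0) (a1 := 4) (a2 := 2)
    (by rw [← n2, hdeg]; ring) (by omega) (by omega) (by omega) (by omega)
  omega

theorem inp [Fact p.Prime] (hp : 11 ≤ p) : F4K.Inp p := by
  obtain ⟨hc1, hc2⟩ := F4K.cube_big hp
  have e2 : p ^ 2 = p * p := pow_two p
  have red : ∀ a0 a1 a2 : ℕ, a0 + p * (a1 + p * a2) = a2 * p ^ 2 + a1 * p + a0 := by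
    intro a0 a1 a2
    ring
  have hpm : (p - 1) + p = 2 * p - 1 := by omega
  refine ⟨?_, ?_, ?_, ?_, ?_, ?_, ?_, ?_, ?_, ?_, ?_, ?_, ?_, ?_, ?_, ?_, ?_, ?_, ?_, ?_, ?_, ?_⟩
  · exact H.V_CC (noLC hp (a0 := 0) (a1 := 4) (a2 := 3) (by omega) (by rw [red]; omega)
      (by omega) (by omega) (by omega) (by omega))
  · exact H.V_CC (noLC hp (a0 := 0) (a1 := 4) (a2 := 2) (by omega) (by rw [red]; omega)
      (by omega) (by omega) (by omega) (by omega))
  · exact H.V_CC (noLC hp (a0 := p - 1) (a1 := 3) (a2 := 3) (by omega) (by rw [red]; omega)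
      (by omega) (by omega) (by omega) (by omega))
  · exact H.V_CC (noLC hp (a0 := p - 1) (a1 := 3) (a2 := 2) (by omega) (by rw [red]; omega)
      (by omega) (by omega) (by omega) (by omega))
  · exact H.V_CC (noLC hp (a0 := 0) (a1 := 3) (a2 := 2) (by omega) (by rw [red]; omega)
      (by omega) (by omega) (by omega) (by omega))
  · exact H.V_CC (noLC hp (a0 := p - 1) (a1 := 2) (a2 := 3) (by omega) (by rw [red]; omega)
      (by omega) (by omega) (by omega) (by omega))
  · exact H.V_CC (noLC hp (a0 := p - 1) (a1 := 2) (a2 := 2) (by omega) (by rw [red]; omega)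
      (by omega) (by omega) (by omega) (by omega))
  · exact H.V_CC (noLC hp (a0 := 0) (a1 := 2) (a2 := 3) (by omega) (by rw [red]; omega)
      (by omega) (by omega) (by omega) (by omega))
  · exact H.V_CC (noLC hp (a0 := 0) (a1 := 3) (a2 := 2) (by omega) (by rw [red]; omega)
      (by omega) (by omega) (by omega) (by omega))
  · exact H.V_CC (noLC hp (a0 := p - 1) (a1 := 2) (a2 := 3) (by omega) (by rw [red]; omega)
      (by omega) (by omega) (by omega) (by omega))
  · exact H.V_CC (noLC hp (a0 := p - 1) (a1 := 2) (a2 := 2) (by omega) (by rw [red]; omega)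
      (by omega) (by omega) (by omega) (by omega))
  · exact H.V_CC (noLC hp (a0 := 0) (a1 := 2) (a2 := 3) (by omega) (by rw [red]; omega)
      (by omega) (by omega) (by omega) (by omega))
  · exact H.V_CC (noLC hp (a0 := 0) (a1 := 2) (a2 := 2) (by omega) (by rw [red]; omega)
      (by omega) (by omega) (by omega) (by omega))
  · exact H.V_CC (noLC hp (a0 := p - 1) (a1 := 1) (a2 := 3) (by omega) (by rw [red]; omega)
      (by omega) (by omega) (by omega) (by omega))
  · exact H.V_CC (noLC hp (a0 := p - 1) (a1 := 1) (a2 := 2) (by omega) (by rw [red]; omega)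
      (by omega) (by omega) (by omega) (by omega))
  · exact H.V_CC (noLC hp (a0 := p - 1) (a1 := 1) (a2 := 3) (by omega) (by rw [red]; omega)
      (by omega) (by omega) (by omega) (by omega))
  · exact H.V_CC (noLC hp (a0 := p - 1) (a1 := 1) (a2 := 2) (by omega) (by rw [red]; omega)
      (by omega) (by omega) (by omega) (by omega))
  · exact H.V_CC (noLC hp (a0 := 0) (a1 := 1) (a2 := 3) (by omega) (by rw [red]; omega)
      (by omega) (by omega) (by omega) (by omega))
  · exact H.V_CC (noLC hp (a0 := 0) (a1 := 1) (a2 := 2) (by omega) (by rw [red]; omega)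
      (by omega) (by omega) (by omega) (by omega))
  · exact H.V_CC (noLC hp (a0 := p - 1) (a1 := 0) (a2 := 3) (by omega) (by rw [red]; omega)
      (by omega) (by omega) (by omega) (by omega))
  · exact H.V_CC (noLC hp (a0 := 0) (a1 := 1) (a2 := 3) (by omega) (by rw [red]; omega)
      (by omega) (by omega) (by omega) (by omega))
  · exact H.V_N0 (noN0 hp)

end Vale.Agent.P257.V4.A.F4I
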