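import Vale.Agent.P257.V4.A.F4K

/-!
# P257 / V4, part A: F4 by first order differentials, the assembly (helper110)
-/

open MvPolynomial

namespace Vale.Agent.P257.V4.A.F4K

open Ch H

variable {p : ℕ} [Fact p.Prime]

/-- an element of `CC` killed by `D_2` lies in `K2` -/
theorem mem_K2 {s : ℕ} {x : Ch p (s + 1)} (hx : x ∈ CC p s) (h : Dop 0 2 s x = 0) : x ∈ K2 p s := by
  rw [← Ext_K2] at hx
  exact mem_of_Dop_eq_zero sdK2 hx h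

theorem K2_smul {s : ℕ} (c : ZMod p) {x : Ch p (s + 1)} (hx : x ∈ K2 p s) : c • x ∈ K2 p s := by
  rw [smul_eq_C_mul]
  refine fr_mul_K2 ?_ hx
  exact C_mem_SR c

theorem dE_smul' {s : ℕ} (c : ZMod p) (x : Ch p (s + 1)) : dE s (c • x) = c • dE s x :=
  ZMod.map_smul _ _ _

theorem V_pos {N : CS p} {w : ℕ} (hw : 0 < w) : V N 0 w :=
  fun x _ hx hd => eq_zero_of_cocycle hw x hx hd

theorem _root_.Vale.Agent.P257.V4.A.H.V.cast {N : CS p} {s w w' : ℕ} (h : V N s w) (e : w = w') :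
    V N s w' := e ▸ h

/-- degree 5 -/
theorem V_K1_five {u : ℕ} (hu : u + p < (p - 1) * (p ^ 2 * Ch.N p (0 + 1))) (Q : Quad p 0 u)
    (gen : ∀ y ∈ CC p 5, IsWt (u + p ^ 2 + p) y → dE 5 y = 0 →
      ∃ c : ZMod p, ∃ α ∈ CC p 4, IsWt (u + p ^ 2 + p) α ∧ y = c • Q.Y + dE 4 α)
    (nc : ∀ (c : ZMod p), ∀ η ∈ CC p 2, IsWt u η → c • Q.Z = dE 2 η → c = 0)
    (v1 : V (CC p) 4 (u + p)) (v2 : V (CC p) 4 (u + p ^ 2 + p - 1))
    (v3 : V (CC p) 3 (u + p - 1)) (v4 : V (CC p) 3 (u + p ^ 2)) (v5 : V (CC p) 2 u)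
    (k1 : V (K2 p) 2 (u + p ^ 2 - 1)) (k2 : V (K1 p) 1 (u + p ^ 2 - p)) :
    V (K1 p) 5 (u + p ^ 2 + p) := by
  intro y hy hyw hd
  have eN : Ch.N p (0 + 1) = 1 := by rw [zero_add, N_one]
  obtain ⟨α, hα, hαw, hαy, φ, hφ, hφw, hφα, χ, hχ, hχw, hχφ⟩ :=
    head (s := 0) hu Q gen nc v1 v2 v3 v4 hy hyw hd
  have hE : ∀ {s : ℕ} {x : Ch p (s + 1)}, x ∈ CC p s → x ∈ H.Ext (K2 p) 0 2 s := by
    intro s x hx; rw [Ext_K2]; exact hx
  -- `D_2 χ` is a coboundary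
  have h1 : dE 2 (Dop 0 2 2 χ) = 0 := by
    rw [← Dop_dE sdK2 (hE hχ)]
    have h2 : dE 2 χ = -(Dop 0 0 3)^[p - 1] φ := by rw [hχφ, neg_neg]
    rw [h2, map_neg, Dop_of_dig (sdK2.dig _ _ (iter_mem sdK1 _ hφ)), neg_zero]
  obtain ⟨η, hη, hηw, hηe⟩ := v5 _ (K2_stable hχ) (Dop_isWt (hχw.cast (by rw [eN]; ring))) h1
  exact tail (s := 0) (by omega) hyw hα hαy hφ hφw hφα hχ hχφ hη hηw hηe.symm k1 k2

/-- degree 6 -/
theorem V_K1_six {u : ℕ} (hu : u + p < (p - 1) * (p ^ 2 * Ch.N p (0 + 1))) (Q : Quad p 1 u)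
    (R : Quad p 0 u) (hR : dE 5 R.Y = 0)
    (gen : ∀ y ∈ CC p 6, IsWt (u + p ^ 2 + p) y → dE 6 y = 0 →
      ∃ c : ZMod p, ∃ α ∈ CC p 5, IsWt (u + p ^ 2 + p) α ∧ y = c • Q.Y + dE 5 α)
    (nc : ∀ (c : ZMod p), ∀ η ∈ CC p 3, IsWt u η → c • Q.Z = dE 3 η → c = 0)
    (gen3 : ∀ y ∈ CC p 3, IsWt u y → dE 3 y = 0 →
      ∃ c : ZMod p, ∃ η ∈ CC p 2, IsWt u η ∧ y = c • R.Z + dE 2 η)
    (v1 : V (CC p) 5 (u + p)) (v2 : V (CC p) 5 (u + p ^ 2 + p - 1))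
    (v3 : V (CC p) 4 (u + p - 1)) (v4 : V (CC p) 4 (u + p ^ 2))
    (k1 : V (K2 p) 3 (u + p ^ 2 - 1)) (k2 : V (K1 p) 2 (u + p ^ 2 - p)) :
    V (K1 p) 6 (u + p ^ 2 + p) := by
  intro y hy hyw hd
  have eN : Ch.N p (0 + 1) = 1 := by rw [zero_add, N_one]
  obtain ⟨α, hα, hαw, hαy, φ, hφ, hφw, hφα, χ, hχ, hχw, hχφ⟩ :=
    head (s := 1) hu Q gen nc v1 v2 v3 v4 hy hyw hd
  have hE : ∀ {s : ℕ} {x : Ch p (s + 1)}, x ∈ CC p s → x ∈ H.Ext (K2 p) 0 2 s := by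
    intro s x hx; rw [Ext_K2]; exact hx
  -- the class of `D_2 χ`
  have h1 : dE 3 (Dop 0 2 3 χ) = 0 := by
    rw [← Dop_dE sdK2 (hE hχ)]
    have h2 : dE 3 χ = -(Dop 0 0 4)^[p - 1] φ := by rw [hχφ, neg_neg]
    rw [h2, map_neg, Dop_of_dig (sdK2.dig _ _ (iter_mem sdK1 _ hφ)), neg_zero]
  obtain ⟨a, η, hη, hηw, hηe⟩ := gen3 _ (K2_stable hχ)
    (Dop_isWt (hχw.cast (by rw [eN]; ring))) h1
  -- the correction
  set k : ZMod p := -(a * R.κ⁻¹) with hk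
  have hkκ : k * R.κ = -a := by
    rw [hk, neg_mul, mul_assoc, inv_mul_cancel₀ R.κ_ne, mul_one]
  have hα' : α - k • R.Y ∈ K2 p 5 := AddSubgroup.sub_mem _ hα (K2_smul k (mem_K2 R.Y_mem R.D2Y))
  have hφ' : φ - k • R.Om ∈ K2 p 4 :=
    AddSubgroup.sub_mem _ hφ (K2_smul k (mem_K2 R.Om_mem R.D2Om))
  refine tail (s := 1) (α := α - k • R.Y) (φ := φ - k • R.Om) (χ := χ + k • R.U) (η := η)
    (by omega) hyw hα' ?_ hφ' ?_ ?_ ?_ ?_ hη hηw ?_ k1 k2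
  · rw [map_sub, dE_smul', hR, smul_zero, sub_zero, hαy]
  · exact hφw.sub (wt_smul k R.Om_wt)
  · rw [map_sub, map_sub, map_smul, dE_smul', hφα, R.D0Y]
  · exact AddSubgroup.add_mem _ hχ (CC_smul k R.U_mem)
  · rw [iter_sub, iter_smul, R.D0Om, map_add, dE_smul', hχφ]
    abel
  · rw [map_add, map_smul, R.D2U, smul_smul, hkκ, hηe, neg_smul]
    abel

/-- the inputs about the functions of `z_1` and `F_p` -/
structure Inp (p : ℕ) [Fact p.Prime] : Prop where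
  c7 : V (CC p) 7 (3 * p ^ 2 + 4 * p)
  c6 : V (CC p) 6 (2 * p ^ 2 + 4 * p)
  c6' : V (CC p) 6 (3 * p ^ 2 + 4 * p - 1)
  c5 : V (CC p) 5 (2 * p ^ 2 + 4 * p - 1)
  v1 : V (CC p) 5 (2 * p ^ 2 + 3 * p)
  v2 : V (CC p) 5 (3 * p ^ 2 + 3 * p - 1)
  v3 : V (CC p) 4 (2 * p ^ 2 + 3 * p - 1)
  v4 : V (CC p) 4 (3 * p ^ 2 + 2 * p)
  v1' : V (CC p) 4 (2 * p ^ 2 + 3 * p)
  v2' : V (CC p) 4 (3 * p ^ 2 + 3 * p - 1)
  v3' : V (CC p) 3 (2 * p ^ 2 + 3 * p - 1)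
  v4' : V (CC p) 3 (3 * p ^ 2 + 2 * p)
  v5' : V (CC p) 2 (2 * p ^ 2 + 2 * p)
  a3 : V (CC p) 3 (3 * p ^ 2 + 2 * p - 1)
  a2 : V (CC p) 2 (2 * p ^ 2 + 2 * p - 1)
  a2' : V (CC p) 2 (3 * p ^ 2 + 2 * p - 1)
  a1' : V (CC p) 1 (2 * p ^ 2 + 2 * p - 1)
  b2 : V (CC p) 2 (3 * p ^ 2 + p)
  b1 : V (CC p) 1 (2 * p ^ 2 + p)
  b1' : V (CC p) 1 (3 * p ^ 2 + p - 1)
  b1'' : V (CC p) 1 (3 * p ^ 2 + p)
  z5 : V (N0 p) 5 (2 * p ^ 2 + 4 * p)

/-- a step of the third letter -/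
theorem V_K2 {s w : ℕ} (hw : w < p ^ 3) (h0 : V (CC p) s w)
    (h1 : ∀ s' w', s = s' + 1 → w = w' + p ^ 2 → V (CC p) s' w') : V (K2 p) s w := by
  have eN : Ch.N p (0 + 1) = 1 := by rw [zero_add, N_one]
  refine step sdK2 (by rw [Ext_K2]; exact h0) ?_ ?_
  · intro s' hs hpw
    rw [eN, mul_one] at hpw ⊢
    rw [Ext_K2]
    exact h1 s' _ hs (by omega)
  · intro s' _ hpw
    exfalso
    rw [eN, mul_one] at hpw
    have : p * p ^ 2 = p ^ 3 := by ring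
    omega

/-- a step of the first letter -/
theorem V_K1 {s w : ℕ} (h0 : V (K2 p) s w) (h1 : ∀ s' w', s = s' + 1 → w = w' + 1 → V (K2 p) s' w')
    (h2 : ∀ s' w', s = s' + 2 → w = w' + p → V (K1 p) s' w') : V (K1 p) s w := by
  have eN : Ch.N p (0 + 1) = 1 := by rw [zero_add, N_one]
  refine step sdK1 h0 ?_ ?_
  · intro s' hs hpw
    rw [eN, mul_one, pow_zero] at hpw ⊢
    exact h1 s' _ hs (by omega)
  · intro s' hs hpw
    rw [eN, mul_one, pow_zero, mul_one] at hpw ⊢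
    exact h2 s' _ hs (by omega)

omit [Fact p.Prime] in
theorem cube_big (hp : 11 ≤ p) : 11 * p ^ 2 ≤ p ^ 3 ∧ 11 * p ≤ p ^ 2 := by
  constructor
  · rw [pow_succ p 2, mul_comm (p ^ 2)]
    exact Nat.mul_le_mul_right _ hp
  · rw [pow_two]
    exact Nat.mul_le_mul_right _ hp

/-- **F4** from the explicit cochains and the inputs -/
theorem f4_of (hp : 11 ≤ p) (Q : Quad p 1 (2 * p ^ 2 + 2 * p)) (R : Quad p 0 (2 * p ^ 2 + 2 * p))
    (hR : dE 5 R.Y = 0)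
    (gen6 : ∀ y ∈ CC p 6, IsWt (2 * p ^ 2 + 2 * p + p ^ 2 + p) y → dE 6 y = 0 →
      ∃ c : ZMod p, ∃ α ∈ CC p 5, IsWt (2 * p ^ 2 + 2 * p + p ^ 2 + p) α ∧ y = c • Q.Y + dE 5 α)
    (nc6 : ∀ (c : ZMod p), ∀ η ∈ CC p 3, IsWt (2 * p ^ 2 + 2 * p) η → c • Q.Z = dE 3 η → c = 0)
    (gen5 : ∀ y ∈ CC p 5, IsWt (2 * p ^ 2 + 2 * p + p ^ 2 + p) y → dE 5 y = 0 →
      ∃ c : ZMod p, ∃ α ∈ CC p 4, IsWt (2 * p ^ 2 + 2 * p + p ^ 2 + p) α ∧ y = c • R.Y + dE 4 α)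
    (nc5 : ∀ (c : ZMod p), ∀ η ∈ CC p 2, IsWt (2 * p ^ 2 + 2 * p) η → c • R.Z = dE 2 η → c = 0)
    (gen3 : ∀ y ∈ CC p 3, IsWt (2 * p ^ 2 + 2 * p) y → dE 3 y = 0 →
      ∃ c : ZMod p, ∃ η ∈ CC p 2, IsWt (2 * p ^ 2 + 2 * p) η ∧ y = c • R.Z + dE 2 η)
    (I : Inp p) : Van p 7 (3 * p ^ 2 + 4 * p) := by
  obtain ⟨hc1, hc2⟩ := cube_big hp
  have eN : Ch.N p (0 + 1) = 1 := by rw [zero_add, N_one]
  have hu : 2 * p ^ 2 + 2 * p + p < (p - 1) * (p ^ 2 * Ch.N p (0 + 1)) := by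
    rw [eN, mul_one]
    have : 10 * p ^ 2 ≤ (p - 1) * p ^ 2 := Nat.mul_le_mul_right _ (by omega)
    omega
  have k23 : V (K2 p) 3 (2 * p ^ 2 + 2 * p + p ^ 2 - 1) := by
    rw [show 2 * p ^ 2 + 2 * p + p ^ 2 - 1 = 3 * p ^ 2 + 2 * p - 1 by omega]
    refine V_K2 (by omega) I.a3 fun s' w' hs hw => ?_
    obtain rfl : s' = 2 := by omega
    rw [show w' = 2 * p ^ 2 + 2 * p - 1 by omega]
    exact I.a2
  have k22 : V (K2 p) 2 (2 * p ^ 2 + 2 * p + p ^ 2 - 1) := by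
    rw [show 2 * p ^ 2 + 2 * p + p ^ 2 - 1 = 3 * p ^ 2 + 2 * p - 1 by omega]
    refine V_K2 (by omega) I.a2' fun s' w' hs hw => ?_
    obtain rfl : s' = 1 := by omega
    rw [show w' = 2 * p ^ 2 + 2 * p - 1 by omega]
    exact I.a1'
  have k12 : V (K1 p) 2 (2 * p ^ 2 + 2 * p + p ^ 2 - p) := by
    rw [show 2 * p ^ 2 + 2 * p + p ^ 2 - p = 3 * p ^ 2 + p by omega]
    refine V_K1 (V_K2 (by omega) I.b2 fun s' w' hs hw => ?_) (fun s' w' hs hw => ?_)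
      (fun s' w' hs hw => ?_)
    · obtain rfl : s' = 1 := by omega
      rw [show w' = 2 * p ^ 2 + p by omega]
      exact I.b1
    · obtain rfl : s' = 1 := by omega
      refine V_K2 (by omega) ?_ fun s'' w'' hs hw => ?_
      · rw [show w' = 3 * p ^ 2 + p - 1 by omega]
        exact I.b1'
      · obtain rfl : s'' = 0 := by omega
        exact V_pos (by omega)
    · obtain rfl : s' = 0 := by omega
      exact V_pos (by omega)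
  have k11 : V (K1 p) 1 (2 * p ^ 2 + 2 * p + p ^ 2 - p) := by
    rw [show 2 * p ^ 2 + 2 * p + p ^ 2 - p = 3 * p ^ 2 + p by omega]
    refine V_K1 (V_K2 (by omega) I.b1'' fun s' w' hs hw => ?_) (fun s' w' hs hw => ?_)
      (fun s' w' hs hw => by omega)
    · obtain rfl : s' = 0 := by omega
      exact V_pos (by omega)
    · obtain rfl : s' = 0 := by omega
      exact V_pos (by omega)
  have K5 : V (K1 p) 5 (2 * p ^ 2 + 2 * p + p ^ 2 + p) := by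
    refine V_K1_five hu R gen5 nc5 ?_ ?_ ?_ ?_ ?_ k22 k11
    · exact I.v1'.cast (by omega)
    · exact I.v2'.cast (by omega)
    · exact I.v3'.cast (by omega)
    · exact I.v4'.cast (by omega)
    · exact I.v5'
  have K6 : V (K1 p) 6 (2 * p ^ 2 + 2 * p + p ^ 2 + p) := by
    refine V_K1_six hu Q R hR gen6 nc6 gen3 ?_ ?_ ?_ ?_ k23 k12
    · exact I.v1.cast (by omega)
    · exact I.v2.cast (by omega)
    · exact I.v3.cast (by omega)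
    · exact I.v4.cast (by omega)
  have K7 : V (K1 p) 7 (3 * p ^ 2 + 4 * p) := by
    refine V_K1 (V_K2 (by omega) I.c7 fun s' w' hs hw => ?_) (fun s' w' hs hw => ?_)
      (fun s' w' hs hw => ?_)
    · obtain rfl : s' = 6 := by omega
      exact I.c6.cast (by omega)
    · obtain rfl : s' = 6 := by omega
      refine V_K2 (by omega) (I.c6'.cast (by omega)) fun s'' w'' hs hw => ?_
      obtain rfl : s'' = 5 := by omega
      exact I.c5.cast (by omega)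
    · obtain rfl : s' = 5 := by omega
      exact K5.cast (by omega)
  have N7 : V (N0 p) 7 (3 * p ^ 2 + 4 * p) := by
    refine step sdN0 K7 ?_ ?_
    · intro s' hs hpw
      obtain rfl : s' = 6 := by omega
      rw [eN, pow_one, mul_one]
      exact K6.cast (by omega)
    · intro s' hs hpw
      obtain rfl : s' = 5 := by omega
      rw [eN, pow_one, mul_one]
      exact I.z5.cast (by rw [← pow_two]; omega)
  exact van_of_V (K := 3) (by omega) N7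

end Vale.Agent.P257.V4.A.F4K
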