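import Vale.Agent.P257.V4.A.MonoV4L

/-!
# P257 / V(4), part A: degrees and multidegrees of the nine `v_4` monomials (helper717)
-/

namespace Vale.Agent.P257.V4.A.ML

open Finset

set_option linter.unusedSimpArgs false

theorem Mono.bcov_single (H : Finset (ℕ × ℕ)) (b : ℕ × ℕ) (c k : ℕ) :
    (Mono.mk H (Finsupp.single b c)).bcov k = if b.2 ≤ k ∧ k ≤ b.2 + b.1 then c else 0 := by
  unfold Mono.bcov
  rw [Finsupp.sum_single_index]
  split <;> rfl

theorem Mono.bcov_add (H : Finset (ℕ × ℕ)) (f g : (ℕ × ℕ) →₀ ℕ) (k : ℕ) :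
    (Mono.mk H (f + g)).bcov k = (Mono.mk H f).bcov k + (Mono.mk H g).bcov k := by
  unfold Mono.bcov
  rw [Finsupp.sum_add_index']
  · intro a; split <;> rfl
  · intro a b c; split <;> rfl

theorem Mono.nb_single (H : Finset (ℕ × ℕ)) (b : ℕ × ℕ) (c : ℕ) :
    (Mono.mk H (Finsupp.single b c)).nb = c := by
  unfold Mono.nb
  rw [Finsupp.sum_single_index]
  rfl

theorem Mono.nb_add (H : Finset (ℕ × ℕ)) (f g : (ℕ × ℕ) →₀ ℕ) :
    (Mono.mk H (f + g)).nb = (Mono.mk H f).nb + (Mono.mk H g).nb := by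
  unfold Mono.nb
  rw [Finsupp.sum_add_index'] <;> intros <;> rfl

theorem V1a_s (p : ℕ) : (V1a p).s = 5 + 2 * ((p - 3)) := by
  simp only [Mono.s, V1a, Mono.nb_add, Mono.nb_single]
  rfl

theorem V1a_e0 (p : ℕ) : (V1a p).e p 0 = 2 + p * ((p - 3)) := by
  have h : (V1a p).hcov 0 = 2 := rfl
  unfold Mono.e
  rw [h]
  simp only [V1a, Mono.bcov_add, Mono.bcov_single]
  simp

theorem V1a_e1 (p : ℕ) : (V1a p).e p 1 = 4 + p * ((p - 3)) := by
  have h : (V1a p).hcov 1 = 4 := rfl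
  unfold Mono.e
  rw [h]
  simp only [V1a, Mono.bcov_add, Mono.bcov_single]
  simp

theorem V1a_e2 (p : ℕ) : (V1a p).e p 2 = 3 := by
  have h : (V1a p).hcov 2 = 3 := rfl
  unfold Mono.e
  rw [h]
  simp only [V1a, Mono.bcov_add, Mono.bcov_single]
  simp

theorem V1a_e (p : ℕ) {k : ℕ} (hk : 3 ≤ k) : (V1a p).e p k = 0 := by
  have h : (V1a p).hcov k = 0 := by
    simp only [Mono.hcov, V1a, card_eq_zero, filter_eq_empty_iff, mem_insert, mem_singleton]
    rintro a h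
    rcases h with rfl | rfl | rfl | rfl | rfl <;> simp <;> omega
  unfold Mono.e
  rw [h]
  simp only [V1a, Mono.bcov_add, Mono.bcov_single]
  rw [zero_add, Nat.mul_eq_zero]
  right
  repeat rw [if_neg (by omega)]

theorem V1b_s (p : ℕ) : (V1b p).s = 3 + 2 * ((p - 2)) := by
  simp only [Mono.s, V1b, Mono.nb_add, Mono.nb_single]
  rfl

theorem V1b_e0 (p : ℕ) : (V1b p).e p 0 = 2 + p * ((p - 2)) := by
  have h : (V1b p).hcov 0 = 2 := rfl
  unfold Mono.e
  rw [h]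
  simp only [V1b, Mono.bcov_add, Mono.bcov_single]
  simp

theorem V1b_e1 (p : ℕ) : (V1b p).e p 1 = 3 + p * ((p - 2)) := by
  have h : (V1b p).hcov 1 = 3 := rfl
  unfold Mono.e
  rw [h]
  simp only [V1b, Mono.bcov_add, Mono.bcov_single]
  simp

theorem V1b_e2 (p : ℕ) : (V1b p).e p 2 = 2 := by
  have h : (V1b p).hcov 2 = 2 := rfl
  unfold Mono.e
  rw [h]
  simp only [V1b, Mono.bcov_add, Mono.bcov_single]
  simp

theorem V1b_e (p : ℕ) {k : ℕ} (hk : 3 ≤ k) : (V1b p).e p k = 0 := by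
  have h : (V1b p).hcov k = 0 := by
    simp only [Mono.hcov, V1b, card_eq_zero, filter_eq_empty_iff, mem_insert, mem_singleton]
    rintro a h
    rcases h with rfl | rfl | rfl <;> simp <;> omega
  unfold Mono.e
  rw [h]
  simp only [V1b, Mono.bcov_add, Mono.bcov_single]
  rw [zero_add, Nat.mul_eq_zero]
  right
  repeat rw [if_neg (by omega)]

theorem V2a_s (p : ℕ) : (V2a p).s = 5 + 2 * ((p - 2) + (p - 2)) := by
  simp only [Mono.s, V2a, Mono.nb_add, Mono.nb_single]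
  rfl

theorem V2a_e0 (p : ℕ) : (V2a p).e p 0 = 3 + p * ((p - 2)) := by
  have h : (V2a p).hcov 0 = 3 := rfl
  unfold Mono.e
  rw [h]
  simp only [V2a, Mono.bcov_add, Mono.bcov_single]
  simp

theorem V2a_e1 (p : ℕ) : (V2a p).e p 1 = 3 + p * ((p - 2)) := by
  have h : (V2a p).hcov 1 = 3 := rfl
  unfold Mono.e
  rw [h]
  simp only [V2a, Mono.bcov_add, Mono.bcov_single]
  simp

theorem V2a_e2 (p : ℕ) : (V2a p).e p 2 = 2 := by
  have h : (V2a p).hcov 2 = 2 := rfl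
  unfold Mono.e
  rw [h]
  simp only [V2a, Mono.bcov_add, Mono.bcov_single]
  simp

theorem V2a_e (p : ℕ) {k : ℕ} (hk : 3 ≤ k) : (V2a p).e p k = 0 := by
  have h : (V2a p).hcov k = 0 := by
    simp only [Mono.hcov, V2a, card_eq_zero, filter_eq_empty_iff, mem_insert, mem_singleton]
    rintro a h
    rcases h with rfl | rfl | rfl | rfl | rfl <;> simp <;> omega
  unfold Mono.e
  rw [h]
  simp only [V2a, Mono.bcov_add, Mono.bcov_single]
  rw [zero_add, Nat.mul_eq_zero]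
  right
  repeat rw [if_neg (by omega)]

theorem V2b_s (p : ℕ) : (V2b p).s = 3 + 2 * ((p - 2) + (p - 2) + 1) := by
  simp only [Mono.s, V2b, Mono.nb_add, Mono.nb_single]
  rfl

theorem V2b_e0 (p : ℕ) : (V2b p).e p 0 = 3 + p * ((p - 2) + 1) := by
  have h : (V2b p).hcov 0 = 3 := rfl
  unfold Mono.e
  rw [h]
  simp only [V2b, Mono.bcov_add, Mono.bcov_single]
  simp

theorem V2b_e1 (p : ℕ) : (V2b p).e p 1 = 2 + p * ((p - 2) + 1) := by
  have h : (V2b p).hcov 1 = 2 := rfl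
  unfold Mono.e
  rw [h]
  simp only [V2b, Mono.bcov_add, Mono.bcov_single]
  simp

theorem V2b_e2 (p : ℕ) : (V2b p).e p 2 = 1 := by
  have h : (V2b p).hcov 2 = 1 := rfl
  unfold Mono.e
  rw [h]
  simp only [V2b, Mono.bcov_add, Mono.bcov_single]
  simp

theorem V2b_e (p : ℕ) {k : ℕ} (hk : 3 ≤ k) : (V2b p).e p k = 0 := by
  have h : (V2b p).hcov k = 0 := by
    simp only [Mono.hcov, V2b, card_eq_zero, filter_eq_empty_iff, mem_insert, mem_singleton]
    rintro a h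
    rcases h with rfl | rfl | rfl <;> simp <;> omega
  unfold Mono.e
  rw [h]
  simp only [V2b, Mono.bcov_add, Mono.bcov_single]
  rw [zero_add, Nat.mul_eq_zero]
  right
  repeat rw [if_neg (by omega)]

theorem Va_s (p : ℕ) : (Va p).s = 1 + 2 * ((p ^ 2 - 2 * p - 1) + 2) := by
  simp only [Mono.s, Va, Mono.nb_add, Mono.nb_single]
  rfl

theorem Va_e0 (p : ℕ) : (Va p).e p 0 = 0 + p * ((p ^ 2 - 2 * p - 1) + 2) := by
  have h : (Va p).hcov 0 = 0 := rfl
  unfold Mono.e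
  rw [h]
  simp only [Va, Mono.bcov_add, Mono.bcov_single]
  simp

theorem Va_e1 (p : ℕ) : (Va p).e p 1 = 1 + p * (2) := by
  have h : (Va p).hcov 1 = 1 := rfl
  unfold Mono.e
  rw [h]
  simp only [Va, Mono.bcov_add, Mono.bcov_single]
  simp

theorem Va_e2 (p : ℕ) : (Va p).e p 2 = 1 := by
  have h : (Va p).hcov 2 = 1 := rfl
  unfold Mono.e
  rw [h]
  simp only [Va, Mono.bcov_add, Mono.bcov_single]
  simp

theorem Va_e (p : ℕ) {k : ℕ} (hk : 3 ≤ k) : (Va p).e p k = 0 := by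
  have h : (Va p).hcov k = 0 := by
    simp only [Mono.hcov, Va, card_eq_zero, filter_eq_empty_iff, mem_insert, mem_singleton]
    rintro a h
    rcases h with rfl <;> simp <;> omega
  unfold Mono.e
  rw [h]
  simp only [Va, Mono.bcov_add, Mono.bcov_single]
  rw [zero_add, Nat.mul_eq_zero]
  right
  repeat rw [if_neg (by omega)]

theorem Vb_s (p : ℕ) : (Vb p).s = 3 + 2 * ((p ^ 2 - 2 * p - 1) + 1) := by
  simp only [Mono.s, Vb, Mono.nb_add, Mono.nb_single]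
  rfl

theorem Vb_e0 (p : ℕ) : (Vb p).e p 0 = 0 + p * ((p ^ 2 - 2 * p - 1) + 1) := by
  have h : (Vb p).hcov 0 = 0 := rfl
  unfold Mono.e
  rw [h]
  simp only [Vb, Mono.bcov_add, Mono.bcov_single]
  simp

theorem Vb_e1 (p : ℕ) : (Vb p).e p 1 = 2 + p * (1) := by
  have h : (Vb p).hcov 1 = 2 := rfl
  unfold Mono.e
  rw [h]
  simp only [Vb, Mono.bcov_add, Mono.bcov_single]
  simp

theorem Vb_e2 (p : ℕ) : (Vb p).e p 2 = 2 := by
  have h : (Vb p).hcov 2 = 2 := rfl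
  unfold Mono.e
  rw [h]
  simp only [Vb, Mono.bcov_add, Mono.bcov_single]
  simp

theorem Vb_e (p : ℕ) {k : ℕ} (hk : 3 ≤ k) : (Vb p).e p k = 0 := by
  have h : (Vb p).hcov k = 0 := by
    simp only [Mono.hcov, Vb, card_eq_zero, filter_eq_empty_iff, mem_insert, mem_singleton]
    rintro a h
    rcases h with rfl | rfl | rfl <;> simp <;> omega
  unfold Mono.e
  rw [h]
  simp only [Vb, Mono.bcov_add, Mono.bcov_single]
  rw [zero_add, Nat.mul_eq_zero]
  right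
  repeat rw [if_neg (by omega)]

theorem Vc_s (p : ℕ) : (Vc p).s = 1 + 2 * ((p ^ 2 - 2 * p - 2) + 3) := by
  simp only [Mono.s, Vc, Mono.nb_add, Mono.nb_single]
  rfl

theorem Vc_e0 (p : ℕ) : (Vc p).e p 0 = 0 + p * ((p ^ 2 - 2 * p - 2) + 3) := by
  have h : (Vc p).hcov 0 = 0 := rfl
  unfold Mono.e
  rw [h]
  simp only [Vc, Mono.bcov_add, Mono.bcov_single]
  simp

theorem Vc_e1 (p : ℕ) : (Vc p).e p 1 = 1 + p * (3) := by
  have h : (Vc p).hcov 1 = 1 := rfl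
  unfold Mono.e
  rw [h]
  simp only [Vc, Mono.bcov_add, Mono.bcov_single]
  simp

theorem Vc_e2 (p : ℕ) : (Vc p).e p 2 = 0 := by
  have h : (Vc p).hcov 2 = 0 := rfl
  unfold Mono.e
  rw [h]
  simp only [Vc, Mono.bcov_add, Mono.bcov_single]
  simp

theorem Vc_e (p : ℕ) {k : ℕ} (hk : 3 ≤ k) : (Vc p).e p k = 0 := by
  have h : (Vc p).hcov k = 0 := by
    simp only [Mono.hcov, Vc, card_eq_zero, filter_eq_empty_iff, mem_insert, mem_singleton]
    rintro a h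
    rcases h with rfl <;> simp <;> omega
  unfold Mono.e
  rw [h]
  simp only [Vc, Mono.bcov_add, Mono.bcov_single]
  rw [zero_add, Nat.mul_eq_zero]
  right
  repeat rw [if_neg (by omega)]

theorem Wa_s (p : ℕ) : (Wa p).s = 3 + 2 * ((p ^ 2 - p - 1)) := by
  simp only [Mono.s, Wa, Mono.nb_add, Mono.nb_single]
  rfl

theorem Wa_e0 (p : ℕ) : (Wa p).e p 0 = 1 + p * ((p ^ 2 - p - 1)) := by
  have h : (Wa p).hcov 0 = 1 := rfl
  unfold Mono.e
  rw [h]
  simp only [Wa, Mono.bcov_add, Mono.bcov_single]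
  simp

theorem Wa_e1 (p : ℕ) : (Wa p).e p 1 = 3 := by
  have h : (Wa p).hcov 1 = 3 := rfl
  unfold Mono.e
  rw [h]
  simp only [Wa, Mono.bcov_add, Mono.bcov_single]
  simp

theorem Wa_e2 (p : ℕ) : (Wa p).e p 2 = 2 := by
  have h : (Wa p).hcov 2 = 2 := rfl
  unfold Mono.e
  rw [h]
  simp only [Wa, Mono.bcov_add, Mono.bcov_single]
  simp

theorem Wa_e (p : ℕ) {k : ℕ} (hk : 3 ≤ k) : (Wa p).e p k = 0 := by
  have h : (Wa p).hcov k = 0 := by
    simp only [Mono.hcov, Wa, card_eq_zero, filter_eq_empty_iff, mem_insert, mem_singleton]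
    rintro a h
    rcases h with rfl | rfl | rfl <;> simp <;> omega
  unfold Mono.e
  rw [h]
  simp only [Wa, Mono.bcov_add, Mono.bcov_single]
  rw [zero_add, Nat.mul_eq_zero]
  right
  repeat rw [if_neg (by omega)]

theorem Wb_s (p : ℕ) : (Wb p).s = 3 + 2 * ((p ^ 2 - p - 2) + 1) := by
  simp only [Mono.s, Wb, Mono.nb_add, Mono.nb_single]
  rfl

theorem Wb_e0 (p : ℕ) : (Wb p).e p 0 = 1 + p * ((p ^ 2 - p - 2) + 1) := by
  have h : (Wb p).hcov 0 = 1 := rfl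
  unfold Mono.e
  rw [h]
  simp only [Wb, Mono.bcov_add, Mono.bcov_single]
  simp

theorem Wb_e1 (p : ℕ) : (Wb p).e p 1 = 3 + p * (1) := by
  have h : (Wb p).hcov 1 = 3 := rfl
  unfold Mono.e
  rw [h]
  simp only [Wb, Mono.bcov_add, Mono.bcov_single]
  simp

theorem Wb_e2 (p : ℕ) : (Wb p).e p 2 = 1 := by
  have h : (Wb p).hcov 2 = 1 := rfl
  unfold Mono.e
  rw [h]
  simp only [Wb, Mono.bcov_add, Mono.bcov_single]
  simp

theorem Wb_e (p : ℕ) {k : ℕ} (hk : 3 ≤ k) : (Wb p).e p k = 0 := by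
  have h : (Wb p).hcov k = 0 := by
    simp only [Mono.hcov, Wb, card_eq_zero, filter_eq_empty_iff, mem_insert, mem_singleton]
    rintro a h
    rcases h with rfl | rfl | rfl <;> simp <;> omega
  unfold Mono.e
  rw [h]
  simp only [Wb, Mono.bcov_add, Mono.bcov_single]
  rw [zero_add, Nat.mul_eq_zero]
  right
  repeat rw [if_neg (by omega)]

theorem cast_q {p : ℕ} (hp : 1 ≤ p) : ((2 * p - 2 : ℕ) : ℤ) = 2 * (p : ℤ) - 2 := by
  have : 2 ≤ 2 * p := by omega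
  push_cast [this]
  ring

/-- The weight of a monomial of bidegree `((2p-2) l + 1, N_4 + l)`. -/
theorem wt_v4 {p : ℕ} (hp : 11 ≤ p) {l : ℕ} {m : Mono} (hs : m.s = (2 * p - 2) * l + 1)
    (hD : m.deg p = NN p 4 + l) :
    (2 * (p : ℤ) - 2) * (m.deg p : ℤ) - (m.s : ℤ) = 2 * (p : ℤ) ^ 4 - 3 := by
  have h1 : (m.s : ℤ) = (2 * (p : ℤ) - 2) * l + 1 := by
    rw [hs]; push_cast [cast_q (show 1 ≤ p by omega)]; ring
  have h2 : (m.deg p : ℤ) = NN p 4 + l := by rw [hD]; push_cast; ring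
  rw [h1, h2]
  linear_combination q_mul_NN p 4

theorem l_of_s {p l l' s : ℕ} (hp : 11 ≤ p) (h : s = (2 * p - 2) * l + 1)
    (h' : (s : ℤ) = (2 * (p : ℤ) - 2) * l' + 1) : l = l' := by
  have h1 : (s : ℤ) = (2 * (p : ℤ) - 2) * l + 1 := by
    rw [h]; push_cast [cast_q (show 1 ≤ p by omega)]; ring
  have h2 : (2 * (p : ℤ) - 2) * l = (2 * (p : ℤ) - 2) * l' := by linarith
  have hp' : (11 : ℤ) ≤ p := by exact_mod_cast hp
  have h3 : (l : ℤ) = l' := mul_left_cancel₀ (by linarith) h2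
  exact_mod_cast h3

/-- Complete list in bidegree `((2p-2) l + 1, N_4 + l)`, `l ≥ 1`. -/
theorem list_v4_l {p : ℕ} (hp : 11 ≤ p) {l : ℕ} (hl : 1 ≤ l) (m : Mono)
    (hs : m.s = (2 * p - 2) * l + 1) (hD : m.deg p = NN p 4 + l) :
    (l = 1 ∧ (m = V1a p ∨ m = V1b p)) ∨ (l = 2 ∧ (m = V2a p ∨ m = V2b p)) ∨
    (l = p - 1 ∧ (m = Va p ∨ m = Vb p ∨ m = Vc p)) ∨ (l = p ∧ (m = Wa p ∨ m = Wb p)) := by
  have hs2 : 2 ≤ m.s := by
    rw [hs]
    have : 1 * 1 ≤ (2 * p - 2) * l := Nat.mul_le_mul (by omega) hl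
    omega
  have hp' : (11 : ℤ) ≤ p := by exact_mod_cast hp
  have nat2 : ((p ^ 2 : ℕ) : ℤ) = (p : ℤ) * p := by push_cast; ring
  have hpp : 11 * (p : ℤ) ≤ (p : ℤ) * p := by nlinarith
  have sub : ∀ c d : ℕ, (c : ℤ) * p + d ≤ (p : ℤ) * p →
      ((p ^ 2 - c * p - d : ℕ) : ℤ) = (p : ℤ) * p - c * p - d := by
    intro c d h
    have h1 : c * p + d ≤ p ^ 2 := by
      rw [← nat2] at h; exact_mod_cast h
    rw [Nat.sub_sub, Nat.cast_sub h1, nat2]
    push_cast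
    ring
  have s1 := sub 2 1 (by push_cast; linarith)
  have s2 := sub 2 2 (by push_cast; linarith)
  have s3 := sub 1 1 (by push_cast; linarith)
  have s4 := sub 1 2 (by push_cast; linarith)
  have t2 : ((p - 2 : ℕ) : ℤ) = (p : ℤ) - 2 := by
    rw [Nat.cast_sub (by omega)]; norm_num
  have t3 : ((p - 3 : ℕ) : ℤ) = (p : ℤ) - 3 := by
    rw [Nat.cast_sub (by omega)]; norm_num
  have t1 : ((p - 1 : ℕ) : ℤ) = (p : ℤ) - 1 := by
    rw [Nat.cast_sub (by omega)]; norm_num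
  simp only [one_mul] at s3 s4
  push_cast at s1 s2 s3 s4
  rcases list_v4 hp m hs2 (wt_v4 hp hs hD) with h | h | h | h | h | h | h | h | h
  · left
    refine ⟨l_of_s hp hs ?_, Or.inl h⟩
    rw [h, V1a_s]; push_cast [t3]; ring
  · left
    refine ⟨l_of_s hp hs ?_, Or.inr h⟩
    rw [h, V1b_s]; push_cast [t2]; ring
  · right; left
    refine ⟨l_of_s hp hs ?_, Or.inl h⟩
    rw [h, V2a_s]; push_cast [t2]; ring
  · right; left
    refine ⟨l_of_s hp hs ?_, Or.inr h⟩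
    rw [h, V2b_s]; push_cast [t2]; ring
  · right; right; left
    refine ⟨l_of_s hp hs ?_, Or.inl h⟩
    rw [h, Va_s]; push_cast [t1]; rw [s1]; ring
  · right; right; left
    refine ⟨l_of_s hp hs ?_, Or.inr (Or.inl h)⟩
    rw [h, Vb_s]; push_cast [t1]; rw [s1]; ring
  · right; right; left
    refine ⟨l_of_s hp hs ?_, Or.inr (Or.inr h)⟩
    rw [h, Vc_s]; push_cast [t1]; rw [s2]; ring
  · right; right; right
    refine ⟨l_of_s hp hs ?_, Or.inl h⟩
    rw [h, Wa_s]; push_cast; rw [s3]; ring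
  · right; right; right
    refine ⟨l_of_s hp hs ?_, Or.inr h⟩
    rw [h, Wb_s]; push_cast; rw [s4]; ring

/-- The empty `v_4` groups. -/
theorem noMono_v4 {p : ℕ} (hp : 11 ≤ p) {l : ℕ} (h3 : 3 ≤ l) (h1 : l ≠ p - 1) (h0 : l ≠ p) :
    NoMono p ((2 * p - 2) * l + 1) (NN p 4 + l) := by
  intro m hs hD
  rcases list_v4_l hp (by omega) m hs hD with h | h | h | h
  · omega
  · omega
  · exact h1 h.1
  · exact h0 h.1

/-- Below the diagonal there are no monomials. -/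
theorem noMono_low {p : ℕ} (hp : 2 ≤ p) {s D : ℕ} (h : D < s) : NoMono p s D := by
  intro m hs hD
  have h1 : m.H.card ≤ ∑ a ∈ m.H, lw p a := by
    rw [card_eq_sum_ones]
    exact sum_le_sum fun a _ => lw_pos (by omega) a
  have h2 : 2 * m.nb ≤ m.B.sum fun a c => c * (p * lw p a) := by
    unfold Mono.nb Finsupp.sum
    rw [mul_sum]
    apply sum_le_sum
    intro a _
    have : 2 * 1 ≤ p * lw p a := Nat.mul_le_mul hp (lw_pos (by omega) a)
    calc 2 * m.B a = m.B a * (2 * 1) := by ring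
      _ ≤ m.B a * (p * lw p a) := Nat.mul_le_mul_left _ this
  have h3 : m.s ≤ m.deg p := by
    unfold Mono.s Mono.deg
    omega
  omega

end Vale.Agent.P257.V4.A.ML
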