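import Vale.Agent.P257.V4.A.F4Asm
import Vale.Agent.P257.V4.A.Cas
import Vale.Agent.P257.V4.A.MG4
import Vale.Agent.P257.V4.A.MonoV4E

/-!
# P257, V(4), part A: F4, all multidegrees except the two special ones
-/

namespace Vale.Agent.P257.V4.A.F4

open MvPolynomial

/-- the multidegree of a monomial as a finitely supported function -/
noncomputable def eM (p : ℕ) (m : ML.Mono) : ℕ →₀ ℕ :=
  ∑ a ∈ m.H, itv a.2 a.1 + m.B.sum fun a c => c • p • itv a.2 a.1

theorem eM_apply (p : ℕ) (m : ML.Mono) (k : ℕ) : eM p m k = m.e p k := by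
  unfold eM ML.Mono.e ML.Mono.hcov ML.Mono.bcov
  rw [Finsupp.add_apply, Finset.card_filter, Finsupp.finsetSum_apply, Finsupp.sum,
    Finsupp.finsetSum_apply, Finsupp.sum, Finset.mul_sum]
  congr 1
  · refine Finset.sum_congr rfl fun x _ => ?_
    rw [Cas.itv_apply]
  · refine Finset.sum_congr rfl fun x _ => ?_
    rw [Finsupp.smul_apply, Finsupp.smul_apply, Cas.itv_apply, smul_eq_mul, smul_eq_mul]
    split_ifs
    · ring
    · ring

theorem wtE_eM (p : ℕ) (m : ML.Mono) : wtE p (eM p m) = m.deg p := by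
  unfold eM ML.Mono.deg
  have h : ∀ i k, wtE p (itv i k) = ML.lw p (k, i) := pw_itv p
  rw [map_add, map_sum, Finsupp.sum, map_sum, Finsupp.sum]
  congr 1
  · exact Finset.sum_congr rfl fun a _ => h _ _
  · refine Finset.sum_congr rfl fun a _ => ?_
    rw [map_nsmul, map_nsmul, h, smul_eq_mul, smul_eq_mul]

/-- the weight of the multidegree of a monomial -/
theorem wtE_eq_deg {p : ℕ} {m : ML.Mono} {e : ℕ →₀ ℕ} (he : ∀ k, m.e p k = e k) :
    wtE p e = m.deg p := by
  have : e = eM p m := by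
    ext k
    rw [eM_apply, he]
  rw [this, wtE_eM]

/-- multiplication by a power of `b_{1,0}` -/
noncomputable def mulb (m : ML.Mono) (c : ℕ) : ML.Mono := ⟨m.H, m.B + Finsupp.single (0, 0) c⟩

theorem mulb_s (m : ML.Mono) (c : ℕ) : (mulb m c).s = m.s + 2 * c := by
  unfold mulb ML.Mono.s
  rw [ML.Mono.nb_add, ML.Mono.nb_single]
  change _ + 2 * (m.nb + c) = _
  simp only
  ring

theorem mulb_e0 (p : ℕ) (m : ML.Mono) (c : ℕ) : (mulb m c).e p 0 = m.e p 0 + p * c := by
  unfold mulb ML.Mono.e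
  rw [ML.Mono.bcov_add, ML.Mono.bcov_single, if_pos ⟨le_rfl, le_rfl⟩]
  change m.hcov 0 + p * (m.bcov 0 + c) = _
  ring

theorem mulb_e (p : ℕ) (m : ML.Mono) (c : ℕ) {k : ℕ} (hk : 1 ≤ k) :
    (mulb m c).e p k = m.e p k := by
  unfold mulb ML.Mono.e
  rw [ML.Mono.bcov_add, ML.Mono.bcov_single, if_neg (by simp only [not_and]; omega)]
  change m.hcov k + p * (m.bcov k + 0) = _
  rfl

theorem mulb_deg (p : ℕ) (m : ML.Mono) (c : ℕ) : (mulb m c).deg p = m.deg p + p * c := by
  unfold mulb ML.Mono.deg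
  rw [Finsupp.sum_add_index' (fun _ => by simp) (fun _ _ _ => by ring),
    Finsupp.sum_single_index (by simp)]
  have : ML.lw p (0, 0) = 1 := by
    simp [ML.lw, ML.NN]
  rw [this]
  simp only
  ring

/-- The complete list in bidegree `(7, 3p² + 4p)`. -/
theorem list7 {p : ℕ} (hp : 11 ≤ p) {m : ML.Mono} {e : ℕ →₀ ℕ} (hs : m.s = 7)
    (hw : wtE p e = D p) (he : ∀ k, m.e p k = e k) :
    (e 0 = 3 * p ∧ e 1 = 1 + 2 * p ∧ e 2 = 1 ∧ ∀ k, 3 ≤ k → e k = 0) ∨ e = e2 p ∨ e = e3 p := by
  have hdeg : m.deg p = D p := by rw [← hw, wtE_eq_deg he]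
  obtain ⟨c, hc⟩ : ∃ c, c = p ^ 2 - 2 * p - 2 := ⟨_, rfl⟩
  have hp2 : 11 * p ≤ p ^ 2 := by nlinarith
  have hc' : p ^ 2 = c + 2 * p + 2 := by omega
  have hs' : (mulb m c).s = (2 * p - 2) * (p - 1) + 1 := by
    rw [mulb_s, hs]
    obtain ⟨q, rfl⟩ := Nat.exists_eq_add_of_le hp
    have e1 : 2 * (11 + q) - 2 = 2 * q + 20 := by omega
    have e2 : 11 + q - 1 = q + 10 := by omega
    rw [e1, e2]
    nlinarith
  have hd' : (mulb m c).deg p = ML.NN p 4 + (p - 1) := by
    rw [mulb_deg, hdeg, D, ML.NN_four]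
    have e1 : p * c + 2 * p ^ 2 + 2 * p = p ^ 3 := by
      have : p * p ^ 2 = p * (c + 2 * p + 2) := by rw [hc']
      nlinarith
    omega
  have h0 := mulb_e0 p m c
  rw [he] at h0
  have h1 : ∀ k, 1 ≤ k → (mulb m c).e p k = e k := fun k hk => by rw [mulb_e p m c hk, he]
  rcases ML.list_v4_l hp (l := p - 1) (by omega) _ hs' hd' with h | h | h | h
  · omega
  · omega
  · rcases h.2 with h | h | h
    · left
      rw [h] at h0 h1
      rw [ML.Va_e0] at h0
      have h11 := h1 1 le_rfl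
      have h12 := h1 2 (by norm_num)
      rw [ML.Va_e1] at h11
      rw [ML.Va_e2] at h12
      refine ⟨?_, by rw [← h11]; ring, h12.symm, fun k hk => ?_⟩
      · have e1 : p ^ 2 - 2 * p - 1 + 2 = c + 3 := by omega
        rw [e1] at h0
        have : p * (c + 3) = p * c + 3 * p := by ring
        omega
      · rw [← h1 k (by omega), ML.Va_e p hk]
    · right; left
      rw [h] at h0 h1
      rw [ML.Vb_e0] at h0
      have h11 := h1 1 le_rfl
      have h12 := h1 2 (by norm_num)
      rw [ML.Vb_e1] at h11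
      rw [ML.Vb_e2] at h12
      ext k
      rw [e2, Finsupp.add_apply, Finsupp.add_apply]
      rcases k with _ | _ | _ | k
      · rw [Finsupp.single_eq_same, Finsupp.single_eq_of_ne (by omega),
          Finsupp.single_eq_of_ne (by omega)]
        have e1 : p ^ 2 - 2 * p - 1 + 1 = c + 2 := by omega
        rw [e1] at h0
        have : p * (c + 2) = p * c + 2 * p := by ring
        omega
      · rw [zero_add, Finsupp.single_eq_same, Finsupp.single_eq_of_ne (by omega),
          Finsupp.single_eq_of_ne (by omega), ← h11]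
        omega
      · rw [Finsupp.single_eq_same, Finsupp.single_eq_of_ne (by omega),
          Finsupp.single_eq_of_ne (by omega), ← h12]
        rfl
      · rw [Finsupp.single_eq_of_ne (by omega), Finsupp.single_eq_of_ne (by omega),
          Finsupp.single_eq_of_ne (by omega), ← h1 _ (by omega), ML.Vb_e p (by omega)]
        rfl
    · right; right
      rw [h] at h0 h1
      rw [ML.Vc_e0] at h0
      have h11 := h1 1 le_rfl
      have h12 := h1 2 (by norm_num)
      rw [ML.Vc_e1] at h11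
      rw [ML.Vc_e2] at h12
      ext k
      rw [e3, Finsupp.add_apply]
      rcases k with _ | _ | _ | k
      · rw [Finsupp.single_eq_same, Finsupp.single_eq_of_ne (by omega)]
        have e1 : p ^ 2 - 2 * p - 2 + 3 = c + 3 := by omega
        rw [e1] at h0
        have : p * (c + 3) = p * c + 3 * p := by ring
        omega
      · rw [zero_add, Finsupp.single_eq_same, Finsupp.single_eq_of_ne (by omega), ← h11]
        ring
      · rw [Finsupp.single_eq_of_ne (by omega), Finsupp.single_eq_of_ne (by omega), ← h12]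
        rfl
      · rw [Finsupp.single_eq_of_ne (by omega), Finsupp.single_eq_of_ne (by omega),
          ← h1 _ (by omega), ML.Vc_e p (by omega)]
        rfl
  · omega

theorem Qe_eq3 {e : ℕ →₀ ℕ} (h : ∀ k, 3 ≤ k → e k = 0) :
    Cas.Qe e = (e 0 - e 0 ^ 2 + e 0 * e 1) + (e 1 - e 1 ^ 2 + e 1 * e 2) + (e 2 - e 2 ^ 2) := by
  rw [Cas.Qe, Finsupp.sum_of_support_subset e (s := Finset.range 3)]
  · simp only [Finset.sum_range_succ, Finset.sum_range_zero]
    rw [h 3 le_rfl]
    push_cast
    ring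
  · intro k hk
    rw [Finset.mem_range]
    by_contra hk'
    exact (Finsupp.mem_support_iff.1 hk) (h k (by omega))
  · intros
    simp

/-- **V**: all other multidegrees. -/
theorem hV {p : ℕ} [Fact p.Prime] (hp : 11 ≤ p) (e : ℕ →₀ ℕ) (hw : wtE p e = D p)
    (h3 : e ≠ e3 p) (h2 : e ≠ e2 p) : VanA p 7 e := by
  by_cases hm : ∃ m : ML.Mono, m.s = 7 ∧ ∀ k, m.e p k = e k
  · obtain ⟨m, hs, he⟩ := hm
    rcases list7 hp hs hw he with h | h | h
    · obtain ⟨h0, h1, h2', h⟩ := h
      refine Cas.vanA_of_Qe (by omega) 7 e ?_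
      rw [Qe_eq3 h, h0, h1, h2']
      push_cast
      rw [CharP.cast_eq_zero (ZMod p) p]
      norm_num
    · exact absurd h h2
    · exact absurd h h3
  · push Not at hm
    exact MG.vanA_of_noMono fun m hs he => by
      obtain ⟨k, hk⟩ := hm m hs
      exact hk (he k)

end Vale.Agent.P257.V4.A.F4
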