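import Vale.Agent.P257.V4.A.F4F
import Vale.Agent.P257.V4.A.F4V
import Vale.Agent.P257.V4.A.F4E
import Vale.Agent.P257.V4.A.F4U2
import Vale.Agent.P257.V4.A.F4DX

/-!
# P257, V(4), part A: F4 from the two division structures
-/

namespace Vale.Agent.P257.V4.A.F4

open MvPolynomial

variable {p : ℕ} [Fact p.Prime]

/-- The field `hA2` of the assembly of F4. -/
theorem hA2_of (hp : 5 ≤ p) (hu : DV.IsB p ∅ ((0 : ℕ), (0 : ℕ)) (F4C.uu p))
    (hB : DV.IsB p {((0 : ℕ), (0 : ℕ))} ((0 : ℕ), (1 : ℕ)) (F4C.BB p)) (z : UC p 7)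
    (hz : MH (e2 p) z) (hdz : InJ (UC.d 7 z)) :
    ∃ (c : ZMod p) (y : UC p 6), MH (e2 p) y ∧ InJ (z - c • F4C.A2 p - UC.d 6 y) := by
  have hgg : InJ (UC.d 2 (F4C.gg p)) := by
    rw [F4C.d_gg (by omega)]
    exact InJ.zero
  have htt : InJ (UC.d 1 (F4C.tt p)) := by
    rw [F4C.d_tt]
    exact InJ.zero
  have hA : InJ (UC.d 7 (F4C.A2 p)) := by
    rw [F4C.A2, map_neg, map_add]
    exact ((F4G.inJ_d_cup _ (F4G.inJ_d_cup _ (F4G.inJ_d_cup _ hgg htt) hu.cocy) hB.cocy).add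
      (F4G.inJ_d_cup _ (F4G.inJ_d_cup _ (F4G.inJ_d_cup _ hgg hB.cocy) htt) hu.cocy)).neg
  obtain ⟨a, b, hab, y, hy, h⟩ := MG.exists_combo (mo1_e2 hp) hz F4C.MH_A2 hdz hA
  by_cases ha : a = 0
  · subst ha
    have hb : b ≠ 0 := by
      rcases hab with h | h
      · exact absurd rfl h
      · exact h
    rw [zero_smul, zero_add] at h
    exact absurd (F4G.A2_zero hp hu hB hy h) hb
  · refine ⟨-(a⁻¹ * b), a⁻¹ • y, hy.smul _, ?_⟩
    have h1 := inJ_smul h a⁻¹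
    rw [smul_sub, smul_add, smul_smul, smul_smul, inv_mul_cancel₀ ha, one_smul] at h1
    rw [map_smul, neg_smul, sub_neg_eq_add]
    exact h1

/-- **F4**, from the two division structures. -/
theorem f4_of (hp : 11 ≤ p) (hu : DV.IsB p ∅ ((0 : ℕ), (0 : ℕ)) (F4C.uu p))
    (hB : DV.IsB p {((0 : ℕ), (0 : ℕ))} ((0 : ℕ), (1 : ℕ)) (F4C.BB p)) :
    Ch.Van p 7 (3 * p ^ 2 + 4 * p) := by
  have hR : ∀ (c : ZMod p) (f : UC p 7), MH (e8 p) f → InJ (c • F4C.RR p - UC.d 7 f) → c = 0 :=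
    fun c f _ h => F4D.hR_coch (by omega) c f h
  exact van hp
    { X := F4C.X3 p
      ξ := F4C.xi p
      A3 := F4C.A3 p
      R := F4C.RR p
      X_wt := F4C.sup_X3
      X_lev := F4C.lev_X3
      X_lead := F4C.lead_X3
      X_d := F4C.dphi_X3
      ξ_lev := F4C.lev_xi
      ξ_lead := F4C.lead_xi
      Y := F4C.YY p
      ζ := F4C.zeta p
      A2 := F4C.A2 p
      ζ_wt := F4C.sup_zeta
      ζ_lev := F4C.lev_zeta
      Y_d := F4C.dphi_YY (by omega)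
      ζ_lead := F4C.lead_zeta
      hR := hR
      hA3 := hA3_of (by omega) (F4C.isLevel_Wl (by omega)) (by
        have h1 := F4C.Wl_m3 (p := p)
        have h2 := F4C.Wl_m8 (p := p)
        change F4C.Wl (F4C.m8 p) < F4C.Wl (F4C.m3 p)
        omega) F4C.sup_X3 F4C.lev_X3 F4C.lead_X3 F4C.dphi_X3 F4C.lev_xi F4C.lead_xi hR
        (fun e he hlt hne => hV hp e he hne (by
          rintro rfl
          have h1 := F4C.Wl_m2 (p := p)
          have h2 := F4C.Wl_m8 (p := p)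
          change F4C.Wl (F4C.m8 p) < F4C.Wl (F4C.m2 p) at hlt
          omega))
      hA2 := hA2_of (by omega) hu hB
      hV := fun e he h3 h2 => hV hp e he h3 h2 }

end Vale.Agent.P257.V4.A.F4
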