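import Mathlib

/-!
# P257 / V4, part A: the polynomial identities behind the explicit cochains (helper881)

`O = ω`, `W = ω' + m X^(p-1)`, `Br = b + δω + O(X^p)`: the coefficient of `X^(p-1)`.
-/

open Polynomial

namespace Vale.Agent.P257.V4.A.F4P

variable {p : ℕ} [Fact p.Prime] {B : Type} [CommRing B] [Algebra (ZMod p) B]

omit [Algebra (ZMod p) B] in
theorem coeff_eq_of_dvd {f g : B[X]} (h : X ^ p ∣ f - g) :
    f.coeff (p - 1) = g.coeff (p - 1) := by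
  have hp : 0 < p := (Fact.out : p.Prime).pos
  have h1 := (Polynomial.X_pow_dvd_iff.1 h) (p - 1) (by omega)
  rw [coeff_sub, sub_eq_zero] at h1
  exact h1

theorem cast_p : ((p : ℕ) : B) = 0 := by
  have h : algebraMap (ZMod p) B (p : ZMod p) = 0 := by
    rw [ZMod.natCast_self, map_zero]
  rwa [map_natCast] at h

theorem coeff_derivative_eq_zero (f : B[X]) : (derivative f).coeff (p - 1) = 0 := by
  have hp : 0 < p := (Fact.out : p.Prime).pos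
  rw [coeff_derivative]
  have h1 : ((p - 1 : ℕ) : B) + 1 = ((p : ℕ) : B) := by
    have : ((p - 1 + 1 : ℕ) : B) = ((p : ℕ) : B) := by rw [Nat.sub_add_cancel hp]
    rwa [Nat.cast_add, Nat.cast_one] at this
  rw [h1, cast_p, mul_zero]

theorem mem_iff_dvd {p : ℕ} {B : Type} [CommRing B] {f : B[X]} :
    (Ideal.Quotient.mk (Ideal.span {(X : B[X]) ^ p})) f = 0 ↔ X ^ p ∣ f := by
  rw [Ideal.Quotient.eq_zero_iff_mem, Ideal.mem_span_singleton]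

/-- the data: `ι` = vertices -/
structure Dat (p : ℕ) (B : Type) [CommRing B] (ι : Type) where
  b : ι → ι → ι → B
  m : ι → ι → B
  O : ι → ι → B[X]
  W : ι → ι → B[X]
  Br : ι → ι → ι → B[X]
  hW : ∀ i j, W i j = derivative (O i j) + X ^ (p - 1) * C (m i j)
  hB : ∀ i j k, X ^ p ∣ Br i j k - (C (b i j k) + (O j k - O i k + O i j))
  hO : ∀ i j, X ∣ O i j
  hc : ∀ i j k l, b j k l - b i k l + b i j l - b i j k = 0

variable {ι : Type} (D : Dat p B ι)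

omit [Fact p.Prime] [Algebra (ZMod p) B] in
theorem hBr {A : Type} [CommRing A] (q : B[X] →+* A)
    (hq : ∀ f, X ^ p ∣ f → q f = 0) (i j k : ι) :
    q (D.Br i j k) = q (C (D.b i j k)) + (q (D.O j k) - q (D.O i k) + q (D.O i j)) := by
  have := hq _ (D.hB i j k)
  rw [map_sub, sub_eq_zero] at this
  rw [this]
  simp only [map_add, map_sub]

omit [Algebra (ZMod p) B] in
theorem hξ {A : Type} [CommRing A] (q : B[X] →+* A) (hq : ∀ f, X ^ p ∣ f → q f = 0) (i j : ι) :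
    q (X ^ (p - 1)) * q (D.O i j) = 0 := by
  have hp : 0 < p := (Fact.out : p.Prime).pos
  rw [← map_mul]
  apply hq
  obtain ⟨c, hc⟩ := D.hO i j
  rw [hc, ← mul_assoc, ← pow_succ, Nat.sub_add_cancel hp]
  exact dvd_mul_right _ _

omit [Fact p.Prime] [Algebra (ZMod p) B] in
theorem hWq {A : Type} [CommRing A] (q : B[X] →+* A) (i j : ι) :
    q (D.W i j) = q (derivative (D.O i j)) + q (X ^ (p - 1)) * q (C (D.m i j)) := by
  rw [D.hW, map_add, map_mul]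

omit [Fact p.Prime] [Algebra (ZMod p) B] in
theorem hcq {A : Type} [CommRing A] (q : B[X] →+* A) (i j k l : ι) :
    q (C (D.b j k l)) - q (C (D.b i k l)) + q (C (D.b i j l)) - q (C (D.b i j k)) = 0 := by
  rw [← map_sub, ← map_add, ← map_sub, ← map_sub, ← map_add, ← map_sub, D.hc, map_zero, map_zero]

/-- the cochain `ω ω'` -/
noncomputable def F2 (a b c : ι) : B[X] := D.O a b * D.W b c

/-- the cochain `ω ω' B + ω B ω' + B ω ω'` -/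
noncomputable def F3 (a b c d e : ι) : B[X] :=
  D.O a b * (D.W b c * D.Br c d e) + D.O a b * (D.Br b c d * D.W d e) +
    C (D.b a b c) * (D.O c d * D.W d e)

theorem key2 (g0 g1 g2 g3 : ι) :
    (D.W g0 g1 * D.Br g1 g2 g3 + D.Br g0 g1 g2 * D.W g2 g3).coeff (p - 1) =
      (F2 D g1 g2 g3 - F2 D g0 g2 g3 + F2 D g0 g1 g3 - F2 D g0 g1 g2).coeff (p - 1) +
      (D.m g0 g1 * D.b g1 g2 g3 + D.b g0 g1 g2 * D.m g2 g3) := by
  have main : (D.W g0 g1 * D.Br g1 g2 g3 + D.Br g0 g1 g2 * D.W g2 g3).coeff (p - 1) =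
      ((F2 D g1 g2 g3 - F2 D g0 g2 g3 + F2 D g0 g1 g3 - F2 D g0 g1 g2) +
      derivative (D.O g0 g1 * (C (D.b g1 g2 g3) + (D.O g2 g3 - D.O g1 g3 + D.O g1 g2)) +
        C (D.b g0 g1 g2) * D.O g2 g3) +
      X ^ (p - 1) * C (D.m g0 g1 * D.b g1 g2 g3 + D.b g0 g1 g2 * D.m g2 g3)).coeff (p - 1) := by
    apply coeff_eq_of_dvd
    obtain ⟨A, hA, q, hq⟩ : ∃ (A : Type) (_ : CommRing A) (q : B[X] →+* A),
        ∀ f, q f = 0 ↔ X ^ p ∣ f :=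
      ⟨_, _, Ideal.Quotient.mk (Ideal.span {(X : B[X]) ^ p}), fun f => mem_iff_dvd⟩
    have hq' : ∀ f, X ^ p ∣ f → q f = 0 := fun f => (hq f).2
    rw [← hq, map_sub, sub_eq_zero]
    simp only [F2, map_add, map_mul, map_sub, hBr D q hq', hWq D q, derivative_mul, derivative_C,
      zero_mul, zero_add]
    linear_combination q (C (D.m g0 g1)) * (hξ D q hq' g2 g3 - hξ D q hq' g1 g3 +
      hξ D q hq' g1 g2) + (q (C (D.m g2 g3)) - q (C (D.m g1 g3)) + q (C (D.m g1 g2))) *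
      hξ D q hq' g0 g1
  rw [main, coeff_add, coeff_add, coeff_derivative_eq_zero, add_zero, coeff_X_pow_mul', if_pos le_rfl,
    Nat.sub_self, coeff_C_zero]

theorem key3 (g0 g1 g2 g3 g4 g5 : ι) :
    (D.W g0 g1 * (D.Br g1 g2 g3 * D.Br g3 g4 g5) + D.Br g0 g1 g2 * (D.W g2 g3 * D.Br g3 g4 g5) +
      D.Br g0 g1 g2 * (D.Br g2 g3 g4 * D.W g4 g5)).coeff (p - 1) =
      (F3 D g1 g2 g3 g4 g5 - F3 D g0 g2 g3 g4 g5 + F3 D g0 g1 g3 g4 g5 - F3 D g0 g1 g2 g4 g5 +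
        F3 D g0 g1 g2 g3 g5 - F3 D g0 g1 g2 g3 g4).coeff (p - 1) +
      (D.m g0 g1 * (D.b g1 g2 g3 * D.b g3 g4 g5) + D.b g0 g1 g2 * (D.m g2 g3 * D.b g3 g4 g5) +
        D.b g0 g1 g2 * (D.b g2 g3 g4 * D.m g4 g5)) := by
  have main : (D.W g0 g1 * (D.Br g1 g2 g3 * D.Br g3 g4 g5) +
      D.Br g0 g1 g2 * (D.W g2 g3 * D.Br g3 g4 g5) +
      D.Br g0 g1 g2 * (D.Br g2 g3 g4 * D.W g4 g5)).coeff (p - 1) =
      ((F3 D g1 g2 g3 g4 g5 - F3 D g0 g2 g3 g4 g5 + F3 D g0 g1 g3 g4 g5 - F3 D g0 g1 g2 g4 g5 +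
        F3 D g0 g1 g2 g3 g5 - F3 D g0 g1 g2 g3 g4) +
      derivative (D.O g0 g1 * ((C (D.b g1 g2 g3) + (D.O g2 g3 - D.O g1 g3 + D.O g1 g2)) *
        (C (D.b g3 g4 g5) + (D.O g4 g5 - D.O g3 g5 + D.O g3 g4))) +
        C (D.b g0 g1 g2) * (D.O g2 g3 * (C (D.b g3 g4 g5) + (D.O g4 g5 - D.O g3 g5 + D.O g3 g4))) +
        C (D.b g0 g1 g2) * (C (D.b g2 g3 g4) * D.O g4 g5)) +
      X ^ (p - 1) * C (D.m g0 g1 * (D.b g1 g2 g3 * D.b g3 g4 g5) +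
        D.b g0 g1 g2 * (D.m g2 g3 * D.b g3 g4 g5) +
        D.b g0 g1 g2 * (D.b g2 g3 g4 * D.m g4 g5))).coeff (p - 1) := by
    apply coeff_eq_of_dvd
    obtain ⟨A, hA, q, hq⟩ : ∃ (A : Type) (_ : CommRing A) (q : B[X] →+* A),
        ∀ f, q f = 0 ↔ X ^ p ∣ f :=
      ⟨_, _, Ideal.Quotient.mk (Ideal.span {(X : B[X]) ^ p}), fun f => mem_iff_dvd⟩
    have hq' : ∀ f, X ^ p ∣ f → q f = 0 := fun f => (hq f).2
    rw [← hq, map_sub, sub_eq_zero]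
    simp only [F3, map_add, map_mul, map_sub, hBr D q hq', hWq D q, derivative_mul, derivative_C,
      zero_mul, zero_add]
    linear_combination
      q (C (D.m g0 g1)) * (q (C (D.b g1 g2 g3)) * (hξ D q hq' g4 g5 - hξ D q hq' g3 g5 + hξ D q
      hq' g3 g4) + q (C (D.b g3 g4 g5)) * (hξ D q hq' g2 g3 - hξ D q hq' g1 g3 + hξ D q hq' g1
      g2) + (q (D.O g4 g5) - q (D.O g3 g5) + q (D.O g3 g4)) * (hξ D q hq' g2 g3 - hξ D q hq' g1
      g3 + hξ D q hq' g1 g2)) + q (C (D.m g2 g3)) * (q (C (D.b g0 g1 g2)) * (hξ D q hq' g4 g5 -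
      hξ D q hq' g3 g5 + hξ D q hq' g3 g4) + q (C (D.b g3 g4 g5)) * (hξ D q hq' g1 g2 - hξ D q
      hq' g0 g2 + hξ D q hq' g0 g1) + (q (D.O g4 g5) - q (D.O g3 g5) + q (D.O g3 g4)) * (hξ D q
      hq' g1 g2 - hξ D q hq' g0 g2 + hξ D q hq' g0 g1)) + q (C (D.m g4 g5)) * (q (C (D.b g0 g1
      g2)) * (hξ D q hq' g3 g4 - hξ D q hq' g2 g4 + hξ D q hq' g2 g3) + q (C (D.b g2 g3 g4)) *
      (hξ D q hq' g1 g2 - hξ D q hq' g0 g2 + hξ D q hq' g0 g1) + (q (D.O g3 g4) - q (D.O g2 g4)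
      + q (D.O g2 g3)) * (hξ D q hq' g1 g2 - hξ D q hq' g0 g2 + hξ D q hq' g0 g1)) - (hξ D q hq'
      g1 g2 * (q (C (D.m g2 g3)) * (q (C (D.b g3 g4 g5)) + (q (D.O g4 g5) - q (D.O g3 g5) + q
      (D.O g3 g4))) + (q (C (D.b g2 g3 g4)) + (q (D.O g3 g4) - q (D.O g2 g4) + q (D.O g2 g3))) *
      q (C (D.m g4 g5))) + hξ D q hq' g3 g4 * (q (C (D.b g1 g2 g3)) * q (C (D.m g4 g5)))) + (hξ
      D q hq' g0 g2 * (q (C (D.m g2 g3)) * (q (C (D.b g3 g4 g5)) + (q (D.O g4 g5) - q (D.O g3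
      g5) + q (D.O g3 g4))) + (q (C (D.b g2 g3 g4)) + (q (D.O g3 g4) - q (D.O g2 g4) + q (D.O g2
      g3))) * q (C (D.m g4 g5))) + hξ D q hq' g3 g4 * (q (C (D.b g0 g2 g3)) * q (C (D.m g4
      g5)))) - (hξ D q hq' g0 g1 * (q (C (D.m g1 g3)) * (q (C (D.b g3 g4 g5)) + (q (D.O g4 g5) -
      q (D.O g3 g5) + q (D.O g3 g4))) + (q (C (D.b g1 g3 g4)) + (q (D.O g3 g4) - q (D.O g1 g4) +
      q (D.O g1 g3))) * q (C (D.m g4 g5))) + hξ D q hq' g3 g4 * (q (C (D.b g0 g1 g3)) * q (C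
      (D.m g4 g5)))) + (hξ D q hq' g0 g1 * (q (C (D.m g1 g2)) * (q (C (D.b g2 g4 g5)) + (q (D.O
      g4 g5) - q (D.O g2 g5) + q (D.O g2 g4))) + (q (C (D.b g1 g2 g4)) + (q (D.O g2 g4) - q (D.O
      g1 g4) + q (D.O g1 g2))) * q (C (D.m g4 g5))) + hξ D q hq' g2 g4 * (q (C (D.b g0 g1 g2)) *
      q (C (D.m g4 g5)))) - (hξ D q hq' g0 g1 * (q (C (D.m g1 g2)) * (q (C (D.b g2 g3 g5)) + (q
      (D.O g3 g5) - q (D.O g2 g5) + q (D.O g2 g3))) + (q (C (D.b g1 g2 g3)) + (q (D.O g2 g3) - q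
      (D.O g1 g3) + q (D.O g1 g2))) * q (C (D.m g3 g5))) + hξ D q hq' g2 g3 * (q (C (D.b g0 g1
      g2)) * q (C (D.m g3 g5)))) + (hξ D q hq' g0 g1 * (q (C (D.m g1 g2)) * (q (C (D.b g2 g3
      g4)) + (q (D.O g3 g4) - q (D.O g2 g4) + q (D.O g2 g3))) + (q (C (D.b g1 g2 g3)) + (q (D.O
      g2 g3) - q (D.O g1 g3) + q (D.O g1 g2))) * q (C (D.m g3 g4))) + hξ D q hq' g2 g3 * (q (C
      (D.b g0 g1 g2)) * q (C (D.m g3 g4)))) - q (D.O g0 g1) * q (derivative (D.O g1 g2)) * hcq D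
      q g2 g3 g4 g5 + q (D.O g0 g1) * q (derivative (D.O g4 g5)) * hcq D q g1 g2 g3 g4 - q (D.O
      g3 g4) * q (derivative (D.O g4 g5)) * hcq D q g0 g1 g2 g3
  rw [main, coeff_add, coeff_add, coeff_derivative_eq_zero, add_zero, coeff_X_pow_mul', if_pos le_rfl,
    Nat.sub_self, coeff_C_zero]

end Vale.Agent.P257.V4.A.F4P
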