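import Vale.Agent.P257.V4.A.HCup
import Vale.Agent.P257.V4.A.CupCh
import Vale.Agent.P257.V4.A.F4K

/-!
# P257 / V4, part A: Taylor calculus for cochains with coefficients `F_p[t_1]` (helper881)

`ve x u z` = value of the cochain `x : Ch p (s+1)` at `(u 0, …, u s; z)`;
`TT x u z : B[X]` = value at `(u 0, …, u s; e_X z)`, `e_X = (1, X, 0, …)`.  For `x` in
`CC = M p 0 0` (functions of `z_1`) the coefficients of `TT x u z` are the values of the Hasse
derivatives of `x` in `z_1`.
-/

open MvPolynomial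

namespace Vale.Agent.P257.V4.A.F4T

open Ch H HC F4K

variable {p : ℕ} [Fact p.Prime]

section ve

variable {B : Type} [CommRing B] [Algebra (ZMod p) B] {s : ℕ}

/-- value of a cochain with coefficients at `(u 0, …, u s; z)` -/
noncomputable def ve (x : Ch p (s + 1)) (u : ℕ → G p B) (z : G p B) : B :=
  vl x (fun k => if k ≤ s then u k else z)

theorem ve_congr (x : Ch p (s + 1)) {u v : ℕ → G p B} (z : G p B) (h : ∀ i ≤ s, u i = v i) :
    ve x u z = ve x v z := by
  refine vl_congr x fun i _ => ?_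
  split_ifs with h1
  · exact h i h1
  · rfl

@[simp] theorem ve_add (x y : Ch p (s + 1)) (u : ℕ → G p B) (z : G p B) :
    ve (x + y) u z = ve x u z + ve y u z := vl_add _ _ _
@[simp] theorem ve_sub (x y : Ch p (s + 1)) (u : ℕ → G p B) (z : G p B) :
    ve (x - y) u z = ve x u z - ve y u z := vl_sub _ _ _
@[simp] theorem ve_neg (x : Ch p (s + 1)) (u : ℕ → G p B) (z : G p B) :
    ve (-x) u z = - ve x u z := vl_neg _ _
@[simp] theorem ve_zero (u : ℕ → G p B) (z : G p B) : ve (0 : Ch p (s + 1)) u z = 0 := vl_zero _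
@[simp] theorem ve_mul (x y : Ch p (s + 1)) (u : ℕ → G p B) (z : G p B) :
    ve (x * y) u z = ve x u z * ve y u z := vl_mul _ _ _
@[simp] theorem ve_pow (x : Ch p (s + 1)) (k : ℕ) (u : ℕ → G p B) (z : G p B) :
    ve (x ^ k) u z = ve x u z ^ k := vl_pow _ _ _
@[simp] theorem ve_zsmul (k : ℤ) (x : Ch p (s + 1)) (u : ℕ → G p B) (z : G p B) :
    ve (k • x) u z = k • ve x u z := vl_zsmul _ _ _
@[simp] theorem ve_nsmul (k : ℕ) (x : Ch p (s + 1)) (u : ℕ → G p B) (z : G p B) :
    ve (k • x) u z = k • ve x u z := _root_.map_nsmul _ _ _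
theorem ve_sum {ι : Type} (t : Finset ι) (f : ι → Ch p (s + 1)) (u : ℕ → G p B) (z : G p B) :
    ve (∑ i ∈ t, f i) u z = ∑ i ∈ t, ve (f i) u z := vl_sum _ _ _
@[simp] theorem ve_C (c : ZMod p) (u : ℕ → G p B) (z : G p B) :
    ve (C c : Ch p (s + 1)) u z = algebraMap (ZMod p) B c := ev_C _ _
@[simp] theorem ve_smul (c : ZMod p) (x : Ch p (s + 1)) (u : ℕ → G p B) (z : G p B) :
    ve (c • x) u z = c • ve x u z := by
  rw [smul_eq_C_mul, ve_mul, ve_C, Algebra.smul_def]

theorem ext_ve {x y : Ch p (s + 1)}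
    (h : ∀ (B : Type) [CommRing B] [Algebra (ZMod p) B] (u : ℕ → G p B) (z : G p B),
      ve x u z = ve y u z) : x = y := by
  apply ext_vl
  intro B _ _ u
  have e : ∀ x : Ch p (s + 1), vl x u = ve x u (u (s + 1)) := by
    intro x
    refine vl_congr x fun i hi => ?_
    split_ifs with h1
    · rfl
    · rw [show i = s + 1 by omega]
  rw [e, e, h]

theorem ve_dE (x : Ch p (s + 1)) (u : ℕ → G p B) (z : G p B) :
    ve (dE s x) u z = ∑ i ∈ Finset.range (s + 2), (-1 : ℤ) ^ i • ve x (fun k => u (om i k)) z := by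
  rw [dE_apply, ve_sum, Finset.sum_range]
  refine Finset.sum_congr rfl fun i _ => ?_
  rw [ve_zsmul]
  congr 1
  rw [cof, ve, vl_map _ (fun k => om i k)]
  · refine vl_congr x fun k hk => ?_
    dsimp only
    have hi := i.2
    by_cases h1 : k ≤ s
    · rw [if_pos h1, if_pos]
      unfold om
      split_ifs <;> omega
    · rw [if_neg h1, if_neg]
      unfold om
      split_ifs <;> omega
  · intro k
    rw [Fin.succAbove, om]
    simp only [Fin.lt_def, Fin.val_castSucc]
    split_ifs <;> rfl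

theorem ve_cupE {a b n : ℕ} (h : a + b = n) (x : Ch p (a + 1)) (y : Ch p (b + 1))
    (u : ℕ → G p B) (z : G p B) :
    ve (cupE h x y) u z = ve x u z * ve y (fun k => u (a + k)) z := by
  rw [cupE, ve_mul]
  congr 1
  · rw [ve, vl_map _ (fun k => if k ≤ a then k else n + 1)]
    · refine vl_congr x fun k _ => ?_
      by_cases h1 : k ≤ a
      · rw [if_pos h1, if_pos h1, if_pos (by omega)]
      · rw [if_neg h1, if_neg h1, if_neg (by omega)]
    · intro k
      rw [val_fr]
  · rw [ve, vl_map _ (fun k => a + k)]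
    · refine vl_congr y fun k _ => ?_
      dsimp only
      by_cases h1 : k ≤ b
      · rw [if_pos h1, if_pos (by omega)]
      · rw [if_neg h1, if_neg (by omega)]
    · intro k
      rw [val_back]
      omega

theorem vl_nat {n : ℕ} {B' : Type} [CommRing B'] [Algebra (ZMod p) B'] (φ : B →+* B')
    (x : Ch p n) (u : ℕ → G p B) : vl x (fun k => (u k).map φ) = φ (vl x u) := by
  rw [vl, vl, ← ev_map]
  have : chN n (fun k => (u k).map φ) = (chN n u).map φ := by
    ext1
    funext i
    change (u i).map φ * ((u 0).map φ)⁻¹ = (u i * (u 0)⁻¹).map φ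
    rw [G.map_mul, G.map_inv]
  rw [this]

theorem ve_nat {B' : Type} [CommRing B'] [Algebra (ZMod p) B'] (φ : B →+* B')
    (x : Ch p (s + 1)) (u : ℕ → G p B) (z : G p B) :
    ve x (fun k => (u k).map φ) (z.map φ) = φ (ve x u z) := by
  rw [ve, ve, ← vl_nat]
  congr 1
  funext k
  split_ifs <;> rfl

theorem ve_dl (y : Ch p s) (u : ℕ → G p B) (z : G p B) : ve (dl s y) u z = vl y u := by
  rw [dl, ve, vl_map _ (fun k => k)]
  · refine vl_congr y fun k hk => ?_
    rw [if_pos hk]
  · intro k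
    rfl

theorem ve_X_last (n : ℕ) (u : ℕ → G p B) (z : G p B) :
    ve (X (Fin.last s, n) : Ch p (s + 1)) u z = (z * (u 0)⁻¹).a (n + 1) := by
  rw [ve, vl, ev_X]
  change ((if s + 1 ≤ s then u (s + 1) else z) * (if 0 ≤ s then u 0 else z)⁻¹).a (n + 1) = _
  rw [if_neg (by omega), if_pos (Nat.zero_le _)]

end ve

/-! ### the Taylor expansion -/

section TT

variable {B : Type} [CommRing B] [Algebra (ZMod p) B] {s : ℕ}

/-- the group element `(1, r, 0, 0, …)` -/
def eT (p : ℕ) {B : Type} [CommRing B] (r : B) : G p B := G.mk fun n => if n = 0 then r else 0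

/-- the value at `(u 0, …, u s; e_X z)` -/
noncomputable def TT (x : Ch p (s + 1)) (u : ℕ → G p B) (z : G p B) : Polynomial B :=
  ve x (fun k => (u k).map Polynomial.C) (eT p Polynomial.X * z.map Polynomial.C)

theorem TT_congr (x : Ch p (s + 1)) {u v : ℕ → G p B} (z : G p B) (h : ∀ i ≤ s, u i = v i) :
    TT x u z = TT x v z := ve_congr x _ fun i hi => by rw [h i hi]

@[simp] theorem TT_add (x y : Ch p (s + 1)) (u : ℕ → G p B) (z : G p B) :
    TT (x + y) u z = TT x u z + TT y u z := ve_add _ _ _ _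
@[simp] theorem TT_sub (x y : Ch p (s + 1)) (u : ℕ → G p B) (z : G p B) :
    TT (x - y) u z = TT x u z - TT y u z := ve_sub _ _ _ _
@[simp] theorem TT_neg (x : Ch p (s + 1)) (u : ℕ → G p B) (z : G p B) :
    TT (-x) u z = - TT x u z := ve_neg _ _ _
@[simp] theorem TT_mul (x y : Ch p (s + 1)) (u : ℕ → G p B) (z : G p B) :
    TT (x * y) u z = TT x u z * TT y u z := ve_mul _ _ _ _
@[simp] theorem TT_pow (x : Ch p (s + 1)) (k : ℕ) (u : ℕ → G p B) (z : G p B) :
    TT (x ^ k) u z = TT x u z ^ k := ve_pow _ _ _ _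
theorem TT_sum {ι : Type} (t : Finset ι) (f : ι → Ch p (s + 1)) (u : ℕ → G p B) (z : G p B) :
    TT (∑ i ∈ t, f i) u z = ∑ i ∈ t, TT (f i) u z := ve_sum _ _ _ _
@[simp] theorem TT_smul (c : ZMod p) (x : Ch p (s + 1)) (u : ℕ → G p B) (z : G p B) :
    TT (c • x) u z = c • TT x u z := ve_smul _ _ _ _

theorem TT_dE (x : Ch p (s + 1)) (u : ℕ → G p B) (z : G p B) :
    TT (dE s x) u z = ∑ i ∈ Finset.range (s + 2), (-1 : ℤ) ^ i • TT x (fun k => u (om i k)) z :=
  ve_dE _ _ _

theorem TT_cupE {a b n : ℕ} (h : a + b = n) (x : Ch p (a + 1)) (y : Ch p (b + 1))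
    (u : ℕ → G p B) (z : G p B) :
    TT (cupE h x y) u z = TT x u z * TT y (fun k => u (a + k)) z := ve_cupE _ _ _ _ _

/-- the constant coefficient -/
theorem TT_coeff_zero (x : Ch p (s + 1)) (u : ℕ → G p B) (z : G p B) :
    (TT x u z).coeff 0 = ve x u z := by
  have h := ve_nat (Polynomial.constantCoeff : Polynomial B →+* B) x
    (fun k => (u k).map Polynomial.C) (eT p Polynomial.X * z.map Polynomial.C)
  rw [Polynomial.constantCoeff_apply] at h
  change _ = (TT x u z).coeff 0 at h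
  rw [← h]
  congr 1
  · funext k
    ext n
    simp
  · rw [G.map_mul]
    have h1 : (eT p (Polynomial.X : Polynomial B)).map
        (Polynomial.constantCoeff : Polynomial B →+* B) = 1 := by
      apply G.ext_succ
      intro n
      rw [G.map_a, eT, G.mk_a_succ, G.one_a_succ]
      split_ifs <;> simp
    rw [h1, one_mul]
    ext n
    simp

theorem TT_dl (y : Ch p s) (u : ℕ → G p B) (z : G p B) :
    TT (dl s y) u z = Polynomial.C (vl y u) := by
  rw [TT, ve_dl, vl_nat]

theorem TT_FR {x : Ch p (s + 1)} (hx : x ∈ FR p 0 s) (u : ℕ → G p B) (z : G p B) :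
    TT x u z = Polynomial.C (ve x u z) := by
  obtain ⟨y, rfl⟩ := exists_dl hx
  rw [TT_dl, ve_dl]

theorem eT_mul_a_one {B : Type} [CommRing B] [Algebra (ZMod p) B] (r : B) (g : G p B) :
    (eT p r * g).a 1 = r + g.a 1 := by
  rw [G.mul_a_one]
  rfl

theorem TT_z (u : ℕ → G p B) (z : G p B) :
    TT (X (zv s 0) : Ch p (s + 1)) u z =
      Polynomial.X + Polynomial.C (ve (X (zv s 0) : Ch p (s + 1)) u z) := by
  rw [TT, ve_X_last, ve_X_last, mul_assoc, zero_add, eT_mul_a_one, ← G.map_inv, ← G.map_mul,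
    G.map_a]

/-- induction over `CC`: sums of `f z_1^n` with `f` free of `z` -/
theorem CC_induction {P : Ch p (s + 1) → Prop} (h0 : P 0)
    (hadd : ∀ x y, x ∈ CC p s → y ∈ CC p s → P x → P y → P (x + y))
    (hm : ∀ (f : Ch p (s + 1)) (n : ℕ), f ∈ FR p 0 s → P (f * X (zv s 0) ^ n))
    {x : Ch p (s + 1)} (hx : x ∈ CC p s) : P x := by
  have key : ∀ e ∈ x.support, (monomial e (coeff e x) : Ch p (s + 1)) =
      monomial (e.erase (zv s 0)) (coeff e x) * X (zv s 0) ^ e (zv s 0) ∧
      (monomial (e.erase (zv s 0)) (coeff e x) : Ch p (s + 1)) ∈ FR p 0 s := by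
    intro e he
    constructor
    · rw [X_pow_eq_monomial, monomial_mul, mul_one, Finsupp.erase_add_single]
    · refine monomial_mem_SR _ fun j _ => ?_
      by_cases hj : j = 0
      · rw [hj]
        exact Finsupp.erase_same
      · rw [Finsupp.erase_ne (by
          intro h
          exact hj (congrArg Prod.snd h))]
        exact (hx e he).1 j (Nat.pos_of_ne_zero hj)
  have hmem : ∀ e ∈ x.support, (monomial e (coeff e x) : Ch p (s + 1)) ∈ CC p s := by
    intro e he
    change (monomial e (coeff e x) : Ch p (s + 1)) ∈ MS p 0 0 s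
    exact monomial_mem_SR _ ⟨(hx e he).1, (hx e he).2⟩
  rw [x.as_sum]
  have : ∀ t : Finset (Fin (s + 1) × ℕ →₀ ℕ), t ⊆ x.support →
      P (∑ e ∈ t, monomial e (coeff e x)) ∧
        (∑ e ∈ t, (monomial e (coeff e x) : Ch p (s + 1))) ∈ CC p s := by
    classical
    intro t
    induction t using Finset.induction_on with
    | empty =>
      intro _
      rw [Finset.sum_empty]
      exact ⟨h0, AddSubgroup.zero_mem _⟩
    | insert e t he ih =>
      intro ht
      obtain ⟨ih1, ih2⟩ := ih (fun a ha => ht (Finset.mem_insert_of_mem ha))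
      have he' := ht (Finset.mem_insert_self e t)
      rw [Finset.sum_insert he]
      refine ⟨hadd _ _ (hmem e he') ih2 ?_ ih1, AddSubgroup.add_mem _ (hmem e he') ih2⟩
      obtain ⟨k1, k2⟩ := key e he'
      rw [k1]
      exact hm _ _ k2
  exact (this _ (Finset.Subset.refl _)).1

theorem Dop_mul_pow {f : Ch p (s + 1)} (hf : f ∈ FR p 0 s) (k n : ℕ) :
    Dop 0 k s (f * X (zv s 0) ^ n) =
      f * ((n.choose (p ^ k) : ZMod p) • X (zv s 0) ^ (n - p ^ k)) := by
  rw [Dop_free_mul (fun e he => hf e he 0 le_rfl), X_pow_eq_monomial, Dop_monomial,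
    X_pow_eq_monomial, Finsupp.single_eq_same, one_mul, smul_monomial, smul_eq_mul, mul_one,
    ← Finsupp.single_tsub]

/-- the coefficient of `X^(p^k)` is the value of the Hasse derivative of order `p^k` -/
theorem TT_coeff_pow {x : Ch p (s + 1)} (hx : x ∈ CC p s) (k : ℕ) (u : ℕ → G p B) (z : G p B) :
    (TT x u z).coeff (p ^ k) = ve (Dop 0 k s x) u z := by
  refine CC_induction (P := fun x => (TT x u z).coeff (p ^ k) = ve (Dop 0 k s x) u z) ?_ ?_ ?_ hx
  · rw [map_zero, ve_zero]
    have : TT (0 : Ch p (s + 1)) u z = 0 := ve_zero _ _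
    rw [this, Polynomial.coeff_zero]
  · intro x y _ _ h1 h2
    rw [TT_add, Polynomial.coeff_add, h1, h2, map_add, ve_add]
  · intro f n hf
    rw [Dop_mul_pow hf, TT_mul, TT_pow, TT_FR hf, TT_z, Polynomial.coeff_C_mul,
      Polynomial.coeff_X_add_C_pow, ve_mul, ve_smul, ve_pow, Algebra.smul_def, map_natCast]
    ring

theorem derivative_TT {x : Ch p (s + 1)} (hx : x ∈ CC p s) (u : ℕ → G p B) (z : G p B) :
    Polynomial.derivative (TT x u z) = TT (Dop 0 0 s x) u z := by
  refine CC_induction (P := fun x => Polynomial.derivative (TT x u z) = TT (Dop 0 0 s x) u z)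
    ?_ ?_ ?_ hx
  · rw [map_zero]
    have : TT (0 : Ch p (s + 1)) u z = 0 := ve_zero _ _
    rw [this, map_zero]
  · intro x y _ _ h1 h2
    rw [TT_add, map_add, h1, h2, map_add, TT_add]
  · intro f n hf
    rw [Dop_mul_pow hf, TT_mul, TT_pow, TT_FR hf, TT_z, TT_mul, TT_FR hf, TT_smul, TT_pow, TT_z,
      Polynomial.derivative_C_mul, Polynomial.derivative_X_add_C_pow, pow_zero,
      Nat.choose_one_right, Algebra.smul_def, map_natCast]
    simp

theorem CC_Dop {k : ℕ} {x : Ch p (s + 1)} (hx : x ∈ CC p s) : Dop 0 k s x ∈ CC p s := by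
  refine CC_induction (P := fun x => Dop 0 k s x ∈ CC p s) ?_ ?_ ?_ hx
  · rw [map_zero]
    exact AddSubgroup.zero_mem _
  · intro x y _ _ h1 h2
    rw [map_add]
    exact AddSubgroup.add_mem _ h1 h2
  · intro f n hf
    rw [Dop_mul_pow hf]
    exact Subring.mul_mem (MS p 0 0 s) (FR_le_MS hf) (CC_smul _
      (Subring.pow_mem (MS p 0 0 s) (mem_MS_zero (X_last_mem_FR s (Nat.lt_succ_self 0))) _))

theorem CC_iter {m : ℕ} {x : Ch p (s + 1)} (hx : x ∈ CC p s) : (Dop 0 0 s)^[m] x ∈ CC p s := by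
  induction m with
  | zero => exact hx
  | succ m ih =>
    rw [Function.iterate_succ_apply']
    exact CC_Dop ih

theorem iterate_derivative_TT {x : Ch p (s + 1)} (hx : x ∈ CC p s) (m : ℕ) (u : ℕ → G p B)
    (z : G p B) : Polynomial.derivative^[m] (TT x u z) = TT ((Dop 0 0 s)^[m] x) u z := by
  induction m with
  | zero => rfl
  | succ m ih =>
    rw [Function.iterate_succ_apply', Function.iterate_succ_apply', ih,
      derivative_TT (CC_iter hx)]

theorem ve_iter {x : Ch p (s + 1)} (hx : x ∈ CC p s) (m : ℕ) (u : ℕ → G p B) (z : G p B) :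
    ve ((Dop 0 0 s)^[m] x) u z = m.factorial • (TT x u z).coeff m := by
  rw [← TT_coeff_zero, ← iterate_derivative_TT hx, Polynomial.coeff_iterate_derivative, zero_add,
    Nat.descFactorial_self]

/-- bound of the degree -/
theorem natDegree_TT_le {x : Ch p (s + 1)} (hx : x ∈ CC p s) {n : ℕ}
    (h : ∀ e ∈ x.support, e (zv s 0) ≤ n) (u : ℕ → G p B) (z : G p B) :
    (TT x u z).natDegree ≤ n := by
  rw [x.as_sum, TT_sum]
  refine Polynomial.natDegree_sum_le_of_forall_le _ _ fun e he => ?_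
  have k1 : (monomial e (coeff e x) : Ch p (s + 1)) =
      monomial (e.erase (zv s 0)) (coeff e x) * X (zv s 0) ^ e (zv s 0) := by
    rw [X_pow_eq_monomial, monomial_mul, mul_one, Finsupp.erase_add_single]
  have k2 : (monomial (e.erase (zv s 0)) (coeff e x) : Ch p (s + 1)) ∈ FR p 0 s := by
    refine monomial_mem_SR _ fun j _ => ?_
    by_cases hj : j = 0
    · rw [hj]
      exact Finsupp.erase_same
    · rw [Finsupp.erase_ne (by
        intro h
        exact hj (congrArg Prod.snd h))]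
      exact (hx e he).1 j (Nat.pos_of_ne_zero hj)
  rw [k1, TT_mul, TT_pow, TT_FR k2, TT_z]
  refine Polynomial.natDegree_mul_le.trans ?_
  rw [Polynomial.natDegree_C, zero_add]
  refine (Polynomial.natDegree_pow_le).trans ?_
  have k3 : (Polynomial.X + Polynomial.C (ve (X (zv s 0) : Ch p (s + 1)) u z)).natDegree ≤ 1 := by
    refine (Polynomial.natDegree_add_le _ _).trans ?_
    rw [Polynomial.natDegree_C]
    exact max_le Polynomial.natDegree_X_le (Nat.zero_le 1)
  refine (Nat.mul_le_mul_left _ k3).trans ?_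
  rw [mul_one]
  exact h e he

/-! ### products of cochains in `CC` -/

theorem map_mem_CC {m n : ℕ} (α : Fin (m + 2) → Fin (n + 2))
    (h1 : α (Fin.last (m + 1)) = Fin.last (n + 1))
    (h2 : ∀ v, v ≠ Fin.last (m + 1) → α v ≠ Fin.last (n + 1))
    {x : Ch p (m + 1)} (hx : x ∈ CC p m) : Ch.map α x ∈ CC p n := by
  have h0 : α 0 ≠ Fin.last (n + 1) := h2 _ (by
    intro h
    have := congrArg Fin.val h
    simp at this)
  have hX : ∀ (v : Fin (m + 1)) (k : ℕ), Ch.map α (X (v, k) : Ch p (m + 1)) =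
      ((univ p (n + 1)).g (α v.succ) * ((univ p (n + 1)).g (α 0))⁻¹).a (k + 1) := by
    intro v k
    rw [Ch.map, ev_X, Chain.res_g]
  have hI : ∀ k, (((univ p (n + 1)).g (α 0))⁻¹).a k ∈ FR p 0 n :=
    inv_mem _ (univ_mem_FR h0)
  have hne : ∀ (v : Fin (m + 1)) (k : ℕ), v ≠ Fin.last m →
      Ch.map α (X (v, k) : Ch p (m + 1)) ∈ FR p 0 n := by
    intro v k hv
    rw [hX, G.mul_a]
    have h3 : α v.succ ≠ Fin.last (n + 1) := h2 _ (by
      intro h
      apply hv
      have := congrArg Fin.val h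
      apply Fin.ext
      simpa using this)
    exact Subring.sum_mem _ fun ij _ => Subring.mul_mem _ (univ_mem_FR h3 _)
      (Subring.pow_mem _ (hI _) _)
  have hla : Ch.map α (X (Fin.last m, 0) : Ch p (m + 1)) ∈ FR p 1 n := by
    rw [hX, show (Fin.last m).succ = Fin.last (m + 1) from rfl, h1, zero_add, G.mul_a_one]
    exact Subring.add_mem _ (last_mem_FR le_rfl) (FR_mono (Nat.zero_le _) (hI 1))
  refine CC_induction (P := fun x => Ch.map α x ∈ CC p n) ?_ ?_ ?_ hx
  · rw [map_zero]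
    exact AddSubgroup.zero_mem _
  · intro x y _ _ k1 k2
    rw [map_add]
    exact AddSubgroup.add_mem _ k1 k2
  · intro f k hf
    rw [map_mul, map_pow]
    refine Subring.mul_mem (MS p 0 0 n) ?_ (Subring.pow_mem _ (mem_MS_zero hla) _)
    refine mem_MS_zero (FR_mono (Nat.zero_le 1) ?_)
    rw [f.as_sum, map_sum]
    refine Subring.sum_mem _ fun e he => ?_
    rw [monomial_eq, map_mul, Finsupp.prod, map_prod]
    refine Subring.mul_mem _ ?_ (Subring.prod_mem _ fun v hv => ?_)
    · rw [Ch.map, ev_C]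
      exact C_mem_SR _
    · obtain ⟨v, j⟩ := v
      rw [map_pow]
      refine Subring.pow_mem _ (hne v j ?_) _
      rintro rfl
      exact (Finsupp.mem_support_iff.1 hv) (hf e he j (Nat.zero_le _))

theorem cupE_mem_CC {a b n : ℕ} (h : a + b = n) {x : Ch p (a + 1)} {y : Ch p (b + 1)}
    (hx : x ∈ CC p a) (hy : y ∈ CC p b) : cupE h x y ∈ CC p n := by
  rw [cupE]
  refine Subring.mul_mem (MS p 0 0 n) (map_mem_CC _ ?_ ?_ hx) (map_mem_CC _ ?_ ?_ hy)
  · apply Fin.ext
    rw [val_fr, Fin.val_last, if_neg (by omega), Fin.val_last]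
  · intro v hv h'
    have h2 := congrArg Fin.val h'
    rw [val_fr, Fin.val_last] at h2
    apply hv
    apply Fin.ext
    rw [Fin.val_last]
    have := v.2
    split_ifs at h2 <;> omega
  · apply Fin.ext
    rw [val_back, Fin.val_last, Fin.val_last]
    omega
  · intro v hv h'
    have h2 := congrArg Fin.val h'
    rw [val_back, Fin.val_last] at h2
    apply hv
    apply Fin.ext
    rw [Fin.val_last]
    omega

theorem cupE_isWt {a b n w w' : ℕ} (h : a + b = n) {x : Ch p (a + 1)} {y : Ch p (b + 1)}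
    (hx : IsWt w x) (hy : IsWt w' y) : IsWt (w + w') (cupE h x y) :=
  (map_isWt _ hx).mul (map_isWt _ hy)

/-- `D_0` is a derivation of the products in `CC` -/
theorem Dop_cupE {a b n : ℕ} (h : a + b = n) {x : Ch p (a + 1)} {y : Ch p (b + 1)}
    (hx : x ∈ CC p a) (hy : y ∈ CC p b) :
    Dop 0 0 n (cupE h x y) = cupE h (Dop 0 0 a x) y + cupE h x (Dop 0 0 b y) := by
  apply ext_ve
  intro B _ _ u z
  rw [← TT_coeff_zero, ← derivative_TT (cupE_mem_CC h hx hy), TT_cupE,
    Polynomial.derivative_mul, derivative_TT hx, derivative_TT hy, ← TT_cupE, ← TT_cupE,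
    Polynomial.coeff_add, TT_coeff_zero, TT_coeff_zero, ve_add]

end TT

end Vale.Agent.P257.V4.A.F4T
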