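import Vale.Agent.P257.V4.A.F4A
import Vale.Agent.P257.V4.A.F4T
import Vale.Agent.P257.V4.A.F4PA

/-!
# P257 / V4, part A: the explicit cochains for `Van p 7 (3 p^2 + 4 p)` (helper881)

`Y6 = B B B`, `Y5 = B B h`, with `D_0 Y = d Om`, `D_0^(p-1) Om = d U`, `D_2 U = κ Z`
(`Z = B B`, `B h`, `κ = -3, -2`): the structures `quad6 : Quad p 1 u`, `quad5 : Quad p 0 u`,
`u = 2 p^2 + 2 p`.
-/

open MvPolynomial

namespace Vale.Agent.P257.V4.A.F4P

open Ch H HC F4K F4T F4A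

variable {p : ℕ} [Fact p.Prime]

/-! ### Hasse derivatives of order `< p` -/

theorem fact_ne {m : ℕ} (h : m < p) : ((m.factorial : ℕ) : ZMod p) ≠ 0 := by
  intro h0
  rw [ZMod.natCast_eq_zero_iff, (Fact.out : p.Prime).dvd_factorial] at h0
  omega

/-- Hasse derivative of order `m < p` in `z_1` -/
noncomputable def hd (m : ℕ) {s : ℕ} (x : Ch p (s + 1)) : Ch p (s + 1) :=
  (((m.factorial : ℕ) : ZMod p))⁻¹ • (Dop 0 0 s)^[m] x

section hd

variable {B : Type} [CommRing B] [Algebra (ZMod p) B] {s : ℕ}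

theorem ve_hd {x : Ch p (s + 1)} (hx : x ∈ CC p s) {m : ℕ} (h : m < p) (u : ℕ → G p B)
    (z : G p B) : ve (hd m x) u z = (TT x u z).coeff m := by
  rw [hd, ve_smul, ve_iter hx, ← Nat.cast_smul_eq_nsmul (ZMod p), inv_smul_smul₀ (fact_ne h)]

theorem hd_mem {x : Ch p (s + 1)} (hx : x ∈ CC p s) (m : ℕ) : hd m x ∈ CC p s :=
  CC_smul _ (CC_iter hx)

theorem hd_isWt {x : Ch p (s + 1)} {w : ℕ} (m : ℕ) (hx : IsWt (w + m) x) : IsWt w (hd m x) :=
  wt_smul _ (iter_wt m hx)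

theorem hd_natDegree {x : Ch p (s + 1)} (hx : x ∈ CC p s) {n : ℕ} (m : ℕ) {u : ℕ → G p B}
    {z : G p B} (h : (TT x u z).natDegree ≤ n) : (TT (hd m x) u z).natDegree ≤ n := by
  rw [hd, TT_smul, ← iterate_derivative_TT hx]
  refine (Polynomial.natDegree_smul_le _ _).trans ?_
  exact ((Polynomial.natDegree_iterate_derivative _ _).trans (Nat.sub_le _ _)).trans h

end hd

theorem CC_zero {s : ℕ} : (0 : Ch p (s + 1)) ∈ CC p s := AddSubgroup.zero_mem _

/-! ### the pieces -/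

variable (p) in
/-- coefficients of `ω` -/
noncomputable def cv (i : ℕ) : Ch p 2 := ((i : ZMod p))⁻¹ • hd (i - 1) (cw p)

theorem cv_zero : cv p 0 = 0 := by
  rw [cv, Nat.cast_zero, inv_zero, zero_smul]

theorem cv_mem (i : ℕ) : cv p i ∈ CC p 1 := CC_smul _ (hd_mem cw_mem _)

/-- graded products -/
noncomputable def cupC {a b n : ℕ} (h : a + b = n) (f : ℕ → Ch p (a + 1))
    (g : ℕ → Ch p (b + 1)) (m : ℕ) : Ch p (n + 1) :=
  ∑ ij ∈ Finset.HasAntidiagonal.antidiagonal m, cupE h (f ij.1) (g ij.2)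

theorem ve_cupC {B : Type} [CommRing B] [Algebra (ZMod p) B] {a b n : ℕ} (h : a + b = n)
    {f : ℕ → Ch p (a + 1)} {g : ℕ → Ch p (b + 1)} {m : ℕ} {u : ℕ → G p B} {z : G p B}
    {F F' : Polynomial B} (hF : ∀ i ≤ m, F.coeff i = ve (f i) u z)
    (hF' : ∀ i ≤ m, F'.coeff i = ve (g i) (fun k => u (a + k)) z) :
    ve (cupC h f g m) u z = (F * F').coeff m := by
  rw [cupC, ve_sum, Polynomial.coeff_mul]
  refine Finset.sum_congr rfl fun ij hij => ?_
  rw [Finset.HasAntidiagonal.mem_antidiagonal] at hij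
  rw [ve_cupE, hF _ (by omega), hF' _ (by omega)]

theorem cupC_mem {a b n : ℕ} (h : a + b = n) {f : ℕ → Ch p (a + 1)} {g : ℕ → Ch p (b + 1)}
    (hf : ∀ i, f i ∈ CC p a) (hg : ∀ i, g i ∈ CC p b) (m : ℕ) : cupC h f g m ∈ CC p n :=
  AddSubgroup.sum_mem _ fun _ _ => F4T.cupE_mem_CC h (hf _) (hg _)

theorem cupC_natDegree {B : Type} [CommRing B] [Algebra (ZMod p) B] {a b n : ℕ} (h : a + b = n)
    {f : ℕ → Ch p (a + 1)} {g : ℕ → Ch p (b + 1)} {k l : ℕ} (m : ℕ)
    (hf : ∀ i (u : ℕ → G p B) (z : G p B), (TT (f i) u z).natDegree ≤ k)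
    (hg : ∀ i (u : ℕ → G p B) (z : G p B), (TT (g i) u z).natDegree ≤ l) (u : ℕ → G p B)
    (z : G p B) : (TT (cupC h f g m) u z).natDegree ≤ k + l := by
  rw [cupC, TT_sum]
  refine Polynomial.natDegree_sum_le_of_forall_le _ _ fun ij _ => ?_
  rw [TT_cupE]
  exact Polynomial.natDegree_mul_le_of_le (hf _ _ _) (hg _ _ _)

theorem cupC_isWt {a b n : ℕ} (h : a + b = n) {f : ℕ → Ch p (a + 1)} {g : ℕ → Ch p (b + 1)}
    {m w : ℕ} (H : ∀ i j, i + j = m → IsWt w (cupE h (f i) (g j))) : IsWt w (cupC h f g m) :=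
  IsWt.sum _ fun _ hij => H _ _ (Finset.HasAntidiagonal.mem_antidiagonal.1 hij)

/-! ### values -/

section values

variable {B : Type} [CommRing B] [Algebra (ZMod p) B]

/-- two vertices -/
def sq2 (a b : G p B) : ℕ → G p B := fun k => if k = 0 then a else b

/-- three vertices -/
def sq3 (a b c : G p B) : ℕ → G p B := fun k => if k = 0 then a else if k = 1 then b else c

/-- value at two vertices -/
noncomputable def v2 (x : Ch p 2) (a b z : G p B) : B := ve x (sq2 a b) z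

/-- value at three vertices -/
noncomputable def v3 (x : Ch p 3) (a b c z : G p B) : B := ve x (sq3 a b c) z

/-- Taylor expansion at two vertices -/
noncomputable def T2 (x : Ch p 2) (a b z : G p B) : Polynomial B := TT x (sq2 a b) z

/-- Taylor expansion at three vertices -/
noncomputable def T3 (x : Ch p 3) (a b c z : G p B) : Polynomial B := TT x (sq3 a b c) z

theorem ve_v2 (x : Ch p 2) (u : ℕ → G p B) (z : G p B) : ve x u z = v2 x (u 0) (u 1) z := by
  refine ve_congr x z fun i hi => ?_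
  interval_cases i <;> rfl

theorem ve_v3 (x : Ch p 3) (u : ℕ → G p B) (z : G p B) :
    ve x u z = v3 x (u 0) (u 1) (u 2) z := by
  refine ve_congr x z fun i hi => ?_
  interval_cases i <;> rfl

theorem TT_T2 (x : Ch p 2) (u : ℕ → G p B) (z : G p B) : TT x u z = T2 x (u 0) (u 1) z := by
  refine TT_congr x z fun i hi => ?_
  interval_cases i <;> rfl

theorem TT_T3 (x : Ch p 3) (u : ℕ → G p B) (z : G p B) :
    TT x u z = T3 x (u 0) (u 1) (u 2) z := by
  refine TT_congr x z fun i hi => ?_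
  interval_cases i <;> rfl

theorem cw_deg (u : ℕ → G p B) (z : G p B) : (TT (cw p) u z).natDegree ≤ p - 1 :=
  natDegree_TT_le cw_mem (fun e he => (ZD_cw e he).1) u z

theorem cB_deg (u : ℕ → G p B) (z : G p B) : (TT (cB p) u z).natDegree ≤ p :=
  natDegree_TT_le cB_mem (fun e he => (ZD_cB e he).1) u z

theorem chh_deg (u : ℕ → G p B) (z : G p B) : (TT (chh p) u z).natDegree ≤ p :=
  natDegree_TT_le chh_mem (fun e he => (ZD_chh e he).1) u z

theorem cv_deg (i : ℕ) (u : ℕ → G p B) (z : G p B) : (TT (cv p i) u z).natDegree ≤ p - 1 := by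
  rw [cv, TT_smul]
  exact (Polynomial.natDegree_smul_le _ _).trans (hd_natDegree cw_mem _ (cw_deg u z))

/-- the polynomial `ω` -/
noncomputable def OO (z : G p B) (a b : G p B) : Polynomial B :=
  ∑ i ∈ Finset.range p, Polynomial.monomial i (v2 (cv p i) a b z)

theorem OO_coeff (z a b : G p B) (n : ℕ) :
    (OO z a b).coeff n = if n < p then v2 (cv p n) a b z else 0 := by
  rw [OO, Polynomial.finsetSum_coeff]
  simp only [Polynomial.coeff_monomial]
  rw [Finset.sum_ite_eq' (Finset.range p) n]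
  simp only [Finset.mem_range]

theorem cv_val {n : ℕ} (hn : n + 1 < p) (a b z : G p B) :
    v2 (cv p (n + 1)) a b z * ((n : B) + 1) = (T2 (cw p) a b z).coeff n := by
  have h1 : ((n + 1 : ℕ) : ZMod p) ≠ 0 := by
    intro h0
    rw [ZMod.natCast_eq_zero_iff] at h0
    exact absurd (Nat.le_of_dvd (by omega) h0) (by omega)
  rw [v2, cv, ve_smul, Nat.add_sub_cancel, ve_hd cw_mem (by omega)]
  have h2 : ((n : B) + 1) = algebraMap (ZMod p) B ((n + 1 : ℕ) : ZMod p) := by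
    rw [map_natCast]
    push_cast
    rfl
  rw [h2, Algebra.smul_def, mul_right_comm, ← map_mul, inv_mul_cancel₀ h1, map_one, one_mul]
  rfl

theorem v2_zero (a b z : G p B) : v2 (0 : Ch p 2) a b z = 0 := ve_zero _ _

/-- the data of `F4PA` -/
noncomputable def dat (z : G p B) : Dat p B (G p B) where
  b a b c := v3 (cB p) a b c z
  m a b := (T2 (cw p) a b z).coeff (p - 1)
  O := OO z
  W a b := T2 (cw p) a b z
  Br a b c := T3 (cB p) a b c z
  hW a b := by
    have hp : 0 < p := (Fact.out : p.Prime).pos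
    ext n
    rw [Polynomial.coeff_add, Polynomial.coeff_derivative, OO_coeff, Polynomial.coeff_X_pow_mul',
      Polynomial.coeff_C]
    rcases lt_trichotomy n (p - 1) with h | h | h
    · rw [if_pos (by omega), if_neg (by omega), add_zero, cv_val (by omega)]
    · subst h
      rw [if_neg (by omega), if_pos le_rfl, if_pos (Nat.sub_self _), zero_mul, zero_add]
    · rw [if_neg (by omega), if_pos h.le, if_neg (by omega), zero_mul, zero_add]
      exact Polynomial.coeff_eq_zero_of_natDegree_lt (lt_of_le_of_lt (cw_deg _ _) h)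
  hB a b c := by
    rw [Polynomial.X_pow_dvd_iff]
    intro n hn
    rw [Polynomial.coeff_sub, Polynomial.coeff_add, Polynomial.coeff_add, Polynomial.coeff_sub,
      OO_coeff, OO_coeff, OO_coeff, if_pos hn, if_pos hn, if_pos hn]
    cases n with
    | zero =>
      rw [cv_zero, v2_zero, v2_zero, v2_zero, T3, TT_coeff_zero, Polynomial.coeff_C_zero, v3]
      ring
    | succ n =>
      rw [Polynomial.coeff_C_succ, zero_add]
      have h1 : (Polynomial.derivative (T3 (cB p) a b c z)).coeff n =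
          (T2 (cw p) b c z).coeff n - (T2 (cw p) a c z).coeff n + (T2 (cw p) a b z).coeff n := by
        rw [T3, derivative_TT cB_mem, D0_cB, TT_dE]
        simp only [Finset.sum_range_succ, Finset.sum_range_zero, TT_T2]
        simp [om, sq3, sub_eq_add_neg]
      rw [Polynomial.coeff_derivative, ← cv_val hn, ← cv_val hn, ← cv_val hn] at h1
      have h2 : ((n + 1 : ℕ) : ZMod p) ≠ 0 := by
        intro h0
        rw [ZMod.natCast_eq_zero_iff] at h0
        exact absurd (Nat.le_of_dvd (by omega) h0) (by omega)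
      have h3 : ((n : B) + 1) = algebraMap (ZMod p) B ((n + 1 : ℕ) : ZMod p) := by
        rw [map_natCast]
        push_cast
        rfl
      have h4 : ((n : B) + 1) * algebraMap (ZMod p) B (((n + 1 : ℕ) : ZMod p)⁻¹) = 1 := by
        rw [h3, ← map_mul, mul_inv_cancel₀ h2, map_one]
      linear_combination (algebraMap (ZMod p) B (((n + 1 : ℕ) : ZMod p)⁻¹)) * h1 -
        ((T3 (cB p) a b c z).coeff (n + 1) - (v2 (cv p (n + 1)) b c z -
          v2 (cv p (n + 1)) a c z + v2 (cv p (n + 1)) a b z)) * h4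
  hO a b := by
    rw [Polynomial.X_dvd_iff, OO_coeff, if_pos (Fact.out : p.Prime).pos, cv_zero, v2_zero]
  hc a b c d := by
    have h : ve (dE 2 (cB p)) (fun k => if k = 0 then a else if k = 1 then b else
        if k = 2 then c else d) z = 0 := by
      rw [dE_cB, ve_zero]
    rw [ve_dE] at h
    simp only [Finset.sum_range_succ, Finset.sum_range_zero, ve_v3] at h
    simpa [om, ← sub_eq_add_neg, pow_succ] using h

end values

/-! ### the cochains -/

variable (p) in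
/-- coefficient of `ω ω'` -/
noncomputable def cH2 : Ch p 3 :=
  cupC (show 1 + 1 = 2 from rfl) (cv p) (fun j => hd j (cw p)) (p - 1)

variable (p) in
/-- coefficient of `ω ω' B + ω B ω' + B ω ω'` -/
noncomputable def cH3 : Ch p 5 :=
  cupC (show 1 + 3 = 4 from rfl) (cv p)
    (cupC (show 1 + 2 = 3 from rfl) (fun j => hd j (cw p)) (fun k => hd k (cB p))) (p - 1) +
  cupC (show 1 + 3 = 4 from rfl) (cv p)
    (cupC (show 2 + 1 = 3 from rfl) (fun k => hd k (cB p)) (fun j => hd j (cw p))) (p - 1) +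
  cupE (show 2 + 2 = 4 from rfl) (cB p) (cH2 p)

variable (p) in
noncomputable def cOm2 : Ch p 4 :=
  cupE (show 1 + 2 = 3 from rfl) (cw p) (cB p) + cupE (show 2 + 1 = 3 from rfl) (cB p) (cw p)

variable (p) in
noncomputable def cBB : Ch p 5 := cupE (show 2 + 2 = 4 from rfl) (cB p) (cB p)

variable (p) in
noncomputable def cOm3 : Ch p 6 :=
  cupE (show 1 + 4 = 5 from rfl) (cw p) (cBB p) +
  cupE (show 2 + 3 = 5 from rfl) (cB p) (cupE (show 1 + 2 = 3 from rfl) (cw p) (cB p)) +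
  cupE (show 2 + 3 = 5 from rfl) (cB p) (cupE (show 2 + 1 = 3 from rfl) (cB p) (cw p))

variable (p) in
noncomputable def cU2 : Ch p 3 :=
  cupE (show 0 + 2 = 2 from rfl) (ctt p) (cB p) + cupE (show 2 + 0 = 2 from rfl) (cB p) (ctt p) -
    cH2 p

variable (p) in
noncomputable def cU3 : Ch p 5 :=
  cupE (show 0 + 4 = 4 from rfl) (ctt p) (cBB p) +
  cupE (show 2 + 2 = 4 from rfl) (cB p) (cupE (show 0 + 2 = 2 from rfl) (ctt p) (cB p)) +
  cupE (show 2 + 2 = 4 from rfl) (cB p) (cupE (show 2 + 0 = 2 from rfl) (cB p) (ctt p)) - cH3 p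

theorem ctt_mem : ctt p ∈ CC p 0 :=
  AddSubgroup.neg_mem _ (Subring.pow_mem (MS p 0 0 0)
    (mem_MS_zero (X_last_mem_FR 0 (Nat.lt_succ_self 0))) _)

theorem cH2_mem : cH2 p ∈ CC p 2 := cupC_mem _ cv_mem (fun j => hd_mem cw_mem j) _

theorem cH3_mem : cH3 p ∈ CC p 4 :=
  AddSubgroup.add_mem _ (AddSubgroup.add_mem _
    (cupC_mem _ cv_mem (cupC_mem _ (fun j => hd_mem cw_mem j) (fun k => hd_mem cB_mem k)) _)
    (cupC_mem _ cv_mem (cupC_mem _ (fun k => hd_mem cB_mem k) (fun j => hd_mem cw_mem j)) _))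
    (F4T.cupE_mem_CC _ cB_mem cH2_mem)

theorem cBB_mem : cBB p ∈ CC p 4 := F4T.cupE_mem_CC _ cB_mem cB_mem

theorem cOm2_mem : cOm2 p ∈ CC p 3 :=
  AddSubgroup.add_mem _ (F4T.cupE_mem_CC _ cw_mem cB_mem) (F4T.cupE_mem_CC _ cB_mem cw_mem)

theorem cOm3_mem : cOm3 p ∈ CC p 5 :=
  AddSubgroup.add_mem _ (AddSubgroup.add_mem _ (F4T.cupE_mem_CC _ cw_mem cBB_mem)
    (F4T.cupE_mem_CC _ cB_mem (F4T.cupE_mem_CC _ cw_mem cB_mem)))
    (F4T.cupE_mem_CC _ cB_mem (F4T.cupE_mem_CC _ cB_mem cw_mem))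

theorem cU2_mem : cU2 p ∈ CC p 2 :=
  AddSubgroup.sub_mem _ (AddSubgroup.add_mem _ (F4T.cupE_mem_CC _ ctt_mem cB_mem)
    (F4T.cupE_mem_CC _ cB_mem ctt_mem)) cH2_mem

theorem cU3_mem : cU3 p ∈ CC p 4 :=
  AddSubgroup.sub_mem _ (AddSubgroup.add_mem _ (AddSubgroup.add_mem _
    (F4T.cupE_mem_CC _ ctt_mem cBB_mem)
    (F4T.cupE_mem_CC _ cB_mem (F4T.cupE_mem_CC _ ctt_mem cB_mem)))
    (F4T.cupE_mem_CC _ cB_mem (F4T.cupE_mem_CC _ cB_mem ctt_mem))) cH3_mem

section values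

variable {B : Type} [CommRing B] [Algebra (ZMod p) B]

theorem OO_val {n : ℕ} (hn : n < p) (u : ℕ → G p B) (z : G p B) :
    (OO z (u 0) (u 1)).coeff n = ve (cv p n) u z := by
  rw [OO_coeff, if_pos hn, ve_v2]

theorem cw_val {n : ℕ} (hn : n < p) (u : ℕ → G p B) (z : G p B) :
    (T2 (cw p) (u 0) (u 1) z).coeff n = ve (hd n (cw p)) u z := by
  rw [ve_hd cw_mem hn, TT_T2]

theorem cB_val {n : ℕ} (hn : n < p) (u : ℕ → G p B) (z : G p B) :
    (T3 (cB p) (u 0) (u 1) (u 2) z).coeff n = ve (hd n (cB p)) u z := by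
  rw [ve_hd cB_mem hn, TT_T3]

theorem ve_cH2 (u : ℕ → G p B) (z : G p B) :
    ve (cH2 p) u z = (F2 (dat z) (u 0) (u 1) (u 2)).coeff (p - 1) := by
  have hp : 0 < p := (Fact.out : p.Prime).pos
  rw [cH2, F2]
  refine ve_cupC _ (fun i hi => OO_val (by omega) u z) (fun i hi => ?_)
  exact cw_val (by omega) (fun k => u (1 + k)) z

theorem ve_cH3 (u : ℕ → G p B) (z : G p B) :
    ve (cH3 p) u z = (F3 (dat z) (u 0) (u 1) (u 2) (u 3) (u 4)).coeff (p - 1) := by
  have hp : 0 < p := (Fact.out : p.Prime).pos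
  rw [cH3, F3, ve_add, ve_add, Polynomial.coeff_add, Polynomial.coeff_add, ve_cupE,
    Polynomial.coeff_C_mul, ve_cH2]
  congr 1
  · congr 1
    · refine ve_cupC _ (fun i hi => OO_val (by omega) u z) (fun i hi => ?_)
      exact (ve_cupC _ (fun j hj => cw_val (by omega) (fun k => u (1 + k)) z)
        (fun j hj => cB_val (by omega) (fun k => u (1 + (1 + k))) z)).symm
    · refine ve_cupC _ (fun i hi => OO_val (by omega) u z) (fun i hi => ?_)
      exact (ve_cupC _ (fun j hj => cB_val (by omega) (fun k => u (1 + k)) z)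
        (fun j hj => cw_val (by omega) (fun k => u (1 + (2 + k))) z)).symm
  · rw [ve_v3]
    rfl

theorem wil (b : B) : (p - 1).factorial • b = - b := by
  rw [← Nat.cast_smul_eq_nsmul (ZMod p), ZMod.wilsons_lemma, neg_one_smul]

theorem ve_dtt (u : ℕ → G p B) (z : G p B) :
    ve (dE 0 (ctt p)) u z = - (dat z).m (u 0) (u 1) := by
  rw [← iter_D0_cw, ve_iter cw_mem, wil, TT_T2]
  rfl

end values

theorem D0p_cOm2 : (Dop 0 0 3)^[p - 1] (cOm2 p) = dE 2 (cU2 p) := by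
  apply ext_ve
  intro B _ _ u z
  rw [ve_iter cOm2_mem, wil]
  have h1 : TT (cOm2 p) u z = (dat z).W (u 0) (u 1) * (dat z).Br (u 1) (u 2) (u 3) +
      (dat z).Br (u 0) (u 1) (u 2) * (dat z).W (u 2) (u 3) := by
    rw [cOm2, TT_add, TT_cupE, TT_cupE, TT_T2, TT_T2, TT_T3, TT_T3]
    rfl
  have h2 : ve (dE 2 (cH2 p)) u z = (F2 (dat z) (u 1) (u 2) (u 3) - F2 (dat z) (u 0) (u 2) (u 3) +
      F2 (dat z) (u 0) (u 1) (u 3) - F2 (dat z) (u 0) (u 1) (u 2)).coeff (p - 1) := by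
    rw [ve_dE]
    simp only [Finset.sum_range_succ, Finset.sum_range_zero, ve_cH2, Polynomial.coeff_sub,
      Polynomial.coeff_add]
    simp [om, ← sub_eq_add_neg, pow_succ]
  rw [h1, key2, cU2, map_sub, map_add, dE_cupE, dE_cupE, dE_cB, cupE_zero_left, cupE_zero_right,
    ve_sub, ve_add, ve_add, ve_add, h2, ve_cupE, ve_zsmul, ve_zsmul, ve_cupE, ve_dtt, ve_dtt, ve_v3,
    ve_v3, ve_zero]
  simp only [dat]
  simp
  ring

theorem D0p_cOm3 : (Dop 0 0 5)^[p - 1] (cOm3 p) = dE 4 (cU3 p) := by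
  apply ext_ve
  intro B _ _ u z
  rw [ve_iter cOm3_mem, wil]
  have h1 : TT (cOm3 p) u z =
      (dat z).W (u 0) (u 1) * ((dat z).Br (u 1) (u 2) (u 3) * (dat z).Br (u 3) (u 4) (u 5)) +
      (dat z).Br (u 0) (u 1) (u 2) * ((dat z).W (u 2) (u 3) * (dat z).Br (u 3) (u 4) (u 5)) +
      (dat z).Br (u 0) (u 1) (u 2) * ((dat z).Br (u 2) (u 3) (u 4) * (dat z).W (u 4) (u 5)) := by
    rw [cOm3, cBB, TT_add, TT_add]
    simp only [TT_cupE, TT_T2, TT_T3]
    rfl
  have h2 : ve (dE 4 (cH3 p)) u z =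
      (F3 (dat z) (u 1) (u 2) (u 3) (u 4) (u 5) - F3 (dat z) (u 0) (u 2) (u 3) (u 4) (u 5) +
      F3 (dat z) (u 0) (u 1) (u 3) (u 4) (u 5) - F3 (dat z) (u 0) (u 1) (u 2) (u 4) (u 5) +
      F3 (dat z) (u 0) (u 1) (u 2) (u 3) (u 5) -
      F3 (dat z) (u 0) (u 1) (u 2) (u 3) (u 4)).coeff (p - 1) := by
    rw [ve_dE]
    simp only [Finset.sum_range_succ, Finset.sum_range_zero, ve_cH3, Polynomial.coeff_sub,
      Polynomial.coeff_add]
    simp [om, ← sub_eq_add_neg, pow_succ]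
  have h3 : dE 4 (cU3 p) = cupE (show 1 + 4 = 5 from rfl) (dE 0 (ctt p)) (cBB p) +
      cupE (show 2 + 3 = 5 from rfl) (cB p) (cupE (show 1 + 2 = 3 from rfl) (dE 0 (ctt p)) (cB p)) +
      cupE (show 2 + 3 = 5 from rfl) (cB p) (cupE (show 2 + 1 = 3 from rfl) (cB p) (dE 0 (ctt p))) -
      dE 4 (cH3 p) := by
    rw [cU3, cBB, map_sub, map_add, map_add]
    simp only [dE_cupE, dE_cB, cupE_zero_left, cupE_zero_right, smul_zero, add_zero, zero_add,
      pow_zero]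
    simp
  rw [h1, key3, h3, ve_sub, h2, cBB]
  simp only [ve_add, ve_cupE, ve_dtt, ve_v3]
  simp only [dat]
  simp
  ring

/-! ### first derivatives -/

theorem D0_cBB : Dop 0 0 4 (cBB p) = dE 3 (cOm2 p) := by
  rw [cBB, cOm2, F4T.Dop_cupE _ cB_mem cB_mem, D0_cB, map_add, dE_cupE, dE_cupE, dE_cB,
    cupE_zero_left, cupE_zero_right]
  simp

theorem D0_Y6 : Dop 0 0 6 (cupE (show 2 + 4 = 6 from rfl) (cB p) (cBB p)) = dE 5 (cOm3 p) := by
  rw [F4T.Dop_cupE _ cB_mem cBB_mem, D0_cB, cOm3, cBB, F4T.Dop_cupE _ cB_mem cB_mem, D0_cB,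
    map_add, map_add]
  simp only [dE_cupE, dE_cB, cupE_zero_left, cupE_zero_right, smul_zero, add_zero, zero_add,
    cupE_add_right]
  simp
  abel

/-! ### the second family `B B h` -/

variable (p) in
noncomputable def cBh : Ch p 4 := cupE (show 2 + 1 = 3 from rfl) (cB p) (chh p)

variable (p) in
noncomputable def cOm5 : Ch p 5 := cupE (show 3 + 1 = 4 from rfl) (cOm2 p) (chh p)

variable (p) in
noncomputable def cU5 : Ch p 4 := cupE (show 2 + 1 = 3 from rfl) (cU2 p) (chh p)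

theorem cBh_mem : cBh p ∈ CC p 3 := F4T.cupE_mem_CC _ cB_mem chh_mem

theorem Y5_eq : cupE (show 2 + 3 = 5 from rfl) (cB p) (cBh p) =
    cupE (show 4 + 1 = 5 from rfl) (cBB p) (chh p) :=
  (cupE_assoc rfl rfl rfl rfl _ _ _).symm

theorem D0_Y5 : Dop 0 0 5 (cupE (show 2 + 3 = 5 from rfl) (cB p) (cBh p)) = dE 4 (cOm5 p) := by
  rw [Y5_eq, F4T.Dop_cupE _ cBB_mem chh_mem, D0_cBB, D0_chh, cupE_zero_right, add_zero, cOm5,
    dE_cupE, dE_chh, cupE_zero_right, smul_zero, add_zero]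

theorem iter_cupE_chh {s n : ℕ} (h : s + 1 = n) {x : Ch p (s + 1)} (hx : x ∈ CC p s) (m : ℕ) :
    (Dop 0 0 n)^[m] (cupE h x (chh p)) = cupE h ((Dop 0 0 s)^[m] x) (chh p) := by
  induction m with
  | zero => rfl
  | succ m ih =>
    rw [Function.iterate_succ_apply', Function.iterate_succ_apply', ih,
      F4T.Dop_cupE _ (CC_iter hx) chh_mem, D0_chh, cupE_zero_right, add_zero]

theorem D0p_cOm5 : (Dop 0 0 4)^[p - 1] (cOm5 p) = dE 3 (cU5 p) := by
  rw [cOm5, iter_cupE_chh _ cOm2_mem, D0p_cOm2, cU5, dE_cupE, dE_chh, cupE_zero_right, smul_zero,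
    add_zero]

/-! ### `D_2` -/

theorem D2_eq_zero {s : ℕ} {x : Ch p (s + 1)} (hx : x ∈ CC p s)
    (h : ∀ (B : Type) [CommRing B] [Algebra (ZMod p) B] (u : ℕ → G p B) (z : G p B),
      (TT x u z).natDegree < p ^ 2) : Dop 0 2 s x = 0 := by
  apply ext_ve
  intro B _ _ u z
  rw [← TT_coeff_pow hx, ve_zero]
  exact Polynomial.coeff_eq_zero_of_natDegree_lt (h B u z)

section values

variable {B : Type} [CommRing B] [Algebra (ZMod p) B]

theorem TT_ctt (u : ℕ → G p B) (z : G p B) :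
    TT (ctt p) u z = - (Polynomial.X ^ (p ^ 2) +
      Polynomial.C (ve (X (zv 0 0) : Ch p 1) u z ^ (p ^ 2))) := by
  rw [ctt, TT_neg, TT_pow, TT_z, add_pow_pow (p := p) 2, Polynomial.C_pow]

/-- the coefficient of `X^(p^2)` of `τ P` -/
theorem coeff_tt (u : ℕ → G p B) (z : G p B) {P : Polynomial B} (hP : P.natDegree < p ^ 2) :
    (TT (ctt p) u z * P).coeff (p ^ 2) = - P.coeff 0 := by
  rw [TT_ctt, neg_mul, Polynomial.coeff_neg, add_mul, Polynomial.coeff_add,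
    Polynomial.coeff_X_pow_mul', if_pos le_rfl, Nat.sub_self, Polynomial.coeff_C_mul,
    Polynomial.coeff_eq_zero_of_natDegree_lt hP, mul_zero, add_zero]

theorem cH2_deg (u : ℕ → G p B) (z : G p B) :
    (TT (cH2 p) u z).natDegree ≤ (p - 1) + (p - 1) :=
  cupC_natDegree _ _ cv_deg (fun i u z => hd_natDegree cw_mem i (cw_deg u z)) u z

theorem cH3_deg (u : ℕ → G p B) (z : G p B) : (TT (cH3 p) u z).natDegree ≤ 3 * p := by
  rw [cH3, TT_add, TT_add]
  refine (Polynomial.natDegree_add_le _ _).trans (max_le ((Polynomial.natDegree_add_le _ _).trans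
    (max_le ?_ ?_)) ?_)
  · refine (cupC_natDegree (k := p - 1) (l := p - 1 + p) _ _ cv_deg (fun i u z =>
      cupC_natDegree _ _ (fun i u z => hd_natDegree cw_mem i (cw_deg u z))
        (fun i u z => hd_natDegree cB_mem i (cB_deg u z)) u z) u z).trans (by omega)
  · refine (cupC_natDegree (k := p - 1) (l := p + (p - 1)) _ _ cv_deg (fun i u z =>
      cupC_natDegree _ _ (fun i u z => hd_natDegree cB_mem i (cB_deg u z))
        (fun i u z => hd_natDegree cw_mem i (cw_deg u z)) u z) u z).trans (by omega)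
  · rw [TT_cupE]
    exact (Polynomial.natDegree_mul_le_of_le (cB_deg _ _) (cH2_deg _ _)).trans (by omega)

end values

omit [Fact p.Prime] in
theorem sq_gt (hp : 5 ≤ p) : 3 * p < p ^ 2 := by
  rw [pow_two]
  exact Nat.mul_lt_mul_of_pos_right (by omega) (by omega)

theorem D2_Y6 (hp : 5 ≤ p) :
    Dop 0 2 6 (cupE (show 2 + 4 = 6 from rfl) (cB p) (cBB p)) = 0 := by
  refine D2_eq_zero (F4T.cupE_mem_CC _ cB_mem cBB_mem) fun B _ _ u z => ?_
  rw [TT_cupE, cBB, TT_cupE]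
  refine lt_of_le_of_lt (Polynomial.natDegree_mul_le_of_le (cB_deg _ _)
    (Polynomial.natDegree_mul_le_of_le (cB_deg _ _) (cB_deg _ _))) ?_
  have := sq_gt hp
  omega

theorem cOm2_deg {B : Type} [CommRing B] [Algebra (ZMod p) B] (u : ℕ → G p B) (z : G p B) :
    (TT (cOm2 p) u z).natDegree ≤ 2 * p := by
  rw [cOm2, TT_add, TT_cupE, TT_cupE]
  refine (Polynomial.natDegree_add_le _ _).trans (max_le ?_ ?_)
  · exact (Polynomial.natDegree_mul_le_of_le (cw_deg _ _) (cB_deg _ _)).trans (by omega)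
  · exact (Polynomial.natDegree_mul_le_of_le (cB_deg _ _) (cw_deg _ _)).trans (by omega)

theorem cOm3_deg {B : Type} [CommRing B] [Algebra (ZMod p) B] (u : ℕ → G p B) (z : G p B) :
    (TT (cOm3 p) u z).natDegree ≤ 3 * p := by
  rw [cOm3, cBB, TT_add, TT_add]
  simp only [TT_cupE]
  refine (Polynomial.natDegree_add_le _ _).trans (max_le ((Polynomial.natDegree_add_le _ _).trans
    (max_le ?_ ?_)) ?_)
  · exact (Polynomial.natDegree_mul_le_of_le (cw_deg _ _)
      (Polynomial.natDegree_mul_le_of_le (cB_deg _ _) (cB_deg _ _))).trans (by omega)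
  · exact (Polynomial.natDegree_mul_le_of_le (cB_deg _ _)
      (Polynomial.natDegree_mul_le_of_le (cw_deg _ _) (cB_deg _ _))).trans (by omega)
  · exact (Polynomial.natDegree_mul_le_of_le (cB_deg _ _)
      (Polynomial.natDegree_mul_le_of_le (cB_deg _ _) (cw_deg _ _))).trans (by omega)

theorem D2_cOm3 (hp : 5 ≤ p) : Dop 0 2 5 (cOm3 p) = 0 :=
  D2_eq_zero cOm3_mem fun _ _ _ u z => lt_of_le_of_lt (cOm3_deg u z) (sq_gt hp)

theorem cOm5_mem : cOm5 p ∈ CC p 4 := F4T.cupE_mem_CC _ cOm2_mem chh_mem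

theorem cU5_mem : cU5 p ∈ CC p 3 := F4T.cupE_mem_CC _ cU2_mem chh_mem

theorem D2_cOm5 (hp : 5 ≤ p) : Dop 0 2 4 (cOm5 p) = 0 := by
  refine D2_eq_zero cOm5_mem fun B _ _ u z => ?_
  rw [cOm5, TT_cupE]
  refine lt_of_le_of_lt (Polynomial.natDegree_mul_le_of_le (cOm2_deg _ _) (chh_deg _ _)) ?_
  have := sq_gt hp
  omega

theorem D2_Y5 (hp : 5 ≤ p) :
    Dop 0 2 5 (cupE (show 2 + 3 = 5 from rfl) (cB p) (cBh p)) = 0 := by
  refine D2_eq_zero (F4T.cupE_mem_CC _ cB_mem cBh_mem) fun B _ _ u z => ?_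
  rw [TT_cupE, cBh, TT_cupE]
  refine lt_of_le_of_lt (Polynomial.natDegree_mul_le_of_le (cB_deg _ _)
    (Polynomial.natDegree_mul_le_of_le (cB_deg _ _) (chh_deg _ _))) ?_
  have := sq_gt hp
  omega

theorem D2_cU3 (hp : 5 ≤ p) : Dop 0 2 4 (cU3 p) = (-3 : ZMod p) • cBB p := by
  apply ext_ve
  intro B _ _ u z
  have hq := sq_gt hp
  rw [← TT_coeff_pow cU3_mem, cU3, TT_sub, TT_add, TT_add, Polynomial.coeff_sub,
    Polynomial.coeff_add, Polynomial.coeff_add,
    Polynomial.coeff_eq_zero_of_natDegree_lt (lt_of_le_of_lt (cH3_deg u z) hq), sub_zero, cBB]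
  simp only [TT_cupE]
  have e2 : ∀ P Q R : Polynomial B, P * (Q * R) = Q * (P * R) := fun P Q R => by ring
  have e3 : ∀ P Q R : Polynomial B, P * (Q * R) = R * (P * Q) := fun P Q R => by ring
  have dg : ∀ u' u'' : ℕ → G p B, (TT (cB p) u' z * TT (cB p) u'' z).natDegree < p ^ 2 := by
    intro u' u''
    refine lt_of_le_of_lt (Polynomial.natDegree_mul_le_of_le (cB_deg _ _) (cB_deg _ _)) ?_
    omega
  rw [e2 (TT (cB p) u z) (TT (ctt p) _ z), e3 (TT (cB p) u z) (TT (cB p) _ z) (TT (ctt p) _ z),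
    coeff_tt _ _ (dg _ _), coeff_tt _ _ (dg _ _), coeff_tt _ _ (dg _ _), Polynomial.mul_coeff_zero,
    Polynomial.mul_coeff_zero, Polynomial.mul_coeff_zero]
  simp only [TT_coeff_zero, ve_smul, ve_cupE, ve_v3]
  have h3 : algebraMap (ZMod p) B 3 = 3 := map_ofNat _ 3
  rw [Algebra.smul_def, map_neg, h3]
  simp
  ring

theorem D2_cU5 (hp : 5 ≤ p) : Dop 0 2 3 (cU5 p) = (-2 : ZMod p) • cBh p := by
  apply ext_ve
  intro B _ _ u z
  have hq := sq_gt hp
  rw [← TT_coeff_pow cU5_mem, cU5, TT_cupE, cU2, TT_sub, TT_add, sub_mul, add_mul,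
    Polynomial.coeff_sub, Polynomial.coeff_add,
    Polynomial.coeff_eq_zero_of_natDegree_lt (lt_of_le_of_lt
      (Polynomial.natDegree_mul_le_of_le (cH2_deg u z) (chh_deg _ z)) (by omega)), sub_zero, cBh]
  simp only [TT_cupE]
  have e1 : ∀ P Q R : Polynomial B, P * Q * R = P * (Q * R) := fun P Q R => by ring
  have e2 : ∀ P Q R : Polynomial B, P * Q * R = Q * (P * R) := fun P Q R => by ring
  have dg : ∀ u' u'' : ℕ → G p B, (TT (cB p) u' z * TT (chh p) u'' z).natDegree < p ^ 2 := by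
    intro u' u''
    refine lt_of_le_of_lt (Polynomial.natDegree_mul_le_of_le (cB_deg _ _) (chh_deg _ _)) ?_
    omega
  rw [e1 (TT (ctt p) u z), e2 (TT (cB p) u z) (TT (ctt p) _ z),
    coeff_tt _ _ (dg _ _), coeff_tt _ _ (dg _ _), Polynomial.mul_coeff_zero,
    Polynomial.mul_coeff_zero]
  simp only [TT_coeff_zero, ve_smul, ve_cupE, ve_v3]
  have h3 : algebraMap (ZMod p) B 2 = 2 := map_ofNat _ 2
  rw [Algebra.smul_def, map_neg, h3]
  simp
  ring

/-! ### weights -/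

theorem cupE_wt {a b n w w' w'' : ℕ} (h : a + b = n) {x : Ch p (a + 1)} {y : Ch p (b + 1)}
    (hx : IsWt w x) (hy : IsWt w' y) (hw : w + w' = w'') : IsWt w'' (cupE h x y) :=
  (F4T.cupE_isWt h hx hy).cast hw

theorem cw_hd_wt {j w : ℕ} (h : w + j = p ^ 2 + p - 1) : IsWt w (hd j (cw p)) :=
  hd_isWt j (cw_isWt.cast h.symm)

theorem cB_hd_wt {j w : ℕ} (h : w + j = p ^ 2 + p) : IsWt w (hd j (cB p)) :=
  hd_isWt j (cB_isWt.cast h.symm)

theorem cv_wt {i w : ℕ} (hi : i ≤ p - 1) (h : w + i = p ^ 2 + p) : IsWt w (cv p i) := by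
  cases i with
  | zero =>
    rw [cv_zero]
    exact isWt_zero _
  | succ i =>
    refine wt_smul _ (cw_hd_wt ?_)
    omega

theorem cH2_wt : IsWt (2 * p ^ 2 + p) (cH2 p) := by
  have hp : 0 < p := (Fact.out : p.Prime).pos
  have hpp : p ≤ p ^ 2 := Nat.le_self_pow (by norm_num) p
  refine cupC_isWt _ fun i j hij => ?_
  exact cupE_wt _ (cv_wt (w := p ^ 2 + p - i) (by omega) (by omega))
    (cw_hd_wt (w := p ^ 2 + p - 1 - j) (by omega)) (by omega)

theorem cH3_wt : IsWt (3 * p ^ 2 + 2 * p) (cH3 p) := by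
  have hp : 0 < p := (Fact.out : p.Prime).pos
  have hpp : p ≤ p ^ 2 := Nat.le_self_pow (by norm_num) p
  refine IsWt.add (IsWt.add ?_ ?_) (cupE_wt _ cB_isWt cH2_wt (by omega))
  · refine cupC_isWt _ fun i j hij => ?_
    refine cupE_wt _ (cv_wt (w := p ^ 2 + p - i) (by omega) (by omega))
      (w' := 2 * p ^ 2 + 2 * p - 1 - j) (cupC_isWt _ fun k l hkl => ?_) (by omega)
    exact cupE_wt _ (cw_hd_wt (w := p ^ 2 + p - 1 - k) (by omega))
      (cB_hd_wt (w := p ^ 2 + p - l) (by omega)) (by omega)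
  · refine cupC_isWt _ fun i j hij => ?_
    refine cupE_wt _ (cv_wt (w := p ^ 2 + p - i) (by omega) (by omega))
      (w' := 2 * p ^ 2 + 2 * p - 1 - j) (cupC_isWt _ fun k l hkl => ?_) (by omega)
    exact cupE_wt _ (cB_hd_wt (w := p ^ 2 + p - k) (by omega))
      (cw_hd_wt (w := p ^ 2 + p - 1 - l) (by omega)) (by omega)

theorem cBB_wt : IsWt (2 * p ^ 2 + 2 * p) (cBB p) := cupE_wt _ cB_isWt cB_isWt (by omega)

theorem cBh_wt : IsWt (2 * p ^ 2 + 2 * p) (cBh p) := cupE_wt _ cB_isWt chh_isWt (by omega)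

theorem cOm2_wt : IsWt (2 * p ^ 2 + 2 * p - 1) (cOm2 p) := by
  have hp : 0 < p := (Fact.out : p.Prime).pos
  exact IsWt.add (cupE_wt _ cw_isWt cB_isWt (by omega)) (cupE_wt _ cB_isWt cw_isWt (by omega))

theorem cOm3_wt : IsWt (2 * p ^ 2 + 2 * p + p ^ 2 + p - 1) (cOm3 p) := by
  have hp : 0 < p := (Fact.out : p.Prime).pos
  refine IsWt.add (IsWt.add ?_ ?_) ?_
  · exact cupE_wt _ cw_isWt cBB_wt (by omega)
  · exact cupE_wt _ cB_isWt (cupE_wt _ cw_isWt cB_isWt rfl) (by omega)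
  · exact cupE_wt _ cB_isWt (cupE_wt _ cB_isWt cw_isWt rfl) (by omega)

theorem cU2_wt : IsWt (2 * p ^ 2 + p) (cU2 p) :=
  IsWt.sub (IsWt.add (cupE_wt _ ctt_isWt cB_isWt (by omega))
    (cupE_wt _ cB_isWt ctt_isWt (by omega))) cH2_wt

theorem cU3_wt : IsWt (2 * p ^ 2 + 2 * p + p ^ 2) (cU3 p) := by
  refine IsWt.sub (IsWt.add (IsWt.add ?_ ?_) ?_) (cH3_wt.cast (by omega))
  · exact cupE_wt _ ctt_isWt cBB_wt (by omega)
  · exact cupE_wt _ cB_isWt (cupE_wt _ ctt_isWt cB_isWt rfl) (by omega)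
  · exact cupE_wt _ cB_isWt (cupE_wt _ cB_isWt ctt_isWt rfl) (by omega)

theorem cast_ne {n : ℕ} (h0 : 0 < n) (hn : n < p) : ((n : ℕ) : ZMod p) ≠ 0 := by
  intro h
  rw [ZMod.natCast_eq_zero_iff] at h
  exact absurd (Nat.le_of_dvd h0 h) (by omega)

/-! ### cocycles -/

theorem dE_cBB : dE 4 (cBB p) = 0 := by
  rw [cBB, dE_cupE, dE_cB, cupE_zero_left, cupE_zero_right, smul_zero, add_zero]

theorem dE_cBh : dE 3 (cBh p) = 0 := by
  rw [cBh, dE_cupE, dE_cB, dE_chh, cupE_zero_left, cupE_zero_right, smul_zero, add_zero]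

theorem dE_Y6 : dE 6 (cupE (show 2 + 4 = 6 from rfl) (cB p) (cBB p)) = 0 := by
  rw [dE_cupE, dE_cB, dE_cBB, cupE_zero_left, cupE_zero_right, smul_zero, add_zero]

theorem dE_Y5 : dE 5 (cupE (show 2 + 3 = 5 from rfl) (cB p) (cBh p)) = 0 := by
  rw [dE_cupE, dE_cB, dE_cBh, cupE_zero_left, cupE_zero_right, smul_zero, add_zero]

/-! ### the structures -/

/-- `Y = B B B`, `Z = B B` -/
noncomputable def quad6 (hp : 5 ≤ p) : Quad p 1 (2 * p ^ 2 + 2 * p) where
  Y := cupE (show 2 + 4 = 6 from rfl) (cB p) (cBB p)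
  Om := cOm3 p
  U := cU3 p
  Z := cBB p
  κ := -3
  κ_ne := by
    rw [neg_ne_zero]
    exact cast_ne (n := 3) (by norm_num) (by omega)
  Y_mem := F4T.cupE_mem_CC _ cB_mem cBB_mem
  Om_mem := cOm3_mem
  U_mem := cU3_mem
  Y_wt := cupE_wt _ cB_isWt cBB_wt (by omega)
  Om_wt := cOm3_wt
  U_wt := cU3_wt
  D0Y := D0_Y6
  D2Y := D2_Y6 hp
  D2Om := D2_cOm3 hp
  D0Om := D0p_cOm3
  D2U := D2_cU3 hp

/-- `Y = B B h`, `Z = B h` -/
noncomputable def quad5 (hp : 5 ≤ p) : Quad p 0 (2 * p ^ 2 + 2 * p) where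
  Y := cupE (show 2 + 3 = 5 from rfl) (cB p) (cBh p)
  Om := cOm5 p
  U := cU5 p
  Z := cBh p
  κ := -2
  κ_ne := by
    rw [neg_ne_zero]
    exact cast_ne (n := 2) (by norm_num) (by omega)
  Y_mem := F4T.cupE_mem_CC _ cB_mem cBh_mem
  Om_mem := cOm5_mem
  U_mem := cU5_mem
  Y_wt := cupE_wt _ cB_isWt cBh_wt (by omega)
  Om_wt := by
    have hp' : 0 < p := (Fact.out : p.Prime).pos
    exact cupE_wt _ cOm2_wt chh_isWt (by omega)
  U_wt := cupE_wt _ cU2_wt chh_isWt (by omega)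
  D0Y := D0_Y5
  D2Y := D2_Y5 hp
  D2Om := D2_cOm5 hp
  D0Om := D0p_cOm5
  D2U := D2_cU5 hp

end Vale.Agent.P257.V4.A.F4P
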