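import Vale.Agent.P257.V4.A.F4Dot

/-!
# P257, part A, block F4: the cochain `X` with leading part `h_{11} b_{20}^3` and its coboundary
-/

namespace Vale.Agent.P257.V4.A.F4C

open MvPolynomial Finset _root_.Vale.Agent.P257.V4.A.UV

variable {p : ℕ} {s a b n : ℕ}

/-- the 2-cocycle `G = t_13 ∪ t_23 + t_23 ∪ (t_12 t_23 - t_13)` -/
noncomputable def GG (p : ℕ) : UC p 2 := UC.cup rfl (ka p) (tt p) + UC.cup rfl (tt p) (hp p)

/-- the 2-cocycle `g = t_13 ∪ t_12 + t_23 ∪ t_12² / 2` -/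
noncomputable def gg (p : ℕ) : UC p 2 :=
  UC.cup rfl (ka p) (ta p) + UC.cup rfl (tt p) ((2⁻¹ : ZMod p) • ta p ^ 2)

/-- first stage -/
noncomputable def X1 (p : ℕ) : UC p 3 := UC.cup rfl (ta p) (BB p) + UC.cup rfl (hp p) (uu p)

/-- second stage -/
noncomputable def X2 (p : ℕ) : UC p 5 :=
  UC.cup rfl (X1 p) (BB p) + UC.cup rfl (dot (X1 p)) (uu p) -
    UC.cup rfl (UC.cup (n := 3) rfl (ka p) (BB p)) (uu p)

/-- third stage -/
noncomputable def X3 (p : ℕ) : UC p 7 :=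
  UC.cup rfl (X2 p) (BB p) + UC.cup rfl (dot (X2 p)) (uu p) -
    UC.cup rfl (UC.cup (n := 5) rfl (UC.cup (n := 3) rfl (ka p) (BB p)) (BB p)) (uu p) -
    UC.cup rfl (UC.cup (n := 5) rfl (UC.cup (n := 3) rfl (ka p) (dot (BB p))) (uu p)) (uu p)

/-- the coboundary of `X1` (after `phi`) -/
noncomputable def L1 (p : ℕ) : UC p 4 := - UC.cup rfl (UC.cup (n := 3) rfl (ta p) (u1 p)) (ta p)

/-- the lower part of the coboundary of `X2` -/
noncomputable def low2 (p : ℕ) : UC p 6 :=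
  UC.cup rfl (L1 p) (BB p) - UC.cup rfl (UC.cup (n := 5) rfl (X1 p) (u1 p)) (ta p) +
    UC.cup rfl (dot (L1 p)) (uu p) +
    UC.cup rfl (UC.cup (n := 4) rfl (UC.cup (n := 3) rfl (ka p) (u1 p)) (ta p)) (uu p)

/-- the coboundary of `X2` (after `phi`) -/
noncomputable def L2 (p : ℕ) : UC p 6 :=
  - UC.cup rfl (UC.cup (n := 4) rfl (GG p) (uu p)) (uu p) + low2 p

/-- the leading part of the coboundary of `X3` -/
noncomputable def RR (p : ℕ) : UC p 8 :=
  - (UC.cup rfl (UC.cup (n := 6) rfl (UC.cup (n := 4) rfl (GG p) (uu p)) (uu p)) (BB p) +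
    UC.cup rfl (UC.cup (n := 6) rfl (UC.cup (n := 4) rfl (GG p) (uu p)) (BB p)) (uu p) +
    UC.cup rfl (UC.cup (n := 6) rfl (UC.cup (n := 4) rfl (GG p) (BB p)) (uu p)) (uu p))

/-- the lower part of the coboundary of `X3` -/
noncomputable def low3 (p : ℕ) : UC p 8 :=
  - UC.cup rfl (UC.cup (n := 6) rfl (UC.cup (n := 4) rfl (UC.cup (n := 2) rfl
      (tt p) (dot (hp p))) (uu p)) (uu p)) (uu p) -
    UC.cup rfl (UC.cup (n := 6) rfl (UC.cup (n := 4) rfl (UC.cup (n := 2) rfl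
      (tt p) (hp p)) (dot (uu p))) (uu p)) (uu p) -
    UC.cup rfl (UC.cup (n := 6) rfl (UC.cup (n := 4) rfl (ka p)
      (dot (UC.cup (n := 3) rfl (tt p) (uu p)))) (uu p)) (uu p) -
    UC.cup rfl (dot (UC.cup (n := 6) rfl (UC.cup (n := 4) rfl (GG p) (uu p)) (uu p))) (uu p) +
    UC.cup rfl (low2 p) (BB p) + UC.cup rfl (dot (low2 p)) (uu p) -
    UC.cup rfl (UC.cup (n := 7) rfl (X2 p) (u1 p)) (ta p) +
    UC.cup rfl (UC.cup (n := 6) rfl (UC.cup (n := 4) rfl (UC.cup (n := 3) rfl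
      (ka p) (u1 p)) (ta p)) (BB p)) (uu p) +
    UC.cup rfl (UC.cup (n := 6) rfl (UC.cup (n := 5) rfl (UC.cup (n := 3) rfl
      (ka p) (BB p)) (u1 p)) (ta p)) (uu p) +
    UC.cup rfl (UC.cup (n := 6) rfl (UC.cup (n := 4) rfl (ka p)
      (dot (UC.cup (n := 3) rfl (u1 p) (ta p)))) (uu p)) (uu p)

/-- the coboundary of `X3` (after `phi`) -/
noncomputable def xi (p : ℕ) : UC p 8 := RR p + low3 p

/-- the leading part of `X3` -/
noncomputable def A3 (p : ℕ) : UC p 7 :=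
  UC.cup rfl (UC.cup (n := 5) rfl (UC.cup (n := 3) rfl (ta p) (BB p)) (BB p)) (BB p)

/-! ### differentials -/

section

variable [Fact p.Prime]

theorem d_X1 : UC.d 3 (X1 p) = - UC.cup rfl (ta p) (UC.d 2 (BB p)) -
    UC.cup rfl (UC.cup (n := 2) rfl (ta p) (tt p)) (uu p) := by
  rw [X1, map_add, d_cup_odd (by decide), d_cup_odd (by decide), d_ta, d_hp, d_uu]
  apply ext_vl
  intro B _ _ u
  simp only [vl_add, vl_sub, vl_neg, vl_cup, vl_zero]
  ring

theorem d_X2 : UC.d 5 (X2 p) = UC.cup rfl (UC.d 3 (X1 p)) (BB p) -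
    UC.cup rfl (X1 p) (UC.d 2 (BB p)) +
    UC.cup rfl (- UC.cup rfl (tt p) (X1 p) - UC.cup rfl (X1 p) (tt p) + dot (UC.d 3 (X1 p)))
      (uu p) +
    UC.cup rfl (UC.cup (n := 4) rfl (UC.cup (n := 2) rfl (tt p) (ta p)) (BB p)) (uu p) +
    UC.cup rfl (UC.cup (n := 4) rfl (ka p) (UC.d 2 (BB p))) (uu p) := by
  rw [X2, map_sub, map_add, d_cup_odd (by decide), d_cup_odd (by decide), d_cup_odd (by decide),
    d_cup_odd (by decide), d_dot_odd (by decide), d_ka, d_uu]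
  apply ext_vl
  intro B _ _ u
  simp only [vl_add, vl_sub, vl_neg, vl_cup, vl_zero, vl_dot]
  ring

theorem d_X3 : UC.d 7 (X3 p) = UC.cup rfl (UC.d 5 (X2 p)) (BB p) -
    UC.cup rfl (X2 p) (UC.d 2 (BB p)) +
    UC.cup rfl (- UC.cup rfl (tt p) (X2 p) - UC.cup rfl (X2 p) (tt p) + dot (UC.d 5 (X2 p)))
      (uu p) +
    UC.cup rfl (UC.cup (n := 6) rfl (UC.cup (n := 4) rfl (UC.cup (n := 2) rfl
      (tt p) (ta p)) (BB p)) (BB p)) (uu p) +
    UC.cup rfl (UC.cup (n := 6) rfl (UC.cup (n := 4) rfl (ka p) (UC.d 2 (BB p))) (BB p)) (uu p) +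
    UC.cup rfl (UC.cup (n := 6) rfl (UC.cup (n := 3) rfl (ka p) (BB p)) (UC.d 2 (BB p))) (uu p) +
    UC.cup rfl (UC.cup (n := 6) rfl (UC.cup (n := 4) rfl (UC.cup (n := 2) rfl
      (tt p) (ta p)) (dot (BB p))) (uu p)) (uu p) +
    UC.cup rfl (UC.cup (n := 6) rfl (UC.cup (n := 4) rfl (ka p)
      (- UC.cup rfl (tt p) (BB p) + UC.cup rfl (BB p) (tt p) + dot (UC.d 2 (BB p))))
        (uu p)) (uu p) := by
  rw [X3, map_sub, map_sub, map_add, d_cup_odd (by decide), d_cup_odd (by decide),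
    d_cup_odd (by decide), d_cup_odd (by decide), d_cup_odd (by decide),
    d_cup_odd (by decide), d_cup_odd (by decide), d_cup_odd (by decide), d_dot_odd (by decide),
    d_dot_even (by decide), d_ka, d_uu]
  apply ext_vl
  intro B _ _ u
  simp only [vl_add, vl_sub, vl_neg, vl_cup, vl_zero, vl_dot]
  ring

/-! ### sequences coming from series -/

variable {B : Type} [CommRing B] [Algebra (ZMod p) B]

/-- Frobenius relations between the rows -/
def Adm (p : ℕ) {B : Type} [CommRing B] (u : ℕ → Un B) : Prop :=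
  ∀ i j, en 0 1 (u i) (u j) ^ p = en 1 1 (u i) (u j) ∧
    en 1 1 (u i) (u j) ^ p = en 2 1 (u i) (u j)

theorem adm_toUn (v : ℕ → G p B) : Adm p (fun i => toUn (v i)) := by
  intro i j
  simp only [en, ← map_inv, ← map_mul, toUn_e, ← pow_mul, ← pow_succ]
  simp

/-- Equality under `phi` can be tested on sequences of matrices coming from series. -/
theorem phi_ext {x y : UC p s}
    (h : ∀ (B : Type) [CommRing B] [Algebra (ZMod p) B] (u : ℕ → Un B), Adm p u →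
      vl x u = vl y u) : phi p s x = phi p s y := by
  apply Ch.ext_ev
  intro B _ _ c
  have key : (fun i => if h : i < s + 1 then (UChain.ofChain c).g ⟨i, h⟩ else 1) =
      fun i => toUn (if h : i < s + 1 then c.g ⟨i, h⟩ else 1) := by
    funext i
    split_ifs
    · rfl
    · exact (map_one _).symm
  rw [ev_phi, ev_phi, ev_eq_vl, ev_eq_vl, key]
  exact h B _ (adm_toUn _)

theorem vl_dBB {u : ℕ → Un B} (hu : Adm p u) (a : ℕ) :
    vl (UC.d 2 (BB p)) (fun k => u (a + k)) =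
      vl (u1 p) (fun k => u (a + k)) * vl (ta p) (fun k => u (a + 2 + k)) -
      vl (tt p) (fun k => u (a + k)) * vl (uu p) (fun k => u (a + 1 + k)) := by
  rw [d_BB, vl_sub, vl_cup, vl_cup, vl_pow, vl_pow, vl_tl, vl_ta, vl_ta, vl_tt, (hu _ _).1,
    (hu _ _).2]
  simp only [← add_assoc]

theorem vl_dX1 {u : ℕ → Un B} (hu : Adm p u) : vl (UC.d 3 (X1 p)) u = vl (L1 p) u := by
  rw [d_X1, L1]
  simp only [vl_sub, vl_neg, vl_cup, vl_dBB hu, Nat.reduceAdd]
  ring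

theorem vl_dX2 {u : ℕ → Un B} (hu : Adm p u) : vl (UC.d 5 (X2 p)) u = vl (L2 p) u := by
  rw [d_X2, L2, low2, GG]
  simp only [vl_sub, vl_neg, vl_add, vl_cup, vl_dot, vl_dX1 hu, vl_dBB hu, ← add_assoc,
    Nat.reduceAdd]
  rw [X1]
  simp only [vl_add, vl_cup, ← add_assoc, Nat.reduceAdd]
  ring

theorem vl_X2_shift (u : ℕ → Un B) : vl (X2 p) (fun k => u (1 + k)) =
    vl (ta p) (fun k => u (1 + k)) * vl (BB p) (fun k => u (2 + k)) *
      vl (BB p) (fun k => u (4 + k)) +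
    vl (hp p) (fun k => u (1 + k)) * vl (uu p) (fun k => u (2 + k)) *
      vl (BB p) (fun k => u (4 + k)) +
    (vl (hp p) (fun k => u (1 + k)) * vl (BB p) (fun k => u (2 + k)) +
      vl (ta p) (fun k => u (1 + k)) * vl (dot (BB p)) (fun k => u (2 + k)) +
      vl (dot (hp p)) (fun k => u (1 + k)) * vl (uu p) (fun k => u (2 + k)) +
      vl (hp p) (fun k => u (1 + k)) * vl (dot (uu p)) (fun k => u (2 + k))) *
      vl (uu p) (fun k => u (4 + k)) := by
  rw [X2, X1, dot_add, dot_cup, dot_cup, dot_ta]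
  simp only [vl_add, vl_sub, vl_cup, ← add_assoc, Nat.reduceAdd]
  ring

theorem vl_dX3 {u : ℕ → Un B} (hu : Adm p u) : vl (UC.d 7 (X3 p)) u = vl (xi p) u := by
  rw [d_X3, xi, RR, low3]
  simp only [vl_sub, vl_neg, vl_add, vl_cup, vl_dot (UC.d 5 (X2 p)), vl_dot (UC.d 2 (BB p)),
    vl_dot (low2 p), vl_dot (UC.cup (n := 3) rfl (tt p) (uu p)),
    vl_dot (UC.cup (n := 3) rfl (u1 p) (ta p)),
    vl_dot (UC.cup (n := 6) rfl (UC.cup (n := 4) rfl (GG p) (uu p)) (uu p)),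
    vl_dX2 hu, vl_dBB hu, ← add_assoc, Nat.reduceAdd, vl_X2_shift]
  rw [L2, GG]
  simp only [vl_add, vl_neg, vl_cup, Nat.reduceAdd]
  ring

end

end Vale.Agent.P257.V4.A.F4C
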