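import Vale.Agent.P257.V4.A.F2Van
import Vale.Agent.P257.V4.A.MG4
import Vale.Agent.P257.V4.A.Cas
import Vale.Agent.P257.V4.A.A0

/-!
# P257, V(4): `Ext^6_{2p^2+4p+2} = 0` (block F5)
-/

namespace Vale.Agent.P257.V4.A.F5

open Finset ML F2Van

variable {p : ℕ} {e : ℕ →₀ ℕ} {m : Mono}

theorem digit {p a b x y : ℕ} (ha : a < p) (hb : b < p) (h : a + p * x = b + p * y) :
    a = b ∧ x = y := by
  have h1 : (a + p * x) % p = (b + p * y) % p := by rw [h]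
  rw [Nat.add_mul_mod_self_left, Nat.add_mul_mod_self_left, Nat.mod_eq_of_lt ha,
    Nat.mod_eq_of_lt hb] at h1
  subst h1
  have h2 : p * x = p * y := by omega
  exact ⟨rfl, Nat.eq_of_mul_eq_mul_left (by omega) h2⟩

theorem lt_cube (hp : 11 ≤ p) : 2 * p ^ 2 + 4 * p + 2 < p ^ 3 := by
  have h2 : p ^ 2 = p * p := by ring
  have h3 : p ^ 3 = p * p ^ 2 := by ring
  have h5 : 11 * p ≤ p * p := Nat.mul_le_mul_right _ hp
  have h6 : 11 * p ^ 2 ≤ p * p ^ 2 := Nat.mul_le_mul_right _ hp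
  omega

theorem core (p : ℕ) (hp : 11 ≤ p) (h00 h10 h20 h01 h11 h02 : ℕ) (l00 : h00 ≤ 1) (l10 : h10 ≤ 1)
    (l20 : h20 ≤ 1) (l01 : h01 ≤ 1) (l11 : h11 ≤ 1) (l02 : h02 ≤ 1) (B0 B1 B2 : ℕ)
    (c0 c1 c2 b0 b1 : ℕ) (hc0 : c0 = h00 + h10 + h20) (hc1 : c1 = h10 + h20 + h01 + h11)
    (hc2 : c2 = h20 + h11 + h02) (hb0 : b0 = B0 + B1) (hb1 : b1 = B1 + B2)
    (hs : h00 + h10 + h20 + h01 + h11 + h02 + 2 * (B0 + B1 + B2) = 6)
    (h : c0 + p * b0 + (c1 + p * b1) * p + c2 * p ^ 2 = 2 * p ^ 2 + 4 * p + 2) :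
    c0 = 2 ∧ ((c1 = 3 ∧ c2 = 2) ∨ (c1 = 2 ∧ c2 = 1) ∨ (c1 = 3 ∧ c2 = 1)) := by
  have e1 : c0 + p * (b0 + c1 + p * (b1 + c2)) = 2 + p * (4 + p * 2) := by
    have : c0 + p * (b0 + c1 + p * (b1 + c2)) =
      c0 + p * b0 + (c1 + p * b1) * p + c2 * p ^ 2 := by ring
    rw [this, h]
    ring
  obtain ⟨d0, e2⟩ := digit (by omega) (by omega) e1
  obtain ⟨d1, d2⟩ := digit (by omega) (by omega) e2
  omega

theorem list6 (hp : 11 ≤ p) (hw : pw p e = 2 * p ^ 2 + 4 * p + 2) (he : ∀ k, m.e p k = e k)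
    (hs : m.s = 6) : ∃ c1 c2 b0 b1 : ℕ, e 0 = 2 + p * b0 ∧ e 1 = c1 + p * b1 ∧ e 2 = c2 ∧
      ((c1 = 3 ∧ c2 = 2) ∨ (c1 = 2 ∧ c2 = 1) ∨ (c1 = 3 ∧ c2 = 1)) := by
  have h : pw p e < p ^ 3 := by rw [hw]; exact lt_cube hp
  have hp2 : 2 ≤ p := by omega
  have hH := card_H hp2 h he
  have hB := nb_eq hp2 h he
  have c0 := hcov_eq hp2 h he 0
  have c1 := hcov_eq hp2 h he 1
  have c2 := hcov_eq hp2 h he 2
  have B0 := bcov_eq hp2 h he 0
  have B1 := bcov_eq hp2 h he 1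
  have B2 := bcov_eq hp2 h he 2
  have zh : ∀ k i, 3 ≤ i + k → hb m k i = 0 := fun k i hk => hb_zero hp2 h he hk
  have zB : ∀ k i, 3 ≤ i + k + 1 → m.B (k, i) = 0 := fun k i hk => B_zero hp2 h he hk
  have z1 := zh 1 2 (by omega)
  have z2 := zh 2 1 (by omega)
  have z3 := zh 2 2 (by omega)
  have y1 := zB 0 2 (by omega)
  have y2 := zB 1 1 (by omega)
  have y3 := zB 1 2 (by omega)
  have y4 := zB 2 0 (by omega)
  have y5 := zB 2 1 (by omega)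
  have y6 := zB 2 2 (by omega)
  have hpw := pw_eq_sum hp2 e h
  simp only [sum_range_succ, sum_range_zero, z1, z2, z3, y1, y2, y3, y4, y5, y6,
    ite_self] at hH hB c0 c1 c2 B0 B1 B2 hpw
  norm_num at c0 c1 c2 B0 B1 B2
  have e0 : e 0 = m.hcov 0 + p * m.bcov 0 := (he 0).symm
  have e1 : e 1 = m.hcov 1 + p * m.bcov 1 := (he 1).symm
  have e2 : e 2 = m.hcov 2 + p * m.bcov 2 := (he 2).symm
  rw [B2, mul_zero, add_zero] at e2
  have key := core p hp (hb m 0 0) (hb m 1 0) (hb m 2 0) (hb m 0 1) (hb m 1 1) (hb m 0 2)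
    (hb_le _ _ _) (hb_le _ _ _) (hb_le _ _ _) (hb_le _ _ _) (hb_le _ _ _) (hb_le _ _ _)
    (m.B (0, 0)) (m.B (1, 0)) (m.B (0, 1)) (m.hcov 0) (m.hcov 1) (m.hcov 2) (m.bcov 0) (m.bcov 1)
    (by omega) (by omega) (by omega) (by omega) (by omega)
    (by unfold Mono.s at hs; omega)
    (by
      rw [← e0, ← e1, ← e2]
      rw [hw] at hpw
      rw [hpw]
      ring)
  obtain ⟨k0, key⟩ := key
  exact ⟨_, _, _, _, by rw [e0, k0], e1, e2, key⟩

theorem vanA6 [Fact p.Prime] (hp : 11 ≤ p) (e : ℕ →₀ ℕ) (hw : pw p e = 2 * p ^ 2 + 4 * p + 2) :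
    VanA p 6 e := by
  have hp2 : 2 ≤ p := by omega
  have hlt : pw p e < p ^ 3 := by rw [hw]; exact lt_cube hp
  by_cases hm : ∀ m : Mono, m.s = 6 → (∀ k, m.e p k = e k) → False
  · exact MG.vanA_of_noMono hm
  · simp only [not_forall, not_false_eq_true, exists_prop] at hm
    obtain ⟨m, hs, he, -⟩ := hm
    obtain ⟨c1, c2, b0, b1, a0, a1, a2, h⟩ := list6 hp hw he hs
    refine Cas.vanA_of_Qe (by omega) _ _ ?_
    rw [Qe_eq e fun k hk => zero_of_lt hp2 hlt hk]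
    simp only [sum_range_succ, sum_range_zero, zero_add, a0, a1, a2,
      zero_of_lt hp2 hlt (le_refl 3)]
    push_cast
    rw [ZMod.natCast_self]
    rcases h with ⟨rfl, rfl⟩ | ⟨rfl, rfl⟩ | ⟨rfl, rfl⟩
    · convert natCast_ne_zero hp (a := 2) (by norm_num) (by norm_num) using 1
      push_cast
      ring
    · convert natCast_ne_zero hp (a := 2) (by norm_num) (by norm_num) using 1
      push_cast
      ring
    · convert natCast_ne_zero hp (a := 1) (by norm_num) (by norm_num) using 1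
      push_cast
      ring

/-- **F5** -/
theorem f5 [Fact p.Prime] (hp : 11 ≤ p) : Ch.Van p 6 (2 * p ^ 2 + 4 * p + 2) :=
  van_of_vanA fun e he => vanA6 hp e he

end Vale.Agent.P257.V4.A.F5
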