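import Vale.Agent.P257.V4.A.ListF
import Vale.Agent.P257.V4.A.Out

/-!
# P257, V(4), part A: vanishing multidegrees

The vanishing for the first Frobenius kernel of all multidegrees of bidegree `(6, 2p^2+4p+2)`, and
of all multidegrees of bidegrees `(5, 2p^2+3p+3)` and `(7, 3p^2+4p)` but one, resp. two.
-/

namespace Vale.Agent.P257.V4.A.FVan

open Finset ML F2Van

variable {p : ℕ} [Fact p.Prime]

/-- vanishing from a list of multidegrees with nonzero Casimir form -/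
theorem vanA_of (hp : p ≠ 2) {s : ℕ} {e : ℕ →₀ ℕ} {P : Prop}
    (hl : ∀ m : Mono, (∀ k, m.e p k = e k) → m.s = s → P)
    (hQ : P → ((Cas.Qe e : ℤ) : ZMod p) ≠ 0) : VanA p s e := by
  by_cases hP : P
  · exact Cas.vanA_of_Qe hp s e (hQ hP)
  · exact MG.vanA_of_noMono fun m hs he => hP (hl m he hs)

theorem Qe3 {e : ℕ →₀ ℕ} (h : pw p e < p ^ 3) :
    Cas.Qe e = ((e 0 : ℤ) - (e 0 : ℤ) ^ 2 + (e 0 : ℤ) * (e 1 : ℤ)) +
      ((e 1 : ℤ) - (e 1 : ℤ) ^ 2 + (e 1 : ℤ) * (e 2 : ℤ)) + ((e 2 : ℤ) - (e 2 : ℤ) ^ 2) := by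
  have hp : 2 ≤ p := (Fact.out : p.Prime).two_le
  rw [Qe_eq e fun k hk => zero_of_lt hp h hk]
  simp only [sum_range_succ, sum_range_zero, zero_add, zero_of_lt hp h (le_refl 3)]
  push_cast
  ring

/-- all multidegrees in bidegree `(6, 2p^2+4p+2)` -/
theorem vanA6 (hp : 11 ≤ p) (e : ℕ →₀ ℕ) (hw : wtE p e = 2 * p ^ 2 + 4 * p + 2) :
    VanA p 6 e := by
  have hlt : pw p e < p ^ 3 := lt_of_eq_of_lt hw (ListF.lt_cube hp (by omega))
  refine vanA_of (by omega) (fun m he hs => ListF.list6 hp hw he hs) fun hP => ?_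
  rw [Qe3 hlt]
  rcases hP with ⟨a0, a1, a2⟩ | ⟨a0, a1, a2⟩ | ⟨a0, a1, a2⟩ <;> rw [a0, a1, a2] <;> push_cast
  · have := natCast_ne_zero hp (a := 2) (by omega) (by omega)
    rw [CharP.cast_eq_zero (ZMod p) p]
    convert this using 1
    push_cast; ring
  · have := natCast_ne_zero hp (a := 1) (by omega) (by omega)
    rw [CharP.cast_eq_zero (ZMod p) p]
    convert this using 1
    push_cast; ring
  · have := natCast_ne_zero hp (a := 2) (by omega) (by omega)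
    rw [CharP.cast_eq_zero (ZMod p) p]
    convert this using 1
    push_cast; ring

/-- (F5), second version -/
theorem f5 (hp : 11 ≤ p) : Ch.Van p 6 (2 * p ^ 2 + 4 * p + 2) :=
  van_of_vanA fun e hw => vanA6 hp e hw

/-- the multidegrees in bidegree `(5, 2p^2+3p+3)` but one -/
theorem vanA5 (hp : 11 ≤ p) (e : ℕ →₀ ℕ) (hw : wtE p e = 2 * p ^ 2 + 3 * p + 3)
    (hne : ¬ (e 0 = p + 3 ∧ e 1 = p + 2 ∧ e 2 = 1)) : VanA p 5 e := by
  have hlt : pw p e < p ^ 3 := lt_of_eq_of_lt hw (ListF.lt_cube hp (by omega))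
  refine vanA_of (P := e 0 = 3 ∧ e 1 = 3 ∧ e 2 = 2) (by omega)
    (fun m he hs => (ListF.list5 hp hw he hs).resolve_right hne) fun hP => ?_
  rw [Qe3 hlt]
  obtain ⟨a0, a1, a2⟩ := hP
  rw [a0, a1, a2]
  push_cast
  have := natCast_ne_zero hp (a := 1) (by omega) (by omega)
  convert this using 1
  push_cast; ring

/-- the multidegrees in bidegree `(7, 3p^2+4p)` but two -/
theorem vanA7 (hp : 11 ≤ p) (e : ℕ →₀ ℕ) (hw : wtE p e = 3 * p ^ 2 + 4 * p)
    (hne : ¬ (e 0 = 2 * p ∧ e 1 = p + 2 ∧ e 2 = 2))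
    (hne' : ¬ (e 0 = 3 * p ∧ e 1 = 3 * p + 1 ∧ e 2 = 0)) : VanA p 7 e := by
  have hlt : pw p e < p ^ 3 := lt_of_eq_of_lt hw (ListF.lt_cube hp (by omega))
  refine vanA_of (P := e 0 = 3 * p ∧ e 1 = 2 * p + 1 ∧ e 2 = 1) (by omega)
    (fun m he hs => ((ListF.list7 hp hw he hs).resolve_left hne).resolve_right hne') fun hP => ?_
  rw [Qe3 hlt]
  obtain ⟨a0, a1, a2⟩ := hP
  rw [a0, a1, a2]
  push_cast
  have := natCast_ne_zero hp (a := 1) (by omega) (by omega)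
  rw [CharP.cast_eq_zero (ZMod p) p]
  convert this using 1
  push_cast; ring

end Vale.Agent.P257.V4.A.FVan
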