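import Vale.Agent.P257.V4.A.FinalT
import Vale.Agent.P257.V4.A.F3
import Vale.Agent.P257.V4.A.F4

/-!
# P257, V(4): part A is complete
-/

namespace Vale.Agent.P257.V4.A

/-- **Part A**: all algebraic inputs for `V(4)`, for every prime `p ≥ 11`. -/
theorem outStmt : OutStmt := fun _ _ hp => out_of_F34 hp (F3.f3 hp) (F4.f4 hp)

end Vale.Agent.P257.V4.A
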