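import Vale.Agent.P257.V4.A.MonoV4E

/-!
# P257 / V(4), part A: emptiness along the three chains (helper717)

Each monomial without the letter `(0, j)` along a chain multiplies up to a monomial of the
complete `v_4` list with too small an exponent of `b_(0,j)`.
-/

namespace Vale.Agent.P257.V4.A.ML

open Finset

/-- multiply by a power of a polynomial letter -/
noncomputable def Mono.addBn (m : Mono) (a : ℕ × ℕ) (n : ℕ) : Mono :=
  ⟨m.H, m.B + Finsupp.single a n⟩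

theorem Mono.addBn_s (m : Mono) (a : ℕ × ℕ) (n : ℕ) : (m.addBn a n).s = m.s + 2 * n := by
  unfold Mono.addBn Mono.s
  rw [Mono.nb_add, Mono.nb_single]
  simp only
  ring

theorem Mono.addBn_deg (p : ℕ) (m : Mono) (a : ℕ × ℕ) (n : ℕ) :
    (m.addBn a n).deg p = m.deg p + n * (p * lw p a) := by
  unfold Mono.addBn Mono.deg
  rw [Finsupp.sum_add_index' (fun _ => by simp) (fun _ _ _ => by ring),
    Finsupp.sum_single_index (by simp)]
  ring

theorem Mono.addBn_B_self (m : Mono) (a : ℕ × ℕ) (n : ℕ) : (m.addBn a n).B a = m.B a + n := by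
  simp [Mono.addBn]

theorem Mono.addBn_B_ne (m : Mono) {a b : ℕ × ℕ} (h : b ≠ a) (n : ℕ) :
    (m.addBn a n).B b = m.B b := by
  simp [Mono.addBn, h]

theorem Mono.addH_B (m : Mono) (a b : ℕ × ℕ) : (m.addH a).B b = m.B b := rfl

theorem lw_00 (p : ℕ) : lw p (0, 0) = 1 := by simp [lw, NN_one]
theorem lw_01 (p : ℕ) : lw p (0, 1) = p := by simp [lw, NN_one]

theorem v4_two {p : ℕ} (hp : 11 ≤ p) (m : Mono) (hs : m.s = (2 * p - 2) * 2 + 1)
    (hD : m.deg p = NN p 4 + 2) : m.B (0, 0) = p - 2 ∧ m.B (0, 1) = p - 2 := by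
  rcases list_v4_l hp (by omega) m hs hD with h | h | h | h
  · omega
  · rcases h.2 with rfl | rfl
    · simp [V2a]
    · simp [V2b]
  · omega
  · omega

theorem v4_sub {p : ℕ} (hp : 11 ≤ p) (m : Mono) (hs : m.s = (2 * p - 2) * (p - 1) + 1)
    (hD : m.deg p = NN p 4 + (p - 1)) : p ^ 2 - 2 * p - 2 ≤ m.B (0, 0) := by
  rcases list_v4_l hp (by omega) m hs hD with h | h | h | h
  · omega
  · omega
  · rcases h.2 with rfl | rfl | rfl
    · simp [Va]; omega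
    · simp [Vb]; omega
    · simp [Vc]
  · omega

theorem v4_self {p : ℕ} (hp : 11 ≤ p) (m : Mono) (hs : m.s = (2 * p - 2) * p + 1)
    (hD : m.deg p = NN p 4 + p) : p ^ 2 - p - 2 ≤ m.B (0, 0) := by
  rcases list_v4_l hp (by omega) m hs hD with h | h | h | h
  · omega
  · omega
  · omega
  · rcases h.2 with rfl | rfl
    · simp [Wa]; omega
    · simp [Wb]

/-- No monomial of bidegree `(s, D)` without factors `h_(0,j)`, `b_(0,j)`. -/
def NoT (p j s D : ℕ) : Prop :=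
  ∀ m : Mono, (0, j) ∉ m.H → m.B (0, j) = 0 → m.s = s → m.deg p ≠ D

theorem chain_c1 {p : ℕ} (hp : 11 ≤ p) : ∀ k < p - 2,
    NoT p 0 (2 * p + 1 + 2 * (k + 1)) (p ^ 3 + 3 * p + 3 + p * (k + 1)) := by
  intro k hk m _ hB hs hD
  obtain ⟨r, rfl⟩ : ∃ r, p = k + 3 + r := ⟨p - (k + 3), by omega⟩
  have h := v4_two hp (m.addBn (0, 0) r) (by rw [Mono.addBn_s, hs]; omega)
    (by rw [Mono.addBn_deg, hD, lw_00, NN_four]; ring)
  rw [Mono.addBn_B_self, hB] at h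
  omega

theorem chain_c2 {p : ℕ} (hp : 11 ≤ p) : ∀ k < p - 2,
    NoT p 0 (2 * p + 1 + 2 * k + 1) (p ^ 3 + 3 * p + 3 + p * (k + 1) - 1) := by
  intro k hk m hH hB hs hD
  obtain ⟨r, rfl⟩ : ∃ r, p = k + 3 + r := ⟨p - (k + 3), by omega⟩
  have hD' : m.deg (k + 3 + r) + 1 = (k + 3 + r) ^ 3 + 3 * (k + 3 + r) + 3 +
    (k + 3 + r) * (k + 1) := by rw [hD]; omega
  have h := v4_two hp ((m.addH (0, 0)).addBn (0, 0) r)
    (by rw [Mono.addBn_s, Mono.addH_s m hH, hs]; omega)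
    (by rw [Mono.addBn_deg, Mono.addH_deg _ m hH, lw_00, hD', NN_four]; ring)
  rw [Mono.addBn_B_self, Mono.addH_B, hB] at h
  omega

theorem chain_d1 {p : ℕ} (hp : 11 ≤ p) : ∀ k < p - 2,
    NoT p 1 (5 + 2 * (k + 1)) (2 * p ^ 2 + 3 * p + 3 + p ^ 2 * (k + 1)) := by
  intro k hk m _ hB hs hD
  obtain ⟨r, rfl⟩ : ∃ r, p = k + 3 + r := ⟨p - (k + 3), by omega⟩
  have h := v4_two hp ((m.addBn (0, 1) r).addBn (0, 0) (k + 1 + r))
    (by rw [Mono.addBn_s, Mono.addBn_s, hs]; omega)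
    (by rw [Mono.addBn_deg, Mono.addBn_deg, hD, lw_00, lw_01, NN_four]; ring)
  have h2 := h.2
  rw [Mono.addBn_B_ne _ (a := (0, 0)) (b := (0, 1)) (by simp), Mono.addBn_B_self, hB] at h2
  omega

theorem chain_d2 {p : ℕ} (hp : 11 ≤ p) : ∀ k < p - 2,
    NoT p 1 (5 + 2 * k + 1) (2 * p ^ 2 + 3 * p + 3 + p ^ 2 * (k + 1) - p) := by
  intro k hk m hH hB hs hD
  obtain ⟨r, rfl⟩ : ∃ r, p = k + 3 + r := ⟨p - (k + 3), by omega⟩
  have hD' : m.deg (k + 3 + r) + (k + 3 + r) = 2 * (k + 3 + r) ^ 2 + 3 * (k + 3 + r) + 3 +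
    (k + 3 + r) ^ 2 * (k + 1) := by rw [hD]; omega
  have h := v4_two hp (((m.addH (0, 1)).addBn (0, 1) r).addBn (0, 0) (k + 1 + r))
    (by rw [Mono.addBn_s, Mono.addBn_s, Mono.addH_s m hH, hs]; omega)
    (by rw [Mono.addBn_deg, Mono.addBn_deg, Mono.addH_deg _ m hH, lw_00, lw_01, hD', NN_four]; ring)
  have h2 := h.2
  rw [Mono.addBn_B_ne _ (a := (0, 0)) (b := (0, 1)) (by simp), Mono.addBn_B_self, Mono.addH_B,
    hB] at h2
  omega

theorem chain_a1 {p : ℕ} (hp : 11 ≤ p) : ∀ k < p ^ 2 - p - 2,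
    NoT p 0 (5 + 2 * (k + 1)) (2 * p ^ 2 + 4 * p + 1 + p * (k + 1)) := by
  intro k hk m _ hB hs hD
  obtain ⟨r, hr⟩ : ∃ r, p ^ 2 = k + 3 + r + p := ⟨p ^ 2 - (k + 3) - p, by omega⟩
  have e1 : (2 * p - 2) * p = 2 * p ^ 2 - 2 * p := by
    rw [Nat.sub_mul]; congr 1; ring
  have h := v4_self hp (m.addBn (0, 0) r) (by rw [Mono.addBn_s, hs, e1]; omega)
    (by
      rw [Mono.addBn_deg, hD, lw_00, NN_four]
      have : p ^ 3 = p * (k + 3 + r + p) := by rw [← hr]; ring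
      rw [this, hr]
      nlinarith [hr])
  rw [Mono.addBn_B_self, hB] at h
  omega

theorem chain_a2 {p : ℕ} (hp : 11 ≤ p) : ∀ k < p ^ 2 - p - 2,
    NoT p 0 (5 + 2 * k + 1) (2 * p ^ 2 + 4 * p + 1 + p * (k + 1) - 1) := by
  intro k hk m hH hB hs hD
  obtain ⟨r, hr⟩ : ∃ r, p ^ 2 = k + 3 + r + p := ⟨p ^ 2 - (k + 3) - p, by omega⟩
  have e1 : (2 * p - 2) * p = 2 * p ^ 2 - 2 * p := by
    rw [Nat.sub_mul]; congr 1; ring
  have hD' : m.deg p + 1 = 2 * p ^ 2 + 4 * p + 1 + p * (k + 1) := by rw [hD]; omega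
  have h := v4_self hp ((m.addH (0, 0)).addBn (0, 0) r)
    (by rw [Mono.addBn_s, Mono.addH_s m hH, hs, e1]; omega)
    (by
      rw [Mono.addBn_deg, Mono.addH_deg _ m hH, lw_00, hD', NN_four]
      have : p ^ 3 = p * (k + 3 + r + p) := by rw [← hr]; ring
      rw [this, hr]
      nlinarith [hr])
  rw [Mono.addBn_B_self, Mono.addH_B, hB] at h
  omega

theorem q_mul_sub {p : ℕ} (hp : 11 ≤ p) : (2 * p - 2) * (p - 1) = 2 * p ^ 2 - 4 * p + 2 := by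
  obtain ⟨q, rfl⟩ : ∃ q, p = q + 11 := ⟨p - 11, by omega⟩
  have e2 : 2 * (q + 11) - 2 = 2 * q + 20 := by omega
  have e3 : q + 11 - 1 = q + 10 := by omega
  have e4 : (2 * q + 20) * (q + 10) = 2 * (q * q) + 40 * q + 200 := by ring
  have e5 : 2 * (q + 11) ^ 2 = 2 * (q * q) + 44 * q + 242 := by ring
  rw [e2, e3, e4, e5]
  omega

theorem chain_b1 {p : ℕ} (hp : 11 ≤ p) : ∀ k < p ^ 2 - 2 * p - 2,
    NoT p 0 (7 + 2 * (k + 1)) (3 * p ^ 2 + 4 * p + p * (k + 1)) := by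
  intro k hk m _ hB hs hD
  obtain ⟨r, hr⟩ : ∃ r, p ^ 2 = k + 3 + r + 2 * p := ⟨p ^ 2 - (k + 3) - 2 * p, by omega⟩
  have h := v4_sub hp (m.addBn (0, 0) r) (by rw [Mono.addBn_s, hs, q_mul_sub hp]; omega)
    (by
      rw [Mono.addBn_deg, hD, lw_00, NN_four]
      have : p ^ 3 = p * (k + 3 + r + 2 * p) := by rw [← hr]; ring
      have e4 : 1 + p + p ^ 2 + p ^ 3 + (p - 1) = p ^ 3 + p ^ 2 + 2 * p := by omega
      rw [e4, this]
      nlinarith [hr])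
  rw [Mono.addBn_B_self, hB] at h
  omega

theorem chain_b2 {p : ℕ} (hp : 11 ≤ p) : ∀ k < p ^ 2 - 2 * p - 2,
    NoT p 0 (7 + 2 * k + 1) (3 * p ^ 2 + 4 * p + p * (k + 1) - 1) := by
  intro k hk m hH hB hs hD
  obtain ⟨r, hr⟩ : ∃ r, p ^ 2 = k + 3 + r + 2 * p := ⟨p ^ 2 - (k + 3) - 2 * p, by omega⟩
  have hpk : 0 < p * (k + 1) := by positivity
  have hD' : m.deg p + 1 = 3 * p ^ 2 + 4 * p + p * (k + 1) := by rw [hD]; omega
  have h := v4_sub hp ((m.addH (0, 0)).addBn (0, 0) r)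
    (by rw [Mono.addBn_s, Mono.addH_s m hH, hs, q_mul_sub hp]; omega)
    (by
      rw [Mono.addBn_deg, Mono.addH_deg _ m hH, lw_00, hD', NN_four]
      have : p ^ 3 = p * (k + 3 + r + 2 * p) := by rw [← hr]; ring
      have e4 : 1 + p + p ^ 2 + p ^ 3 + (p - 1) = p ^ 3 + p ^ 2 + 2 * p := by omega
      rw [e4, this]
      nlinarith [hr])
  rw [Mono.addBn_B_self, Mono.addH_B, hB] at h
  omega

end Vale.Agent.P257.V4.A.ML
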