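import Mathlib

/-!
# P257 / V(4), part A: digit arithmetic for the monomial lists (helper717)
-/

namespace Vale.Agent.P257.V4.A.ML

/-- The digit equations of a weight equation of size `< 4p^3+4p^2+4p`.
`x = b_{01}`, `y = b_{02}`, `z = b_{12}`, `hij` = letters with interval `[i,j)`. -/
theorem digits3 (p x y z h01 h02 h03 h12 h13 h23 M1 M2 M3 c : ℤ) (hp : 11 ≤ p)
    (hx : 0 ≤ x) (hy : 0 ≤ y) (hz : 0 ≤ z)
    (a1 : 0 ≤ h01) (b1 : h01 ≤ 1) (a2 : 0 ≤ h02) (b2 : h02 ≤ 1) (a3 : 0 ≤ h03) (b3 : h03 ≤ 1)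
    (a4 : 0 ≤ h12) (b4 : h12 ≤ 1) (a5 : 0 ≤ h13) (b5 : h13 ≤ 1) (a6 : 0 ≤ h23) (b6 : h23 ≤ 1)
    (c0 : -1 ≤ c) (d0 : c ≤ 10) (c1 : -3 ≤ M1) (d1 : M1 ≤ 2) (c2 : -3 ≤ M2) (d2 : M2 ≤ 2)
    (c3 : -3 ≤ M3) (d3 : M3 ≤ 2)
    (E : x*(2*p^2-2*p-2)+y*(2*p^3-2*p-2)+z*(2*p^3-2*p^2-2)+h01*(2*p-3)+h02*(2*p^2-3)
      +h03*(2*p^3-3)+h12*(2*p^2-2*p-1)+h13*(2*p^3-2*p-1)+h23*(2*p^3-2*p^2-1)
      = 2*M1*p+2*M2*p^2+2*M3*p^3-c) :
    ∃ k t Y : ℤ, 0 ≤ k ∧ k ≤ 3 ∧ -1 ≤ k + t ∧ k + t ≤ 1 ∧ 0 ≤ Y - t ∧ Y - t ≤ 1 ∧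
      Y = y+z+h03+h13+h23-M3 ∧ t + p*Y + (x-z+h02+h12-h23-M2) = 0 ∧
      k + p*t = -x-y+h01-h12-h13-M1 ∧
      2*(p*k) = -c+2*(x+y+z)+3*(h01+h02+h03)+(h12+h13+h23) := by
  have q2 : 11*p ≤ p^2 := by nlinarith
  have q3 : 11*p^2 ≤ p^3 := by nlinarith
  have n4 : 0 ≤ h01*(2*p-3) := mul_nonneg a1 (by linarith)
  have n5 : 0 ≤ h02*(2*p^2-3) := mul_nonneg a2 (by linarith)
  have n6 : 0 ≤ h03*(2*p^3-3) := mul_nonneg a3 (by linarith)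
  have n7 : 0 ≤ h12*(2*p^2-2*p-1) := mul_nonneg a4 (by linarith)
  have n8 : 0 ≤ h13*(2*p^3-2*p-1) := mul_nonneg a5 (by linarith)
  have n9 : 0 ≤ h23*(2*p^3-2*p^2-1) := mul_nonneg a6 (by linarith)
  have n1 : 0 ≤ x*(2*p^2-2*p-2) := mul_nonneg hx (by linarith)
  have n2 : 0 ≤ y*(2*p^3-2*p-2) := mul_nonneg hy (by linarith)
  have n3 : 0 ≤ z*(2*p^3-2*p^2-2) := mul_nonneg hz (by linarith)
  have hR : 2*M1*p+2*M2*p^2+2*M3*p^3-c ≤ 4*p^3+4*p^2+4*p+1 := by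
    have r1 := mul_nonneg (sub_nonneg.2 d1) (show (0:ℤ) ≤ p by linarith)
    have r2 := mul_nonneg (sub_nonneg.2 d2) (show (0:ℤ) ≤ p^2 by linarith)
    have r3 := mul_nonneg (sub_nonneg.2 d3) (show (0:ℤ) ≤ p^3 by linarith)
    linarith
  have hx2 : x ≤ 2*p+5 := by
    by_contra hc
    push Not at hc
    have : (2*p+6)*(2*p^2-2*p-2) ≤ x*(2*p^2-2*p-2) :=
      mul_le_mul_of_nonneg_right (by linarith) (by linarith)
    have e : (2*p+6)*(2*p^2-2*p-2) = 4*p^3+8*p^2-16*p-12 := by ring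
    linarith
  have hyz : y + z ≤ 2 := by
    by_contra hc
    push Not at hc
    have : 3*(2*p^3-2*p^2-2) ≤ (y+z)*(2*p^3-2*p^2-2) :=
      mul_le_mul_of_nonneg_right (by linarith) (by linarith)
    have e := mul_nonneg hy (show (0:ℤ) ≤ 2*p^2-2*p by linarith)
    linarith
  refine ⟨-x-y+h01-h12-h13-M1 + p*(p*(y+z+h03+h13+h23-M3) + (x-z+h02+h12-h23-M2)),
    -(p*(y+z+h03+h13+h23-M3) + (x-z+h02+h12-h23-M2)), y+z+h03+h13+h23-M3, ?_⟩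
  set Y := y+z+h03+h13+h23-M3 with hY
  set t := -(p*Y + (x-z+h02+h12-h23-M2)) with ht
  have hk' : -x-y+h01-h12-h13-M1 + p*(p*Y + (x-z+h02+h12-h23-M2)) =
    -x-y+h01-h12-h13-M1 - p*t := by rw [ht]; ring
  rw [hk']
  set k := -x-y+h01-h12-h13-M1 - p*t with hk
  have E' : 2*(p*k) = -c+2*(x+y+z)+3*(h01+h02+h03)+(h12+h13+h23) := by
    rw [hk, ht, hY]; linarith [E]
  have k0 : 0 ≤ k := by
    by_contra hc
    push Not at hc
    have : p * k ≤ p * (-1) := mul_le_mul_of_nonneg_left (by linarith) (by linarith)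
    linarith
  have k3 : k ≤ 3 := by
    by_contra hc
    push Not at hc
    have : p * 4 ≤ p * k := mul_le_mul_of_nonneg_left (by linarith) (by linarith)
    linarith
  have hkt : k + p*t = -x-y+h01-h12-h13-M1 := by rw [hk]; ring
  have hty : t + p*Y + (x-z+h02+h12-h23-M2) = 0 := by rw [ht]; ring
  have t0 : k + t ≤ 1 := by
    by_contra hc
    push Not at hc
    have : p * 2 ≤ p * (k + t) := mul_le_mul_of_nonneg_left (by linarith) (by linarith)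
    linarith
  have t3 : -1 ≤ k + t := by
    by_contra hc
    push Not at hc
    have : p * (k + t) ≤ p * (-2) := mul_le_mul_of_nonneg_left (by linarith) (by linarith)
    linarith
  have Y0 : Y - t ≤ 1 := by
    by_contra hc
    push Not at hc
    have : p * 2 ≤ p * (Y - t) := mul_le_mul_of_nonneg_left (by linarith) (by linarith)
    linarith
  have Y3 : 0 ≤ Y - t := by
    by_contra hc
    push Not at hc
    have : p * (Y - t) ≤ p * (-1) := mul_le_mul_of_nonneg_left (by linarith) (by linarith)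
    linarith
  exact ⟨k0, k3, t3, t0, Y3, Y0, rfl, hty, hkt, E'⟩

end Vale.Agent.P257.V4.A.ML
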