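import Vale.Agent.P257.V4.A.MonoV4E
import Vale.Agent.P257.V4.A.MonoBd

/-!
# P257 / V(4), part A: emptiness of the groups `T4a`, `T4b`, `l ≥ 1` (helper717)
-/

namespace Vale.Agent.P257.V4.A.ML

open Finset

theorem t4a_core (p x y z h01 h02 h03 h12 h13 h23 l : ℤ) (hp : 11 ≤ p)
    (hx : 0 ≤ x) (hy : 0 ≤ y) (hz : 0 ≤ z)
    (a1 : 0 ≤ h01) (b1 : h01 ≤ 1) (a2 : 0 ≤ h02) (b2 : h02 ≤ 1) (a3 : 0 ≤ h03) (b3 : h03 ≤ 1)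
    (a4 : 0 ≤ h12) (b4 : h12 ≤ 1) (a5 : 0 ≤ h13) (b5 : h13 ≤ 1) (a6 : 0 ≤ h23) (b6 : h23 ≤ 1)
    (hl : 1 ≤ l)
    (S : h01+h02+h03+h12+h13+h23+2*(x+y+z) = 6 + (2*p-2)*l)
    (E : x*(2*p^2-2*p-2)+y*(2*p^3-2*p-2)+z*(2*p^3-2*p^2-2)+h01*(2*p-3)+h02*(2*p^2-3)
      +h03*(2*p^3-3)+h12*(2*p^2-2*p-1)+h13*(2*p^3-2*p-1)+h23*(2*p^3-2*p^2-1)
      = 4*p^3+4*p^2-6*p-8) : False := by
  obtain ⟨k, t, Y, k0, k3, t1, t2, y1, y2, e1, e2, e3, e4⟩ := digits3 p x y z h01 h02 h03 h12 h13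
    h23 (-3) 2 2 8 hp hx hy hz a1 b1 a2 b2 a3 b3 a4 b4 a5 b5 a6 b6 (by norm_num) (by norm_num)
    (by norm_num) (by norm_num) (by norm_num) (by norm_num) (by norm_num) (by norm_num)
    (by linarith)
  have hk : p * k ≤ p * 3 := mul_le_mul_of_nonneg_left k3 (by linarith)
  have hl3 : l ≤ 3 := by
    by_contra hc
    push Not at hc
    have : (2*p-2)*4 ≤ (2*p-2)*l := mul_le_mul_of_nonneg_left (by linarith) (by linarith)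
    linarith
  clear E
  obtain ⟨u, rfl⟩ : ∃ u, t = u - k - 1 := ⟨t + k + 1, by ring⟩
  obtain ⟨v, rfl⟩ : ∃ v, Y = v + (u - k - 1) := ⟨Y - (u - k - 1), by ring⟩
  have u0 : 0 ≤ u := by linarith
  have u2 : u ≤ 2 := by linarith
  have v0 : 0 ≤ v := by linarith
  have v1 : v ≤ 1 := by linarith
  clear t1 t2 y1 y2
  interval_cases k <;> interval_cases l <;> try omega
  all_goals interval_cases u <;> interval_cases v <;> omega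

theorem t4b_core (p x y z h01 h02 h03 h12 h13 h23 l : ℤ) (hp : 11 ≤ p)
    (hx : 0 ≤ x) (hy : 0 ≤ y) (hz : 0 ≤ z)
    (a1 : 0 ≤ h01) (b1 : h01 ≤ 1) (a2 : 0 ≤ h02) (b2 : h02 ≤ 1) (a3 : 0 ≤ h03) (b3 : h03 ≤ 1)
    (a4 : 0 ≤ h12) (b4 : h12 ≤ 1) (a5 : 0 ≤ h13) (b5 : h13 ≤ 1) (a6 : 0 ≤ h23) (b6 : h23 ≤ 1)
    (hl : 1 ≤ l)
    (S : h01+h02+h03+h12+h13+h23+2*(x+y+z) = 6 + (2*p-2)*l)
    (E : x*(2*p^2-2*p-2)+y*(2*p^3-2*p-2)+z*(2*p^3-2*p^2-2)+h01*(2*p-3)+h02*(2*p^2-3)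
      +h03*(2*p^3-3)+h12*(2*p^2-2*p-1)+h13*(2*p^3-2*p-1)+h23*(2*p^3-2*p^2-1)
      = 4*p^3+4*p^2-4*p-10) : False := by
  obtain ⟨k, t, Y, k0, k3, t1, t2, y1, y2, e1, e2, e3, e4⟩ := digits3 p x y z h01 h02 h03 h12 h13
    h23 (-2) 2 2 10 hp hx hy hz a1 b1 a2 b2 a3 b3 a4 b4 a5 b5 a6 b6 (by norm_num) (by norm_num)
    (by norm_num) (by norm_num) (by norm_num) (by norm_num) (by norm_num) (by norm_num)
    (by linarith)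
  have hk : p * k ≤ p * 3 := mul_le_mul_of_nonneg_left k3 (by linarith)
  have hl3 : l ≤ 3 := by
    by_contra hc
    push Not at hc
    have : (2*p-2)*4 ≤ (2*p-2)*l := mul_le_mul_of_nonneg_left (by linarith) (by linarith)
    linarith
  clear E
  obtain ⟨u, rfl⟩ : ∃ u, t = u - k - 1 := ⟨t + k + 1, by ring⟩
  obtain ⟨v, rfl⟩ : ∃ v, Y = v + (u - k - 1) := ⟨Y - (u - k - 1), by ring⟩
  have u0 : 0 ≤ u := by linarith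
  have u2 : u ≤ 2 := by linarith
  have v0 : 0 ≤ v := by linarith
  have v1 : v ≤ 1 := by linarith
  clear t1 t2 y1 y2
  interval_cases k <;> interval_cases l <;> try omega
  all_goals interval_cases u <;> interval_cases v <;> omega

/-- The groups `Tt4a`, `l ≥ 1`. -/
theorem noMono_t4a {p : ℕ} (hp : 11 ≤ p) {l : ℕ} (hl : 1 ≤ l) :
    NoMono p (6 + (2 * p - 2) * l) (2 * p ^ 2 + 4 * p + 1 + l) := by
  intro m hs hD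
  have hp' : (11 : ℤ) ≤ p := by exact_mod_cast hp
  have q2 : 11 * (p : ℤ) ≤ (p : ℤ) ^ 2 := by nlinarith
  have q3 : 11 * (p : ℤ) ^ 2 ≤ (p : ℤ) ^ 3 := by nlinarith
  have q4 : 11 * (p : ℤ) ^ 3 ≤ (p : ℤ) ^ 4 := by nlinarith
  have hsz : (m.s : ℤ) = 6 + (2 * (p : ℤ) - 2) * l := by
    rw [hs]; push_cast [cast_q (show 1 ≤ p by omega)]; ring
  have hDz : (m.deg p : ℤ) = 2 * (p : ℤ) ^ 2 + 4 * p + 1 + l := by rw [hD]; push_cast; ring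
  have hW : (2 * (p : ℤ) - 2) * (m.deg p : ℤ) - (m.s : ℤ) = 4 * (p : ℤ) ^ 3 + 4 * (p : ℤ) ^ 2 - 6 * p - 8 := by
    rw [hsz, hDz]; ring
  obtain ⟨hH, hB⟩ := Mono.small (K := 3) hp (m := m) (by rw [hW]; norm_num; linarith)
  have hH' : ∀ a ∈ m.H, a ∈ L3 := fun a ha => mem_L3.2 (hH a ha)
  have hB' : ∀ a, m.B a ≠ 0 → a ∈ L2 := fun a ha => mem_L2.2 (by have := hB a ha; omega)
  have hs' := m.s_eq L3 L2 hH' hB'
  rw [m.wt_eq_L p L3 L2 hH' hB'] at hW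
  rw [sum_L3, sum_L2] at hs' hW
  simp only [wh, wb] at hW
  norm_num at hW
  have hlz : (1 : ℤ) ≤ l := by exact_mod_cast hl
  exact t4a_core p (m.bv (0,0)) (m.bv (1,0)) (m.bv (0,1)) (m.hv (0,0)) (m.hv (1,0)) (m.hv (2,0))
    (m.hv (0,1)) (m.hv (1,1)) (m.hv (0,2)) l hp' (m.bv_nonneg _) (m.bv_nonneg _)
    (m.bv_nonneg _) (m.hv_nonneg _) (m.hv_le_one _) (m.hv_nonneg _) (m.hv_le_one _)
    (m.hv_nonneg _) (m.hv_le_one _) (m.hv_nonneg _) (m.hv_le_one _) (m.hv_nonneg _)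
    (m.hv_le_one _) (m.hv_nonneg _) (m.hv_le_one _) hlz (by linarith) (by linarith [hW])

/-- The groups `Tt4b`, `l ≥ 1`. -/
theorem noMono_t4b {p : ℕ} (hp : 11 ≤ p) {l : ℕ} (hl : 1 ≤ l) :
    NoMono p (6 + (2 * p - 2) * l) (2 * p ^ 2 + 4 * p + 2 + l) := by
  intro m hs hD
  have hp' : (11 : ℤ) ≤ p := by exact_mod_cast hp
  have q2 : 11 * (p : ℤ) ≤ (p : ℤ) ^ 2 := by nlinarith
  have q3 : 11 * (p : ℤ) ^ 2 ≤ (p : ℤ) ^ 3 := by nlinarith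
  have q4 : 11 * (p : ℤ) ^ 3 ≤ (p : ℤ) ^ 4 := by nlinarith
  have hsz : (m.s : ℤ) = 6 + (2 * (p : ℤ) - 2) * l := by
    rw [hs]; push_cast [cast_q (show 1 ≤ p by omega)]; ring
  have hDz : (m.deg p : ℤ) = 2 * (p : ℤ) ^ 2 + 4 * p + 2 + l := by rw [hD]; push_cast; ring
  have hW : (2 * (p : ℤ) - 2) * (m.deg p : ℤ) - (m.s : ℤ) = 4 * (p : ℤ) ^ 3 + 4 * (p : ℤ) ^ 2 - 4 * p - 10 := by
    rw [hsz, hDz]; ring
  obtain ⟨hH, hB⟩ := Mono.small (K := 3) hp (m := m) (by rw [hW]; norm_num; linarith)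
  have hH' : ∀ a ∈ m.H, a ∈ L3 := fun a ha => mem_L3.2 (hH a ha)
  have hB' : ∀ a, m.B a ≠ 0 → a ∈ L2 := fun a ha => mem_L2.2 (by have := hB a ha; omega)
  have hs' := m.s_eq L3 L2 hH' hB'
  rw [m.wt_eq_L p L3 L2 hH' hB'] at hW
  rw [sum_L3, sum_L2] at hs' hW
  simp only [wh, wb] at hW
  norm_num at hW
  have hlz : (1 : ℤ) ≤ l := by exact_mod_cast hl
  exact t4b_core p (m.bv (0,0)) (m.bv (1,0)) (m.bv (0,1)) (m.hv (0,0)) (m.hv (1,0)) (m.hv (2,0))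
    (m.hv (0,1)) (m.hv (1,1)) (m.hv (0,2)) l hp' (m.bv_nonneg _) (m.bv_nonneg _)
    (m.bv_nonneg _) (m.hv_nonneg _) (m.hv_le_one _) (m.hv_nonneg _) (m.hv_le_one _)
    (m.hv_nonneg _) (m.hv_le_one _) (m.hv_nonneg _) (m.hv_le_one _) (m.hv_nonneg _)
    (m.hv_le_one _) (m.hv_nonneg _) (m.hv_le_one _) hlz (by linarith) (by linarith [hW])

end Vale.Agent.P257.V4.A.ML
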