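import Vale.Agent.P257.V4.A.FinalS
import Vale.Agent.P257.V4.A.MonoCh
import Vale.Agent.P257.V4.A.MonoT4

/-!
# P257 / V(4), part A: the fields `lists` and `clists` of `Inputs` (helper717)
-/

namespace Vale.Agent.P257.V4.A

theorem emptyLists {p : ℕ} (hp : 11 ≤ p) : EmptyLists p where
  low _ _ h := ML.noMono_low (by omega) h
  v n h1 h3 l hl := ML.noMono_v hp n h1 h3 l hl
  mu S T hS hT _ l s hs h := ML.noMono_mu hp S T hS hT l s hs h
  v4 _ h3 h1 h0 := ML.noMono_v4 hp h3 h1 h0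
  t4a _ hl := ML.noMono_t4a hp hl
  t4b _ hl := ML.noMono_t4b hp hl

theorem chainLists {p : ℕ} (hp : 11 ≤ p) : ChainLists p where
  a1 := ML.chain_a1 hp
  a2 := ML.chain_a2 hp
  b1 := ML.chain_b1 hp
  b2 := ML.chain_b2 hp
  c1 := ML.chain_c1 hp
  c2 := ML.chain_c2 hp
  d1 := ML.chain_d1 hp
  d2 := ML.chain_d2 hp

end Vale.Agent.P257.V4.A
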