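import Vale.Agent.P257.V4.A.FinalS
import Vale.Agent.P257.V4.A.ChainS
import Vale.Agent.P257.V4.A.MonoFin
import Vale.Agent.P257.V4.A.F5
import Vale.Agent.P257.V4.A.F2Fin

/-!
# P257, V(4): assembly of part A, second step

Everything is plugged in except the two special groups `F3`, `F4`.
-/

namespace Vale.Agent.P257.V4.A

/-- Part A from the two special groups. -/
theorem out_of_F34 {p : ℕ} [Fact p.Prime] (hp : 11 ≤ p)
    (f3 : Ch.Van p 5 (2 * p ^ 2 + 3 * p + 3)) (f4 : Ch.Van p 7 (3 * p ^ 2 + 4 * p)) : Out p :=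
  out_of_inputs hp
    { engine := H.engineStmt
      chain0 := H.chainStmt 0
      chain1 := H.chainStmt 1
      lists := emptyLists hp
      clists := chainLists hp
      f3 := f3
      f4 := f4
      f5 := F5.f5 hp
      f2 := F2Fin.outF2 hp }

end Vale.Agent.P257.V4.A
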