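import Vale.Agent.P257.V4.A.HTow
import Vale.Agent.P257.V4.A.Cup

/-!
# P257 / V4, part A: products and chain lemma with coefficients (helper886)

`cupE` is the product of cochains with coefficients (the last vertex `z` is kept in both factors).
-/

open MvPolynomial

namespace Vale.Agent.P257.V4.A.HC

open Ch H

variable {p : ℕ} [Fact p.Prime]

/-- the vertices `0, …, a` and the last one -/
def fr {a n : ℕ} (h : a ≤ n) : Fin (a + 2) → Fin (n + 2) := fun i =>
  if h' : i.val ≤ a then ⟨i.val, by omega⟩ else Fin.last (n + 1)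

/-- product of cochains with coefficients -/
noncomputable def cupE {a b n : ℕ} (h : a + b = n) (x : Ch p (a + 1)) (y : Ch p (b + 1)) :
    Ch p (n + 1) :=
  Ch.map (fr (show a ≤ n by omega)) x * Ch.map (back (show b + 1 ≤ n + 1 by omega)) y

theorem val_fr {a n : ℕ} (h : a ≤ n) (k : Fin (a + 2)) :
    ((fr h k : Fin (n + 2)) : ℕ) = if k.val ≤ a then k.val else n + 1 := by
  unfold fr
  split_ifs <;> rfl

theorem cupE_add_left {a b n : ℕ} (h : a + b = n) (x x' : Ch p (a + 1)) (y : Ch p (b + 1)) :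
    cupE h (x + x') y = cupE h x y + cupE h x' y := by
  unfold cupE; rw [map_add, add_mul]

theorem cupE_add_right {a b n : ℕ} (h : a + b = n) (x : Ch p (a + 1)) (y y' : Ch p (b + 1)) :
    cupE h x (y + y') = cupE h x y + cupE h x y' := by
  unfold cupE; rw [map_add, mul_add]

@[simp] theorem cupE_zero_left {a b n : ℕ} (h : a + b = n) (y : Ch p (b + 1)) :
    cupE h (0 : Ch p (a + 1)) y = 0 := by
  unfold cupE; rw [map_zero, zero_mul]

@[simp] theorem cupE_zero_right {a b n : ℕ} (h : a + b = n) (x : Ch p (a + 1)) :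
    cupE h x (0 : Ch p (b + 1)) = 0 := by
  unfold cupE; rw [map_zero, mul_zero]

theorem cupE_neg_left {a b n : ℕ} (h : a + b = n) (x : Ch p (a + 1)) (y : Ch p (b + 1)) :
    cupE h (-x) y = - cupE h x y := by
  unfold cupE; rw [map_neg, neg_mul]

theorem cupE_neg_right {a b n : ℕ} (h : a + b = n) (x : Ch p (a + 1)) (y : Ch p (b + 1)) :
    cupE h x (-y) = - cupE h x y := by
  unfold cupE; rw [map_neg, mul_neg]

theorem cupE_sub_left {a b n : ℕ} (h : a + b = n) (x x' : Ch p (a + 1)) (y : Ch p (b + 1)) :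
    cupE h (x - x') y = cupE h x y - cupE h x' y := by
  rw [sub_eq_add_neg, cupE_add_left, cupE_neg_left, ← sub_eq_add_neg]

theorem cupE_sub_right {a b n : ℕ} (h : a + b = n) (x : Ch p (a + 1)) (y y' : Ch p (b + 1)) :
    cupE h x (y - y') = cupE h x y - cupE h x y' := by
  rw [sub_eq_add_neg, cupE_add_right, cupE_neg_right, ← sub_eq_add_neg]

theorem cupE_zsmul_left {a b n : ℕ} (h : a + b = n) (k : ℤ) (x : Ch p (a + 1))
    (y : Ch p (b + 1)) : cupE h (k • x) y = k • cupE h x y := by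
  unfold cupE; rw [map_zsmul, smul_mul_assoc]

theorem cupE_zsmul_right {a b n : ℕ} (h : a + b = n) (k : ℤ) (x : Ch p (a + 1))
    (y : Ch p (b + 1)) : cupE h x (k • y) = k • cupE h x y := by
  unfold cupE; rw [map_zsmul, mul_smul_comm]

theorem sA {n : ℕ} (i : Fin (n + 1)) (k : Fin n) :
    ((k : ℕ) < i ∧ ((i.succAbove k : Fin (n + 1)) : ℕ) = k) ∨
      ((i : ℕ) ≤ k ∧ ((i.succAbove k : Fin (n + 1)) : ℕ) = k + 1) := by
  rw [val_succAbove']
  by_cases h : (k : ℕ) < i
  · exact Or.inl ⟨h, if_pos h⟩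
  · exact Or.inr ⟨not_lt.1 h, if_neg h⟩

theorem frA {a n : ℕ} (h : a ≤ n) (k : Fin (a + 2)) :
    ((k : ℕ) ≤ a ∧ ((fr h k : Fin (n + 2)) : ℕ) = k) ∨
      (a < (k : ℕ) ∧ ((fr h k : Fin (n + 2)) : ℕ) = n + 1) := by
  rw [val_fr]
  by_cases h : (k : ℕ) ≤ a
  · exact Or.inl ⟨h, if_pos h⟩
  · exact Or.inr ⟨not_le.1 h, if_neg h⟩

theorem cupE_assoc {a b c ab bc n : ℕ} (h1 : a + b = ab) (h2 : ab + c = n) (h3 : b + c = bc)
    (h4 : a + bc = n) (x : Ch p (a + 1)) (y : Ch p (b + 1)) (z : Ch p (c + 1)) :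
    cupE h2 (cupE h1 x y) z = cupE h4 x (cupE h3 y z) := by
  unfold cupE
  rw [map_mul, map_mul, Ch.map_map, Ch.map_map, Ch.map_map, Ch.map_map, mul_assoc]
  refine congrArg₂ (· * ·) (map_congr (fun k => ?_) x)
    (congrArg₂ (· * ·) (map_congr (fun k => ?_) y) (map_congr (fun k => ?_) z))
  · have e1 := frA (show a ≤ ab by omega) k
    have e2 := frA (show ab ≤ n by omega) (fr (show a ≤ ab by omega) k)
    have e3 := frA (show a ≤ n by omega) k
    change ((fr (show ab ≤ n by omega) (fr (show a ≤ ab by omega) k) : Fin (n + 2)) : ℕ) = _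
    omega
  · have e1 := val_back (show b + 1 ≤ ab + 1 by omega) k
    have e2 := frA (show ab ≤ n by omega) (back (show b + 1 ≤ ab + 1 by omega) k)
    have e3 := frA (show b ≤ bc by omega) k
    have e4 := val_back (show bc + 1 ≤ n + 1 by omega) (fr (show b ≤ bc by omega) k)
    change ((fr (show ab ≤ n by omega) (back (show b + 1 ≤ ab + 1 by omega) k) :
      Fin (n + 2)) : ℕ) = ((back (show bc + 1 ≤ n + 1 by omega) (fr (show b ≤ bc by omega) k) :
      Fin (n + 2)) : ℕ)
    have := k.2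
    omega
  · have e1 := val_back (show c + 1 ≤ n + 1 by omega) k
    have e2 := val_back (show c + 1 ≤ bc + 1 by omega) k
    have e3 := val_back (show bc + 1 ≤ n + 1 by omega) (back (show c + 1 ≤ bc + 1 by omega) k)
    change _ = ((back (show bc + 1 ≤ n + 1 by omega) (back (show c + 1 ≤ bc + 1 by omega) k) :
      Fin (n + 2)) : ℕ)
    omega

theorem cof_map {a n : ℕ} (i : Fin (n + 2)) (α : Fin (a + 2) → Fin (n + 2)) (x : Ch p (a + 1)) :
    cof n i (Ch.map α x) = Ch.map (i.castSucc.succAbove ∘ α) x := by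
  rw [cof, Ch.map_map]

theorem cof_cupE {a b n : ℕ} (h : a + b = n) (i : Fin (n + 2)) (x : Ch p (a + 1))
    (y : Ch p (b + 1)) : cof n i (cupE h x y) =
      Ch.map (i.castSucc.succAbove ∘ fr (by omega)) x *
        Ch.map (i.castSucc.succAbove ∘ back (by omega)) y := by
  rw [cupE, map_mul, cof_map, cof_map]

theorem leib_aux1 {a b : ℕ} (i : Fin (a + b + 2)) (i' : Fin (a + 2)) (hi : (i : ℕ) = i')
    (hi' : (i' : ℕ) ≤ a) (x : Ch p (a + 1)) (y : Ch p (b + 1)) :
    cof (a + b) i (cupE rfl x y) =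
      Ch.map (fr (by omega : a + 1 ≤ a + b + 1) ∘ (i'.castSucc).succAbove) x *
          Ch.map (back (by omega : b + 1 ≤ a + b + 1 + 1)) y := by
  rw [cof_cupE]
  refine congrArg₂ (· * ·) (map_congr (fun k => ?_) x) (map_congr (fun k => ?_) y)
  · have e1 := frA (show a ≤ a + b by omega) k
    have e2 := sA i.castSucc (fr (show a ≤ a + b by omega) k)
    have e3 := sA i'.castSucc k
    have e4 := frA (show a + 1 ≤ a + b + 1 by omega) (i'.castSucc.succAbove k)
    have e5 : (i.castSucc : ℕ) = i := Fin.val_castSucc i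
    have e6 : (i'.castSucc : ℕ) = i' := Fin.val_castSucc i'
    change ((i.castSucc.succAbove (fr (show a ≤ a + b by omega) k) : Fin (a + b + 3)) : ℕ) =
      ((fr (show a + 1 ≤ a + b + 1 by omega) (i'.castSucc.succAbove k) : Fin (a + b + 3)) : ℕ)
    have := k.2
    omega
  · have e1 := val_back (show b + 1 ≤ a + b + 1 by omega) k
    have e2 := sA i.castSucc (back (show b + 1 ≤ a + b + 1 by omega) k)
    have e3 := val_back (show b + 1 ≤ a + b + 1 + 1 by omega) k
    have e5 : (i.castSucc : ℕ) = i := Fin.val_castSucc i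
    change ((i.castSucc.succAbove (back (show b + 1 ≤ a + b + 1 by omega) k) :
      Fin (a + b + 3)) : ℕ) = _
    omega

theorem leib_aux2 {a b : ℕ} (i : Fin (a + b + 2)) (j : Fin (b + 2)) (hi : (i : ℕ) = a + j)
    (hj : 1 ≤ (j : ℕ)) (x : Ch p (a + 1)) (y : Ch p (b + 1)) :
    cof (a + b) i (cupE rfl x y) =
      Ch.map (fr (by omega : a ≤ a + b + 1)) x *
          Ch.map (back (by omega : b + 1 + 1 ≤ a + b + 1 + 1) ∘ (j.castSucc).succAbove) y := by
  rw [cof_cupE]
  refine congrArg₂ (· * ·) (map_congr (fun k => ?_) x) (map_congr (fun k => ?_) y)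
  · have e1 := frA (show a ≤ a + b by omega) k
    have e2 := sA i.castSucc (fr (show a ≤ a + b by omega) k)
    have e3 := frA (show a ≤ a + b + 1 by omega) k
    have e5 : (i.castSucc : ℕ) = i := Fin.val_castSucc i
    change ((i.castSucc.succAbove (fr (show a ≤ a + b by omega) k) : Fin (a + b + 3)) : ℕ) = _
    have := k.2
    have := i.2
    omega
  · have e1 := val_back (show b + 1 ≤ a + b + 1 by omega) k
    have e2 := sA i.castSucc (back (show b + 1 ≤ a + b + 1 by omega) k)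
    have e3 := sA j.castSucc k
    have e4 := val_back (show b + 1 + 1 ≤ a + b + 1 + 1 by omega) (j.castSucc.succAbove k)
    have e5 : (i.castSucc : ℕ) = i := Fin.val_castSucc i
    have e6 : (j.castSucc : ℕ) = j := Fin.val_castSucc j
    change ((i.castSucc.succAbove (back (show b + 1 ≤ a + b + 1 by omega) k) :
      Fin (a + b + 3)) : ℕ) = ((back (show b + 1 + 1 ≤ a + b + 1 + 1 by omega)
        (j.castSucc.succAbove k) : Fin (a + b + 3)) : ℕ)
    omega

theorem dE_cup_aux1 {a b : ℕ} (x : Ch p (a + 1)) (y : Ch p (b + 1)) :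
    dE (a + b) (cupE rfl x y) =
      (∑ i : Fin (a + 1), ((-1 : ℤ) ^ (i : ℕ)) •
        (Ch.map (fr (by omega : a + 1 ≤ a + b + 1) ∘ (i.castSucc.castSucc).succAbove) x *
          Ch.map (back (by omega : b + 1 ≤ a + b + 1 + 1)) y)) +
      ∑ j : Fin (b + 1), ((-1 : ℤ) ^ (a + 1 + (j : ℕ))) •
        (Ch.map (fr (by omega : a ≤ a + b + 1)) x *
          Ch.map (back (by omega : b + 1 + 1 ≤ a + b + 1 + 1) ∘ (j.succ.castSucc).succAbove) y) := by
  rw [dE_apply]
  have hc : (a + 1) + (b + 1) = a + b + 2 := by omega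
  rw [← Fin.sum_congr' _ hc, Fin.sum_univ_add]
  refine congrArg₂ (· + ·) (Finset.sum_congr rfl fun i _ => ?_)
    (Finset.sum_congr rfl fun j _ => ?_)
  · rw [leib_aux1 _ i.castSucc (by simp) (by have := i.2; simp; omega)]
    simp
  · rw [leib_aux2 _ j.succ (by simp; omega) (by simp)]
    simp

theorem dE_cup_aux2 {a b : ℕ} (x : Ch p (a + 1)) (y : Ch p (b + 1)) :
    cupE (show (a + 1) + b = a + b + 1 by omega) (dE a x) y =
      (∑ i : Fin (a + 1), ((-1 : ℤ) ^ (i : ℕ)) •
        (Ch.map (fr (by omega : a + 1 ≤ a + b + 1) ∘ (i.castSucc.castSucc).succAbove) x *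
          Ch.map (back (by omega : b + 1 ≤ a + b + 1 + 1)) y)) +
      ((-1 : ℤ) ^ (a + 1)) • (Ch.map (fr (by omega : a ≤ a + b + 1)) x *
          Ch.map (back (by omega : b + 1 ≤ a + b + 1 + 1)) y) := by
  rw [cupE, dE_apply, map_sum, Finset.sum_mul, Fin.sum_univ_castSucc]
  refine congrArg₂ (· + ·) (Finset.sum_congr rfl fun i _ => ?_) ?_
  · rw [map_zsmul, cof, Ch.map_map, smul_mul_assoc, Fin.val_castSucc]
  · rw [map_zsmul, cof, Ch.map_map, smul_mul_assoc, Fin.val_last]
    refine congrArg (fun z => ((-1 : ℤ) ^ (a + 1)) • (z * _)) (map_congr (fun k => ?_) x)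
    have e1 := frA (show a ≤ a + b + 1 by omega) k
    have e2 := sA (Fin.last (a + 1)).castSucc k
    have e3 := frA (show a + 1 ≤ a + b + 1 by omega) ((Fin.last (a + 1)).castSucc.succAbove k)
    have e4 : ((Fin.last (a + 1)).castSucc : ℕ) = a + 1 := rfl
    change ((fr (show a + 1 ≤ a + b + 1 by omega) ((Fin.last (a + 1)).castSucc.succAbove k) :
      Fin (a + b + 3)) : ℕ) = _
    have := k.2
    omega

theorem dE_cup_aux3 {a b : ℕ} (x : Ch p (a + 1)) (y : Ch p (b + 1)) :
    cupE (show a + (b + 1) = a + b + 1 by omega) x (dE b y) =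
      (Ch.map (fr (by omega : a ≤ a + b + 1)) x *
          Ch.map (back (by omega : b + 1 ≤ a + b + 1 + 1)) y) +
      ∑ j : Fin (b + 1), ((-1 : ℤ) ^ (1 + (j : ℕ))) •
        (Ch.map (fr (by omega : a ≤ a + b + 1)) x *
          Ch.map (back (by omega : b + 1 + 1 ≤ a + b + 1 + 1) ∘
            (j.succ.castSucc).succAbove) y) := by
  rw [cupE, dE_apply, map_sum, Finset.mul_sum, Fin.sum_univ_succ]
  refine congrArg₂ (· + ·) ?_ (Finset.sum_congr rfl fun j _ => ?_)
  · rw [map_zsmul, cof, Ch.map_map, mul_smul_comm, Fin.val_zero, pow_zero, one_smul]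
    refine congrArg (fun z => _ * z) (map_congr (fun k => ?_) y)
    have e1 := val_back (show b + 1 ≤ a + b + 1 + 1 by omega) k
    have e2 := sA (0 : Fin (b + 2)).castSucc k
    have e3 := val_back (show b + 1 + 1 ≤ a + b + 1 + 1 by omega)
      ((0 : Fin (b + 2)).castSucc.succAbove k)
    have e4 : (((0 : Fin (b + 2)).castSucc : Fin (b + 3)) : ℕ) = 0 := rfl
    change ((back (show b + 1 + 1 ≤ a + b + 1 + 1 by omega)
      ((0 : Fin (b + 2)).castSucc.succAbove k) : Fin (a + b + 3)) : ℕ) = _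
    omega
  · rw [map_zsmul, cof, Ch.map_map, mul_smul_comm, Fin.val_succ, add_comm (j : ℕ) 1]

/-- The Leibniz rule with coefficients. -/
theorem dE_cupE {a b n : ℕ} (h : a + b = n) (x : Ch p (a + 1)) (y : Ch p (b + 1)) :
    dE n (cupE h x y) = cupE (show (a + 1) + b = n + 1 by omega) (dE a x) y +
      ((-1 : ℤ) ^ a) • cupE (show a + (b + 1) = n + 1 by omega) x (dE b y) := by
  subst h
  rw [dE_cup_aux1, dE_cup_aux2, dE_cup_aux3, smul_add, Finset.smul_sum]
  simp only [smul_smul, ← pow_add, add_assoc]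
  have hz : ∀ w : Ch p (a + b + 1 + 1), ((-1 : ℤ) ^ (a + 1)) • w + (((-1 : ℤ) ^ a) • w) = 0 := by
    intro w
    rw [← add_smul, pow_succ]
    simp
  rw [← add_assoc (((-1 : ℤ) ^ (a + 1)) • _) (((-1 : ℤ) ^ a) • _), hz, zero_add]

end Vale.Agent.P257.V4.A.HC
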