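import Vale.Agent.P257.V4.A.Wt

/-!
# P257 / V4, part A: the cobar complex with coefficients, homogeneous form (block A1, helper898)

`Ch p (s+1)` is the ring of functions of `(g_0 = 1, …, g_s; z)`, `z = g_{s+1}` the coefficient
variable; `dE` is the alternating sum of the cofaces which keep `z`.
-/

open MvPolynomial

namespace Vale.Agent.P257.V4.A.H

open Ch

variable {p : ℕ} [Fact p.Prime]

/-- the coface which deletes the vertex `i` and keeps the last vertex -/
noncomputable def cof (s : ℕ) (i : Fin (s + 2)) : Ch p (s + 1) →+* Ch p (s + 2) :=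
  Ch.map i.castSucc.succAbove

/-- the differential of the complex with coefficients -/
noncomputable def dE (s : ℕ) : Ch p (s + 1) →+ Ch p (s + 2) :=
  ∑ i : Fin (s + 2), ((-1 : ℤ) ^ (i : ℕ)) • (cof s i : Ch p (s + 1) →+* Ch p (s + 2)).toAddMonoidHom

theorem dE_apply (s : ℕ) (x : Ch p (s + 1)) :
    dE s x = ∑ i : Fin (s + 2), ((-1 : ℤ) ^ (i : ℕ)) • cof s i x := by
  simp [dE, AddMonoidHom.finsetSum_apply]

/-- the constants: functions which do not depend on the last vertex -/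
noncomputable def dl (s : ℕ) : Ch p s →+* Ch p (s + 1) := Ch.map Fin.castSucc

theorem d_eq (s : ℕ) (x : Ch p (s + 1)) :
    d (s + 1) x = dE s x + ((-1 : ℤ) ^ (s + 2)) • dl (s + 1) x := by
  rw [d_apply, Fin.sum_univ_castSucc, dE_apply]
  simp only [Fin.val_castSucc, Fin.val_last, Fin.succAbove_last]
  rfl

theorem cof_dl (s : ℕ) (i : Fin (s + 2)) (x : Ch p s) :
    cof s i (dl s x) = dl (s + 1) (Ch.map i.succAbove x) := by
  rw [cof, dl, dl, Ch.map_map, Ch.map_map]
  congr 2
  funext j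
  exact Fin.castSucc_succAbove_castSucc

theorem dE_dl (s : ℕ) (x : Ch p s) : dE s (dl s x) = dl (s + 1) (d s x) := by
  rw [dE_apply, d_apply, map_sum]
  refine Finset.sum_congr rfl fun i _ => ?_
  rw [cof_dl, map_zsmul]

theorem dE_dE (s : ℕ) (x : Ch p (s + 1)) : dE (s + 1) (dE s x) = 0 := by
  have h := d_d (p := p) (n := s + 1) x
  rw [d_eq s x, map_add, map_zsmul, d_eq (s + 1), d_eq (s + 1), dE_dl, d_eq s x, map_add,
    map_zsmul, smul_add, smul_add, smul_smul, smul_smul] at h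
  have e1 : ((-1 : ℤ) ^ (s + 2) * (-1) ^ (s + 2)) = 1 := by
    rw [← mul_pow]; norm_num
  have e2 : ((-1 : ℤ) ^ (s + 2) * (-1) ^ (s + 1 + 2)) = -1 := by
    rw [← pow_add, show s + 2 + (s + 1 + 2) = 2 * (s + 2) + 1 by ring, pow_succ, pow_mul]
    norm_num
  have e3 : ((-1 : ℤ) ^ (s + 1 + 2)) = - (-1) ^ (s + 2) := by
    rw [show s + 1 + 2 = s + 2 + 1 by ring, pow_succ]; ring
  rw [e1, e2, e3] at h
  simp only [neg_smul, one_smul] at h
  have : dE (s + 1) (dE s x) = dE (s + 1) (dE s x) + -((-1 : ℤ) ^ (s + 2)) • (dl (s + 2)) (dE s x)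
      + (((-1 : ℤ) ^ (s + 2)) • (dl (s + 1 + 1)) (dE s x) + (dl (s + 1 + 1)) ((dl (s + 1)) x) +
        -(dl (s + 1 + 1)) ((dl (s + 1)) x)) := by
    abel_nf
    simp
  rw [this]
  simpa [neg_smul] using h

/-! ### the contraction of the full complex -/

/-- substitute `z` for the last vertex before it -/
noncomputable def ct (s : ℕ) : Ch p (s + 2) →+* Ch p (s + 1) := Ch.map (Fin.last (s + 1)).predAbove

theorem ct_cof_last (s : ℕ) (x : Ch p (s + 1)) : ct s (cof s (Fin.last (s + 1)) x) = x := by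
  rw [ct, cof, Ch.map_map]
  have : ((Fin.last (s + 1)).predAbove ∘ (Fin.last (s + 1)).castSucc.succAbove :
      Fin (s + 2) → Fin (s + 2)) = id := by
    funext j
    simp
  rw [this, Ch.map_id]

theorem ct_cof_castSucc (s : ℕ) (i : Fin (s + 2)) (x : Ch p (s + 2)) :
    ct (s + 1) (cof (s + 1) i.castSucc x) = cof s i (ct s x) := by
  rw [ct, cof, cof, ct, Ch.map_map, Ch.map_map]
  congr 2
  funext j
  simp only [Function.comp_apply]
  apply Fin.ext
  simp only [Fin.succAbove, Fin.predAbove, Fin.lt_def, Fin.val_castSucc, apply_dite Fin.val,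
    Fin.val_pred, Fin.coe_castPred, dite_eq_ite, apply_ite Fin.val, Fin.val_succ, Fin.val_last]
  have := j.2
  have := i.2
  split_ifs <;> omega

theorem exists_of_cocycle (s : ℕ) (x : Ch p (s + 2)) (h : dE (s + 1) x = 0) :
    dE s (((-1 : ℤ) ^ (s + 1)) • ct s x) = x := by
  have h1 := congrArg (ct (s + 1)) h
  rw [map_zero, dE_apply, map_sum, Fin.sum_univ_castSucc] at h1
  simp only [map_zsmul, ct_cof_castSucc, ct_cof_last, Fin.val_castSucc, Fin.val_last] at h1
  rw [map_zsmul, dE_apply]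
  have h2 : ∑ i : Fin (s + 2), (-1 : ℤ) ^ (i : ℕ) • cof s i (ct s x) =
      - ((-1 : ℤ) ^ (s + 2) • x) := eq_neg_of_add_eq_zero_left h1
  rw [h2, smul_neg, smul_smul, ← pow_add, show s + 1 + (s + 2) = 2 * (s + 1) + 1 by ring, pow_succ,
    pow_mul]
  simp

end Vale.Agent.P257.V4.A.H
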