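import Vale.Agent.P257.V4.A.HNum

/-!
# P257 / V4, part A: cohomology with coefficients `F_p[t_1]` in low weights (helper886)

`B = dE 1 A` and `h = dE 0 (z_2^p)`; generation in degrees `(6, 3P)`, `(5, 3P)`, `(3, 2P)`, `P = p^2 + p`,
and the classes of `B B` and `B h` are not zero.
-/

open MvPolynomial

namespace Vale.Agent.P257.V4.A.HC

open Ch H ML

variable {p : ℕ} [Fact p.Prime]

theorem V_T2 {K : ℕ} (hK : 0 < K) {s w : ℕ} (h : NoMonoIn (Alive 0 0 \ {(1, 0)}) p s w) :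
    V (H.Ext (M p 1 K) 1 0) s w := by
  refine V_TT (j := 0) w K hK s w le_rfl (h.mono ?_)
  rintro ⟨a, b⟩ hab
  simp only [Alive, Set.mem_sdiff, Set.mem_ofPred_eq, Set.mem_singleton_iff, Prod.mk.injEq] at hab ⊢
  omega

theorem lt_pw (w : ℕ) : w < p ^ (w + 1) * Ch.N p (0 + 2) := by
  have h1 : w + 1 < p ^ (w + 1) := Nat.lt_pow_self (Fact.out : p.Prime).one_lt
  have h2 : p ^ (w + 1) ≤ p ^ (w + 1) * Ch.N p (0 + 2) := Nat.le_mul_of_pos_right _ (N_pos 1)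
  omega

/-- the two descriptions of functions of `z_1` -/
theorem CC_iff {s w : ℕ} {x : Ch p (s + 1)} (hx : IsWt w x) :
    x ∈ M p 1 (w + 1) s ↔ x ∈ M p 0 0 s := low_iff (l := 0) (lt_pw w) hx

theorem CC_iff' {s w w' : ℕ} {x : Ch p (s + 1)} (hww : w' ≤ w) (hx : IsWt w' x) :
    x ∈ M p 1 (w + 1) s ↔ x ∈ M p 0 0 s := low_iff (l := 0) (lt_of_le_of_lt hww (lt_pw w)) hx

variable {A : Ch p 2}

theorem div_CC (hA : ∀ K, 0 < K → DivData p 1 K A) {s w : ℕ} (hw : p * Ch.N p 2 ≤ w)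
    (h0 : NoMonoIn (Alive 0 0 \ {(1, 0)}) p (s + 2) w)
    (h1 : NoMonoIn (Alive 0 0 \ {(1, 0)}) p (s + 1) (w - Ch.N p 2))
    {x : Ch p (s + 3)} (hx : x ∈ M p 0 0 (s + 2)) (hxw : IsWt w x) (hd : dE (s + 2) x = 0) :
    ∃ c ∈ M p 0 0 s, IsWt (w - p * Ch.N p 2) c ∧ dE s c = 0 ∧
      ∃ y ∈ M p 0 0 (s + 1), IsWt w y ∧
        x = cupE (by omega : 2 + s = s + 2) (dE 1 A) c + dE (s + 1) y := by
  obtain ⟨c, hc, hcw, hdc, y, hy, hyw, hxy⟩ := div (hA (w + 1) (Nat.succ_pos w)) hw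
    (V_T2 (Nat.succ_pos w) h0) (V_T2 (Nat.succ_pos w) h1) ((CC_iff hxw).2 hx) hxw hd
  exact ⟨c, (CC_iff' (Nat.sub_le _ _) hcw).1 hc, hcw, hdc, y, (CC_iff hyw).1 hy, hyw, hxy⟩

theorem inj_CC (hA : ∀ K, 0 < K → DivData p 1 K A) {s w : ℕ} (hw : p * Ch.N p 2 ≤ w)
    (h0 : NoMonoIn (Alive 0 0 \ {(1, 0)}) p (s + 2) w)
    (h1 : NoMonoIn (Alive 0 0 \ {(1, 0)}) p (s + 1) (w - Ch.N p 2))
    {c : Ch p (s + 2)} (hc : c ∈ M p 0 0 (s + 1)) (hcw : IsWt (w - p * Ch.N p 2) c)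
    (hd : dE (s + 1) c = 0) {n : Ch p (s + 3)} (hn : n ∈ M p 0 0 (s + 2)) (hnw : IsWt w n)
    (he : cupE (by omega : 2 + (s + 1) = s + 3) (dE 1 A) c = dE (s + 2) n) :
    ∃ r ∈ M p 0 0 s, IsWt (w - p * Ch.N p 2) r ∧ dE s r = c := by
  obtain ⟨r, hr, hrw, hrx⟩ := inj (hA (w + 1) (Nat.succ_pos w)) hw
    (V_T2 (Nat.succ_pos w) h0) (V_T2 (Nat.succ_pos w) h1) ((CC_iff' (Nat.sub_le _ _) hcw).2 hc) hcw hd
    ((CC_iff hnw).2 hn) hnw he
  exact ⟨r, (CC_iff' (Nat.sub_le _ _) hrw).1 hr, hrw, hrx⟩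

/-! ### constants -/

theorem exists_const {n : ℕ} {x : Ch p n} (h : IsWt 0 x) : ∃ c : ZMod p, x = C c := by
  refine ⟨coeff 0 x, ?_⟩
  ext e
  rw [coeff_C]
  split_ifs with he
  · rw [← he]
  · by_contra hc
    apply he
    symm
    ext v
    have h1 := mul_vwt_le h (mem_support_iff.2 hc) v
    have h2 : 0 < vwt p n v := N_pos _
    rw [Finsupp.zero_apply]
    by_contra h3
    have h4 : vwt p n v ≤ e v * vwt p n v := Nat.le_mul_of_pos_left _ (Nat.pos_of_ne_zero h3)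
    omega

theorem cupE_C {a : ℕ} (x : Ch p (a + 1)) (c : ZMod p) :
    cupE (show a + 0 = a from rfl) x (C c) = c • x := by
  rw [cupE]
  have h1 : (fr (show a ≤ a by omega) : Fin (a + 2) → Fin (a + 2)) = id := by
    funext k
    apply Fin.ext
    rw [val_fr]
    have := k.2
    split_ifs
    · rfl
    · change _ = (k : ℕ)
      omega
  rw [h1, Ch.map_id, Ch.map, ev_C, smul_eq_C_mul, mul_comm]
  rfl

theorem M_smul {l k s : ℕ} (c : ZMod p) {x : Ch p (s + 1)} (hx : x ∈ M p l k s) :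
    c • x ∈ M p l k s := by
  rw [smul_eq_C_mul]
  exact Subring.mul_mem (MS p l k s) (C_mem_SR c) hx

theorem IsWt_smul {n w : ℕ} (c : ZMod p) {x : Ch p n} (hx : IsWt w x) : IsWt w (c • x) := by
  rw [smul_eq_C_mul]
  exact ((isWt_C c).mul hx).cast (zero_add _)

/-! ### degree one -/

variable (p) in
/-- the cocycle `h = d (z_2^p)` -/
noncomputable def h21 : Ch p 2 := dE 0 (tau p 1 1 0)

theorem exists_dec {m : Ch p 1} (hm : m ∈ M p 1 1 0) (hw : IsWt (p * Ch.N p 2) m) :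
    ∃ c : ZMod p, ∃ g ∈ M p 0 0 0, IsWt (p * Ch.N p 2) g ∧ m = c • tau p 1 1 0 + g := by
  have hp2 : 2 ≤ p := (Fact.out : p.Prime).two_le
  have hN := stepData_M (p := p) (l := 1) (j := 1) (k := 2) (by norm_num)
  have hm' : m ∈ H.Ext (M p 1 2) 1 1 0 := by
    rw [Ext_M]
    exact hm
  have e1 : p ^ 1 * Ch.N p (1 + 1) = p * Ch.N p 2 := by rw [pow_one]
  have hNp : 0 < p * Ch.N p 2 := Nat.mul_pos (by omega) (N_pos 1)
  obtain ⟨f, hf1, hf2, hf3, hf4⟩ := exists_wt hN.comp_mem hm' hw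
  rw [e1] at hf2 hf3
  obtain ⟨c, hc⟩ := exists_const ((hf2 1 (by omega)).cast (by omega) : IsWt 0 (f 1))
  have hz : ∀ b, 2 ≤ b → f b = 0 := fun b hb => hf3 b (by
    have : 2 * (p * Ch.N p 2) ≤ b * (p * Ch.N p 2) := Nat.mul_le_mul_right _ hb
    omega)
  obtain ⟨q, hq⟩ : ∃ q, p = q + 2 := ⟨p - 2, by omega⟩
  have hsum : ∑ b ∈ Finset.range p, tau p 1 1 0 ^ b * f b = f 0 + tau p 1 1 0 * f 1 := by
    have : Finset.range p = Finset.range (q + 2) := by rw [← hq]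
    rw [this, Finset.sum_range_succ', Finset.sum_range_succ', Finset.sum_eq_zero]
    · ring
    · intro b _
      rw [hz (b + 1 + 1) (by omega), mul_zero]
  have hf0 := (hf2 0 (by omega)).cast (show p * Ch.N p 2 - 0 * (p * Ch.N p 2) = p * Ch.N p 2 by omega)
  refine ⟨c, f 0, (low_iff (l := 0) (K := 2) ?_ hf0).1 (hf1 0), hf0, ?_⟩
  · have h5 : p ^ 2 * Ch.N p (0 + 2) = p * (p * Ch.N p 2) := by ring
    rw [h5]
    calc p * Ch.N p 2 < 2 * (p * Ch.N p 2) := by omega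
      _ ≤ p * (p * Ch.N p 2) := Nat.mul_le_mul_right _ hp2
  · rw [hf4, hsum, hc, smul_eq_C_mul]
    ring

omit [Fact p.Prime] in
theorem N2 : Ch.N p 2 = 1 + p := NN_two p

theorem V_M10 (hp : 11 ≤ p) : V (M p 1 0) 1 (p * Ch.N p 2) := by
  refine V_M _ 1 0 1 _ le_rfl (noMono_all hp 0 1 1 ?_ (by omega) (by omega) (by omega)
    (by omega) ?_)
  · rw [N2]
    ring
  · intro m hm h00 h01 h02 h10 h11 h20 b00 b01 b10 e1 e2 e3 e4 e5 e6 e7 e8 e9 k1 k2 k3 k4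
    have n1 : ∀ k i, k ≤ 1 → (k, i) ∉ Alive 1 0 := fun k i hk hi => by
      simp only [Alive, Set.mem_ofPred_eq] at hi
      omega
    have z1 : h00 = 0 := e1.trans (hb_eq_zero fun h => n1 _ _ (by norm_num) (hm.1 _ h))
    have z2 : h01 = 0 := e2.trans (hb_eq_zero fun h => n1 _ _ (by norm_num) (hm.1 _ h))
    have z3 : h02 = 0 := e3.trans (hb_eq_zero fun h => n1 _ _ (by norm_num) (hm.1 _ h))
    have z4 : b00 = 0 := e7.trans (by by_contra h; exact n1 _ _ (by norm_num) (hm.2 _ h))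
    have z5 : b01 = 0 := e8.trans (by by_contra h; exact n1 _ _ (by norm_num) (hm.2 _ h))
    have z6 : h10 = 0 := e4.trans (hb_eq_zero fun h => n1 _ _ (by norm_num) (hm.1 _ h))
    have z7 : h11 = 0 := e5.trans (hb_eq_zero fun h => n1 _ _ (by norm_num) (hm.1 _ h))
    have z8 : b10 = 0 := e9.trans (by by_contra h; exact n1 _ _ (by norm_num) (hm.2 _ h))
    omega

theorem Dop_CC {s : ℕ} {x : Ch p (s + 1)} (hx : x ∈ M p 0 0 s) : Dop 1 0 s x = 0 := by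
  rw [Dop_zero_eq]
  exact pderiv_of_FR le_rfl (mem_FR_succ hx)

theorem CC_le_M10 {s : ℕ} {x : Ch p (s + 1)} (hx : x ∈ M p 0 0 s) : x ∈ M p 1 0 s :=
  FR_le_MS (mem_FR_succ hx)

theorem gen1 (hp : 11 ≤ p) {x : Ch p 2} (hx : x ∈ M p 0 0 1) (hw : IsWt (p * Ch.N p 2) x)
    (hd : dE 1 x = 0) : ∃ c : ZMod p, ∃ g ∈ M p 0 0 0, IsWt (p * Ch.N p 2) g ∧
      x = c • h21 p + dE 0 g := by
  have hN := stepData_M (p := p) (l := 1) (j := 0) (k := 1) (by norm_num)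
  have hNp : 0 < Ch.N p 2 := N_pos 1
  obtain ⟨m, hm, hmw, hmx⟩ := V_M10 hp x (CC_le_M10 hx) hw hd
  have hm' : m ∈ H.Ext (M p 1 1) 1 0 0 := by
    rw [Ext_M]
    exact hm
  have e0 : p * Ch.N p 2 = (p - 1) * Ch.N p 2 + Ch.N p 2 := by
    have h7 : ∀ q t : ℕ, (q + 1) * t = q * t + t := fun q t => by ring
    have h8 := h7 (p - 1) (Ch.N p 2)
    rwa [pred_add_one] at h8
  have h1 : Dop 1 0 0 m = 0 := by
    refine eq_zero_of_cocycle (w := (p - 1) * Ch.N p 2) (Nat.mul_pos (by omega) hNp) _ ?_ ?_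
    · exact Dop_isWt (by rw [pow_zero, one_mul, ← e0]; exact hmw)
    · rw [← Dop_dE hN hm', hmx, Dop_CC hx]
  obtain ⟨c, g, hg, hgw, hmg⟩ := exists_dec (mem_of_Dop_eq_zero hN hm' h1) hmw
  exact ⟨c, g, hg, hgw, by rw [← hmx, hmg, map_add, dE_smul, h21]⟩

theorem nc0 (hp : 11 ≤ p) (hA : ∀ K, 0 < K → DivData p 1 K A) {c : ZMod p} {n : Ch p 2}
    (hn : n ∈ M p 0 0 1) (hnw : IsWt (p * Ch.N p 2) n) (he : c • dE 1 A = dE 1 n) : c = 0 := by
  have hN := stepData_M (p := p) (l := 1) (j := 0) (k := 1) (by norm_num)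
  have hD := hA 1 (by norm_num)
  have hp1 : p - 1 + 1 = p := pred_add_one
  have hNp : 0 < Ch.N p 2 := N_pos 1
  have hA10 : A ∈ M p 1 0 1 := Ext_le hD.mem
  obtain ⟨m, hm, hmw, hmx⟩ := V_M10 hp (c • A - n)
    (AddSubgroup.sub_mem _ (M_smul c hA10) (CC_le_M10 hn)) ((IsWt_smul c hD.wt).sub hnw)
    (by rw [map_sub, dE_smul, he, sub_self])
  have hm' : m ∈ H.Ext (M p 1 1) 1 0 0 := by
    rw [Ext_M]
    exact hm
  have e0 : p * Ch.N p 2 = (p - 1) * Ch.N p 2 + Ch.N p 2 := by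
    have h7 : ∀ q t : ℕ, (q + 1) * t = q * t + t := fun q t => by ring
    have h8 := h7 (p - 1) (Ch.N p 2)
    rwa [hp1] at h8
  have h1 : Dop 1 0 0 m + c • tau p 1 0 0 ^ (p - 1) = 0 := by
    refine eq_zero_of_cocycle (w := (p - 1) * Ch.N p 2) (Nat.mul_pos (by omega) hNp) _ ?_ ?_
    · refine (Dop_isWt (by rw [pow_zero, one_mul, ← e0]; exact hmw)).add (IsWt_smul c ?_)
      exact (tau_pow_isWt (p := p) (l := 1) (k := 0) (p - 1) 0).cast (by rw [pow_zero, one_mul])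
    · rw [map_add, ← Dop_dE hN hm', hmx, map_sub, Dop_CC hn, sub_zero, map_smul, hD.D, dE_smul,
        smul_neg, neg_add_cancel]
  obtain ⟨g, hg, hg'⟩ := Dop_mem hN hm'
  have hr0 : Finset.range p = Finset.range (p - 1 + 1) := by rw [hp1]
  have k6 := indep hN (s := 0) p le_rfl (fun i => if i = p - 1 then (C c : Ch p 1) else g i)
    (fun i => by
      split_ifs
      · exact (C_mem_SR c : (C c : Ch p 1) ∈ MS p 1 1 0)
      · exact hg i) (by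
      rw [hr0, Finset.sum_range_succ, if_pos rfl]
      have : ∑ x ∈ Finset.range (p - 1), tau p 1 0 0 ^ x * (if x = p - 1 then (C c : Ch p 1) else g x)
          = Dop 1 0 0 m := by
        rw [hg']
        refine Finset.sum_congr rfl fun i hi => ?_
        rw [if_neg (by have := Finset.mem_range.1 hi; omega)]
      rw [this, ← h1, smul_eq_C_mul, mul_comm (C c)]) (p - 1) (by omega)
  rw [if_pos rfl] at k6
  exact C_eq_zero.1 k6

/-! ### the chains -/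

/-- `B ∪ d z = d (B ∪ z)` -/
theorem cup_dE {s : ℕ} (z : Ch p (s + 1)) :
    cupE (by omega : 2 + (s + 1) = s + 3) (dE 1 A) (dE s z) =
      dE (s + 2) (cupE (by omega : 2 + s = s + 2) (dE 1 A) z) := by
  rw [dE_cupE, dE_dE, cupE_zero_left, zero_add]
  norm_num

variable (A) in
/-- `B B` -/
noncomputable def BB : Ch p 5 := cupE (by omega : 2 + 2 = 4) (dE 1 A) (dE 1 A)

variable (A) in
/-- `B B B` -/
noncomputable def BBB : Ch p 7 := cupE (by omega : 2 + 4 = 6) (dE 1 A) (BB A)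

variable (A) in
/-- `B h` -/
noncomputable def Bh : Ch p 4 := cupE (by omega : 2 + 1 = 3) (dE 1 A) (h21 p)

variable (A) in
/-- `B B h` -/
noncomputable def BBh : Ch p 6 := cupE (by omega : 2 + 3 = 5) (dE 1 A) (Bh A)

theorem B_mem (hA : ∀ K, 0 < K → DivData p 1 K A) : dE 1 A ∈ M p 0 0 2 := by
  have h := hA (p * Ch.N p 2 + 1) (Nat.succ_pos _)
  exact (CC_iff (dE_isWt h.wt)).1 h.dmem

omit [Fact p.Prime] in
theorem nm (hp : 11 ≤ p) {s w : ℕ} (a0 a1 a2 : ℕ)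
    (hw : w = a0 + p * (a1 + p * a2)) (h0 : a0 < p) (h1 : a1 < p) (h2 : a2 < p) (hs : s ≤ 7)
    (h3 : 1 < a0 ∨ s ≠ a1 ∨ a1 ≠ a2 ∨ a0 + 1 < s) :
    NoMonoIn (Alive 0 0 \ {(1, 0)}) p s w :=
  noMono_T2 hp a0 a1 a2 hw h0 h1 h2 hs (by omega)

/-- degree 2, weight `P` -/
theorem gen2 (hp : 11 ≤ p) (hA : ∀ K, 0 < K → DivData p 1 K A) {x : Ch p 3}
    (hx : x ∈ M p 0 0 2) (hw : IsWt (p * Ch.N p 2) x) (hd : dE 2 x = 0) :
    ∃ c : ZMod p, ∃ y ∈ M p 0 0 1, IsWt (p * Ch.N p 2) y ∧ x = c • dE 1 A + dE 1 y := by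
  obtain ⟨q, rfl⟩ : ∃ q, p = q + 1 := ⟨p - 1, by omega⟩
  obtain ⟨c, hc, hcw, hdc, y, hy, hyw, hxy⟩ := div_CC hA (s := 0) le_rfl
    (nm hp 0 1 1 (by rw [N2]; ring) (by omega) (by omega) (by omega) (by omega) (by omega))
    (nm hp q q 0 (by rw [N2]; have : (q + 1) * (1 + (q + 1)) = (q + (q + 1) * (q + (q + 1) * 0)) + (1 + (q + 1)) := by ring
                     omega) (by omega) (by omega) (by omega) (by omega) (by omega)) hx hw hd
  obtain ⟨κ, rfl⟩ := exists_const (hcw.cast (Nat.sub_self _) : IsWt 0 c)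
  exact ⟨κ, y, hy, hyw, by rw [hxy, cupE_C]⟩

/-- one more factor `B` -/
theorem gen_step (hA : ∀ K, 0 < K → DivData p 1 K A) {s w w' : ℕ} (hww : p * Ch.N p 2 + w = w')
    {c : ZMod p} {Z : Ch p (s + 2)} {x : Ch p (s + 4)} {z : Ch p (s + 1)} (hz : z ∈ M p 0 0 s)
    (hzw : IsWt w z) {y : Ch p (s + 3)} (hy : y ∈ M p 0 0 (s + 2)) (hyw : IsWt w' y)
    (hx : x = cupE (by omega : 2 + (s + 1) = s + 3) (dE 1 A) (c • Z + dE s z) + dE (s + 2) y) :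
    ∃ u ∈ M p 0 0 (s + 2), IsWt w' u ∧
      x = c • cupE (by omega : 2 + (s + 1) = s + 3) (dE 1 A) Z + dE (s + 2) u := by
  refine ⟨cupE (by omega : 2 + s = s + 2) (dE 1 A) z + y,
    AddSubgroup.add_mem _ (cupE_mem_MS _ (B_mem hA) hz) hy,
    ((cupE_isWt _ (dE_isWt (hA 1 one_pos).wt) hzw).cast hww).add hyw, ?_⟩
  rw [hx, cupE_add_right, cupE_smul_right, cup_dE, map_add, add_assoc]

/-- degree 3, weight `2P` -/
theorem gen3 (hp : 11 ≤ p) (hA : ∀ K, 0 < K → DivData p 1 K A) {x : Ch p 4}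
    (hx : x ∈ M p 0 0 3) (hw : IsWt (p * Ch.N p 2 + p * Ch.N p 2) x) (hd : dE 3 x = 0) :
    ∃ c : ZMod p, ∃ y ∈ M p 0 0 2, IsWt (p * Ch.N p 2 + p * Ch.N p 2) y ∧
      x = c • Bh A + dE 2 y := by
  obtain ⟨q, hq⟩ : ∃ q, p = q + 1 := ⟨p - 1, by omega⟩
  obtain ⟨c, hc, hcw, hdc, y, hy, hyw, hxy⟩ := div_CC hA (s := 1) (Nat.le_add_right _ _)
    (nm hp 0 2 2 (by rw [N2]; ring) (by omega) (by omega) (by omega) (by omega) (by omega))
    (nm hp q 0 2 (by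
      have e : p * Ch.N p 2 + p * Ch.N p 2 = q + p * (0 + p * 2) + Ch.N p 2 := by
        rw [N2, hq]; ring
      omega) (by omega) (by omega) (by omega) (by omega) (by omega)) hx hw hd
  obtain ⟨κ, g, hg, hgw, rfl⟩ := gen1 hp hc (hcw.cast (by omega)) hdc
  exact ⟨κ, gen_step hA rfl hg hgw hy hyw hxy⟩

/-- degree 4, weight `2P` -/
theorem gen4 (hp : 11 ≤ p) (hA : ∀ K, 0 < K → DivData p 1 K A) {x : Ch p 5}
    (hx : x ∈ M p 0 0 4) (hw : IsWt (p * Ch.N p 2 + p * Ch.N p 2) x) (hd : dE 4 x = 0) :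
    ∃ c : ZMod p, ∃ y ∈ M p 0 0 3, IsWt (p * Ch.N p 2 + p * Ch.N p 2) y ∧
      x = c • BB A + dE 3 y := by
  obtain ⟨q, hq⟩ : ∃ q, p = q + 1 := ⟨p - 1, by omega⟩
  obtain ⟨c, hc, hcw, hdc, y, hy, hyw, hxy⟩ := div_CC hA (s := 2) (Nat.le_add_right _ _)
    (nm hp 0 2 2 (by rw [N2]; ring) (by omega) (by omega) (by omega) (by omega) (by omega))
    (nm hp q 0 2 (by
      have e : p * Ch.N p 2 + p * Ch.N p 2 = q + p * (0 + p * 2) + Ch.N p 2 := by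
        rw [N2, hq]; ring
      omega) (by omega) (by omega) (by omega) (by omega) (by omega)) hx hw hd
  obtain ⟨κ, g, hg, hgw, rfl⟩ := gen2 hp hA hc (hcw.cast (by omega)) hdc
  exact ⟨κ, gen_step hA rfl hg hgw hy hyw hxy⟩

/-- degree 5, weight `3P` -/
theorem gen5 (hp : 11 ≤ p) (hA : ∀ K, 0 < K → DivData p 1 K A) {x : Ch p 6}
    (hx : x ∈ M p 0 0 5) (hw : IsWt (p * Ch.N p 2 + (p * Ch.N p 2 + p * Ch.N p 2)) x)
    (hd : dE 5 x = 0) :
    ∃ c : ZMod p, ∃ y ∈ M p 0 0 4, IsWt (p * Ch.N p 2 + (p * Ch.N p 2 + p * Ch.N p 2)) y ∧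
      x = c • BBh A + dE 4 y := by
  obtain ⟨q, hq⟩ : ∃ q, p = q + 1 := ⟨p - 1, by omega⟩
  obtain ⟨c, hc, hcw, hdc, y, hy, hyw, hxy⟩ := div_CC hA (s := 3) (Nat.le_add_right _ _)
    (nm hp 0 3 3 (by rw [N2]; ring) (by omega) (by omega) (by omega) (by omega) (by omega))
    (nm hp q 1 3 (by
      have e : p * Ch.N p 2 + (p * Ch.N p 2 + p * Ch.N p 2) = q + p * (1 + p * 3) + Ch.N p 2 := by
        rw [N2, hq]; ring
      omega) (by omega) (by omega) (by omega) (by omega) (by omega)) hx hw hd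
  obtain ⟨κ, g, hg, hgw, rfl⟩ := gen3 hp hA hc (hcw.cast (by omega)) hdc
  exact ⟨κ, gen_step hA rfl hg hgw hy hyw hxy⟩

/-- degree 6, weight `3P` -/
theorem gen6 (hp : 11 ≤ p) (hA : ∀ K, 0 < K → DivData p 1 K A) {x : Ch p 7}
    (hx : x ∈ M p 0 0 6) (hw : IsWt (p * Ch.N p 2 + (p * Ch.N p 2 + p * Ch.N p 2)) x)
    (hd : dE 6 x = 0) :
    ∃ c : ZMod p, ∃ y ∈ M p 0 0 5, IsWt (p * Ch.N p 2 + (p * Ch.N p 2 + p * Ch.N p 2)) y ∧
      x = c • BBB A + dE 5 y := by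
  obtain ⟨q, hq⟩ : ∃ q, p = q + 1 := ⟨p - 1, by omega⟩
  obtain ⟨c, hc, hcw, hdc, y, hy, hyw, hxy⟩ := div_CC hA (s := 4) (Nat.le_add_right _ _)
    (nm hp 0 3 3 (by rw [N2]; ring) (by omega) (by omega) (by omega) (by omega) (by omega))
    (nm hp q 1 3 (by
      have e : p * Ch.N p 2 + (p * Ch.N p 2 + p * Ch.N p 2) = q + p * (1 + p * 3) + Ch.N p 2 := by
        rw [N2, hq]; ring
      omega) (by omega) (by omega) (by omega) (by omega) (by omega)) hx hw hd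
  obtain ⟨κ, g, hg, hgw, rfl⟩ := gen4 hp hA hc (hcw.cast (by omega)) hdc
  exact ⟨κ, gen_step hA rfl hg hgw hy hyw hxy⟩

/-! ### the classes of `B B` and `B h` -/

theorem nc_BB (hp : 11 ≤ p) (hA : ∀ K, 0 < K → DivData p 1 K A) {c : ZMod p} {n : Ch p 4}
    (hn : n ∈ M p 0 0 3) (hnw : IsWt (p * Ch.N p 2 + p * Ch.N p 2) n)
    (he : c • BB A = dE 3 n) : c = 0 := by
  obtain ⟨q, hq⟩ : ∃ q, p = q + 1 := ⟨p - 1, by omega⟩
  rw [BB, ← cupE_smul_right] at he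
  obtain ⟨r, hr, hrw, hrx⟩ := inj_CC hA (s := 1) (Nat.le_add_right _ _)
    (nm hp 0 2 2 (by rw [N2]; ring) (by omega) (by omega) (by omega) (by omega) (by omega))
    (nm hp q 0 2 (by
      have e : p * Ch.N p 2 + p * Ch.N p 2 = q + p * (0 + p * 2) + Ch.N p 2 := by
        rw [N2, hq]; ring
      omega) (by omega) (by omega) (by omega) (by omega) (by omega)) (M_smul c (B_mem hA))
    ((IsWt_smul c (show IsWt (p * Ch.N p 2) (dE 1 A) from dE_isWt (hA 1 one_pos).wt)).cast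
      (Nat.add_sub_cancel _ _).symm)
    (by rw [dE_smul, dE_dE, smul_zero]) hn hnw he
  exact nc0 hp hA hr (hrw.cast (by omega)) hrx.symm

theorem h21_wt : IsWt (p * Ch.N p 2) (h21 p) :=
  dE_isWt ((tau_isWt (p := p) 1 1 0).cast (by rw [pow_one]))

theorem h21_mem : h21 p ∈ M p 0 0 1 := by
  have h1 : h21 p = (cof 0 0 (tau p 1 1 0) - tau p 1 1 1) - (cof 0 1 (tau p 1 1 0) - tau p 1 1 1) := by
    rw [h21, dE_apply, Fin.sum_univ_two]
    simp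
    abel
  rw [h1]
  exact mem_MS_zero (Subring.sub_mem _ (cof_tau_sub_mem 1 1 0 0) (cof_tau_sub_mem 1 1 0 1))

theorem nc_Bh (hp : 11 ≤ p) (hA : ∀ K, 0 < K → DivData p 1 K A) {c : ZMod p} {n : Ch p 3}
    (hn : n ∈ M p 0 0 2) (hnw : IsWt (p * Ch.N p 2 + p * Ch.N p 2) n)
    (he : c • Bh A = dE 2 n) : c = 0 := by
  obtain ⟨q, hq⟩ : ∃ q, p = q + 1 := ⟨p - 1, by omega⟩
  rw [Bh, ← cupE_smul_right] at he
  obtain ⟨r, hr, hrw, hrx⟩ := inj_CC hA (s := 0) (Nat.le_add_right _ _)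
    (nm hp 0 2 2 (by rw [N2]; ring) (by omega) (by omega) (by omega) (by omega) (by omega))
    (nm hp q 0 2 (by
      have e : p * Ch.N p 2 + p * Ch.N p 2 = q + p * (0 + p * 2) + Ch.N p 2 := by
        rw [N2, hq]; ring
      omega) (by omega) (by omega) (by omega) (by omega) (by omega)) (M_smul c h21_mem)
    ((IsWt_smul c h21_wt).cast (Nat.add_sub_cancel _ _).symm)
    (by rw [dE_smul, h21, dE_dE, smul_zero]) hn hnw he
  have hNp : 0 < p * Ch.N p 2 := Nat.mul_pos (by omega) (N_pos 1)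
  have h1 : r - c • tau p 1 1 0 = 0 := by
    refine eq_zero_of_cocycle hNp _ ((hrw.cast (by omega)).sub (IsWt_smul c
      ((tau_isWt (p := p) 1 1 0).cast (by rw [pow_one])))) ?_
    rw [map_sub, hrx, dE_smul, h21, sub_self]
  by_contra hc
  have h2 : Finsupp.single (zv 0 1) (p ^ 1) ∈ r.support := by
    rw [sub_eq_zero.1 h1, mem_support_iff, coeff_smul, tau, X_pow_eq_monomial, coeff_monomial,
      if_pos rfl, smul_eq_mul, mul_one]
    exact hc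
  have h3 := (hr _ h2).1 1 (by norm_num)
  rw [Finsupp.single_eq_same, pow_one] at h3
  omega

end Vale.Agent.P257.V4.A.HC
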