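import Vale.Agent.P257.V4.A.HCup

/-!
# P257 / V4, part A: vertex maps which fix the coefficient vertex (helper886)

Maps `Ch.map α` with `α` fixing the last vertex preserve `M p l k` and commute with the
derivative in `z_{l+1}` on functions of `z_1, …, z_{l+1}`; the product `cupE` preserves
`M p l k` and `Ext`, and `Dop l 0` is a derivation for it.
-/

open MvPolynomial

namespace Vale.Agent.P257.V4.A.HC

open Ch H

variable {p : ℕ} [Fact p.Prime]

theorem smul_eq_nsmul {n : ℕ} (c : ZMod p) (x : Ch p n) : c • x = c.val • x := by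
  rw [← Nat.cast_smul_eq_nsmul (ZMod p), ZMod.natCast_zmod_val]

theorem map_smul_ch {m n : ℕ} (α : Fin (m + 1) → Fin (n + 1)) (c : ZMod p) (x : Ch p m) :
    Ch.map α (c • x) = c • Ch.map α x := by
  rw [smul_eq_nsmul, smul_eq_nsmul, map_nsmul]

theorem dE_smul {s : ℕ} (c : ZMod p) (x : Ch p (s + 1)) : dE s (c • x) = c • dE s x := by
  rw [smul_eq_nsmul, smul_eq_nsmul, map_nsmul]

/-- `α` fixes the last vertex and sends no other vertex to it -/
def Fx {m n : ℕ} (α : Fin (m + 2) → Fin (n + 2)) : Prop :=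
  ∀ v, (α v = Fin.last (n + 1) ↔ v = Fin.last (m + 1))

theorem fx_fr {a n : ℕ} (h : a ≤ n) : Fx (fr h : Fin (a + 2) → Fin (n + 2)) := by
  intro v
  have e1 := frA h v
  constructor
  · intro e
    have := congrArg Fin.val e
    rw [Fin.val_last] at this
    apply Fin.ext
    rw [Fin.val_last]
    have := v.2
    omega
  · intro e
    have := congrArg Fin.val e
    rw [Fin.val_last] at this
    apply Fin.ext
    rw [Fin.val_last]
    omega

theorem fx_back {b n : ℕ} (h : b + 1 ≤ n + 1) : Fx (back h : Fin (b + 1 + 1) → Fin (n + 1 + 1)) := by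
  intro v
  have e1 := val_back h v
  constructor
  · intro e
    have := congrArg Fin.val e
    rw [Fin.val_last] at this
    apply Fin.ext
    rw [Fin.val_last]
    omega
  · intro e
    have := congrArg Fin.val e
    rw [Fin.val_last] at this
    apply Fin.ext
    rw [Fin.val_last]
    omega

/-- the chain which computes `Ch.map` on variables -/
theorem map_X {m n : ℕ} (α : Fin (m + 2) → Fin (n + 2)) (v : Fin (m + 1)) (j : ℕ) :
    Ch.map α (X (v, j) : Ch p (m + 1)) =
      ((univ p (n + 1)).g (α v.succ) * ((univ p (n + 1)).g (α 0))⁻¹).a (j + 1) := by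
  rw [Ch.map, ev_X, Chain.res_g]

theorem zero_ne_last (m : ℕ) : (0 : Fin (m + 2)) ≠ Fin.last (m + 1) := by
  intro h
  have := congrArg Fin.val h
  rw [Fin.val_last, Fin.val_zero] at this
  omega

theorem map_X_of_ne {m n : ℕ} {α : Fin (m + 2) → Fin (n + 2)} (hα : Fx α) {v : Fin (m + 1)}
    (hv : v ≠ Fin.last m) (j : ℕ) : Ch.map α (X (v, j) : Ch p (m + 1)) ∈ FR p 0 n := by
  have h1 : α v.succ ≠ Fin.last (n + 1) := fun h => hv (by
    have := (hα v.succ).1 h
    rw [← Fin.succ_last, Fin.succ_inj] at this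
    exact this)
  have h0 : α 0 ≠ Fin.last (n + 1) := fun h => zero_ne_last m ((hα 0).1 h)
  rw [map_X, G.mul_a]
  exact Subring.sum_mem _ fun ij _ => Subring.mul_mem _ (univ_mem_FR h1 _)
    (Subring.pow_mem _ (inv_mem _ (univ_mem_FR h0) _) _)

theorem map_X_last {m n : ℕ} {α : Fin (m + 2) → Fin (n + 2)} (hα : Fx α) (j : ℕ) :
    Ch.map α (X (Fin.last m, j) : Ch p (m + 1)) - X (Fin.last n, j) ∈ FR p j n := by
  have h1 : α (Fin.last m).succ = Fin.last (n + 1) := (hα _).2 (Fin.succ_last m)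
  have h0 : α 0 ≠ Fin.last (n + 1) := fun h => zero_ne_last m ((hα 0).1 h)
  rw [map_X, h1, G.mul_a, Finset.Nat.sum_antidiagonal_eq_sum_range_succ
    (fun a b => ((univ p (n + 1)).g (Fin.last (n + 1))).a a *
      (((univ p (n + 1)).g (α 0))⁻¹).a b ^ (p ^ a)), Finset.sum_range_succ,
    Nat.sub_self, G.a_zero, one_pow, mul_one]
  have h2 : ((univ p (n + 1)).g (Fin.last (n + 1))).a (j + 1) = X (Fin.last n, j) := by
    rw [show (Fin.last (n + 1)) = (Fin.last n).succ from rfl, univ_g_succ, G.mk_a_succ]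
  rw [h2, add_sub_cancel_right]
  refine Subring.sum_mem _ fun a ha => Subring.mul_mem _ ?_ (Subring.pow_mem _ ?_ _)
  · exact last_mem_FR (by have := Finset.mem_range.1 ha; omega)
  · exact FR_mono (Nat.zero_le _) (inv_mem _ (univ_mem_FR h0) _)

theorem map_tau_sub_mem {m n : ℕ} {α : Fin (m + 2) → Fin (n + 2)} (hα : Fx α) (l k : ℕ) :
    Ch.map α (tau p l k m) - tau p l k n ∈ FR p l n := by
  have h : Ch.map α (tau p l k m) - tau p l k n =
      (Ch.map α (X (zv m l)) - X (zv n l)) ^ (p ^ k) := by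
    rw [tau, tau, map_pow]
    have := add_pow_pow (p := p) k (Ch.map α (X (zv m l)) - X (zv n l))
      (X (zv n l) : Ch p (n + 1))
    rw [sub_add_cancel] at this
    rw [this, add_sub_cancel_right]
  rw [h]
  exact Subring.pow_mem _ (map_X_last hα l) _

theorem map_mem_MS {l k m n : ℕ} {α : Fin (m + 2) → Fin (n + 2)} (hα : Fx α) {x : Ch p (m + 1)}
    (hx : x ∈ MS p l k m) : Ch.map α x ∈ MS p l k n := by
  rw [x.as_sum, map_sum]
  refine Subring.sum_mem _ fun e he => ?_
  rw [monomial_eq, map_mul, Finsupp.prod, map_prod]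
  refine Subring.mul_mem _ ?_ (Subring.prod_mem _ fun v hv => ?_)
  · rw [Ch.map, ev_C]
    exact C_mem_SR _
  · obtain ⟨v, j⟩ := v
    rw [map_pow]
    by_cases h : v = Fin.last m
    · subst h
      rcases lt_trichotomy j l with hj | hj | hj
      · refine Subring.pow_mem _ (FR_le_MS ?_) _
        have h1 := map_X_last (p := p) hα j
        have h2 := Subring.add_mem _ (FR_mono hj.le h1) (X_last_mem_FR (p := p) n hj)
        rwa [sub_add_cancel] at h2
      · subst hj
        obtain ⟨q, hq⟩ := (hx e he).2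
        rw [hq, pow_mul]
        refine Subring.pow_mem _ ?_ _
        have h1 := map_tau_sub_mem (p := p) hα j k
        have h3 := Subring.add_mem _ (FR_le_MS (k := k) h1) tau_mem_M
        rwa [sub_add_cancel, tau, map_pow] at h3
      · exfalso
        exact (Finsupp.mem_support_iff.1 hv) ((hx e he).1 j hj)
    · exact Subring.pow_mem _ (FR_le_MS (FR_mono (Nat.zero_le _) (map_X_of_ne hα h j))) _

theorem map_fr_tau {a n : ℕ} (h : a ≤ n) (l k : ℕ) :
    Ch.map (fr h) (tau p l k a) = tau p l k n := by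
  have h1 : (fr h (Fin.last a).succ : Fin (n + 2)) = Fin.last (n + 1) :=
    (fx_fr h _).2 (Fin.succ_last a)
  have h0 : (fr h 0 : Fin (n + 2)) = 0 := by
    apply Fin.ext
    rw [val_fr, if_pos (by simp)]
    simp
  rw [tau, tau, map_pow, map_X, h1, h0, univ_g_zero, inv_one, mul_one,
    show (Fin.last (n + 1)) = (Fin.last n).succ from rfl, univ_g_succ, G.mk_a_succ]

/-! ### the product -/

theorem cupE_mem_MS {l k a b n : ℕ} (h : a + b = n) {x : Ch p (a + 1)} {y : Ch p (b + 1)}
    (hx : x ∈ M p l k a) (hy : y ∈ M p l k b) : cupE h x y ∈ M p l k n :=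
  Subring.mul_mem (MS p l k n) (map_mem_MS (fx_fr _) hx) (map_mem_MS (fx_back _) hy)

theorem cupE_mem_Tr {l k l' k' m a b n : ℕ} (h : a + b = n) {x : Ch p (a + 1)} {y : Ch p (b + 1)}
    (hx : x ∈ Tr (M p l k) l' k' m a) (hy : y ∈ M p l k b) :
    cupE h x y ∈ Tr (M p l k) l' k' m n := by
  obtain ⟨f, hf, rfl⟩ := hx
  rw [cupE, map_sum, Finset.sum_mul]
  refine AddSubgroup.sum_mem _ fun i hi => ?_
  rw [map_mul, map_pow, map_fr_tau, mul_assoc]
  exact tau_mul_mem_Tr (Finset.mem_range.1 hi) (cupE_mem_MS h (hf i) hy)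

theorem cupE_isWt {a b n w w' : ℕ} (h : a + b = n) {x : Ch p (a + 1)} {y : Ch p (b + 1)}
    (hx : IsWt w x) (hy : IsWt w' y) : IsWt (w + w') (cupE h x y) :=
  (map_isWt _ hx).mul (map_isWt _ hy)

theorem cupE_smul_left {a b n : ℕ} (h : a + b = n) (k : ZMod p) (x : Ch p (a + 1))
    (y : Ch p (b + 1)) : cupE h (k • x) y = k • cupE h x y := by
  unfold cupE; rw [map_smul_ch, smul_mul_assoc]

theorem cupE_smul_right {a b n : ℕ} (h : a + b = n) (k : ZMod p) (x : Ch p (a + 1))
    (y : Ch p (b + 1)) : cupE h x (k • y) = k • cupE h x y := by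
  unfold cupE; rw [map_smul_ch, mul_smul_comm]

/-- product with a cochain of degree 0 on the left -/
theorem cupE_tau (l k : ℕ) {b : ℕ} (m : ℕ) (y : Ch p (b + 1)) :
    cupE (Nat.zero_add b) (tau p l k 0 ^ m) y = tau p l k b ^ m * y := by
  rw [cupE, map_pow, map_fr_tau]
  congr 1
  have : (back (show b + 1 ≤ b + 1 by omega) : Fin (b + 1 + 1) → Fin (b + 1 + 1)) = id := by
    funext k
    apply Fin.ext
    rw [val_back]
    simp
  rw [this, Ch.map_id]

/-! ### first derivatives -/

theorem Dop_zero_eq (l s : ℕ) (x : Ch p (s + 1)) : Dop l 0 s x = pderiv (zv s l) x := by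
  rw [x.as_sum, map_sum, map_sum]
  refine Finset.sum_congr rfl fun e _ => ?_
  rw [Dop_monomial, pderiv_monomial, pow_zero, Nat.choose_one_right]

theorem pderiv_of_FR {l j s : ℕ} (h : j ≤ l) {x : Ch p (s + 1)} (hx : x ∈ FR p j s) :
    pderiv (zv s l) x = 0 := by
  rw [x.as_sum, map_sum]
  refine Finset.sum_eq_zero fun e he => ?_
  rw [pderiv_monomial, hx e he l h]
  simp

theorem pderiv_map {l m n : ℕ} {α : Fin (m + 2) → Fin (n + 2)} (hα : Fx α) {x : Ch p (m + 1)}
    (hx : x ∈ M p l 0 m) : pderiv (zv n l) (Ch.map α x) = Ch.map α (pderiv (zv m l) x) := by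
  let S : Subring (Ch p (m + 1)) :=
    { carrier := {x | pderiv (zv n l) (Ch.map α x) = Ch.map α (pderiv (zv m l) x)}
      zero_mem' := by simp
      one_mem' := by simp
      add_mem' := fun {a b} ha hb => by
        change _ = _ at ha hb
        change _ = _
        simp only [map_add, ha, hb]
      neg_mem' := fun {a} ha => by
        change _ = _ at ha
        change _ = _
        simp only [map_neg, ha]
      mul_mem' := fun {a b} ha hb => by
        change _ = _ at ha hb
        change _ = _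
        simp only [map_mul, map_add, Derivation.leibniz, ha, hb, smul_eq_mul] }
  have hC : ∀ c, (C c : Ch p (m + 1)) ∈ S := fun c => by
    change pderiv (zv n l) (Ch.map α (C c)) = Ch.map α (pderiv (zv m l) (C c))
    rw [Ch.map, ev_C, pderiv_C, map_zero]
    exact pderiv_C
  have hX : ∀ v : Fin (m + 1) × ℕ, (v.1 = Fin.last m → v.2 ≤ l) → (X v : Ch p (m + 1)) ∈ S := by
    rintro ⟨v, j⟩ hv
    change pderiv (zv n l) (Ch.map α (X (v, j))) = Ch.map α (pderiv (zv m l) (X (v, j)))
    by_cases h : v = Fin.last m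
    · subst h
      have hj : j ≤ l := hv rfl
      have e1 := map_X_last (p := p) hα j
      have e2 : Ch.map α (X (Fin.last m, j) : Ch p (m + 1)) =
        (Ch.map α (X (Fin.last m, j) : Ch p (m + 1)) - X (Fin.last n, j)) + X (Fin.last n, j) := by
        ring
      rw [e2, map_add, pderiv_of_FR hj e1, zero_add]
      rcases hj.eq_or_lt with rfl | hj
      · rw [pderiv_X_self, pderiv_X_self, map_one]
      · rw [pderiv_X_of_ne, pderiv_X_of_ne, map_zero]
        · intro h
          rw [Prod.mk.injEq] at h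
          omega
        · intro h
          rw [Prod.mk.injEq] at h
          omega
    · rw [pderiv_of_FR (Nat.zero_le _) (map_X_of_ne (p := p) hα h j), pderiv_X_of_ne, map_zero]
      intro h'
      rw [Prod.mk.injEq] at h'
      exact h h'.1
  have : x ∈ S := by
    rw [x.as_sum]
    refine Subring.sum_mem _ fun e he => ?_
    rw [monomial_eq, Finsupp.prod]
    refine Subring.mul_mem _ (hC _) (Subring.prod_mem _ fun v hv => Subring.pow_mem _ (hX v ?_) _)
    intro hv1
    obtain ⟨v, j⟩ := v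
    change v = _ at hv1
    subst hv1
    by_contra hc
    exact (Finsupp.mem_support_iff.1 hv) ((hx e he).1 j (not_le.1 hc))
  exact this

theorem Dop_map {l m n : ℕ} {α : Fin (m + 2) → Fin (n + 2)} (hα : Fx α) {x : Ch p (m + 1)}
    (hx : x ∈ M p l 0 m) : Dop l 0 n (Ch.map α x) = Ch.map α (Dop l 0 m x) := by
  rw [Dop_zero_eq, Dop_zero_eq, pderiv_map hα hx]

theorem Dop_mul (l s : ℕ) (x y : Ch p (s + 1)) :
    Dop l 0 s (x * y) = Dop l 0 s x * y + x * Dop l 0 s y := by
  rw [Dop_zero_eq, Dop_zero_eq, Dop_zero_eq, Derivation.leibniz, smul_eq_mul, smul_eq_mul]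
  ring

/-- `Dop l 0` is a derivation for `cupE` on functions of `z_1, …, z_{l+1}` -/
theorem Dop_cupE {l a b n : ℕ} (h : a + b = n) {x : Ch p (a + 1)} {y : Ch p (b + 1)}
    (hx : x ∈ M p l 0 a) (hy : y ∈ M p l 0 b) :
    Dop l 0 n (cupE h x y) = cupE h (Dop l 0 a x) y + cupE h x (Dop l 0 b y) := by
  unfold cupE
  rw [Dop_mul, Dop_map (fx_fr _) hx, Dop_map (fx_back _) hy]

end Vale.Agent.P257.V4.A.HC
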