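import Vale.Agent.P257.V4.A.HStep
import Vale.Agent.P257.V4.A.Mono

/-!
# P257 / V4, part A: the coefficient systems of the engine (block A1, helper898)

`MS l k` = functions whose dependence on the last vertex `z` is through `z_1, …, z_l` and
`z_{l+1}^{p^k}`; `FR l` = functions which depend on `z` only through `z_1, …, z_l`.
-/

open MvPolynomial

namespace Vale.Agent.P257.V4.A.H

open Ch

variable {p : ℕ} [Fact p.Prime]

/-! ### subrings given by exponents -/

variable (p) in
/-- the subring of polynomials all of whose exponents satisfy `P` -/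
def SR {σ : Type} (P : (σ →₀ ℕ) → Prop) (h0 : P 0) (hadd : ∀ a b, P a → P b → P (a + b)) :
    Subring (MvPolynomial σ (ZMod p)) where
  carrier := {x | ∀ e ∈ x.support, P e}
  zero_mem' := by simp
  one_mem' := by
    classical
    intro e he
    rw [← C_1, mem_support_iff, coeff_C] at he
    split_ifs at he with h
    · rw [← h]
      exact h0
    · exact absurd rfl he
  add_mem' := by
    classical
    intro x y hx hy e he
    rcases Finset.mem_union.1 (support_add he) with h | h
    · exact hx e h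
    · exact hy e h
  neg_mem' := by
    intro x hx e he
    exact hx e (by rwa [support_neg] at he)
  mul_mem' := by
    classical
    intro x y hx hy e he
    obtain ⟨a, ha, b, hb, rfl⟩ := Finset.mem_add.1 (support_mul _ _ he)
    exact hadd a b (hx a ha) (hy b hb)

section SR

variable {σ : Type} {P : (σ →₀ ℕ) → Prop} {h0 : P 0} {hadd : ∀ a b, P a → P b → P (a + b)}

theorem mem_SR {x : MvPolynomial σ (ZMod p)} : x ∈ SR p P h0 hadd ↔ ∀ e ∈ x.support, P e := Iff.rfl

theorem monomial_mem_SR {e : σ →₀ ℕ} (c : ZMod p) (h : P e) : monomial e c ∈ SR p P h0 hadd := by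
  intro e' he
  have := support_monomial_subset he
  rw [Finset.mem_singleton] at this
  rw [this]
  exact h

theorem C_mem_SR (c : ZMod p) : (C c : MvPolynomial σ (ZMod p)) ∈ SR p P h0 hadd :=
  monomial_mem_SR c h0

theorem X_pow_mem_SR {v : σ} {n : ℕ} (h : P (Finsupp.single v n)) :
    (X v : MvPolynomial σ (ZMod p)) ^ n ∈ SR p P h0 hadd := by
  rw [X_pow_eq_monomial]
  exact monomial_mem_SR _ h

end SR

variable (p) in
/-- functions which depend on `z` only through `z_1, …, z_l` -/
noncomputable def FR (l s : ℕ) : Subring (Ch p (s + 1)) :=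
  SR p (fun e => ∀ j, l ≤ j → e (zv s j) = 0) (fun _ _ => rfl)
    (fun a b ha hb j hj => by rw [Finsupp.add_apply, ha j hj, hb j hj])

variable (p) in
/-- functions which depend on `z` only through `z_1, …, z_l, z_{l+1}^{p^k}` -/
noncomputable def MS (l k s : ℕ) : Subring (Ch p (s + 1)) :=
  SR p (fun e => (∀ j, l < j → e (zv s j) = 0) ∧ p ^ k ∣ e (zv s l))
    ⟨fun _ _ => rfl, dvd_zero _⟩
    (fun a b ha hb => ⟨fun j hj => by rw [Finsupp.add_apply, ha.1 j hj, hb.1 j hj],
      by rw [Finsupp.add_apply]; exact dvd_add ha.2 hb.2⟩)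

theorem mem_FR {l s : ℕ} {x : Ch p (s + 1)} :
    x ∈ FR p l s ↔ ∀ e ∈ x.support, ∀ j, l ≤ j → e (zv s j) = 0 := Iff.rfl

theorem mem_MS {l k s : ℕ} {x : Ch p (s + 1)} :
    x ∈ MS p l k s ↔ ∀ e ∈ x.support, (∀ j, l < j → e (zv s j) = 0) ∧ p ^ k ∣ e (zv s l) := Iff.rfl

theorem FR_le_MS {l k s : ℕ} {x : Ch p (s + 1)} (hx : x ∈ FR p l s) : x ∈ MS p l k s := by
  intro e he
  refine ⟨fun j hj => hx e he j hj.le, ?_⟩
  rw [hx e he l le_rfl]
  exact dvd_zero _

theorem FR_mono {l l' s : ℕ} (h : l ≤ l') {x : Ch p (s + 1)} (hx : x ∈ FR p l s) :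
    x ∈ FR p l' s := fun e he j hj => hx e he j (h.trans hj)

/-! ### coefficients of group elements -/

theorem inv_mem {B : Type} [CommRing B] [Algebra (ZMod p) B] (A : Subring B) {x : G p B}
    (hx : ∀ n, x.a n ∈ A) (n : ℕ) : (x⁻¹).a n ∈ A := by
  induction n using Nat.strong_induction_on with
  | _ n ih =>
    cases n with
    | zero => rw [G.inv_a_zero]; exact A.one_mem
    | succ n =>
      rw [G.inv_a_succ]
      refine A.neg_mem (A.sum_mem fun i _ => A.mul_mem (ih i i.2) (A.pow_mem (hx _) _))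

theorem univ_mem_FR {s : ℕ} {v : Fin (s + 2)} (hv : v ≠ Fin.last (s + 1)) (n : ℕ) :
    ((univ p (s + 1)).g v).a n ∈ FR p 0 s := by
  cases n with
  | zero => rw [G.a_zero]; exact Subring.one_mem _
  | succ n =>
    revert hv
    refine Fin.cases (fun _ => ?_) (fun i => fun hv => ?_) v
    · rw [univ_g_zero, G.one_a_succ]
      exact Subring.zero_mem _
    · rw [univ_g_succ, G.mk_a_succ]
      rw [← pow_one (X (i, n) : Ch p (s + 1))]
      refine X_pow_mem_SR ?_
      intro j _
      rw [Finsupp.single_apply, if_neg]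
      intro h
      apply hv
      rw [Prod.mk.injEq] at h
      rw [h.1]
      rfl

theorem last_mem_FR {s l n : ℕ} (h : n ≤ l) :
    ((univ p (s + 1)).g (Fin.last (s + 1))).a n ∈ FR p l s := by
  cases n with
  | zero => rw [G.a_zero]; exact Subring.one_mem _
  | succ n =>
    rw [show (Fin.last (s + 1)) = (Fin.last s).succ from rfl, univ_g_succ, G.mk_a_succ]
    rw [← pow_one (X (Fin.last s, n) : Ch p (s + 1))]
    refine X_pow_mem_SR ?_
    intro j hj
    rw [Finsupp.single_apply, if_neg]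
    intro h'
    rw [Prod.mk.injEq] at h'
    omega

/-- the chain which computes `cof` -/
theorem cof_X (s : ℕ) (i : Fin (s + 2)) (v : Fin (s + 1)) (n : ℕ) :
    cof s i (X (v, n) : Ch p (s + 1)) =
      ((univ p (s + 2)).g (i.castSucc.succAbove v.succ) *
        ((univ p (s + 2)).g (i.castSucc.succAbove 0))⁻¹).a (n + 1) := by
  rw [cof, Ch.map, ev_X, Chain.res_g]

theorem base_ne_last (s : ℕ) (i : Fin (s + 2)) :
    (i.castSucc.succAbove 0 : Fin (s + 3)) ≠ Fin.last (s + 2) := by
  intro h
  have h1 := congrArg Fin.val h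
  simp only [Fin.succAbove, Fin.lt_def, Fin.val_castSucc, apply_ite Fin.val, Fin.val_succ,
    Fin.val_last, Fin.val_zero] at h1
  split_ifs at h1 <;> omega

theorem cof_X_of_ne (s : ℕ) (i : Fin (s + 2)) {v : Fin (s + 1)} (hv : v ≠ Fin.last s) (n : ℕ) :
    cof s i (X (v, n) : Ch p (s + 1)) ∈ FR p 0 (s + 1) := by
  have h1 : (i.castSucc.succAbove v.succ : Fin (s + 3)) ≠ Fin.last (s + 2) := by
    intro h
    apply hv
    have h1 := congrArg Fin.val h
    apply Fin.ext
    simp only [Fin.succAbove, Fin.lt_def, Fin.val_castSucc, apply_ite Fin.val, Fin.val_succ,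
      Fin.val_last] at h1 ⊢
    have := v.2
    have := i.2
    split_ifs at h1
    all_goals omega
  rw [cof_X, G.mul_a]
  exact Subring.sum_mem _ fun ij _ => Subring.mul_mem _ (univ_mem_FR h1 _)
    (Subring.pow_mem _ (inv_mem _ (univ_mem_FR (base_ne_last s i)) _) _)

theorem cof_X_last (s : ℕ) (i : Fin (s + 2)) (n : ℕ) :
    cof s i (X (Fin.last s, n) : Ch p (s + 1)) - X (Fin.last (s + 1), n) ∈ FR p n (s + 1) := by
  have h1 : (i.castSucc.succAbove (Fin.last s).succ : Fin (s + 3)) = Fin.last (s + 2) := by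
    apply Fin.ext
    simp only [Fin.succAbove, Fin.lt_def, Fin.val_castSucc, apply_ite Fin.val, Fin.val_succ,
      Fin.val_last]
    have := i.2
    split_ifs <;> omega
  rw [cof_X, h1, G.mul_a, Finset.Nat.sum_antidiagonal_eq_sum_range_succ
    (fun a b => ((univ p (s + 2)).g (Fin.last (s + 2))).a a *
      (((univ p (s + 2)).g (i.castSucc.succAbove 0))⁻¹).a b ^ (p ^ a)), Finset.sum_range_succ,
    Nat.sub_self, G.a_zero, one_pow, mul_one]
  have h2 : ((univ p (s + 2)).g (Fin.last (s + 2))).a (n + 1) = X (Fin.last (s + 1), n) := by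
    rw [show (Fin.last (s + 2)) = (Fin.last (s + 1)).succ from rfl, univ_g_succ, G.mk_a_succ]
  rw [h2, add_sub_cancel_right]
  refine Subring.sum_mem _ fun a ha => Subring.mul_mem _ ?_ (Subring.pow_mem _ ?_ _)
  · exact last_mem_FR (by have := Finset.mem_range.1 ha; omega)
  · exact FR_mono (Nat.zero_le _) (inv_mem _ (univ_mem_FR (base_ne_last s i)) _)

theorem cof_tau_sub_mem (l k s : ℕ) (i : Fin (s + 2)) :
    cof s i (tau p l k s) - tau p l k (s + 1) ∈ FR p l (s + 1) := by
  have h : cof s i (tau p l k s) - tau p l k (s + 1) =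
      (cof s i (X (zv s l)) - X (zv (s + 1) l)) ^ (p ^ k) := by
    rw [tau, tau, map_pow]
    have := add_pow_pow (p := p) k (cof s i (X (zv s l)) - X (zv (s + 1) l))
      (X (zv (s + 1) l) : Ch p (s + 2))
    rw [sub_add_cancel] at this
    rw [this, add_sub_cancel_right]
  rw [h]
  exact Subring.pow_mem _ (cof_X_last s i l) _

theorem X_last_mem_FR (s : ℕ) {l n : ℕ} (h : n < l) :
    (X (Fin.last s, n) : Ch p (s + 1)) ∈ FR p l s := by
  have := last_mem_FR (p := p) (s := s) (l := l) (n := n + 1) h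
  rwa [show (Fin.last (s + 1)) = (Fin.last s).succ from rfl, univ_g_succ, G.mk_a_succ] at this

theorem cof_mem_MS {l k s : ℕ} (i : Fin (s + 2)) {x : Ch p (s + 1)} (hx : x ∈ MS p l k s) :
    cof s i x ∈ MS p l k (s + 1) := by
  rw [x.as_sum, map_sum]
  refine Subring.sum_mem _ fun e he => ?_
  rw [monomial_eq, map_mul, Finsupp.prod, map_prod]
  refine Subring.mul_mem _ ?_ (Subring.prod_mem _ fun v hv => ?_)
  · rw [cof, Ch.map, ev_C]
    exact C_mem_SR _
  · obtain ⟨v, j⟩ := v
    rw [map_pow]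
    by_cases h : v = Fin.last s
    · subst h
      rcases lt_trichotomy j l with hj | hj | hj
      · refine Subring.pow_mem _ (FR_le_MS ?_) _
        have h1 := cof_X_last (p := p) s i j
        have h2 := Subring.add_mem _ (FR_mono hj.le h1) (X_last_mem_FR (p := p) (s + 1) hj)
        rwa [sub_add_cancel] at h2
      · subst hj
        obtain ⟨m, hm⟩ := (hx e he).2
        rw [hm, pow_mul]
        refine Subring.pow_mem _ ?_ _
        have h1 := cof_tau_sub_mem (p := p) j k s i
        have h2 : (tau p j k (s + 1)) ∈ MS p j k (s + 1) := by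
          refine X_pow_mem_SR ⟨fun j' hj' => ?_, ?_⟩
          · rw [Finsupp.single_apply, if_neg]
            intro h
            rw [Prod.mk.injEq] at h
            omega
          · rw [Finsupp.single_eq_same]
        have h3 := Subring.add_mem _ (FR_le_MS (k := k) h1) h2
        rwa [sub_add_cancel, tau, map_pow] at h3
      · exfalso
        exact (Finsupp.mem_support_iff.1 hv) ((hx e he).1 j hj)
    · exact Subring.pow_mem _ (FR_le_MS (FR_mono (Nat.zero_le _) (cof_X_of_ne s i h j))) _

variable (p) in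
/-- the coefficient system `MS l k` -/
noncomputable def M (l k : ℕ) : CS p := fun s => (MS p l k s).toAddSubgroup

theorem mem_M {l k s : ℕ} {x : Ch p (s + 1)} : x ∈ M p l k s ↔ x ∈ MS p l k s := Iff.rfl

theorem comp_mem_M {l k s w : ℕ} {x : Ch p (s + 1)} (hx : x ∈ M p l k s) :
    comp (s + 1) w x ∈ M p l k s := by
  intro e he
  refine hx e ?_
  rw [mem_support_iff, comp, coeff_weightedHomogeneousComponent] at he
  rw [mem_support_iff]
  split_ifs at he
  · exact he
  · exact absurd rfl he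

theorem stepData_M {l k j : ℕ} (hj : j < k) : StepData (M p l k) l j where
  cof_mem _ i _ h := cof_mem_MS i h
  dig s x hx e he := by
    obtain ⟨m, hm⟩ := (hx e he).2
    have h1 : p ^ k = p ^ j * p * p ^ (k - j - 1) := by
      rw [← pow_succ, ← pow_add]
      congr 1
      omega
    rw [hm, h1, mul_assoc, mul_assoc, Nat.mul_div_cancel_left _ (Nat.pow_pos (Fact.out : p.Prime).pos)]
    simp
  comp_mem _ _ _ h := comp_mem_M h
  r_mem s i x hx := Subring.mul_mem _ (FR_le_MS (cof_tau_sub_mem l j s i)) hx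
  r_free s i e he := cof_tau_sub_mem l j s i e he l le_rfl

theorem tau_mem_M {l k s : ℕ} : tau p l k s ∈ MS p l k s := by
  refine X_pow_mem_SR ⟨fun j' hj' => ?_, ?_⟩
  · rw [Finsupp.single_apply, if_neg]
    intro h
    rw [Prod.mk.injEq] at h
    omega
  · rw [Finsupp.single_eq_same]

theorem Ext_M (l k : ℕ) : Ext (M p l (k + 1)) l k = M p l k := by
  funext s
  ext x
  constructor
  · rintro ⟨f, hf, rfl⟩
    refine Subring.sum_mem (MS p l k s) fun b _ => Subring.mul_mem _
      (Subring.pow_mem _ tau_mem_M _) ?_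
    intro e he
    exact ⟨(hf b e he).1, (pow_dvd_pow p (Nat.le_succ k)).trans (hf b e he).2⟩
  · intro hx
    rw [x.as_sum]
    refine AddSubgroup.sum_mem _ fun e he => ?_
    obtain ⟨h1, m, hm⟩ := hx e he
    have hp : 0 < p := (Fact.out : p.Prime).pos
    have h2 : Finsupp.single (zv s l) (p ^ k * (m % p)) + (e - Finsupp.single (zv s l)
        (p ^ k * (m % p))) = e := by
      rw [add_tsub_cancel_of_le]
      rw [Finsupp.single_le_iff, hm]
      exact Nat.mul_le_mul_left _ (Nat.mod_le _ _)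
    have h3 : (monomial e (coeff e x) : Ch p (s + 1)) = tau p l k s ^ (m % p) *
        monomial (e - Finsupp.single (zv s l) (p ^ k * (m % p))) (coeff e x) := by
      rw [tau, ← pow_mul, X_pow_eq_monomial, monomial_mul, h2, one_mul]
    rw [h3]
    have h4 : (monomial (e - Finsupp.single (zv s l) (p ^ k * (m % p))) (coeff e x) :
        Ch p (s + 1)) ∈ MS p l (k + 1) s := by
      refine monomial_mem_SR _ ⟨fun j hj => ?_, ?_⟩
      · rw [Finsupp.tsub_apply, h1 j hj, Nat.zero_sub]
      · rw [Finsupp.tsub_apply, Finsupp.single_eq_same, hm, ← Nat.mul_sub, pow_succ]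
        refine Nat.mul_dvd_mul_left _ ?_
        exact (Nat.dvd_sub_mod m)
    exact tau_mul_mem_Tr (Nat.mod_lt _ hp) h4

/-! ### the coefficient systems of the chain lemma -/

theorem Tr_comm_le {N : CS p} {l k m l' k' m' s : ℕ} {x : Ch p (s + 1)}
    (hx : x ∈ Tr (Tr N l k m) l' k' m' s) : x ∈ Tr (Tr N l' k' m') l k m s := by
  obtain ⟨f, hf, rfl⟩ := hx
  choose g hg hg' using hf
  refine ⟨fun c => ∑ b ∈ Finset.range m', tau p l' k' s ^ b * g b c, fun c =>
    ⟨fun b => g b c, fun b => hg b c, rfl⟩, ?_⟩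
  simp only [hg', Finset.mul_sum]
  rw [Finset.sum_comm]
  refine Finset.sum_congr rfl fun c _ => Finset.sum_congr rfl fun b _ => ?_
  ring

theorem Tr_comm (N : CS p) (l k m l' k' m' : ℕ) :
    Tr (Tr N l k m) l' k' m' = Tr (Tr N l' k' m') l k m := by
  funext s
  ext x
  exact ⟨Tr_comm_le, Tr_comm_le⟩

variable (p) in
/-- `M 0 k` truncated in the letter `z_1^{p^j}` -/
noncomputable def T (j k : ℕ) : CS p := Ext (M p 0 k) 0 j

theorem T_succ (j : ℕ) : T p j (j + 1) = M p 0 j := Ext_M 0 j

theorem Ext_T (j k : ℕ) : Ext (T p j (k + 1)) 0 k = T p j k := by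
  rw [T, Ext, Tr_comm]
  change Ext (Ext (M p 0 (k + 1)) 0 k) 0 j = _
  rw [Ext_M]
  rfl

theorem Dig_add {l k s : ℕ} {x y : Ch p (s + 1)} (hx : Dig l k x) (hy : Dig l k y) :
    Dig l k (x + y) := by
  classical
  intro e he
  rcases Finset.mem_union.1 (support_add he) with h | h
  · exact hx e h
  · exact hy e h

theorem Dig_zero {l k s : ℕ} : Dig l k (0 : Ch p (s + 1)) := by
  intro e he
  simp at he

theorem Dig_sum {ι : Type} {l k s : ℕ} (S : Finset ι) {f : ι → Ch p (s + 1)}
    (h : ∀ b ∈ S, Dig l k (f b)) : Dig l k (∑ b ∈ S, f b) :=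
  Finset.sum_induction f (Dig l k) (fun _ _ => Dig_add) Dig_zero h

theorem stepData_T {j k : ℕ} (hjk : j < k) : StepData (T p j (k + 1)) 0 k where
  cof_mem _ i _ h := cof_mem_Tr (stepData_M (by omega)) i h
  dig s x hx := by
    classical
    obtain ⟨f, hf, rfl⟩ := hx
    refine Dig_sum _ fun b hb => ?_
    intro e he
    obtain ⟨e1, h1, e2, h2, rfl⟩ := Finset.mem_add.1 (support_mul _ _ he)
    rw [tau, ← pow_mul, X_pow_eq_monomial] at h1
    have h1' := Finset.mem_singleton.1 (support_monomial_subset h1)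
    obtain ⟨m, hm⟩ := (hf b e2 h2).2
    rw [Finsupp.add_apply, h1', Finsupp.single_eq_same, hm, pow_succ, mul_assoc,
      Nat.add_mul_div_left _ _ (Nat.pow_pos (Fact.out : p.Prime).pos), Nat.div_eq_of_lt]
    · simp
    · have hb := Finset.mem_range.1 hb
      calc p ^ j * b < p ^ j * p := Nat.mul_lt_mul_of_pos_left hb
            (Nat.pow_pos (Fact.out : p.Prime).pos)
        _ = p ^ (j + 1) := (pow_succ _ _).symm
        _ ≤ p ^ k := Nat.pow_le_pow_right (Fact.out : p.Prime).pos hjk
  comp_mem _ _ _ h := comp_mem_Tr (fun _ _ _ h => comp_mem_M h) h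
  r_mem s i x hx := by
    obtain ⟨f, hf, rfl⟩ := hx
    rw [Finset.mul_sum]
    refine AddSubgroup.sum_mem _ fun b hb => ?_
    rw [mul_left_comm]
    exact tau_mul_mem_Tr (Finset.mem_range.1 hb)
      (Subring.mul_mem (MS p 0 (k + 1) (s + 1)) (FR_le_MS (cof_tau_sub_mem 0 k s i)) (hf b))
  r_free s i e he := cof_tau_sub_mem 0 k s i e he 0 le_rfl

end Vale.Agent.P257.V4.A.H
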