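import Vale.Agent.P257.V4.A.HDiv

/-!
# P257 / V4, part A: the monomials of weight below `p^3` without letters `t_1` (helper886)
-/

namespace Vale.Agent.P257.V4.A.HC

open Finset ML

/-- indicator of an exterior letter -/
def hb (m : Mono) (k i : ℕ) : ℕ := if (k, i) ∈ m.H then 1 else 0

theorem hb_le (m : Mono) (k i : ℕ) : hb m k i ≤ 1 := by
  unfold hb; split_ifs <;> omega

theorem hb_eq_zero {m : Mono} {k i : ℕ} (h : (k, i) ∉ m.H) : hb m k i = 0 := if_neg h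

variable {p : ℕ} {m : Mono}

theorem lt_of_mem_H (hp : 2 ≤ p) (h : m.deg p < p ^ 3) {a : ℕ × ℕ} (ha : a ∈ m.H) :
    a.1 + a.2 < 3 := by
  have h1 := Mono.lw_le_of_mem (p := p) ha
  have h2 := pow_le_lw p a
  exact (Nat.pow_lt_pow_iff_right (by omega)).1 (lt_of_le_of_lt (h2.trans h1) h)

theorem lt_of_B_ne (hp : 2 ≤ p) (h : m.deg p < p ^ 3) {a : ℕ × ℕ} (ha : m.B a ≠ 0) :
    a.1 + a.2 < 2 := by
  have h1 := Mono.mul_lw_le_of_ne (p := p) ha
  have h2 := pow_le_lw p a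
  have h3 : p * p ^ (a.1 + a.2) ≤ p * lw p a := Nat.mul_le_mul_left _ h2
  have h4 : p * lw p a ≤ m.B a * (p * lw p a) := Nat.le_mul_of_pos_left _ (Nat.pos_of_ne_zero ha)
  have h5 : p ^ (a.1 + a.2 + 1) < p ^ 3 := by
    rw [pow_succ, mul_comm]
    omega
  have := (Nat.pow_lt_pow_iff_right (by omega)).1 h5
  omega

theorem nums (hp : 2 ≤ p) (h : m.deg p < p ^ 3) :
    m.s = hb m 0 0 + hb m 0 1 + hb m 0 2 + hb m 1 0 + hb m 1 1 + hb m 2 0 +
      2 * (m.B (0, 0) + m.B (0, 1) + m.B (1, 0)) ∧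
    m.deg p = (hb m 0 0 + hb m 1 0 + hb m 2 0) + p * ((hb m 0 1 + hb m 1 0 + hb m 1 1 + hb m 2 0 +
      m.B (0, 0) + m.B (1, 0)) + p * (hb m 0 2 + hb m 1 1 + hb m 2 0 + m.B (0, 1) + m.B (1, 0))) := by
  have hS : m.H = (range 3 ×ˢ range 3).filter fun a => a ∈ m.H := by
    ext a
    rw [mem_filter, mem_product, mem_range, mem_range]
    constructor
    · intro ha
      have := lt_of_mem_H hp h ha
      exact ⟨⟨by omega, by omega⟩, ha⟩
    · exact fun ha => ha.2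
  have hB : m.B.support ⊆ range 3 ×ˢ range 3 := by
    intro a ha
    have := lt_of_B_ne hp h (Finsupp.mem_support_iff.1 ha)
    rw [mem_product, mem_range, mem_range]
    omega
  have hz : ∀ k i, 3 ≤ k + i → hb m k i = 0 := fun k i hk => hb_eq_zero fun ha => by
    have := lt_of_mem_H hp h ha
    simp only at this
    omega
  have zB : ∀ k i, 2 ≤ k + i → m.B (k, i) = 0 := fun k i hk => by
    by_contra hne
    have := lt_of_B_ne hp h hne
    simp only at this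
    omega
  have hc : m.H.card = ∑ k ∈ range 3, ∑ i ∈ range 3, hb m k i := by
    conv_lhs => rw [hS]
    rw [card_filter, sum_product]
    rfl
  have hl : ∑ a ∈ m.H, lw p a = ∑ k ∈ range 3, ∑ i ∈ range 3, hb m k i * lw p (k, i) := by
    conv_lhs => rw [hS]
    rw [sum_filter, sum_product]
    refine sum_congr rfl fun k _ => sum_congr rfl fun i _ => ?_
    unfold hb
    split_ifs <;> simp
  have hn : m.nb = ∑ k ∈ range 3, ∑ i ∈ range 3, m.B (k, i) := by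
    unfold Mono.nb
    rw [Finsupp.sum_of_support_subset _ hB _ (fun _ _ => rfl), sum_product]
  have hd : m.B.sum (fun a c => c * (p * lw p a)) =
      ∑ k ∈ range 3, ∑ i ∈ range 3, m.B (k, i) * (p * lw p (k, i)) := by
    rw [Finsupp.sum_of_support_subset _ hB _ (fun _ _ => by ring), sum_product]
  have z1 := hz 1 2 (by omega)
  have z2 := hz 2 1 (by omega)
  have z3 := hz 2 2 (by omega)
  have y1 := zB 0 2 (by omega)
  have y2 := zB 1 1 (by omega)
  have y3 := zB 1 2 (by omega)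
  have y4 := zB 2 0 (by omega)
  have y5 := zB 2 1 (by omega)
  have y6 := zB 2 2 (by omega)
  simp only [sum_range_succ, sum_range_zero, z1, z2, z3, y1, y2, y3, y4, y5, y6, zero_mul,
    add_zero, zero_add] at hc hl hn hd
  refine ⟨?_, ?_⟩
  · unfold Mono.s
    omega
  · unfold Mono.deg
    rw [hl, hd]
    simp only [lw, NN_one, NN_two, NN_three, pow_zero, pow_one, zero_add, one_mul, mul_one,
      Nat.reduceAdd]
    ring

theorem two_cases {p c a X Y : ℕ} (h : c + p * X = a + p * Y) (hc : c < p) (ha : a < p) :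
    c = a ∧ X = Y := by
  have h1 := congrArg (· % p) h
  simp only [Nat.add_mul_mod_self_left, Nat.mod_eq_of_lt hc, Nat.mod_eq_of_lt ha] at h1
  subst h1
  exact ⟨rfl, Nat.eq_of_mul_eq_mul_left (by omega : 0 < p) (Nat.add_left_cancel h)⟩

/-- no monomial, all letters -/
theorem noMono_all (hp : 11 ≤ p) {L : Set (ℕ × ℕ)} {s w : ℕ} (a0 a1 a2 : ℕ)
    (hw : w = a0 + p * (a1 + p * a2)) (h0 : a0 < p) (h1 : a1 < p) (h2 : a2 < p) (hs : s ≤ 7)
    (hH : ∀ m : Mono, m.Inside L → ∀ h00 h01 h02 h10 h11 h20 b00 b01 b10 : ℕ, h00 = hb m 0 0 →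
      h01 = hb m 0 1 → h02 = hb m 0 2 → h10 = hb m 1 0 → h11 = hb m 1 1 → h20 = hb m 2 0 →
      b00 = m.B (0, 0) → b01 = m.B (0, 1) → b10 = m.B (1, 0) →
      h00 + h01 + h02 + h10 + h11 + h20 + 2 * (b00 + b01 + b10) = s →
      h00 + h10 + h20 = a0 → h01 + h10 + h11 + h20 + b00 + b10 = a1 →
      h02 + h11 + h20 + b01 + b10 = a2 → False) : NoMonoIn L p s w := by
  intro m hm hms hmw
  have hlt : m.deg p < p ^ 3 := by
    rw [hmw, hw]
    have e1 : a1 + p * a2 + 1 ≤ p * p := by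
      calc a1 + p * a2 + 1 ≤ p + p * a2 := by omega
        _ = p * (a2 + 1) := by ring
        _ ≤ p * p := Nat.mul_le_mul_left _ h2
    calc a0 + p * (a1 + p * a2) < p + p * (a1 + p * a2) := by omega
      _ = p * (a1 + p * a2 + 1) := by ring
      _ ≤ p * (p * p) := Nat.mul_le_mul_left _ e1
      _ = p ^ 3 := by ring
  obtain ⟨k1, k2⟩ := nums (by omega) hlt
  have b1 := hb_le m 0 0
  have b2 := hb_le m 0 1
  have b3 := hb_le m 0 2
  have b4 := hb_le m 1 0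
  have b5 := hb_le m 1 1
  have b6 := hb_le m 2 0
  rw [hms] at k1
  rw [hmw, hw] at k2
  obtain ⟨k3, k4⟩ := two_cases k2 h0 (by omega)
  obtain ⟨k5, k6⟩ := two_cases k4 h1 (by omega)
  exact hH m hm _ _ _ _ _ _ _ _ _ rfl rfl rfl rfl rfl rfl rfl rfl rfl k1.symm k3.symm k5.symm
    k6.symm

/-- no monomial for the coefficients `F_p[t_1]` -/
theorem noMono_CC (hp : 11 ≤ p) {s w : ℕ} (a0 a1 a2 : ℕ)
    (hw : w = a0 + p * (a1 + p * a2)) (h0 : a0 < p) (h1 : a1 < p) (h2 : a2 < p) (hs : s ≤ 7)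
    (hH : ∀ h10 h11 h20 b10 : ℕ, h10 ≤ 1 → h11 ≤ 1 → h20 ≤ 1 →
      h10 + h11 + h20 + 2 * b10 = s → h10 + h20 = a0 → h10 + h11 + h20 + b10 = a1 →
      h11 + h20 + b10 = a2 → False) : NoMonoIn (H.Alive 0 0) p s w := by
  refine noMono_all hp a0 a1 a2 hw h0 h1 h2 hs ?_
  intro m hm h00 h01 h02 h10 h11 h20 b00 b01 b10 e1 e2 e3 e4 e5 e6 e7 e8 e9 k1 k2 k3 k4
  have n1 : ∀ i, (0, i) ∉ H.Alive 0 0 := fun i hi => by
    simp only [H.Alive, Set.mem_ofPred_eq] at hi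
    omega
  have z1 : h00 = 0 := e1.trans (hb_eq_zero fun h => n1 _ (hm.1 _ h))
  have z2 : h01 = 0 := e2.trans (hb_eq_zero fun h => n1 _ (hm.1 _ h))
  have z3 : h02 = 0 := e3.trans (hb_eq_zero fun h => n1 _ (hm.1 _ h))
  have z4 : b00 = 0 := e7.trans (by by_contra h; exact n1 _ (hm.2 _ h))
  have z5 : b01 = 0 := e8.trans (by by_contra h; exact n1 _ (hm.2 _ h))
  have b4 := hb_le m 1 0
  have b5 := hb_le m 1 1
  have b6 := hb_le m 2 0
  exact hH h10 h11 h20 b10 (by omega) (by omega) (by omega) (by omega) (by omega) (by omega)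
    (by omega)

/-- no monomial for the coefficients `F_p[t_1]` truncated in `t_2` -/
theorem noMono_T2 (hp : 11 ≤ p) {s w : ℕ} (a0 a1 a2 : ℕ)
    (hw : w = a0 + p * (a1 + p * a2)) (h0 : a0 < p) (h1 : a1 < p) (h2 : a2 < p) (hs : s ≤ 7)
    (hH : ∀ h11 h20 : ℕ, h11 ≤ 1 → h20 ≤ 1 →
      h11 + h20 = s → h20 = a0 → h11 + h20 = a1 → h11 + h20 = a2 → False) :
    NoMonoIn (H.Alive 0 0 \ {(1, 0)}) p s w := by
  refine noMono_all hp a0 a1 a2 hw h0 h1 h2 hs ?_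
  intro m hm h00 h01 h02 h10 h11 h20 b00 b01 b10 e1 e2 e3 e4 e5 e6 e7 e8 e9 k1 k2 k3 k4
  have n1 : ∀ i, (0, i) ∉ H.Alive 0 0 \ {(1, 0)} := fun i hi => by
    simp only [H.Alive, Set.mem_sdiff, Set.mem_ofPred_eq] at hi
    omega
  have n2 : (1, 0) ∉ H.Alive 0 0 \ {(1, 0)} := fun hi => hi.2 rfl
  have z1 : h00 = 0 := e1.trans (hb_eq_zero fun h => n1 _ (hm.1 _ h))
  have z2 : h01 = 0 := e2.trans (hb_eq_zero fun h => n1 _ (hm.1 _ h))
  have z3 : h02 = 0 := e3.trans (hb_eq_zero fun h => n1 _ (hm.1 _ h))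
  have z4 : b00 = 0 := e7.trans (by by_contra h; exact n1 _ (hm.2 _ h))
  have z5 : b01 = 0 := e8.trans (by by_contra h; exact n1 _ (hm.2 _ h))
  have z6 : h10 = 0 := e4.trans (hb_eq_zero fun h => n2 (hm.1 _ h))
  have z7 : b10 = 0 := e9.trans (by by_contra h; exact n2 (hm.2 _ h))
  have b5 := hb_le m 1 1
  have b6 := hb_le m 2 0
  exact hH h11 h20 (by omega) (by omega) (by omega) (by omega) (by omega) (by omega)

variable [Fact p.Prime]

/-- vanishing with coefficients `F_p[t_1]` -/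
theorem V_CC (hp : 11 ≤ p) {s w : ℕ} (a0 a1 a2 : ℕ)
    (hw : w = a0 + p * (a1 + p * a2)) (h0 : a0 < p) (h1 : a1 < p) (h2 : a2 < p) (hs : s ≤ 7)
    (hH : ∀ h10 h11 h20 b10 : ℕ, h10 ≤ 1 → h11 ≤ 1 → h20 ≤ 1 →
      h10 + h11 + h20 + 2 * b10 = s → h10 + h20 = a0 → h10 + h11 + h20 + b10 = a1 →
      h11 + h20 + b10 = a2 → False) : H.V (H.M p 0 0) s w :=
  H.V_M w 0 0 s w le_rfl (noMono_CC hp a0 a1 a2 hw h0 h1 h2 hs hH)

end Vale.Agent.P257.V4.A.HC
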