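import Vale.Agent.P257.V4.A.HTow

/-!
# P257 / V4, part A: at most one monomial, cohomology of dimension at most one (helper898)

`One N s w`: any two cocycles of degree `s`, weight `w` with coefficients in `N` are linearly
dependent modulo coboundaries. Main results: `one_M`, `one_step`, `tower_one`.
-/

open MvPolynomial

namespace Vale.Agent.P257.V4.A.H

open Ch ML

variable {p : ℕ} [Fact p.Prime] {N : CS p} {l k : ℕ}

/-- `x` is a coboundary with coefficients in `N` -/
def Bd (N : CS p) : (s w : ℕ) → Ch p (s + 1) → Prop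
  | 0, _, x => x = 0
  | s + 1, w, x => ∃ y ∈ N s, IsWt w y ∧ dE s y = x

theorem V_iff {s w : ℕ} : V N s w ↔ ∀ x ∈ N s, IsWt w x → dE s x = 0 → Bd N s w x := by
  cases s <;> rfl

theorem smul_mem_N {s : ℕ} {x : Ch p (s + 1)} (hx : x ∈ N s) (a : ZMod p) : a • x ∈ N s :=
  ZMod.smul_mem hx a

theorem dE_smul {s : ℕ} (a : ZMod p) (x : Ch p (s + 1)) : dE s (a • x) = a • dE s x :=
  ZMod.map_smul (dE s) a x

theorem isWt_smul {n w : ℕ} {x : Ch p n} (hx : IsWt w x) (a : ZMod p) : IsWt w (a • x) :=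
  (weightedHomogeneousSubmodule (ZMod p) (vwt p n) w).smul_mem a hx

theorem Bd_smul {s w : ℕ} {x : Ch p (s + 1)} (h : Bd N s w x) (a : ZMod p) :
    Bd N s w (a • x) := by
  cases s with
  | zero =>
    change x = 0 at h
    change a • x = 0
    rw [h, smul_zero]
  | succ s =>
    obtain ⟨y, hy, hyw, rfl⟩ := h
    exact ⟨a • y, smul_mem_N hy a, isWt_smul hyw a, dE_smul a y⟩

theorem Bd_add {s w : ℕ} {x y : Ch p (s + 1)} (h : Bd N s w x) (h' : Bd N s w y) :
    Bd N s w (x + y) := by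
  cases s with
  | zero =>
    change x = 0 at h
    change y = 0 at h'
    change x + y = 0
    rw [h, h', add_zero]
  | succ s =>
    obtain ⟨u, hu, huw, rfl⟩ := h
    obtain ⟨v, hv, hvw, rfl⟩ := h'
    exact ⟨u + v, (N s).add_mem hu hv, huw.add hvw, map_add _ _ _⟩

/-- at most one-dimensional cohomology -/
def One (N : CS p) (s w : ℕ) : Prop :=
  ∀ f ∈ N s, ∀ g ∈ N s, IsWt w f → IsWt w g → dE s f = 0 → dE s g = 0 →
    ∃ a b : ZMod p, (a ≠ 0 ∨ b ≠ 0) ∧ Bd N s w (a • f + b • g)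

theorem one_of_V {s w : ℕ} (h : V N s w) : One N s w := by
  intro f hf g _ hfw _ hfd _
  exact ⟨1, 0, Or.inl one_ne_zero, by
    rw [one_smul, zero_smul, add_zero]
    exact V_iff.1 h f hf hfw hfd⟩

/-! ### the relative step -/

theorem Bd_mono {N' : CS p} (h : ∀ s x, x ∈ N s → x ∈ N' s) {s w : ℕ} {x : Ch p (s + 1)}
    (hx : Bd N s w x) : Bd N' s w x := by
  cases s with
  | zero => exact hx
  | succ s =>
    obtain ⟨y, hy, hyw, hyx⟩ := hx
    exact ⟨y, h s y hy, hyw, hyx⟩

/-- the top coefficient of a primitive of `D a` -/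
theorem core (hN : StepData N l k) {s w : ℕ}
    {x : Ch p (s + 3)} {a : Ch p (s + 2)} (ha : a ∈ Ext N l k (s + 1))
    (hax : dE (s + 1) a = x) {b : Ch p (s + 1)} (hbm : b ∈ Ext N l k s)
    (hbx : dE s b = Dop l k (s + 1) a)
    (hbw : p ^ k * Ch.N p (l + 1) ≤ w → IsWt (w - p ^ k * Ch.N p (l + 1)) b)
    (hb0 : w < p ^ k * Ch.N p (l + 1) → b = 0) :
    ∃ a ∈ Ext N l k (s + 1), ∃ c ∈ N s, dE (s + 1) a = x ∧ dE s c = 0 ∧
      Dop l k (s + 1) a = dE s (tau p l k s ^ (p - 1) * c) ∧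
      (p * (p ^ k * Ch.N p (l + 1)) ≤ w → IsWt (w - p * (p ^ k * Ch.N p (l + 1))) c) ∧
      (w < p * (p ^ k * Ch.N p (l + 1)) → c = 0) := by
  have hpp : p - 1 + 1 = p := pred_add_one
  have hp2 : 2 ≤ p := (Fact.out : p.Prime).two_le
  have hr : Finset.range p = Finset.range (p - 1 + 1) := by rw [hpp]
  set t := p ^ k * Ch.N p (l + 1) with ht
  have hf : ∃ f : ℕ → Ch p (s + 1), (∀ b, f b ∈ N s) ∧
      (p * t ≤ w → IsWt (w - p * t) (f (p - 1))) ∧ (w < p * t → f (p - 1) = 0) ∧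
      b = ∑ i ∈ Finset.range p, tau p l k s ^ i * f i := by
    have e0 : p * t = t + (p - 1) * t := by
      conv_lhs => rw [← hpp]
      ring
    by_cases htw : t ≤ w
    · obtain ⟨f, hf1, hf2, hf3, hf4⟩ := exists_wt hN.comp_mem hbm (hbw htw)
      refine ⟨f, hf1, fun h => ?_, fun h => ?_, hf4⟩
      · exact (hf2 (p - 1) (by rw [← ht]; omega)).cast (by rw [← ht]; omega)
      · exact hf3 (p - 1) (by rw [← ht]; omega)
    · refine ⟨fun _ => 0, fun _ => (N s).zero_mem, fun _ => isWt_zero _, fun _ => rfl, ?_⟩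
      rw [hb0 (by omega)]
      simp
  obtain ⟨f, hf1, hf2, hf3, hf4⟩ := hf
  have hb' : b - tau p l k s ^ (p - 1) * f (p - 1) ∈ Tr N l k (p - 1) s := by
    have : b - tau p l k s ^ (p - 1) * f (p - 1) =
        ∑ i ∈ Finset.range (p - 1), tau p l k s ^ i * f i := by
      rw [hf4]
      rw [hr, Finset.sum_range_succ, add_sub_cancel_right]
    rw [this]
    exact ⟨f, hf1, rfl⟩
  obtain ⟨x₀, hx₀, hDx₀⟩ := exists_Dop_eq hN hb'
  refine ⟨a - dE s x₀, AddSubgroup.sub_mem _ ha (dE_mem_Tr hN hx₀), f (p - 1), hf1 _, ?_, ?_, ?_,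
    hf2, hf3⟩
  · rw [map_sub, dE_dE, sub_zero, hax]
  · have e1 : dE s b ∈ Tr N l k (p - 1) (s + 1) := by
      rw [hbx]
      exact Dop_mem hN ha
    have e2 : dE s (b - tau p l k s ^ (p - 1) * f (p - 1)) ∈ Tr N l k (p - 1) (s + 1) :=
      dE_mem_Tr hN hb'
    have e3 := dE_tau_mul hN (p - 1) (hf1 (p - 1))
    have e4 : tau p l k (s + 1) ^ (p - 1) * dE s (f (p - 1)) ∈ Tr N l k (p - 1) (s + 1) := by
      have := AddSubgroup.sub_mem _ e1 (AddSubgroup.add_mem _ e2 e3)
      rw [map_sub] at this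
      convert this using 1
      abel
    obtain ⟨g, hg, hg'⟩ := e4
    have e5 := indep hN p le_rfl (fun i => if i = p - 1 then dE s (f (p - 1)) else - g i)
      (fun i => by
        split_ifs
        · exact dE_mem' hN.cof_mem (hf1 _)
        · exact (N _).neg_mem (hg i)) (by
        rw [hr, Finset.sum_range_succ, if_pos rfl, hg', ← Finset.sum_add_distrib]
        refine Finset.sum_eq_zero fun i hi => ?_
        rw [if_neg (by have := Finset.mem_range.1 hi; omega)]
        ring) (p - 1) (by omega)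
    simpa using e5
  · rw [map_sub, Dop_dE hN hx₀, hDx₀, ← hbx, map_sub, sub_sub_cancel]

/-- closing with the top coefficient -/
theorem close_top (hN : StepData N l k) {s w w' : ℕ} {x : Ch p (s + 3)} (hw : IsWt w x)
    {a : Ch p (s + 2)} (ha : a ∈ Ext N l k (s + 1)) (hax : dE (s + 1) a = x) {c : Ch p (s + 1)}
    (hD : Dop l k (s + 1) a = dE s (tau p l k s ^ (p - 1) * c)) (hc : Bd N s w' c) :
    Bd N (s + 2) w x := by
  cases s with
  | zero =>
    change c = 0 at hc
    rw [hc, mul_zero, map_zero] at hD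
    have h4 := mem_of_Dop_eq_zero hN ha hD
    exact ⟨comp _ w a, hN.comp_mem _ _ _ h4, comp_isWt _ _, by rw [← comp_dE, hax, comp_same hw]⟩
  | succ s =>
    obtain ⟨γ, hγ, _, rfl⟩ := hc
    exact step_bot hN hw ha hax hγ hD

/-- relative step: `D a` is a coboundary -/
theorem close_D (hN : StepData N l k) {s w : ℕ} {x : Ch p (s + 2)}
    {a : Ch p (s + 1)} (ha : a ∈ Ext N l k s) (haw : IsWt w a) (hax : dE s a = x)
    (hD : p ^ k * Ch.N p (l + 1) ≤ w →
      Bd (Ext N l k) s (w - p ^ k * Ch.N p (l + 1)) (Dop l k s a))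
    (h2 : ∀ s', s + 1 = s' + 2 → p * (p ^ k * Ch.N p (l + 1)) ≤ w →
      V N s' (w - p * (p ^ k * Ch.N p (l + 1)))) : Bd N (s + 1) w x := by
  cases s with
  | zero =>
    have h3 : Dop l k 0 a = 0 := by
      by_cases htw : p ^ k * Ch.N p (l + 1) ≤ w
      · exact hD htw
      · exact Dop_eq_zero haw (by omega)
    exact ⟨a, mem_of_Dop_eq_zero hN ha h3, haw, hax⟩
  | succ s =>
    have hb : ∃ b ∈ Ext N l k s, dE s b = Dop l k (s + 1) a ∧
        (p ^ k * Ch.N p (l + 1) ≤ w → IsWt (w - p ^ k * Ch.N p (l + 1)) b) ∧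
        (w < p ^ k * Ch.N p (l + 1) → b = 0) := by
      by_cases htw : p ^ k * Ch.N p (l + 1) ≤ w
      · obtain ⟨b, hb, hbw, hbx⟩ := hD htw
        exact ⟨b, hb, hbx, fun _ => hbw, fun h => absurd h (by omega)⟩
      · refine ⟨0, AddSubgroup.zero_mem _, ?_, fun h => absurd h htw, fun _ => rfl⟩
        rw [map_zero, Dop_eq_zero haw (by omega)]
    obtain ⟨b, hbm, hbx, hbw, hb0⟩ := hb
    obtain ⟨a', ha', c, hc, hax', hdc, hD', hcw, hc0⟩ := core hN ha hax hbm hbx hbw hb0
    have hxw : IsWt w x := by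
      rw [← hax]
      exact dE_isWt haw
    by_cases h : p * (p ^ k * Ch.N p (l + 1)) ≤ w
    · exact close_top hN hxw ha' hax' hD' (V_iff.1 (h2 s rfl h) c hc (hcw h) hdc)
    · rw [hc0 (by omega), mul_zero, map_zero] at hD'
      have h4 := mem_of_Dop_eq_zero hN ha' hD'
      exact ⟨comp _ w a', hN.comp_mem _ _ _ h4, comp_isWt _ _, by
        rw [← comp_dE, hax', comp_same hxw]⟩

/-- relative step: a cocycle with coefficients in `N` which bounds in `Ext N` -/
theorem close_ext (hN : StepData N l k) {s w : ℕ} {x : Ch p (s + 1)} (hx : x ∈ N s)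
    (h0 : Bd (Ext N l k) s w x)
    (h1 : ∀ s', s = s' + 1 → p ^ k * Ch.N p (l + 1) ≤ w →
      V (Ext N l k) s' (w - p ^ k * Ch.N p (l + 1)))
    (h2 : ∀ s', s = s' + 2 → p * (p ^ k * Ch.N p (l + 1)) ≤ w →
      V N s' (w - p * (p ^ k * Ch.N p (l + 1)))) : Bd N s w x := by
  cases s with
  | zero => exact h0
  | succ s =>
    obtain ⟨a, ha, haw, hax⟩ := h0
    refine close_D hN ha haw hax (fun htw => ?_) (fun s' hs' => h2 s' hs')
    refine V_iff.1 (h1 s rfl htw) _ (Tr_mono (Nat.sub_le _ _) (Dop_mem hN ha)) (Dop_isWt ?_) ?_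
    · rw [Nat.sub_add_cancel htw]
      exact haw
    · rw [← Dop_dE hN ha, hax, Dop_of_dig (hN.dig _ _ hx)]

/-! ### the three cases of the one-dimensional step -/

theorem one_step_a (hN : StepData N l k) {s w : ℕ} (h0 : One (Ext N l k) s w)
    (h1 : ∀ s', s = s' + 1 → p ^ k * Ch.N p (l + 1) ≤ w →
      V (Ext N l k) s' (w - p ^ k * Ch.N p (l + 1)))
    (h2 : ∀ s', s = s' + 2 → p * (p ^ k * Ch.N p (l + 1)) ≤ w →
      V N s' (w - p * (p ^ k * Ch.N p (l + 1)))) : One N s w := by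
  intro f hf g hg hfw hgw hfd hgd
  obtain ⟨a, b, hab, hB⟩ := h0 f (mem_Ext_of_mem hf) g (mem_Ext_of_mem hg) hfw hgw hfd hgd
  exact ⟨a, b, hab, close_ext hN ((N s).add_mem (smul_mem_N hf a) (smul_mem_N hg b)) hB h1 h2⟩

theorem one_step_b (hN : StepData N l k) {s w : ℕ} (h0 : V (Ext N l k) s w)
    (h1 : ∀ s', s = s' + 1 → p ^ k * Ch.N p (l + 1) ≤ w →
      One (Ext N l k) s' (w - p ^ k * Ch.N p (l + 1)))
    (h2 : ∀ s', s = s' + 2 → p * (p ^ k * Ch.N p (l + 1)) ≤ w →
      V N s' (w - p * (p ^ k * Ch.N p (l + 1)))) : One N s w := by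
  intro f hf g hg hfw hgw hfd hgd
  have f0 := V_iff.1 h0 f (mem_Ext_of_mem hf) hfw hfd
  have g0 := V_iff.1 h0 g (mem_Ext_of_mem hg) hgw hgd
  cases s with
  | zero =>
    refine ⟨1, 0, Or.inl one_ne_zero, ?_⟩
    rw [one_smul, zero_smul, add_zero]
    exact f0
  | succ s =>
    obtain ⟨u, hu, huw, hux⟩ := f0
    obtain ⟨v, hv, hvw, hvx⟩ := g0
    by_cases htw : p ^ k * Ch.N p (l + 1) ≤ w
    · have hcoc : ∀ {y z}, y ∈ Ext N l k s → IsWt w y → dE s y = z → z ∈ N (s + 1) →
          Dop l k s y ∈ Ext N l k s ∧ IsWt (w - p ^ k * Ch.N p (l + 1)) (Dop l k s y) ∧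
            dE s (Dop l k s y) = 0 := by
        intro y z hy hyw hyz hz
        refine ⟨Tr_mono (Nat.sub_le _ _) (Dop_mem hN hy), Dop_isWt ?_, ?_⟩
        · rw [Nat.sub_add_cancel htw]
          exact hyw
        · rw [← Dop_dE hN hy, hyz, Dop_of_dig (hN.dig _ _ hz)]
      obtain ⟨u1, u2, u3⟩ := hcoc hu huw hux hf
      obtain ⟨v1, v2, v3⟩ := hcoc hv hvw hvx hg
      obtain ⟨a, b, hab, hB⟩ := h1 s rfl htw _ u1 _ v1 u2 v2 u3 v3
      refine ⟨a, b, hab, close_D hN (a := a • u + b • v) ?_ ?_ ?_ (fun _ => ?_)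
        (fun s' hs' => h2 s' hs')⟩
      · exact AddSubgroup.add_mem _ (smul_mem_N hu a) (smul_mem_N hv b)
      · exact (isWt_smul huw a).add (isWt_smul hvw b)
      · rw [map_add, dE_smul, dE_smul, hux, hvx]
      · rw [map_add, map_smul, map_smul]
        exact hB
    · refine ⟨1, 0, Or.inl one_ne_zero, ?_⟩
      rw [one_smul, zero_smul, add_zero]
      exact close_D hN hu huw hux (fun h => absurd h htw) (fun s' hs' => h2 s' hs')

theorem one_step_c (hN : StepData N l k) {s w : ℕ} (h0 : V (Ext N l k) s w)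
    (h1 : ∀ s', s = s' + 1 → p ^ k * Ch.N p (l + 1) ≤ w →
      V (Ext N l k) s' (w - p ^ k * Ch.N p (l + 1)))
    (h2 : ∀ s', s = s' + 2 → p * (p ^ k * Ch.N p (l + 1)) ≤ w →
      One N s' (w - p * (p ^ k * Ch.N p (l + 1)))) : One N s w := by
  match s, h0, h1, h2 with
  | 0, h0, h1, h2 => exact one_of_V (step hN h0 h1 (fun s' hs' => absurd hs' (by omega)))
  | 1, h0, h1, h2 => exact one_of_V (step hN h0 h1 (fun s' hs' => absurd hs' (by omega)))
  | s + 2, h0, h1, h2 =>
    intro f hf g hg hfw hgw hfd hgd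
    obtain ⟨u, hu, c, hc, hux, hdc, hDu, hcw, hc0⟩ :=
      step_top hN h0 (h1 (s + 1) rfl) hf hfw hfd
    obtain ⟨v, hv, e, he, hvx, hde, hDv, hew, he0⟩ :=
      step_top hN h0 (h1 (s + 1) rfl) hg hgw hgd
    by_cases h : p * (p ^ k * Ch.N p (l + 1)) ≤ w
    · obtain ⟨a, b, hab, hB⟩ := h2 s rfl h c hc e he (hcw h) (hew h) hdc hde
      refine ⟨a, b, hab, close_top hN (a := a • u + b • v) (c := a • c + b • e)
        ((isWt_smul hfw a).add (isWt_smul hgw b)) ?_ ?_ ?_ hB⟩
      · exact AddSubgroup.add_mem _ (smul_mem_N hu a) (smul_mem_N hv b)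
      · rw [map_add, dE_smul, dE_smul, hux, hvx]
      · rw [map_add, map_smul, map_smul, hDu, hDv, ← dE_smul, ← dE_smul, ← map_add, mul_add,
          mul_smul_comm, mul_smul_comm]
    · refine ⟨1, 0, Or.inl one_ne_zero, ?_⟩
      rw [one_smul, zero_smul, add_zero]
      refine close_top hN (c := c) (w' := 0) hfw hu hux hDu ?_
      rw [hc0 (by omega)]
      cases s with
      | zero => rfl
      | succ s => exact ⟨0, (N s).zero_mem, isWt_zero _, map_zero _⟩

/-! ### the tower -/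

/-- at most one monomial of bidegree `(s, D)` with letters in `L` -/
def UM (L : Set (ℕ × ℕ)) (p s D : ℕ) : Prop :=
  ∀ m m' : Mono, m.Inside L → m'.Inside L → m.s = s → m'.s = s → m.deg p = D → m'.deg p = D →
    m = m'

theorem UM.mono {L L' : Set (ℕ × ℕ)} (h : L ⊆ L') {q s D : ℕ} (h' : UM L' q s D) :
    UM L q s D := fun m m' hm hm' =>
  h' m m' ⟨fun a ha => h (hm.1 a ha), fun a ha => h (hm.2 a ha)⟩
    ⟨fun a ha => h (hm'.1 a ha), fun a ha => h (hm'.2 a ha)⟩

theorem um_of_noMono {L : Set (ℕ × ℕ)} {q s D : ℕ} (h : NoMonoIn L q s D) : UM L q s D :=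
  fun m _ hm _ hs _ hD _ => absurd hD (h m hm hs)

theorem inside_addH {L : Set (ℕ × ℕ)} {a : ℕ × ℕ} {m : Mono} (hm : m.Inside L) :
    (m.addH a).Inside (insert a L) := by
  refine ⟨fun c hc => ?_, fun c hc => Set.mem_insert_of_mem _ (hm.2 c hc)⟩
  simp only [Mono.addH, Finset.mem_insert] at hc
  rcases hc with rfl | hc
  · exact Set.mem_insert _ _
  · exact Set.mem_insert_of_mem _ (hm.1 c hc)

theorem inside_addB {L : Set (ℕ × ℕ)} {a : ℕ × ℕ} (ha : a ∈ L) {m : Mono} (hm : m.Inside L) :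
    (m.addB a).Inside L := by
  refine ⟨hm.1, fun c hc => ?_⟩
  by_cases hca : c = a
  · rw [hca]
    exact ha
  · refine hm.2 c fun h0 => hc ?_
    simp [Mono.addB, h0, Ne.symm hca]

theorem addH_inj {a : ℕ × ℕ} {m m' : Mono} (h : a ∉ m.H) (h' : a ∉ m'.H)
    (he : m.addH a = m'.addH a) : m = m' := by
  have h1 : (m.addH a).H = (m'.addH a).H := by rw [he]
  have h2 : (m.addH a).B = (m'.addH a).B := by rw [he]
  change insert a m.H = insert a m'.H at h1
  change m.B = m'.B at h2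
  have h3 : m.H = m'.H := by
    have := congrArg (fun S => S.erase a) h1
    simpa [Finset.erase_insert h, Finset.erase_insert h'] using this
  cases m
  cases m'
  simp only at h2 h3
  rw [h2, h3]

theorem addB_inj {a : ℕ × ℕ} {m m' : Mono} (he : m.addB a = m'.addB a) : m = m' := by
  have h1 : (m.addB a).H = (m'.addB a).H := by rw [he]
  have h2 : (m.addB a).B = (m'.addB a).B := by rw [he]
  change m.H = m'.H at h1
  change m.B + Finsupp.single a 1 = m'.B + Finsupp.single a 1 at h2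
  have h3 := add_right_cancel h2
  cases m
  cases m'
  simp only at h1 h3
  rw [h1, h3]

/-- removing one letter, vanishing form -/
theorem V_single (hN : StepData N l k) {A A' : Set (ℕ × ℕ)} {W : ℕ} (hA : (l, k) ∉ A)
    (hA' : insert (l, k) A = A')
    (base : ∀ s w, w ≤ W → NoMonoIn A p s w → V (Ext N l k) s w) :
    ∀ s w, w ≤ W → NoMonoIn A' p s w → V N s w := by
  intro s
  induction s using Nat.strong_induction_on with
  | _ s ihs =>
    intro w hw hno
    refine step hN ?_ ?_ ?_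
    · refine base s w hw ?_
      rw [← hA'] at hno
      exact hno.of_insert
    · rintro s' rfl ht
      refine base s' _ (by omega) (NoMonoIn.of_insert_h hA ?_)
      rw [hA', lw_eq, Nat.sub_add_cancel ht]
      exact hno
    · rintro s' rfl ht
      refine ihs s' (by omega) _ (by omega) (NoMonoIn.of_insert_b (a := (l, k)) ?_ ?_)
      · rw [← hA']
        exact Set.mem_insert _ _
      · rw [lw_eq, Nat.sub_add_cancel ht]
        exact hno

/-- removing one letter, one-dimensional form -/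
theorem one_single (hN : StepData N l k) {A A' : Set (ℕ × ℕ)} {W : ℕ} (hA : (l, k) ∉ A)
    (hA' : insert (l, k) A = A')
    (hV : ∀ s w, w ≤ W → NoMonoIn A p s w → V (Ext N l k) s w)
    (base : ∀ s w, w ≤ W → UM A p s w → One (Ext N l k) s w) :
    ∀ s w, w ≤ W → UM A' p s w → One N s w := by
  have hV' := V_single hN hA hA' hV
  intro s
  induction s using Nat.strong_induction_on with
  | _ s ihs =>
    intro w hw hum
    by_cases hex : NoMonoIn A' p s w
    · exact one_of_V (hV' s w hw hex)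
    unfold NoMonoIn at hex
    push Not at hex
    obtain ⟨m, hm, hms, hmD⟩ := hex
    have hsub : A ⊆ A' := by
      rw [← hA']
      exact Set.subset_insert _ _
    have hmem : (l, k) ∈ A' := by
      rw [← hA']
      exact Set.mem_insert _ _
    have hin : ∀ m' : Mono, m'.Inside A → m'.Inside A' := fun m' hm' =>
      ⟨fun a ha => hsub (hm'.1 a ha), fun a ha => hsub (hm'.2 a ha)⟩
    have hnotH : ∀ m' : Mono, m'.Inside A → (l, k) ∉ m'.H := fun m' hm' h =>
      hA (hm'.1 _ h)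
    have hnotB : ∀ m' : Mono, m'.Inside A → m'.B (l, k) = 0 := fun m' hm' => by
      by_contra h
      exact hA (hm'.2 _ h)
    -- monomials of the two lower branches
    have hβ : ∀ m' : Mono, m'.Inside A → ∀ s', s = s' + 1 → lw p (l, k) ≤ w →
        m'.s = s' → m'.deg p = w - lw p (l, k) → m'.addH (l, k) = m := by
      intro m' hm' s' hs' htw h1 h2
      refine hum _ _ (by rw [← hA']; exact inside_addH hm') hm ?_ hms ?_ hmD
      · rw [Mono.addH_s m' (hnotH m' hm'), h1, hs']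
      · rw [Mono.addH_deg p m' (hnotH m' hm'), h2, Nat.sub_add_cancel htw]
    have hγ : ∀ m' : Mono, m'.Inside A' → ∀ s', s = s' + 2 → p * lw p (l, k) ≤ w →
        m'.s = s' → m'.deg p = w - p * lw p (l, k) → m'.addB (l, k) = m := by
      intro m' hm' s' hs' htw h1 h2
      refine hum _ _ (inside_addB hmem hm') hm ?_ hms ?_ hmD
      · rw [Mono.addB_s, h1, hs']
      · rw [Mono.addB_deg, h2, Nat.sub_add_cancel htw]
    have hlw : p ^ k * Ch.N p (l + 1) = lw p (l, k) := rfl
    by_cases hB : m.B (l, k) = 0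
    · have h2 : ∀ s', s = s' + 2 → p * (p ^ k * Ch.N p (l + 1)) ≤ w →
          V N s' (w - p * (p ^ k * Ch.N p (l + 1))) := by
        intro s' hs' htw
        refine hV' _ _ (by omega) fun m' hm' h1 h2 => ?_
        have h3 := hγ m' hm' s' hs' htw h1 h2
        have h4 : (m'.addB (l, k)).B (l, k) = m'.B (l, k) + 1 := by simp [Mono.addB]
        rw [h3, hB] at h4
        omega
      by_cases hH : (l, k) ∈ m.H
      · refine one_step_b hN ?_ ?_ h2
        · refine hV s w hw fun m' hm' h1 h2 => ?_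
          have h3 := hum m' m (hin m' hm') hm h1 hms h2 hmD
          exact hnotH m' hm' (h3 ▸ hH)
        · intro s' hs' htw
          refine base s' _ (by omega) fun m₁ m₂ h₁ h₂ e1 e2 e3 e4 => ?_
          have f1 := hβ m₁ h₁ s' hs' htw e1 e3
          have f2 := hβ m₂ h₂ s' hs' htw e2 e4
          exact addH_inj (hnotH _ h₁) (hnotH _ h₂) (f1.trans f2.symm)
      · refine one_step_a hN ?_ ?_ h2
        · exact base s w hw (hum.mono hsub)
        · intro s' hs' htw
          refine hV s' _ (by omega) fun m' hm' h1 h2 => ?_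
          have h3 := hβ m' hm' s' hs' htw h1 h2
          exact hH (h3 ▸ Finset.mem_insert_self _ _)
    · refine one_step_c hN ?_ ?_ ?_
      · refine hV s w hw fun m' hm' h1 h2 => ?_
        have h3 := hum m' m (hin m' hm') hm h1 hms h2 hmD
        exact hB (h3 ▸ hnotB m' hm')
      · intro s' hs' htw
        refine hV s' _ (by omega) fun m' hm' h1 h2 => ?_
        have h3 := hβ m' hm' s' hs' htw h1 h2
        exact hB (h3 ▸ hnotB m' hm')
      · intro s' hs' htw
        refine ihs s' (by omega) _ (by omega) fun m₁ m₂ h₁ h₂ e1 e2 e3 e4 => ?_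
        have f1 := hγ m₁ h₁ s' hs' htw e1 e3
        have f2 := hγ m₂ h₂ s' hs' htw e2 e4
        exact addB_inj (f1.trans f2.symm)

theorem tower_one (N : ℕ → CS p) (l : ℕ) (A : ℕ → Set (ℕ × ℕ)) (k₀ W : ℕ)
    (hN : ∀ k, k₀ ≤ k → StepData (N (k + 1)) l k)
    (hE : ∀ k, k₀ ≤ k → Ext (N (k + 1)) l k = N k)
    (hA : ∀ k, k₀ ≤ k → (l, k) ∉ A k)
    (hA' : ∀ k, k₀ ≤ k → insert (l, k) (A k) = A (k + 1))
    (hV : ∀ k, k₀ ≤ k → ∀ s w, w ≤ W → NoMonoIn (A k) p s w → V (N k) s w)
    (base : ∀ s w, w ≤ W → UM (A k₀) p s w → One (N k₀) s w) (k : ℕ) (hk : k₀ ≤ k) :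
    ∀ s w, w ≤ W → UM (A k) p s w → One (N k) s w := by
  induction k, hk using Nat.le_induction with
  | base => exact base
  | succ k hk ih =>
    refine one_single (hN k hk) (hA k hk) (hA' k hk) ?_ ?_
    · rw [hE k hk]
      exact hV k hk
    · rw [hE k hk]
      exact ih

/-! ### weight zero -/

theorem eq_C_of_isWt {n : ℕ} {x : Ch p n} (hx : IsWt 0 x) : x = C (coeff 0 x) := by
  ext e
  rw [coeff_C]
  split_ifs with h
  · rw [← h]
  · by_contra hc
    apply h
    symm
    ext v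
    have h1 := mul_vwt_le hx (mem_support_iff.2 hc) v
    have h2 : 0 < vwt p n v := N_pos v.2
    rcases Nat.eq_zero_or_pos (e v) with h3 | h3
    · exact h3
    · have := Nat.mul_pos h3 h2
      omega

theorem one_zero {N : CS p} {s : ℕ} (hs : s = 0) : One N s 0 := by
  subst hs
  intro f _ g _ hfw hgw _ _
  have hf := eq_C_of_isWt hfw
  have hg := eq_C_of_isWt hgw
  by_cases h : coeff 0 f = 0
  · refine ⟨1, 0, Or.inl one_ne_zero, ?_⟩
    change (1 : ZMod p) • f + (0 : ZMod p) • g = 0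
    rw [hf, h]
    simp
  · refine ⟨coeff 0 g, - coeff 0 f, Or.inr (neg_ne_zero.2 h), ?_⟩
    change coeff 0 g • f + (- coeff 0 f) • g = 0
    rw [hf, hg]
    simp only [coeff_C, if_true, smul_eq_C_mul, ← C_mul, ← C_add]
    rw [← C_0]
    congr 1
    ring

theorem one_congr {N N' : CS p} {w : ℕ} (h : ∀ s x, IsWt w x → (x ∈ N s ↔ x ∈ N' s)) {s : ℕ}
    (hV : One N s w) : One N' s w := by
  intro f hf g hg hfw hgw hfd hgd
  obtain ⟨a, b, hab, hB⟩ := hV f ((h s f hfw).2 hf) g ((h s g hgw).2 hg) hfw hgw hfd hgd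
  refine ⟨a, b, hab, ?_⟩
  cases s with
  | zero => exact hB
  | succ s =>
    obtain ⟨y, hy, hyw, hyx⟩ := hB
    exact ⟨y, (h s y hyw).1 hy, hyw, hyx⟩

theorem tower_one_M (l W : ℕ) (base : ∀ s w, w ≤ W → UM (Alive l 0) p s w → One (M p l 0) s w)
    (k : ℕ) : ∀ s w, w ≤ W → UM (Alive l k) p s w → One (M p l k) s w := by
  refine tower_one (M p l) l (Alive l) 0 W (fun k _ => stepData_M (Nat.lt_succ_self k))
    (fun k _ => Ext_M l k) (fun k _ h => ?_) (fun k _ => ?_) (fun k _ => V_M W l k) base k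
    (Nat.zero_le _)
  · rcases h with h | ⟨_, h⟩
    · exact lt_irrefl _ h
    · exact lt_irrefl _ h
  · ext ⟨a, b⟩
    simp only [Alive, Set.mem_insert_iff, Prod.mk.injEq, Set.mem_ofPred_eq]
    omega

theorem one_M_zero (W : ℕ) (d l : ℕ) (h : W < Ch.N p (l + d + 2)) :
    ∀ s w, w ≤ W → UM (Alive l 0) p s w → One (M p l 0) s w := by
  induction d generalizing l with
  | zero =>
    intro s w hw _
    by_cases hc : 0 < s ∨ 0 < w
    · exact one_of_V (V_all hc fun s x hx => mem_MS_zero (mem_FR_of_isWt (lt_of_le_of_lt hw h) hx))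
    · have hs : s = 0 := by omega
      have hw0 : w = 0 := by omega
      subst hw0
      exact one_zero hs
  | succ d ih =>
    intro s w hw hno
    have hK : W < p ^ W * Ch.N p (l + 2) := by
      have h1 : W < p ^ W := Nat.lt_pow_self (Fact.out : p.Prime).one_lt
      have h2 : p ^ W ≤ p ^ W * Ch.N p (l + 2) := Nat.le_mul_of_pos_right _ (N_pos (l + 1))
      omega
    refine one_congr (fun s x hx => low_iff (lt_of_le_of_lt hw hK) hx)
      (tower_one_M (l + 1) W (ih (l + 1) (by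
        rw [show l + 1 + d + 2 = l + (d + 1) + 2 by ring]; exact h)) W s w hw (hno.mono ?_))
    rintro ⟨a, b⟩ hab
    simp only [Alive, Set.mem_ofPred_eq] at hab ⊢
    omega

/-- **Unique monomial theorem** with coefficients in `M l k`. -/
theorem one_M (W l k : ℕ) : ∀ s w, w ≤ W → UM (Alive l k) p s w → One (M p l k) s w :=
  tower_one_M l W (one_M_zero W W l (by
    have := N_ge (p := p) (Fact.out : p.Prime).one_le (l + W + 2)
    omega)) k

/-- Unique monomial theorem with coefficients `T j k`. -/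
theorem one_T {j : ℕ} (W k : ℕ) (hk : j + 1 ≤ k) :
    ∀ s w, w ≤ W → UM (Alive 0 k \ {(0, j)}) p s w → One (T p j k) s w := by
  refine tower_one (T p j) 0 (fun k => Alive 0 k \ {(0, j)}) (j + 1) W
    (fun k hk => stepData_T (by omega)) (fun k _ => Ext_T j k) (fun k hk h => ?_) (fun k hk => ?_)
    (fun k hk => V_T W k hk) (fun s w hw hno => ?_) k hk
  · rcases h.1 with h | ⟨_, h⟩
    · exact lt_irrefl _ h
    · exact lt_irrefl _ h
  · ext ⟨a, b⟩
    simp only [Alive, Set.mem_insert_iff, Prod.mk.injEq, Set.mem_sdiff, Set.mem_ofPred_eq,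
      Set.mem_singleton_iff]
    omega
  · rw [T_succ]
    refine one_M W 0 j s w hw (hno.mono ?_)
    rintro ⟨a, b⟩ hab
    simp only [Alive, Set.mem_sdiff, Set.mem_ofPred_eq, Set.mem_singleton_iff, Prod.mk.injEq] at hab ⊢
    omega

/-- if the cohomology is at most one-dimensional and `g` does not bound, it spans -/
theorem One.span {N : CS p} {s w : ℕ} (h : One N s w) {g : Ch p (s + 1)} (hg : g ∈ N s)
    (hgw : IsWt w g) (hgd : dE s g = 0) (hgn : ¬ Bd N s w g) {f : Ch p (s + 1)} (hf : f ∈ N s)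
    (hfw : IsWt w f) (hfd : dE s f = 0) : ∃ c : ZMod p, Bd N s w (f - c • g) := by
  obtain ⟨a, b, hab, hB⟩ := h f hf g hg hfw hgw hfd hgd
  by_cases ha : a = 0
  · exfalso
    have hb : b ≠ 0 := by
      rcases hab with h | h
      · exact absurd ha h
      · exact h
    apply hgn
    have h1 := Bd_smul hB b⁻¹
    rwa [ha, zero_smul, zero_add, smul_smul, inv_mul_cancel₀ hb, one_smul] at h1
  · refine ⟨- (a⁻¹ * b), ?_⟩
    have h1 := Bd_smul hB a⁻¹
    rwa [smul_add, smul_smul, smul_smul, inv_mul_cancel₀ ha, one_smul, ← sub_neg_eq_add,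
      ← neg_smul] at h1

end Vale.Agent.P257.V4.A.H
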