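import Vale.Agent.P257.V4.A.HCx
import Mathlib.Data.Nat.Choose.Lucas

/-!
# P257 / V4, part A: the step lemma of the engine (block A1, helper898)

`Ext N l k` is `N[τ]` truncated at `τ^p`, `τ = z_{l+1}^{p^k}`.
-/

open MvPolynomial

namespace Vale.Agent.P257.V4.A.H

open Ch

variable {p : ℕ} [Fact p.Prime]

/-! ### cohomology in degree 0 -/

theorem eq_zero_of_isWt {w : ℕ} (hw : 0 < w) (x : Ch p 0) (h : IsWt w x) : x = 0 := by
  ext e
  by_contra hc
  have h1 := h hc
  have h2 : e = 0 := Subsingleton.elim _ _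
  rw [h2, map_zero] at h1
  omega

theorem eq_zero_of_cocycle {w : ℕ} (hw : 0 < w) (x : Ch p 1) (h : IsWt w x)
    (h0 : dE 0 x = 0) : x = 0 := by
  have h1 := congrArg (ct 0) h0
  rw [map_zero, dE_apply, map_sum, Fin.sum_univ_castSucc] at h1
  simp only [map_zsmul, ct_cof_last, Fin.val_castSucc, Fin.val_last] at h1
  rw [Fin.sum_univ_one, Fin.val_zero, pow_zero, one_smul] at h1
  have h2 : ct 0 (cof 0 (Fin.castSucc 0) x) = 0 := by
    rw [ct, cof, Ch.map_map]
    have e : ((Fin.last (0 + 1)).predAbove ∘ (Fin.castSucc 0 : Fin (0 + 2)).castSucc.succAbove :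
        Fin (0 + 2) → Fin (0 + 2)) = (fun _ : Fin 1 => (1 : Fin 2)) ∘ (fun _ : Fin 2 => (0 : Fin 1)) := by
      funext j
      fin_cases j <;> rfl
    rw [e, ← Ch.map_map]
    rw [eq_zero_of_isWt hw (Ch.map (fun _ : Fin 2 => (0 : Fin 1)) x) (map_isWt _ h), map_zero]
  rw [h2] at h1
  simpa using h1

/-! ### Hasse derivatives -/

/-- the coefficient variable `z_{l+1}` -/
abbrev zv (s l : ℕ) : Fin (s + 1) × ℕ := (Fin.last s, l)

variable (p) in
/-- the letter `τ = z_{l+1}^{p^k}` -/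
noncomputable def tau (l k s : ℕ) : Ch p (s + 1) := X (zv s l) ^ (p ^ k)

/-- the Hasse derivative of order `p^k` in the variable `z_{l+1}` -/
noncomputable def Dop (l k s : ℕ) : Ch p (s + 1) →ₗ[ZMod p] Ch p (s + 1) :=
  (basisMonomials (Fin (s + 1) × ℕ) (ZMod p)).constr (ZMod p) fun e =>
    monomial (e - Finsupp.single (zv s l) (p ^ k)) ((e (zv s l)).choose (p ^ k) : ZMod p)

theorem Dop_monomial (l k s : ℕ) (e : (Fin (s + 1) × ℕ) →₀ ℕ) (c : ZMod p) :
    Dop l k s (monomial e c) = monomial (e - Finsupp.single (zv s l) (p ^ k))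
      (c * ((e (zv s l)).choose (p ^ k) : ZMod p)) := by
  have h : (monomial e c : Ch p (s + 1)) = c • basisMonomials (Fin (s + 1) × ℕ) (ZMod p) e := by
    rw [coe_basisMonomials, smul_monomial, smul_eq_mul, mul_one]
  rw [h, map_smul, Dop, Module.Basis.constr_basis, smul_monomial, smul_eq_mul]

theorem choose_pow_cast (n k : ℕ) : ((n.choose (p ^ k) : ℕ) : ZMod p) = ((n / p ^ k : ℕ) : ZMod p) := by
  induction k generalizing n with
  | zero => simp
  | succ k ih =>
    have h := Choose.choose_modEq_choose_mod_mul_choose_div_nat (n := n) (k := p ^ (k + 1)) (p := p)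
    rw [(ZMod.natCast_eq_natCast_iff _ _ _).2 h, pow_succ, Nat.mul_mod_left, Nat.choose_zero_right,
      one_mul, Nat.mul_div_cancel _ (Fact.out : p.Prime).pos, ih, Nat.div_div_eq_div_mul,
      mul_comm p]

/-- the digit number `k` of all exponents of `z_{l+1}` vanishes -/
def Dig (l k : ℕ) {s : ℕ} (x : Ch p (s + 1)) : Prop :=
  ∀ e ∈ x.support, ((e (zv s l) / p ^ k : ℕ) : ZMod p) = 0

theorem Dop_tau_mul {l k s : ℕ} {f : Ch p (s + 1)} (hf : Dig l k f) (b : ℕ) :
    Dop l k s (tau p l k s ^ (b + 1) * f) = ((b + 1 : ℕ) : Ch p (s + 1)) * (tau p l k s ^ b * f) := by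
  have hp : 0 < p ^ k := Nat.pow_pos (Fact.out : p.Prime).pos
  rw [f.as_sum, Finset.mul_sum, map_sum, Finset.mul_sum, Finset.mul_sum]
  refine Finset.sum_congr rfl fun e he => ?_
  have h1 : tau p l k s ^ (b + 1) = monomial (Finsupp.single (zv s l) (p ^ k * (b + 1))) 1 := by
    rw [tau, ← pow_mul, X_pow_eq_monomial]
  have h2 : tau p l k s ^ b = monomial (Finsupp.single (zv s l) (p ^ k * b)) 1 := by
    rw [tau, ← pow_mul, X_pow_eq_monomial]
  rw [h1, h2, monomial_mul, monomial_mul, one_mul, Dop_monomial, choose_pow_cast]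
  have h3 : ((Finsupp.single (zv s l) (p ^ k * (b + 1)) + e) (zv s l) / p ^ k : ℕ) =
      (b + 1) + e (zv s l) / p ^ k := by
    rw [Finsupp.add_apply, Finsupp.single_eq_same, Nat.mul_add_div hp]
  rw [h3, Nat.cast_add, hf e he, add_zero]
  have h4 : Finsupp.single (zv s l) (p ^ k * (b + 1)) + e - Finsupp.single (zv s l) (p ^ k) =
      Finsupp.single (zv s l) (p ^ k * b) + e := by
    have : Finsupp.single (zv s l) (p ^ k * (b + 1)) =
      Finsupp.single (zv s l) (p ^ k * b) + Finsupp.single (zv s l) (p ^ k) := by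
      rw [← Finsupp.single_add]
      congr 1
    rw [this, add_right_comm, add_tsub_cancel_right]
  rw [h4]
  have h5 : ((b + 1 : ℕ) : Ch p (s + 1)) = C ((b + 1 : ℕ) : ZMod p) := by simp
  rw [h5, C_mul_monomial, mul_comm (coeff e f)]

theorem Dop_of_dig {l k s : ℕ} {f : Ch p (s + 1)} (hf : Dig l k f) : Dop l k s f = 0 := by
  rw [f.as_sum, map_sum]
  refine Finset.sum_eq_zero fun e he => ?_
  rw [Dop_monomial, choose_pow_cast, hf e he, mul_zero, map_zero]

/-! ### weights -/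

theorem tau_isWt (l k s : ℕ) : IsWt (p ^ k * N p (l + 1)) (tau p l k s) := (isWt_X _ _).pow _

theorem Dop_isWt {l k s w : ℕ} {x : Ch p (s + 1)} (hx : IsWt (w + p ^ k * N p (l + 1)) x) :
    IsWt w (Dop l k s x) := by
  rw [x.as_sum, map_sum]
  refine IsWt.sum _ fun e he => ?_
  rw [Dop_monomial]
  by_cases h : e (zv s l) < p ^ k
  · rw [Nat.choose_eq_zero_of_lt h]
    simp only [Nat.cast_zero, mul_zero, map_zero]
    exact isWt_zero _
  · refine isWeightedHomogeneous_monomial _ _ _ ?_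
    have h1 := hx (mem_support_iff.1 he)
    have h2 : e = (e - Finsupp.single (zv s l) (p ^ k)) + Finsupp.single (zv s l) (p ^ k) := by
      rw [tsub_add_cancel_of_le]
      rw [Finsupp.single_le_iff]
      omega
    rw [h2, map_add, Finsupp.weight_single] at h1
    simp only [vwt, smul_eq_mul] at h1
    omega

theorem Dop_eq_zero {l k s w : ℕ} {x : Ch p (s + 1)} (hx : IsWt w x)
    (hw : w < p ^ k * N p (l + 1)) : Dop l k s x = 0 := by
  rw [x.as_sum, map_sum]
  refine Finset.sum_eq_zero fun e he => ?_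
  rw [Dop_monomial]
  by_cases h : e (zv s l) < p ^ k
  · rw [Nat.choose_eq_zero_of_lt h]
    simp
  · exfalso
    have h1 := hx (mem_support_iff.1 he)
    have h2 : e = (e - Finsupp.single (zv s l) (p ^ k)) + Finsupp.single (zv s l) (p ^ k) := by
      rw [tsub_add_cancel_of_le]
      rw [Finsupp.single_le_iff]
      omega
    rw [h2, map_add, Finsupp.weight_single] at h1
    simp only [vwt, smul_eq_mul] at h1
    omega

theorem comp_mul {n t : ℕ} {a : Ch p n} (ha : IsWt t a) (w : ℕ) (x : Ch p n) :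
    comp n (w + t) (a * x) = a * comp n w x := by
  obtain ⟨S, hS⟩ := sum_comp x
  have key : ∀ E, comp n (w + t) (a * comp n E x) = a * comp n w (comp n E x) := by
    intro E
    have h0 : IsWt (E + t) (a * comp n E x) := (ha.mul (comp_isWt E x)).cast (add_comm _ _)
    by_cases h : E = w
    · subst h
      rw [comp_same h0, comp_same (comp_isWt E x)]
    · rw [comp_ne h0 (by omega), comp_ne (comp_isWt E x) h, mul_zero]
  calc comp n (w + t) (a * x) = comp n (w + t) (a * ∑ E ∈ S, comp n E x) := by rw [← hS]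
    _ = ∑ E ∈ S, comp n (w + t) (a * comp n E x) := by rw [Finset.mul_sum, map_sum]
    _ = ∑ E ∈ S, a * comp n w (comp n E x) := Finset.sum_congr rfl fun E _ => key E
    _ = a * comp n w (∑ E ∈ S, comp n E x) := by rw [map_sum, Finset.mul_sum]
    _ = a * comp n w x := by rw [← hS]

theorem comp_mul_lt {n t w : ℕ} {a : Ch p n} (ha : IsWt t a) (hw : w < t) (x : Ch p n) :
    comp n w (a * x) = 0 := by
  obtain ⟨S, hS⟩ := sum_comp x
  calc comp n w (a * x) = comp n w (a * ∑ E ∈ S, comp n E x) := by rw [← hS]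
    _ = ∑ E ∈ S, comp n w (a * comp n E x) := by rw [Finset.mul_sum, map_sum]
    _ = 0 := Finset.sum_eq_zero fun E _ => comp_ne (ha.mul (comp_isWt E x)) (by omega)

/-! ### coefficient systems -/

variable (p) in
/-- a family of additive groups of cochains with coefficients -/
abbrev CS := ∀ s : ℕ, AddSubgroup (Ch p (s + 1))

/-- `N + N τ + … + N τ^(m-1)` -/
noncomputable def Tr (N : CS p) (l k m : ℕ) : CS p := fun s =>
  { carrier := {x | ∃ f : ℕ → Ch p (s + 1), (∀ b, f b ∈ N s) ∧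
      x = ∑ b ∈ Finset.range m, tau p l k s ^ b * f b}
    zero_mem' := ⟨fun _ => 0, fun _ => (N s).zero_mem, by simp⟩
    add_mem' := by
      rintro x y ⟨f, hf, rfl⟩ ⟨g, hg, rfl⟩
      exact ⟨fun b => f b + g b, fun b => (N s).add_mem (hf b) (hg b), by
        rw [← Finset.sum_add_distrib]
        exact Finset.sum_congr rfl fun b _ => (mul_add _ _ _).symm⟩
    neg_mem' := by
      rintro x ⟨f, hf, rfl⟩
      exact ⟨fun b => - f b, fun b => (N s).neg_mem (hf b), by
        rw [← Finset.sum_neg_distrib]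
        exact Finset.sum_congr rfl fun b _ => by ring⟩ }

/-- `N[τ]` truncated at `τ^p` -/
noncomputable abbrev Ext (N : CS p) (l k : ℕ) : CS p := Tr N l k p

variable {N : CS p} {l k : ℕ}

theorem mem_Tr {m s : ℕ} {x : Ch p (s + 1)} : x ∈ Tr N l k m s ↔
    ∃ f : ℕ → Ch p (s + 1), (∀ b, f b ∈ N s) ∧ x = ∑ b ∈ Finset.range m, tau p l k s ^ b * f b :=
  Iff.rfl

theorem tau_mul_mem_Tr {m s b : ℕ} (hb : b < m) {f : Ch p (s + 1)} (hf : f ∈ N s) :
    tau p l k s ^ b * f ∈ Tr N l k m s := by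
  refine ⟨fun c => if c = b then f else 0, fun c => ?_, ?_⟩
  · dsimp only
    split_ifs
    · exact hf
    · exact (N s).zero_mem
  · simp [Finset.mem_range, hb]

theorem mem_Ext_of_mem {s : ℕ} {f : Ch p (s + 1)} (hf : f ∈ N s) : f ∈ Ext N l k s := by
  have := tau_mul_mem_Tr (l := l) (k := k) (Fact.out : p.Prime).pos hf
  simpa using this

theorem Tr_mono {m m' s : ℕ} (h : m ≤ m') {x : Ch p (s + 1)} (hx : x ∈ Tr N l k m s) :
    x ∈ Tr N l k m' s := by
  obtain ⟨f, hf, rfl⟩ := hx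
  exact AddSubgroup.sum_mem _ fun b hb => tau_mul_mem_Tr
    (lt_of_lt_of_le (Finset.mem_range.1 hb) h) (hf b)

/-- the axioms of a step -/
structure StepData (N : CS p) (l k : ℕ) : Prop where
  cof_mem : ∀ s i x, x ∈ N s → cof s i x ∈ N (s + 1)
  dig : ∀ s x, x ∈ N s → Dig l k x
  comp_mem : ∀ s w x, x ∈ N s → comp (s + 1) w x ∈ N s
  r_mem : ∀ s i x, x ∈ N (s + 1) → (cof s i (tau p l k s) - tau p l k (s + 1)) * x ∈ N (s + 1)
  r_free : ∀ s i, ∀ e ∈ (cof s i (tau p l k s) - tau p l k (s + 1)).support, e (zv (s + 1) l) = 0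

theorem dE_mem' (hc : ∀ s i x, x ∈ N s → cof s i x ∈ N (s + 1)) {s : ℕ} {x : Ch p (s + 1)}
    (hx : x ∈ N s) : dE s x ∈ N (s + 1) := by
  rw [dE_apply]
  exact AddSubgroup.sum_mem _ fun i _ => (N (s + 1)).zsmul_mem (hc s i x hx) _

/-! ### scalars -/

theorem nsmul_cancel {n : ℕ} (h0 : 0 < n) (hn : n < p) {s : ℕ} {x : Ch p s} (h : n • x = 0) :
    x = 0 := by
  rw [← Nat.cast_smul_eq_nsmul (ZMod p), smul_eq_zero] at h
  rcases h with h | h
  · exfalso
    rw [ZMod.natCast_eq_zero_iff] at h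
    exact absurd (Nat.le_of_dvd h0 h) (by omega)
  · exact h

theorem exists_inv {n : ℕ} (h0 : 0 < n) (hn : n < p) :
    ∃ m : ℕ, ∀ (s : ℕ) (x : Ch p s), n • (m • x) = x := by
  have h1 : ((n : ℕ) : ZMod p) ≠ 0 := by
    rw [Ne, ZMod.natCast_eq_zero_iff]
    intro h
    exact absurd (Nat.le_of_dvd h0 h) (by omega)
  refine ⟨((n : ZMod p)⁻¹).val, fun s x => ?_⟩
  rw [← Nat.cast_smul_eq_nsmul (ZMod p), ← Nat.cast_smul_eq_nsmul (ZMod p), smul_smul,
    ZMod.natCast_zmod_val, mul_inv_cancel₀ h1, one_smul]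

/-! ### the derivative on `Tr` -/

theorem Dop_sum {s : ℕ} {f : ℕ → Ch p (s + 1)} (hf : ∀ b, Dig l k (f b)) (m : ℕ) :
    Dop l k s (∑ b ∈ Finset.range (m + 1), tau p l k s ^ b * f b) =
      ∑ b ∈ Finset.range m, tau p l k s ^ b * ((b + 1) • f (b + 1)) := by
  rw [Finset.sum_range_succ', map_add, map_sum, pow_zero, one_mul, Dop_of_dig (hf 0), add_zero]
  refine Finset.sum_congr rfl fun b _ => ?_
  rw [Dop_tau_mul (hf _), nsmul_eq_mul]
  ring

theorem indep (hN : StepData N l k) {s : ℕ} (m : ℕ) (hm : m ≤ p) (f : ℕ → Ch p (s + 1))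
    (hf : ∀ b, f b ∈ N s) (h : ∑ b ∈ Finset.range m, tau p l k s ^ b * f b = 0) :
    ∀ b < m, f b = 0 := by
  induction m generalizing f with
  | zero => intro b hb; omega
  | succ m ih =>
    have h1 := congrArg (Dop l k s) h
    rw [map_zero, Dop_sum (fun b => hN.dig s _ (hf b))] at h1
    have h2 := ih (by omega) (fun b => (b + 1) • f (b + 1))
      (fun b => (N s).nsmul_mem (hf _) _) h1
    have h3 : ∀ b < m, f (b + 1) = 0 := fun b hb =>
      nsmul_cancel (Nat.succ_pos b) (by omega) (h2 b hb)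
    rw [Finset.sum_range_succ', Finset.sum_eq_zero, zero_add, pow_zero, one_mul] at h
    · intro b hb
      cases b with
      | zero => exact h
      | succ b => exact h3 b (by omega)
    · intro b hb
      rw [h3 b (Finset.mem_range.1 hb), mul_zero]

theorem pred_add_one : p - 1 + 1 = p := Nat.sub_add_cancel (Fact.out : p.Prime).one_le

theorem mem_of_Dop_eq_zero (hN : StepData N l k) {s : ℕ} {x : Ch p (s + 1)}
    (hx : x ∈ Ext N l k s) (h : Dop l k s x = 0) : x ∈ N s := by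
  obtain ⟨f, hf, rfl⟩ := hx
  have hp : p - 1 + 1 = p := pred_add_one
  have hr : Finset.range p = Finset.range (p - 1 + 1) := by rw [hp]
  rw [hr, Dop_sum (fun b => hN.dig s _ (hf b))] at h
  have h2 := indep hN (p - 1) (by omega) (fun b => (b + 1) • f (b + 1))
      (fun b => (N s).nsmul_mem (hf _) _) h
  rw [hr, Finset.sum_range_succ', Finset.sum_eq_zero, zero_add, pow_zero, one_mul]
  · exact hf 0
  · intro b hb
    have hb' := Finset.mem_range.1 hb
    rw [nsmul_cancel (Nat.succ_pos b) (by omega) (h2 b hb'), mul_zero]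

theorem Dop_mem (hN : StepData N l k) {s : ℕ} {x : Ch p (s + 1)}
    (hx : x ∈ Ext N l k s) : Dop l k s x ∈ Tr N l k (p - 1) s := by
  obtain ⟨f, hf, rfl⟩ := hx
  have hp : p - 1 + 1 = p := pred_add_one
  have hr : Finset.range p = Finset.range (p - 1 + 1) := by rw [hp]
  rw [hr, Dop_sum (fun b => hN.dig s _ (hf b))]
  exact ⟨fun b => (b + 1) • f (b + 1), fun b => (N s).nsmul_mem (hf _) _, rfl⟩

theorem exists_Dop_eq (hN : StepData N l k) {s : ℕ} {y : Ch p (s + 1)}
    (hy : y ∈ Tr N l k (p - 1) s) : ∃ x ∈ Ext N l k s, Dop l k s x = y := by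
  obtain ⟨f, hf, rfl⟩ := hy
  have hp : p - 1 + 1 = p := pred_add_one
  have h1 : ∀ b : ℕ, ∃ g ∈ N s, b < p - 1 → (b + 1) • g = f b := by
    intro b
    by_cases hb : b < p - 1
    · obtain ⟨m, hm⟩ := exists_inv (p := p) (Nat.succ_pos b) (by omega)
      exact ⟨m • f b, (N s).nsmul_mem (hf b) _, fun _ => hm _ _⟩
    · exact ⟨0, (N s).zero_mem, fun h => absurd h hb⟩
  choose g hg hg' using h1
  refine ⟨∑ b ∈ Finset.range (p - 1 + 1), tau p l k s ^ b * (fun b => Nat.casesOn b 0 g : ℕ → _) b,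
    ⟨fun b => Nat.casesOn b 0 g, fun b => ?_, by rw [hp]⟩, ?_⟩
  · cases b with
    | zero => exact (N s).zero_mem
    | succ b => exact hg b
  · rw [Dop_sum]
    · exact Finset.sum_congr rfl fun b hb => by
        rw [← hg' b (Finset.mem_range.1 hb)]
    · intro b
      cases b with
      | zero => exact hN.dig s _ (N s).zero_mem
      | succ b => exact hN.dig s _ (hg b)

/-! ### the derivative and the cofaces -/

theorem Dop_tau_mul' {s : ℕ} (y : Ch p (s + 1)) :
    Dop l k s (tau p l k s * y) = y + tau p l k s * Dop l k s y := by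
  have hp : 0 < p ^ k := Nat.pow_pos (Fact.out : p.Prime).pos
  rw [y.as_sum, Finset.mul_sum, map_sum, map_sum, Finset.mul_sum, ← Finset.sum_add_distrib]
  refine Finset.sum_congr rfl fun e _ => ?_
  have h1 : tau p l k s = monomial (Finsupp.single (zv s l) (p ^ k)) 1 := by
    rw [tau, X_pow_eq_monomial]
  rw [h1, monomial_mul, one_mul, Dop_monomial, Dop_monomial, choose_pow_cast, choose_pow_cast,
    monomial_mul, one_mul, add_tsub_cancel_left]
  have h3 : ((Finsupp.single (zv s l) (p ^ k) + e) (zv s l) / p ^ k : ℕ) =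
      1 + e (zv s l) / p ^ k := by
    rw [Finsupp.add_apply, Finsupp.single_eq_same]
    rw [Nat.add_div_left _ hp, add_comm]
  rw [h3, Nat.cast_add, Nat.cast_one, mul_add, mul_one, map_add]
  congr 1
  by_cases h : e (zv s l) < p ^ k
  · rw [Nat.div_eq_of_lt h]
    simp
  · have h4 : Finsupp.single (zv s l) (p ^ k) + (e - Finsupp.single (zv s l) (p ^ k)) = e := by
      rw [add_tsub_cancel_of_le]
      rw [Finsupp.single_le_iff]
      omega
    rw [h4]

theorem Dop_free_mul {s : ℕ} {r : Ch p (s + 1)} (hr : ∀ e ∈ r.support, e (zv s l) = 0)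
    (y : Ch p (s + 1)) : Dop l k s (r * y) = r * Dop l k s y := by
  rw [r.as_sum, Finset.sum_mul, Finset.sum_mul, map_sum]
  refine Finset.sum_congr rfl fun e he => ?_
  rw [y.as_sum, map_sum, Finset.mul_sum, Finset.mul_sum, map_sum]
  refine Finset.sum_congr rfl fun e' _ => ?_
  rw [Dop_monomial, monomial_mul, monomial_mul, Dop_monomial, Finsupp.add_apply, hr e he, zero_add,
    mul_assoc]
  by_cases h : e' (zv s l) < p ^ k
  · rw [Nat.choose_eq_zero_of_lt h]
    simp
  · rw [add_tsub_assoc_of_le]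
    rw [Finsupp.single_le_iff]
    omega

theorem cof_tau (s : ℕ) (i : Fin (s + 2)) : cof s i (tau p l k s) = tau p l k (s + 1) +
    (cof s i (tau p l k s) - tau p l k (s + 1)) := by ring

theorem cof_tau_mul_mem (hN : StepData N l k) {s : ℕ} (i : Fin (s + 2)) (b : ℕ)
    {y : Ch p (s + 2)} (hy : y ∈ N (s + 1)) :
    cof s i (tau p l k s) ^ b * y - tau p l k (s + 1) ^ b * y ∈ Tr N l k b (s + 1) := by
  have hr : ∀ m : ℕ, (cof s i (tau p l k s) - tau p l k (s + 1)) ^ m * y ∈ N (s + 1) := by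
    intro m
    induction m with
    | zero => simpa using hy
    | succ m ih =>
      rw [pow_succ', mul_assoc]
      exact hN.r_mem s i _ ih
  have h1 : cof s i (tau p l k s) ^ b * y - tau p l k (s + 1) ^ b * y =
      ∑ j ∈ Finset.range b, tau p l k (s + 1) ^ j *
        (b.choose j • ((cof s i (tau p l k s) - tau p l k (s + 1)) ^ (b - j) * y)) := by
    conv_lhs => rw [cof_tau s i]
    rw [add_pow, Finset.sum_range_succ, add_mul, Finset.sum_mul]
    simp only [Nat.sub_self, pow_zero, mul_one, Nat.choose_self, Nat.cast_one]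
    rw [add_sub_cancel_right]
    refine Finset.sum_congr rfl fun j _ => ?_
    rw [nsmul_eq_mul]
    ring
  rw [h1]
  exact ⟨fun j => b.choose j • ((cof s i (tau p l k s) - tau p l k (s + 1)) ^ (b - j) * y),
    fun j => (N (s + 1)).nsmul_mem (hr _) _, rfl⟩

theorem dE_tau_mul (hN : StepData N l k) {s : ℕ} (b : ℕ) {y : Ch p (s + 1)} (hy : y ∈ N s) :
    dE s (tau p l k s ^ b * y) - tau p l k (s + 1) ^ b * dE s y ∈ Tr N l k b (s + 1) := by
  rw [dE_apply, dE_apply, Finset.mul_sum, ← Finset.sum_sub_distrib]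
  refine AddSubgroup.sum_mem _ fun i _ => ?_
  rw [mul_smul_comm, ← smul_sub, map_mul, map_pow]
  exact AddSubgroup.zsmul_mem _ (cof_tau_mul_mem hN i b (hN.cof_mem s i y hy)) _

theorem cof_mem_Tr (hN : StepData N l k) {s m : ℕ} (i : Fin (s + 2)) {x : Ch p (s + 1)}
    (hx : x ∈ Tr N l k m s) : cof s i x ∈ Tr N l k m (s + 1) := by
  obtain ⟨f, hf, rfl⟩ := hx
  rw [map_sum]
  refine AddSubgroup.sum_mem _ fun b hb => ?_
  have hb := Finset.mem_range.1 hb
  rw [map_mul, map_pow]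
  have h := cof_tau_mul_mem hN i b (hN.cof_mem s i _ (hf b))
  have h2 := AddSubgroup.add_mem _ (Tr_mono (show b ≤ m by omega) h)
    (tau_mul_mem_Tr (l := l) (k := k) hb (hN.cof_mem s i _ (hf b)))
  rwa [sub_add_cancel] at h2

theorem dE_mem_Tr (hN : StepData N l k) {s m : ℕ} {x : Ch p (s + 1)}
    (hx : x ∈ Tr N l k m s) : dE s x ∈ Tr N l k m (s + 1) :=
  dE_mem' (N := Tr N l k m) (fun _ i _ h => cof_mem_Tr hN i h) hx

theorem Dop_cof (hN : StepData N l k) {s m : ℕ} (i : Fin (s + 2)) {x : Ch p (s + 1)}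
    (hx : x ∈ Tr N l k m s) : Dop l k (s + 1) (cof s i x) = cof s i (Dop l k s x) := by
  obtain ⟨f, hf, rfl⟩ := hx
  rw [map_sum, map_sum, map_sum, map_sum]
  refine Finset.sum_congr rfl fun b _ => ?_
  have key : ∀ (b : ℕ) (y : Ch p (s + 1)), y ∈ N s →
      Dop l k (s + 1) (cof s i (tau p l k s ^ (b + 1) * y)) =
        cof s i (((b + 1 : ℕ) : Ch p (s + 1)) * (tau p l k s ^ b * y)) := by
    intro b y hy
    induction b with
    | zero =>
      rw [zero_add, pow_one, map_mul, cof_tau s i, add_mul, map_add, Dop_tau_mul',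
        Dop_free_mul (hN.r_free s i), Dop_of_dig (hN.dig _ _ (hN.cof_mem s i y hy))]
      simp
    | succ b ih =>
      rw [pow_succ', mul_assoc, map_mul, cof_tau s i, add_mul, map_add, Dop_tau_mul',
        Dop_free_mul (hN.r_free s i), ih]
      simp only [map_mul, map_pow, map_natCast]
      push_cast
      ring
  cases b with
  | zero =>
    rw [pow_zero, one_mul, Dop_of_dig (hN.dig _ _ (hf 0)),
      Dop_of_dig (hN.dig _ _ (hN.cof_mem s i _ (hf 0))), map_zero]
  | succ b => rw [key b _ (hf _), Dop_tau_mul (hN.dig _ _ (hf _))]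

theorem Dop_dE (hN : StepData N l k) {s m : ℕ} {x : Ch p (s + 1)} (hx : x ∈ Tr N l k m s) :
    Dop l k (s + 1) (dE s x) = dE s (Dop l k s x) := by
  rw [dE_apply, dE_apply, map_sum]
  refine Finset.sum_congr rfl fun i _ => ?_
  rw [map_zsmul, Dop_cof hN i hx]

/-! ### weights of the coefficients -/

theorem dE_isWt {s w : ℕ} {x : Ch p (s + 1)} (hx : IsWt w x) : IsWt w (dE s x) := by
  rw [dE_apply]
  exact IsWt.sum _ fun i _ => (map_isWt _ hx).zsmul _

theorem comp_dE {s : ℕ} (w : ℕ) (x : Ch p (s + 1)) :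
    comp (s + 2) w (dE s x) = dE s (comp (s + 1) w x) :=
  comp_comm (dE s) (fun _ _ => dE_isWt) w x

theorem tau_pow_isWt (b s : ℕ) : IsWt (b * (p ^ k * Ch.N p (l + 1))) (tau p l k s ^ b) :=
  (tau_isWt l k s).pow b

theorem exists_wt (hc : ∀ s w x, x ∈ N s → comp (s + 1) w x ∈ N s) {s m w : ℕ}
    {x : Ch p (s + 1)} (hx : x ∈ Tr N l k m s) (hw : IsWt w x) :
    ∃ f : ℕ → Ch p (s + 1), (∀ b, f b ∈ N s) ∧
      (∀ b, b * (p ^ k * Ch.N p (l + 1)) ≤ w → IsWt (w - b * (p ^ k * Ch.N p (l + 1))) (f b)) ∧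
      (∀ b, w < b * (p ^ k * Ch.N p (l + 1)) → f b = 0) ∧
      x = ∑ b ∈ Finset.range m, tau p l k s ^ b * f b := by
  obtain ⟨f, hf, hfx⟩ := hx
  refine ⟨fun b => if b * (p ^ k * Ch.N p (l + 1)) ≤ w then
    comp (s + 1) (w - b * (p ^ k * Ch.N p (l + 1))) (f b) else 0, fun b => ?_, fun b hb => ?_,
    fun b hb => ?_, ?_⟩
  · dsimp only
    split_ifs
    · exact hc _ _ _ (hf b)
    · exact (N s).zero_mem
  · dsimp only
    rw [if_pos hb]
    exact comp_isWt _ _
  · dsimp only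
    rw [if_neg (by omega)]
  · have h1 : x = comp (s + 1) w x := (comp_same hw).symm
    conv_lhs => rw [h1, hfx]
    rw [map_sum]
    refine Finset.sum_congr rfl fun b _ => ?_
    dsimp only
    split_ifs with h
    · have h2 := comp_mul (tau_pow_isWt (p := p) (l := l) (k := k) b s)
        (w - b * (p ^ k * Ch.N p (l + 1))) (f b)
      rwa [Nat.sub_add_cancel h] at h2
    · rw [comp_mul_lt (tau_pow_isWt (p := p) (l := l) (k := k) b s) (by omega), mul_zero]

theorem comp_mem_Tr (hc : ∀ s w x, x ∈ N s → comp (s + 1) w x ∈ N s) {s m w : ℕ}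
    {x : Ch p (s + 1)} (hx : x ∈ Tr N l k m s) : comp (s + 1) w x ∈ Tr N l k m s := by
  obtain ⟨f, hf, rfl⟩ := hx
  rw [map_sum]
  refine AddSubgroup.sum_mem _ fun b hb => ?_
  by_cases h : b * (p ^ k * Ch.N p (l + 1)) ≤ w
  · have h2 := comp_mul (tau_pow_isWt (p := p) (l := l) (k := k) b s)
        (w - b * (p ^ k * Ch.N p (l + 1))) (f b)
    rw [Nat.sub_add_cancel h] at h2
    rw [h2]
    exact tau_mul_mem_Tr (Finset.mem_range.1 hb) (hc _ _ _ (hf b))
  · rw [comp_mul_lt (tau_pow_isWt (p := p) (l := l) (k := k) b s) (by omega)]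
    exact AddSubgroup.zero_mem _

/-! ### the step -/

/-- vanishing of the cohomology with coefficients in `N` -/
def V (N : CS p) : ℕ → ℕ → Prop
  | 0, w => ∀ x ∈ N 0, IsWt w x → dE 0 x = 0 → x = 0
  | s + 1, w => ∀ x ∈ N (s + 1), IsWt w x → dE (s + 1) x = 0 → ∃ y ∈ N s, IsWt w y ∧ dE s y = x

theorem Tr_zero {s : ℕ} {x : Ch p (s + 1)} (hx : x ∈ Tr N l k 0 s) : x = 0 := by
  obtain ⟨f, hf, rfl⟩ := hx
  simp

/-- the first half of the step lemma: the top coefficient -/
theorem step_top (hN : StepData N l k) {s w : ℕ} (h0 : V (Ext N l k) (s + 2) w)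
    (h1 : p ^ k * Ch.N p (l + 1) ≤ w → V (Ext N l k) (s + 1) (w - p ^ k * Ch.N p (l + 1)))
    {x : Ch p (s + 3)} (hx : x ∈ N (s + 2)) (hw : IsWt w x) (hd : dE (s + 2) x = 0) :
    ∃ a ∈ Ext N l k (s + 1), ∃ c ∈ N s, dE (s + 1) a = x ∧ dE s c = 0 ∧
      Dop l k (s + 1) a = dE s (tau p l k s ^ (p - 1) * c) ∧
      (p * (p ^ k * Ch.N p (l + 1)) ≤ w → IsWt (w - p * (p ^ k * Ch.N p (l + 1))) c) ∧
      (w < p * (p ^ k * Ch.N p (l + 1)) → c = 0) := by
  have hpp : p - 1 + 1 = p := pred_add_one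
  have hp2 : 2 ≤ p := (Fact.out : p.Prime).two_le
  have hr : Finset.range p = Finset.range (p - 1 + 1) := by rw [hpp]
  set t := p ^ k * Ch.N p (l + 1) with ht
  obtain ⟨a, ha, haw, hax⟩ := h0 x (mem_Ext_of_mem hx) hw hd
  -- a primitive of `D a`
  have hb : ∃ b ∈ Ext N l k s, dE s b = Dop l k (s + 1) a ∧ (t ≤ w → IsWt (w - t) b) ∧
      (w < t → b = 0) := by
    by_cases htw : t ≤ w
    · have e1 : IsWt (w - t) (Dop l k (s + 1) a) := Dop_isWt (by
        rw [← ht, Nat.sub_add_cancel htw]; exact haw)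
      have e2 : Dop l k (s + 1) a ∈ Ext N l k (s + 1) := Tr_mono (by omega) (Dop_mem hN ha)
      have e3 : dE (s + 1) (Dop l k (s + 1) a) = 0 := by
        rw [← Dop_dE hN ha, hax, Dop_of_dig (hN.dig _ _ hx)]
      obtain ⟨b, hb, hbw, hbx⟩ := h1 htw _ e2 e1 e3
      exact ⟨b, hb, hbx, fun _ => hbw, fun h => absurd h (by omega)⟩
    · refine ⟨0, AddSubgroup.zero_mem _, ?_, fun h => absurd h htw, fun _ => rfl⟩
      rw [map_zero, Dop_eq_zero haw (by omega)]
  obtain ⟨b, hbm, hbx, hbw, hb0⟩ := hb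
  have hf : ∃ f : ℕ → Ch p (s + 1), (∀ b, f b ∈ N s) ∧
      (p * t ≤ w → IsWt (w - p * t) (f (p - 1))) ∧ (w < p * t → f (p - 1) = 0) ∧
      b = ∑ i ∈ Finset.range p, tau p l k s ^ i * f i := by
    have e0 : p * t = t + (p - 1) * t := by
      conv_lhs => rw [← hpp]
      ring
    by_cases htw : t ≤ w
    · obtain ⟨f, hf1, hf2, hf3, hf4⟩ := exists_wt hN.comp_mem hbm (hbw htw)
      refine ⟨f, hf1, fun h => ?_, fun h => ?_, hf4⟩
      · exact (hf2 (p - 1) (by rw [← ht]; omega)).cast (by rw [← ht]; omega)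
      · exact hf3 (p - 1) (by rw [← ht]; omega)
    · refine ⟨fun _ => 0, fun _ => (N s).zero_mem, fun _ => isWt_zero _, fun _ => rfl, ?_⟩
      rw [hb0 (by omega)]
      simp
  obtain ⟨f, hf1, hf2, hf3, hf4⟩ := hf
  have hb' : b - tau p l k s ^ (p - 1) * f (p - 1) ∈ Tr N l k (p - 1) s := by
    have : b - tau p l k s ^ (p - 1) * f (p - 1) =
        ∑ i ∈ Finset.range (p - 1), tau p l k s ^ i * f i := by
      rw [hf4]
      rw [hr, Finset.sum_range_succ, add_sub_cancel_right]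
    rw [this]
    exact ⟨f, hf1, rfl⟩
  obtain ⟨x₀, hx₀, hDx₀⟩ := exists_Dop_eq hN hb'
  refine ⟨a - dE s x₀, AddSubgroup.sub_mem _ ha (dE_mem_Tr hN hx₀), f (p - 1), hf1 _, ?_, ?_, ?_,
    hf2, hf3⟩
  · rw [map_sub, dE_dE, sub_zero, hax]
  · -- top coefficient of `dE b = D a`
    have e1 : dE s b ∈ Tr N l k (p - 1) (s + 1) := by
      rw [hbx]
      exact Dop_mem hN ha
    have e2 : dE s (b - tau p l k s ^ (p - 1) * f (p - 1)) ∈ Tr N l k (p - 1) (s + 1) :=
      dE_mem_Tr hN hb'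
    have e3 := dE_tau_mul hN (p - 1) (hf1 (p - 1))
    have e4 : tau p l k (s + 1) ^ (p - 1) * dE s (f (p - 1)) ∈ Tr N l k (p - 1) (s + 1) := by
      have := AddSubgroup.sub_mem _ e1 (AddSubgroup.add_mem _ e2 e3)
      rw [map_sub] at this
      convert this using 1
      abel
    obtain ⟨g, hg, hg'⟩ := e4
    have e5 := indep hN p le_rfl (fun i => if i = p - 1 then dE s (f (p - 1)) else - g i)
      (fun i => by
        split_ifs
        · exact dE_mem' hN.cof_mem (hf1 _)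
        · exact (N _).neg_mem (hg i)) (by
        rw [hr, Finset.sum_range_succ, if_pos rfl, hg', ← Finset.sum_add_distrib]
        refine Finset.sum_eq_zero fun i hi => ?_
        rw [if_neg (by have := Finset.mem_range.1 hi; omega)]
        ring) (p - 1) (by omega)
    simpa using e5
  · rw [map_sub, Dop_dE hN hx₀, hDx₀, ← hbx, map_sub, sub_sub_cancel]

/-- the second half of the step lemma -/
theorem step_bot (hN : StepData N l k) {s w : ℕ} {x : Ch p (s + 4)} (hw : IsWt w x)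
    {a : Ch p (s + 3)} (ha : a ∈ Ext N l k (s + 2)) (hax : dE (s + 2) a = x) {γ : Ch p (s + 1)}
    (hγ : γ ∈ N s)
    (hD : Dop l k (s + 2) a = dE (s + 1) (tau p l k (s + 1) ^ (p - 1) * dE s γ)) :
    ∃ y ∈ N (s + 2), IsWt w y ∧ dE (s + 2) y = x := by
  obtain ⟨x₁, hx₁, hDx₁⟩ := exists_Dop_eq hN (dE_tau_mul hN (p - 1) hγ)
  have h1 : Dop l k (s + 2) (a + dE (s + 1) x₁) = 0 := by
    rw [map_add, Dop_dE hN hx₁, hDx₁, hD, map_sub, dE_dE, zero_sub, add_neg_cancel]
  have h2 := mem_of_Dop_eq_zero hN (AddSubgroup.add_mem _ ha (dE_mem_Tr hN hx₁)) h1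
  have h3 : dE (s + 2) (a + dE (s + 1) x₁) = x := by rw [map_add, dE_dE, add_zero, hax]
  exact ⟨comp _ w (a + dE (s + 1) x₁), hN.comp_mem _ _ _ h2, comp_isWt _ _, by
    rw [← comp_dE, h3, comp_same hw]⟩

theorem step (hN : StepData N l k) {s w : ℕ} (h0 : V (Ext N l k) s w)
    (h1 : ∀ s', s = s' + 1 → p ^ k * Ch.N p (l + 1) ≤ w →
      V (Ext N l k) s' (w - p ^ k * Ch.N p (l + 1)))
    (h2 : ∀ s', s = s' + 2 → p * (p ^ k * Ch.N p (l + 1)) ≤ w →
      V N s' (w - p * (p ^ k * Ch.N p (l + 1)))) : V N s w := by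
  match s, h0, h1, h2 with
  | 0, h0, _, _ => exact fun x hx hw hd => h0 x (mem_Ext_of_mem hx) hw hd
  | 1, h0, h1, _ =>
    intro x hx hw hd
    obtain ⟨a, ha, haw, hax⟩ := h0 x (mem_Ext_of_mem hx) hw hd
    have h3 : Dop l k 0 a = 0 := by
      by_cases htw : p ^ k * Ch.N p (l + 1) ≤ w
      · refine h1 0 rfl htw _ (Tr_mono (Nat.sub_le _ _) (Dop_mem hN ha)) (Dop_isWt ?_) ?_
        · rw [Nat.sub_add_cancel htw]
          exact haw
        · rw [← Dop_dE hN ha, hax, Dop_of_dig (hN.dig _ _ hx)]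
      · exact Dop_eq_zero haw (by omega)
    exact ⟨a, mem_of_Dop_eq_zero hN ha h3, haw, hax⟩
  | 2, h0, h1, h2 =>
    intro x hx hw hd
    obtain ⟨a, ha, c, hc, hax, hdc, hD, hcw, hc0⟩ := step_top hN h0 (h1 1 rfl) hx hw hd
    have h3 : c = 0 := by
      by_cases h : p * (p ^ k * Ch.N p (l + 1)) ≤ w
      · exact h2 0 rfl h c hc (hcw h) hdc
      · exact hc0 (by omega)
    rw [h3, mul_zero, map_zero] at hD
    have h4 := mem_of_Dop_eq_zero hN ha hD
    exact ⟨comp _ w a, hN.comp_mem _ _ _ h4, comp_isWt _ _, by rw [← comp_dE, hax, comp_same hw]⟩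
  | s + 3, h0, h1, h2 =>
    intro x hx hw hd
    obtain ⟨a, ha, c, hc, hax, hdc, hD, hcw, hc0⟩ := step_top hN h0 (h1 (s + 2) rfl) hx hw hd
    have h3 : ∃ γ ∈ N s, dE s γ = c := by
      by_cases h : p * (p ^ k * Ch.N p (l + 1)) ≤ w
      · obtain ⟨γ, h4, _, h5⟩ := h2 (s + 1) rfl h c hc (hcw h) hdc
        exact ⟨γ, h4, h5⟩
      · exact ⟨0, (N s).zero_mem, by rw [map_zero, hc0 (by omega)]⟩
    obtain ⟨γ, hγ, rfl⟩ := h3
    exact step_bot hN hw ha hax hγ hD

end Vale.Agent.P257.V4.A.H
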