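import Vale.Agent.P257.V4.A.HMod

/-!
# P257 / V4, part A: vanishing from the absence of monomials (block A1, helper898)

Main results: `van_of_noMono` and `V_T_of_noMono` (coefficients in `⊕_{i<p} F_p z_1^{i p^j}`).
-/

open MvPolynomial

namespace Vale.Agent.P257.V4.A.H

open Ch ML

variable {p : ℕ} [Fact p.Prime]

/-! ### low weights -/

theorem V_congr {N N' : CS p} {w : ℕ} (h : ∀ s x, IsWt w x → (x ∈ N s ↔ x ∈ N' s)) {s : ℕ}
    (hV : V N s w) : V N' s w := by
  cases s with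
  | zero => exact fun x hx hw hd => hV x ((h 0 x hw).2 hx) hw hd
  | succ s =>
    intro x hx hw hd
    obtain ⟨y, hy, hyw, hyx⟩ := hV x ((h _ x hw).2 hx) hw hd
    exact ⟨y, (h s y hyw).1 hy, hyw, hyx⟩

theorem mul_vwt_le {n w : ℕ} {x : Ch p n} (hx : IsWt w x) {e : Fin n × ℕ →₀ ℕ}
    (he : e ∈ x.support) (v : Fin n × ℕ) : e v * vwt p n v ≤ w := by
  have h1 := hx (mem_support_iff.1 he)
  have h2 : e = (e - Finsupp.single v (e v)) + Finsupp.single v (e v) := by
    rw [tsub_add_cancel_of_le]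
    rw [Finsupp.single_le_iff]
  rw [h2, map_add, Finsupp.weight_single, smul_eq_mul] at h1
  omega

theorem mem_FR_of_mem_MS {l k s w : ℕ} (hw : w < p ^ k * Ch.N p (l + 1)) {x : Ch p (s + 1)}
    (hx : IsWt w x) (h : x ∈ MS p l k s) : x ∈ FR p l s := by
  intro e he j hj
  rcases hj.eq_or_lt with rfl | hj
  · obtain ⟨m, hm⟩ := (h e he).2
    have h1 := mul_vwt_le hx he (zv s l)
    rw [hm]
    rcases Nat.eq_zero_or_pos m with rfl | hm0
    · rfl
    · exfalso
      rw [hm] at h1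
      simp only [vwt] at h1
      have : p ^ k * Ch.N p (l + 1) ≤ p ^ k * m * Ch.N p (l + 1) := by
        rw [mul_right_comm]
        exact Nat.le_mul_of_pos_right _ hm0
      omega
  · exact (h e he).1 j hj

theorem mem_FR_of_isWt {l s w : ℕ} (hw : w < Ch.N p (l + 1)) {x : Ch p (s + 1)}
    (hx : IsWt w x) : x ∈ FR p l s := by
  intro e he j hj
  by_contra hc
  have h1 := mul_vwt_le hx he (zv s j)
  simp only [vwt] at h1
  have h2 : Ch.N p (l + 1) ≤ Ch.N p (j + 1) := N_mono (by omega)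
  have h3 : Ch.N p (j + 1) ≤ e (zv s j) * Ch.N p (j + 1) :=
    Nat.le_mul_of_pos_left _ (Nat.pos_of_ne_zero hc)
  omega

theorem mem_MS_zero {l s : ℕ} {x : Ch p (s + 1)} (hx : x ∈ FR p (l + 1) s) : x ∈ MS p l 0 s :=
  fun e he => ⟨fun j hj => hx e he j hj, by rw [pow_zero]; exact one_dvd _⟩

theorem mem_FR_succ {l s : ℕ} {x : Ch p (s + 1)} (hx : x ∈ MS p l 0 s) : x ∈ FR p (l + 1) s :=
  fun e he j hj => (hx e he).1 j hj

theorem low_iff {l K s w : ℕ} (hw : w < p ^ K * Ch.N p (l + 2)) {x : Ch p (s + 1)}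
    (hx : IsWt w x) : x ∈ M p (l + 1) K s ↔ x ∈ M p l 0 s :=
  ⟨fun h => mem_MS_zero (mem_FR_of_mem_MS hw hx h), fun h => FR_le_MS (mem_FR_succ h)⟩

/-! ### constants -/

theorem dl_injective (s : ℕ) : Function.Injective (dl (p := p) s) := by
  refine Function.LeftInverse.injective (g := Ch.map (Fin.last s).predAbove) fun x => ?_
  rw [dl, Ch.map_map]
  have : ((Fin.last s).predAbove ∘ Fin.castSucc : Fin (s + 1) → Fin (s + 1)) = id := by
    funext j
    simp
  rw [this, Ch.map_id]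

theorem dl_X (s : ℕ) (i : Fin s) (n : ℕ) : dl s (X (i, n) : Ch p s) = X (i.castSucc, n) := by
  rw [dl, Ch.map, ev_X, Chain.res_g, Fin.castSucc_zero, univ_g_zero, inv_one, mul_one,
    ← Fin.succ_castSucc, univ_g_succ, G.mk_a_succ]

theorem dl_mem_FR (s : ℕ) (x : Ch p s) : dl s x ∈ FR p 0 s := by
  have h1 : ∀ v, dl s (X v : Ch p s) ∈ FR p 0 s := by
    rintro ⟨i, n⟩
    rw [dl_X, ← pow_one (X (i.castSucc, n) : Ch p (s + 1))]
    refine X_pow_mem_SR ?_
    intro j _
    rw [Finsupp.single_apply, if_neg]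
    intro h
    rw [Prod.mk.injEq] at h
    have := congrArg Fin.val h.1
    rw [Fin.val_castSucc, Fin.val_last] at this
    have := i.2
    omega
  rw [x.as_sum, map_sum]
  refine Subring.sum_mem _ fun e _ => ?_
  rw [monomial_eq, map_mul, Finsupp.prod, map_prod]
  refine Subring.mul_mem _ ?_ (Subring.prod_mem _ fun v _ => ?_)
  · rw [dl, Ch.map, ev_C]
    exact C_mem_SR _
  · rw [map_pow]
    exact Subring.pow_mem _ (h1 v) _

theorem exists_dl {s : ℕ} {x : Ch p (s + 1)} (hx : x ∈ FR p 0 s) : ∃ y : Ch p s, dl s y = x := by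
  change x ∈ (dl s).range
  rw [x.as_sum]
  refine Subring.sum_mem _ fun e he => ?_
  rw [monomial_eq, Finsupp.prod]
  refine Subring.mul_mem _ ⟨C (coeff e x), ?_⟩ (Subring.prod_mem _ fun v hv => Subring.pow_mem _ ?_ _)
  · rw [dl, Ch.map, ev_C]
    rfl
  · obtain ⟨v, n⟩ := v
    have hne : v ≠ Fin.last s := by
      rintro rfl
      exact (Finsupp.mem_support_iff.1 hv) (hx e he n (Nat.zero_le _))
    obtain ⟨i, rfl⟩ := Fin.exists_castSucc_eq.2 hne
    exact ⟨X (i, n), dl_X s i n⟩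

theorem isWt_of_dl {s w : ℕ} {x : Ch p s} (h : IsWt w (dl s x)) : IsWt w x := by
  have h1 : Ch.map (Fin.last s).predAbove (dl s x) = x := by
    rw [dl, Ch.map_map]
    have : ((Fin.last s).predAbove ∘ Fin.castSucc : Fin (s + 1) → Fin (s + 1)) = id := by
      funext j
      simp
    rw [this, Ch.map_id]
  rw [← h1]
  exact map_isWt _ h

theorem van_of_V {K s w : ℕ} (hw : w < p ^ K) (hV : V (M p 0 K) s w) : Van p s w := by
  have hw' : w < p ^ K * Ch.N p (0 + 1) := by rwa [zero_add, N_one, mul_one]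
  intro z hz hd
  cases s with
  | zero =>
    have h := hV (dl 0 z) (FR_le_MS (dl_mem_FR 0 z)) (map_isWt _ hz) (by rw [dE_dl, hd, map_zero])
    exact dl_injective 0 (by rw [h, map_zero])
  | succ s =>
    obtain ⟨y, hy, hyw, hyx⟩ := hV (dl (s + 1) z) (FR_le_MS (dl_mem_FR _ z)) (map_isWt _ hz)
      (by rw [dE_dl, hd, map_zero])
    obtain ⟨y', rfl⟩ := exists_dl (mem_FR_of_mem_MS hw' hyw hy)
    refine ⟨y', dl_injective _ ?_⟩
    rw [← dE_dl, hyx]

/-! ### all functions -/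

theorem V_all {N : CS p} {s w : ℕ} (h : 0 < s ∨ 0 < w) (hN : ∀ s x, IsWt w x → x ∈ N s) :
    V N s w := by
  cases s with
  | zero => exact fun x _ hw hd => eq_zero_of_cocycle (by omega) x hw hd
  | succ s =>
    intro x _ hw hd
    have h1 : IsWt w (((-1 : ℤ) ^ (s + 1)) • ct s x) := (map_isWt _ hw).zsmul _
    exact ⟨_, hN s _ h1, h1, exists_of_cocycle s x hd⟩

/-! ### the tower -/

omit [Fact p.Prime] in
theorem lw_eq (l k : ℕ) : lw p (l, k) = p ^ k * Ch.N p (l + 1) := rfl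

omit [Fact p.Prime] in
theorem not_noMonoIn_zero (L : Set (ℕ × ℕ)) : ¬ NoMonoIn L p 0 0 := fun h =>
  h ⟨∅, 0⟩ ⟨fun a ha => absurd ha (Finset.notMem_empty a), fun a ha => absurd rfl ha⟩
    (by simp [Mono.s, Mono.nb]) (by simp [Mono.deg])

theorem tower (N : ℕ → CS p) (l : ℕ) (A : ℕ → Set (ℕ × ℕ)) (k₀ W : ℕ)
    (hN : ∀ k, k₀ ≤ k → StepData (N (k + 1)) l k)
    (hE : ∀ k, k₀ ≤ k → Ext (N (k + 1)) l k = N k)
    (hA : ∀ k, k₀ ≤ k → (l, k) ∉ A k)
    (hA' : ∀ k, k₀ ≤ k → insert (l, k) (A k) = A (k + 1))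
    (base : ∀ s w, w ≤ W → NoMonoIn (A k₀) p s w → V (N k₀) s w) (k : ℕ) (hk : k₀ ≤ k) :
    ∀ s w, w ≤ W → NoMonoIn (A k) p s w → V (N k) s w := by
  induction k, hk using Nat.le_induction with
  | base => exact base
  | succ k hk ih =>
    intro s
    induction s using Nat.strong_induction_on with
    | _ s ihs =>
      intro w hw hno
      refine step (hN k hk) ?_ ?_ ?_
      · rw [hE k hk]
        refine ih s w hw ?_
        rw [← hA' k hk] at hno
        exact hno.of_insert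
      · rintro s' rfl ht
        rw [hE k hk]
        refine ih s' _ (by omega) (NoMonoIn.of_insert_h (hA k hk) ?_)
        rw [hA' k hk, lw_eq, Nat.sub_add_cancel ht]
        exact hno
      · rintro s' rfl ht
        refine ihs s' (by omega) _ (by omega) (NoMonoIn.of_insert_b (a := (l, k)) ?_ ?_)
        · rw [← hA' k hk]
          exact Set.mem_insert _ _
        · rw [lw_eq, Nat.sub_add_cancel ht]
          exact hno

/-- the letters which are not yet coefficients for `M l k` -/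
def Alive (l k : ℕ) : Set (ℕ × ℕ) := {a | l < a.1 ∨ (a.1 = l ∧ a.2 < k)}

theorem tower_M (l W : ℕ) (base : ∀ s w, w ≤ W → NoMonoIn (Alive l 0) p s w → V (M p l 0) s w)
    (k : ℕ) : ∀ s w, w ≤ W → NoMonoIn (Alive l k) p s w → V (M p l k) s w := by
  refine tower (M p l) l (Alive l) 0 W (fun k _ => stepData_M (Nat.lt_succ_self k))
    (fun k _ => Ext_M l k) (fun k _ h => ?_) (fun k _ => ?_) base k (Nat.zero_le _)
  · rcases h with h | ⟨_, h⟩
    · exact lt_irrefl _ h
    · exact lt_irrefl _ h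
  · ext ⟨a, b⟩
    simp only [Alive, Set.mem_insert_iff, Prod.mk.injEq, Set.mem_ofPred_eq]
    omega

theorem V_M_zero (W : ℕ) (d l : ℕ) (h : W < Ch.N p (l + d + 2)) :
    ∀ s w, w ≤ W → NoMonoIn (Alive l 0) p s w → V (M p l 0) s w := by
  induction d generalizing l with
  | zero =>
    intro s w hw hno
    refine V_all ?_ fun s x hx => mem_MS_zero (mem_FR_of_isWt (lt_of_le_of_lt hw h) hx)
    by_contra hc
    push Not at hc
    obtain ⟨h1, h2⟩ := hc
    rw [Nat.le_zero] at h1 h2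
    subst h1 h2
    exact not_noMonoIn_zero _ hno
  | succ d ih =>
    intro s w hw hno
    have hK : W < p ^ W * Ch.N p (l + 2) := by
      have h1 : W < p ^ W := Nat.lt_pow_self (Fact.out : p.Prime).one_lt
      have h2 : p ^ W ≤ p ^ W * Ch.N p (l + 2) := Nat.le_mul_of_pos_right _ (N_pos (l + 1))
      omega
    refine V_congr (fun s x hx => low_iff (lt_of_le_of_lt hw hK) hx)
      (tower_M (l + 1) W (ih (l + 1) (by rw [show l + 1 + d + 2 = l + (d + 1) + 2 by ring]; exact h))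
        W s w hw (hno.mono ?_))
    rintro ⟨a, b⟩ hab
    simp only [Alive, Set.mem_ofPred_eq] at hab ⊢
    omega

theorem V_M (W l k : ℕ) : ∀ s w, w ≤ W → NoMonoIn (Alive l k) p s w → V (M p l k) s w :=
  tower_M l W (V_M_zero W W l (by
    have := N_ge (p := p) (Fact.out : p.Prime).one_le (l + W + 2)
    omega)) k

/-- **The engine**: no monomial, no cohomology. -/
theorem van_of_noMono {s w : ℕ} (h : NoMono p s w) : Van p s w := by
  have hK : w < p ^ w := Nat.lt_pow_self (Fact.out : p.Prime).one_lt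
  refine van_of_V hK (V_M w 0 w s w le_rfl ?_)
  rw [noMono_iff] at h
  exact h.mono (Set.subset_univ _)

/-! ### the truncated coefficient systems -/

theorem V_T {j : ℕ} (W k : ℕ) (hk : j + 1 ≤ k) :
    ∀ s w, w ≤ W → NoMonoIn (Alive 0 k \ {(0, j)}) p s w → V (T p j k) s w := by
  refine tower (T p j) 0 (fun k => Alive 0 k \ {(0, j)}) (j + 1) W
    (fun k hk => stepData_T (by omega)) (fun k _ => Ext_T j k) (fun k hk h => ?_) (fun k hk => ?_)
    (fun s w hw hno => ?_) k hk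
  · rcases h.1 with h | ⟨_, h⟩
    · exact lt_irrefl _ h
    · exact lt_irrefl _ h
  · ext ⟨a, b⟩
    simp only [Alive, Set.mem_insert_iff, Prod.mk.injEq, Set.mem_sdiff, Set.mem_ofPred_eq,
      Set.mem_singleton_iff]
    omega
  · rw [T_succ]
    refine V_M W 0 j s w hw (hno.mono ?_)
    rintro ⟨a, b⟩ hab
    simp only [Alive, Set.mem_sdiff, Set.mem_ofPred_eq, Set.mem_singleton_iff, Prod.mk.injEq] at hab ⊢
    omega

/-- vanishing with coefficients `⊕_{i<p} F_p z_1^{i p^j}` (in weights `< p^K`) -/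
theorem V_T_of_noMono {j K s w : ℕ} (hK : j < K)
    (h : NoMonoIn {a | a ≠ (0, j)} p s w) : V (T p j K) s w :=
  V_T w K hK s w le_rfl (h.mono fun _ ha => ha.2)

end Vale.Agent.P257.V4.A.H
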