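import Vale.Agent.P257.V4.A.A0b
import Vale.Agent.P257.V4.A.Uniq

/-!
# P257, V(4), part A: leading term arguments

`Red W s D e`: the image in `Ch` of every cocycle (mod `J`) of multidegree `e` is, modulo
coboundaries, of smaller level.

`van_of_lead`: vanishing when the only other multidegree `e₁` has a unique monomial, whose class
supports a differential with non trivial leading form in multidegree `e₂`.
-/

namespace Vale.Agent.P257.V4.A

open MvPolynomial

variable {p : ℕ} [Fact p.Prime]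

/-- every cocycle modulo `J` of multidegree `e` can be moved to smaller level -/
def Red (W : (ℕ →₀ ℕ) →+ ℕ) (p : ℕ) [Fact p.Prime] (s D : ℕ) (e : ℕ →₀ ℕ) : Prop :=
  ∀ z : UC p (s + 1), MH e z → InJ (UC.d (s + 1) z) → ∃ y : Ch p s, Ch.IsWt D y ∧
    ∃ w : UC p (s + 1), Sup (fun e => wtE p e = D) w ∧ Sup (fun e' => W e' < W e) w ∧
      phi p (s + 1) z = Ch.d s y + phi p (s + 1) w

variable {W : (ℕ →₀ ℕ) →+ ℕ}

/-- a cochain which is a coboundary modulo `J` can be moved to smaller level -/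
theorem exists_red (hW : IsLevel p W) {s D : ℕ} {e : ℕ →₀ ℕ} (he : wtE p e = D)
    {z : UC p (s + 1)} (hz : MH e z) {y : UC p s} (hy : MH e y) (h : InJ (z - UC.d s y)) :
    ∃ y : Ch p s, Ch.IsWt D y ∧
    ∃ w : UC p (s + 1), Sup (fun e => wtE p e = D) w ∧ Sup (fun e' => W e' < W e) w ∧
      phi p (s + 1) z = Ch.d s y + phi p (s + 1) w := by
  obtain ⟨w, h1, h2, h3⟩ := exists_lower_inJ hW (hz.sub (UC.d_MH hy)) h
  refine ⟨phi p s y, (phi_isWt hy).cast he, w, h2.mono fun e' he' => he'.trans he, h3, ?_⟩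
  rw [h1, map_sub, phi_d]
  ring

theorem red_of_vanA (hW : IsLevel p W) {s D : ℕ} {e : ℕ →₀ ℕ} (he : wtE p e = D)
    (h : VanA p (s + 1) e) : Red W p s D e := by
  intro z hz hd
  obtain ⟨y, h1, h2⟩ := h z hz hd
  exact exists_red hW he hz h1 h2

/-- one level down -/
theorem step_red (hW : IsLevel p W) {s D n : ℕ} {z : UC p (s + 1)}
    (hred : ∀ e, wtE p e = D → W e = n → InJ (UC.d (s + 1) (comp e z)) →
      ∃ y : Ch p s, Ch.IsWt D y ∧ ∃ w : UC p (s + 1), Sup (fun e => wtE p e = D) w ∧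
        Sup (fun e' => W e' < n) w ∧ phi p (s + 1) (comp e z) = Ch.d s y + phi p (s + 1) w)
    (hzD : Sup (fun e => wtE p e = D) z) (hz : Sup (fun e => W e ≤ n) z) {w : UC p (s + 2)}
    (hw : Sup (fun e => W e < n) w)
    (hd : Ch.d (s + 1) (phi p (s + 1) z) = phi p (s + 2) w) :
    ∃ y : Ch p s, Ch.IsWt D y ∧
      ∃ z' : UC p (s + 1), Sup (fun e => wtE p e = D) z' ∧ Sup (fun e => W e < n) z' ∧
        phi p (s + 1) z = Ch.d s y + phi p (s + 1) z' := by
  classical
  have hcoc : ∀ e, W e = n → InJ (UC.d (s + 1) (comp e z)) := fun e he =>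
    inJ_d_comp hW hd hz hw he
  have hex : ∀ e : ℕ →₀ ℕ, ∃ (y : Ch p s) (j : UC p (s + 1)), wtE p e = D → W e = n →
      Ch.IsWt D y ∧ Sup (fun e => wtE p e = D) j ∧ Sup (fun e' => W e' < n) j ∧
        phi p (s + 1) (comp e z) = Ch.d s y + phi p (s + 1) j := by
    intro e
    by_cases he : wtE p e = D ∧ W e = n
    · obtain ⟨y, h1, j, h2, h3, h4⟩ := hred e he.1 he.2 (hcoc e he.2)
      exact ⟨y, j, fun _ _ => ⟨h1, h2, h3, h4⟩⟩
    · exact ⟨0, 0, fun h1 h2 => absurd ⟨h1, h2⟩ he⟩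
  choose y j hyj using hex
  set E := z.support.image mdeg with hE
  have hED : ∀ e ∈ E, wtE p e = D ∧ W e ≤ n := by
    intro e he
    obtain ⟨m, hm, rfl⟩ := Finset.mem_image.1 he
    exact ⟨hzD m hm, hz m hm⟩
  have h0 : z = ∑ e ∈ E, comp e z :=
    eq_sum_mcomp z E fun m hm => Finset.mem_image_of_mem _ hm
  have hin : ∀ e ∈ E.filter (fun e => W e = n), wtE p e = D ∧ W e = n := by
    intro e he
    rw [Finset.mem_filter] at he
    exact ⟨(hED e he.1).1, he.2⟩
  have hout : ∀ e ∈ E.filter (fun e => ¬ W e = n), wtE p e = D ∧ W e < n := by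
    intro e he
    rw [Finset.mem_filter] at he
    exact ⟨(hED e he.1).1, lt_of_le_of_ne (hED e he.1).2 he.2⟩
  refine ⟨∑ e ∈ E.filter (fun e => W e = n), y e, Ch.IsWt.sum _ fun e he =>
      (hyj e (hin e he).1 (hin e he).2).1,
    ∑ e ∈ E.filter (fun e => W e = n), j e + ∑ e ∈ E.filter (fun e => ¬ W e = n), comp e z,
    ?_, ?_, ?_⟩
  · refine Sup.add (Sup.sum _ fun e he => ?_) (Sup.sum _ fun e he => ?_)
    · exact (hyj e (hin e he).1 (hin e he).2).2.1
    · exact (mh_iff.1 (comp_MH e z)).mono fun e' he' => he' ▸ (hout e he).1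
  · refine Sup.add (Sup.sum _ fun e he => ?_) (Sup.sum _ fun e he => ?_)
    · exact (hyj e (hin e he).1 (hin e he).2).2.2.1
    · exact (mh_iff.1 (comp_MH e z)).mono fun e' he' => he' ▸ (hout e he).2
  · have h1 : ∀ e ∈ E.filter (fun e => W e = n), phi p (s + 1) (comp e z) =
        Ch.d s (y e) + phi p (s + 1) (j e) := fun e he =>
      (hyj e (hin e he).1 (hin e he).2).2.2.2
    conv_lhs => rw [h0]
    rw [map_sum, ← Finset.sum_filter_add_sum_filter_not E (fun e => W e = n),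
      Finset.sum_congr rfl h1, Finset.sum_add_distrib, map_sum, map_add, map_sum, map_sum,
      add_assoc]

/-- **Strip** for reducible multidegrees. -/
theorem strip_red (hW : IsLevel p W) {s D n m : ℕ}
    (hred : ∀ e, wtE p e = D → n ≤ W e → W e < m → Red W p s D e) {z : UC p (s + 1)}
    (hzD : Sup (fun e => wtE p e = D) z) (hz : Sup (fun e => W e < m) z) {w : UC p (s + 2)}
    (hw : Sup (fun e => W e < n) w)
    (hd : Ch.d (s + 1) (phi p (s + 1) z) = phi p (s + 2) w) :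
    ∃ y : Ch p s, Ch.IsWt D y ∧
      ∃ z' : UC p (s + 1), Sup (fun e => wtE p e = D) z' ∧ Sup (fun e => W e < n) z' ∧
        phi p (s + 1) z = Ch.d s y + phi p (s + 1) z' := by
  induction m generalizing z with
  | zero =>
    refine ⟨0, Ch.isWt_zero _, z, hzD, hz.mono fun e he => absurd he (Nat.not_lt_zero _), ?_⟩
    rw [map_zero, zero_add]
  | succ m ih =>
    by_cases hnm : n ≤ m
    · obtain ⟨y, y1, z1, z2, z3, h⟩ := step_red hW (n := m) (z := z)
        (fun e h1 h2 h3 => by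
          obtain ⟨y, k1, w, k2, k3, k4⟩ := hred e h1 (h2 ▸ hnm) (by omega) _ (comp_MH e z) h3
          exact ⟨y, k1, w, k2, h2 ▸ k3, k4⟩) hzD
        (hz.mono fun e he => Nat.lt_succ_iff.1 he) (hw.mono fun e he => lt_of_lt_of_le he hnm) hd
      have hd1 : Ch.d (s + 1) (phi p (s + 1) z1) = phi p (s + 2) w := by
        rw [← hd, h, map_add, Ch.d_d, zero_add]
      obtain ⟨y', y1', z1', z2', z3', h'⟩ := ih
        (fun e h1 h2 h3 => hred e h1 h2 (by omega)) z2 z3 hd1
      refine ⟨y + y', y1.add y1', z1', z2', z3', ?_⟩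
      rw [h, h', map_add, add_assoc]
    · refine ⟨0, Ch.isWt_zero _, z, hzD, hz.mono fun e he => by omega, ?_⟩
      rw [map_zero, zero_add]

/-- **Strip** for reducible multidegrees, without upper bound. -/
theorem strip_red' (hW : IsLevel p W) {s D n : ℕ}
    (hred : ∀ e, wtE p e = D → n ≤ W e → Red W p s D e) {x : Ch p (s + 1)}
    (hx : Ch.IsWt D x) {w : UC p (s + 2)} (hw : Sup (fun e => W e < n) w)
    (hd : Ch.d (s + 1) x = phi p (s + 2) w) :
    ∃ y : Ch p s, Ch.IsWt D y ∧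
      ∃ z' : UC p (s + 1), Sup (fun e => wtE p e = D) z' ∧ Sup (fun e => W e < n) z' ∧
        x = Ch.d s y + phi p (s + 1) z' := by
  classical
  obtain ⟨z, rfl, hz⟩ := exists_preimage hx
  have hm : Sup (fun e => W e < z.support.sup (fun m => W (mdeg m)) + 1) z := fun m hm =>
    Nat.lt_succ_of_le (Finset.le_sup (f := fun m => W (mdeg m)) hm)
  exact strip_red hW (fun e h1 h2 _ => hred e h1 h2) hz hm hw hd

/-- the leading form of `ξ` bounds if `φ ξ` bounds a cochain of reducible multidegrees -/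
theorem lead_bounds (hW : IsLevel p W) {s D m : ℕ} {e₂ : ℕ →₀ ℕ}
    (hred : ∀ e, wtE p e = D → W e₂ < W e → W e < m → Red W p s D e) {z : UC p (s + 1)}
    (hzD : Sup (fun e => wtE p e = D) z) (hz : Sup (fun e => W e < m) z) {ξ : UC p (s + 2)}
    (hξ : Sup (fun e => W e ≤ W e₂) ξ)
    (hd : Ch.d (s + 1) (phi p (s + 1) z) = phi p (s + 2) ξ) :
    ∃ f : UC p (s + 1), MH e₂ f ∧ InJ (comp e₂ ξ - UC.d (s + 1) f) := by
  obtain ⟨y, _, z', _, h2, h3⟩ := strip_red hW (n := W e₂ + 1) (fun e h1 h2 h3 =>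
    hred e h1 (by omega) h3) hzD hz (hξ.mono fun e he => Nat.lt_succ_of_le he) hd
  refine ⟨comp e₂ z', comp_MH _ _, ?_⟩
  have h4 : phi p (s + 2) (ξ - UC.d (s + 1) z') = 0 := by
    rw [map_sub, phi_d, ← hd, h3, map_add, Ch.d_d, zero_add, sub_self]
  have h5 : Sup (fun e => W e ≤ W e₂) (ξ - UC.d (s + 1) z') :=
    hξ.sub (compat.sup_d (h2.mono fun e he => Nat.lt_succ_iff.1 he))
  have h6 := lead_comp hW h4 h5 (e := e₂) rfl
  rwa [map_sub, comp_d] at h6

/-- **Leading term argument**: the only non reducible multidegree `e₁` has a unique monomial, and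
its cochain `X` has a coboundary whose leading form (in multidegree `e₂`) does not bound. -/
theorem van_of_lead (hW : IsLevel p W) {s D : ℕ} {e₁ e₂ : ℕ →₀ ℕ} (he₁ : wtE p e₁ = D)
    (hlt : W e₂ < W e₁) (hred : ∀ e, wtE p e = D → e ≠ e₁ → Red W p s D e)
    (hM : MG.Mo1 p ∅ (s + 1) e₁) {X : UC p (s + 1)}
    (hXD : Sup (fun e => wtE p e = D) X) (hX : Sup (fun e => W e ≤ W e₁) X)
    {ξ : UC p (s + 2)} (hξ : Sup (fun e => W e ≤ W e₂) ξ)
    (hd : Ch.d (s + 1) (phi p (s + 1) X) = phi p (s + 2) ξ)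
    (hno : ∀ f : UC p (s + 1), MH e₂ f → ¬ InJ (comp e₂ ξ - UC.d (s + 1) f)) :
    Ch.Van p (s + 1) D := by
  have hsm : ∀ c : ZMod p, Ch.d (s + 1) (phi p (s + 1) (c • X)) = phi p (s + 2) (c • ξ) := by
    intro c
    rw [← phi_d, map_smul, map_smul, phi_d, hd, map_smul]
  -- multiples of `ξ`
  have hA : ∀ (c : ZMod p) (w : UC p (s + 1)), Sup (fun e => wtE p e = D) w →
      Sup (fun e => W e < W e₁) w →
      Ch.d (s + 1) (phi p (s + 1) w) = phi p (s + 2) (c • ξ) → c = 0 := by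
    intro c w h1 h2 h3
    by_contra hc
    obtain ⟨f, f1, f2⟩ := lead_bounds hW (D := D) (fun e k1 _ k3 => hred e k1 (by
      rintro rfl; omega)) h1 h2 (ξ := c • ξ) (fun m hm => hξ m (support_smul hm)) h3
    refine hno (c⁻¹ • f) (f1.smul _) ?_
    have := f2.smul c⁻¹
    rwa [smul_sub, ← map_smul, smul_smul, inv_mul_cancel₀ hc, one_smul, ← map_smul] at this
  have hXco : InJ (UC.d (s + 1) (comp e₁ X)) :=
    inJ_d_comp hW hd hX (hξ.mono fun e he => lt_of_le_of_lt he hlt) rfl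
  intro x hx hdx
  -- strip to the level of `e₁`
  obtain ⟨y₀, y1, u, u1, u2, hu⟩ := strip_red' hW (n := W e₁ + 1) (fun e k1 k2 => hred e k1 (by
    rintro rfl; omega)) hx (w := 0) Sup.zero (by rw [hdx, map_zero])
  have hdu : Ch.d (s + 1) (phi p (s + 1) u) = 0 := by
    have := hdx
    rw [hu, map_add, Ch.d_d, zero_add] at this
    exact this
  have hu2 : Sup (fun e => W e ≤ W e₁) u := u2.mono fun e he => Nat.lt_succ_iff.1 he
  have hz : InJ (UC.d (s + 1) (comp e₁ u)) :=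
    inJ_d_comp hW (w := 0) (by rw [hdu, map_zero]) hu2 Sup.zero rfl
  obtain ⟨a, b, hab, y, hy, hj⟩ := MG.exists_combo hM (comp_MH e₁ u) (comp_MH e₁ X) hz hXco
  -- the general combination
  have key : ∀ a b : ZMod p, ∀ y : UC p s, MH e₁ y →
      InJ (a • comp e₁ u + b • comp e₁ X - UC.d s y) → b = 0 ∧ Ch.IsCobdy (a • phi p (s + 1) u) := by
    intro a b y hy hj
    have hv1 : Sup (fun e => wtE p e = D) (a • u + b • X) :=
      (Sup.smul u1 a).add (Sup.smul hXD b)
    have hv2 : Sup (fun e => W e ≤ W e₁) (a • u + b • X) :=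
      (Sup.smul hu2 a).add (Sup.smul hX b)
    have hdv : Ch.d (s + 1) (phi p (s + 1) (a • u + b • X)) = phi p (s + 2) (b • ξ) := by
      rw [map_add, map_add, hsm, ← phi_d, map_smul, map_smul, phi_d, hdu, smul_zero, zero_add]
    obtain ⟨y2, y3, v, v1, v2, hv⟩ := step_red hW (n := W e₁) (z := a • u + b • X)
      (fun e k1 k2 k3 => by
        by_cases hne : e = e₁
        · subst hne
          refine exists_red hW k1 (comp_MH _ _) hy ?_
          rw [map_add, map_smul, map_smul]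
          exact hj
        · obtain ⟨y, k4, w, k5, k6, k7⟩ := hred e k1 hne _ (comp_MH e _) k3
          exact ⟨y, k4, w, k5, k2 ▸ k6, k7⟩) hv1 hv2
      (fun m hm => lt_of_le_of_lt (hξ m (support_smul hm)) hlt) hdv
    have hdv' : Ch.d (s + 1) (phi p (s + 1) v) = phi p (s + 2) (b • ξ) := by
      rw [← hdv, hv, map_add, Ch.d_d, zero_add]
    have hb : b = 0 := hA b v v1 v2 hdv'
    subst hb
    refine ⟨rfl, ?_⟩
    rw [zero_smul, map_zero] at hdv'
    obtain ⟨y4, _, v', _, v4, hv'⟩ := strip_red hW (n := 0) (m := W e₁) (fun e k1 _ k3 =>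
      hred e k1 (by rintro rfl; omega)) v1 v2 (w := 0) Sup.zero (by rw [hdv', map_zero])
    rw [eq_zero_of_level v4, map_zero, add_zero] at hv'
    rw [zero_smul, add_zero, map_smul] at hv
    exact ⟨y2 + y4, by rw [hv, hv', map_add]⟩
  obtain ⟨hb, hc⟩ := key a b y hy hj
  have ha : a ≠ 0 := hab.resolve_right fun h => h hb
  obtain ⟨y5, hy5⟩ := hc
  have hlast : Ch.d s (phi p s 0) = 0 := by rw [map_zero, map_zero]
  obtain ⟨n, hn⟩ : ∃ n : ℤ, (n : ZMod p) = a⁻¹ := ZMod.intCast_surjective _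
  refine ⟨y₀ + n • y5, ?_⟩
  rw [hu, map_add, map_zsmul, hy5, ← Int.cast_smul_eq_zsmul (ZMod p) n, smul_smul, hn,
    inv_mul_cancel₀ ha, one_smul]

end Vale.Agent.P257.V4.A
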