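import Vale.Agent.P257.V4.A.F2Van
import Vale.Agent.P257.V4.A.Cas
import Vale.Agent.P257.V4.A.MG4
import Vale.Agent.P257.V4.A.A0

/-!
# P257, V(4), part A: the small lists, with multidegrees

The multidegrees of the monomials of bidegrees `(6, 2p^2+4p+2)`, `(5, 2p^2+3p+3)`, `(7, 3p^2+4p)`,
and the group `Ext^6_{2p^2+4p+2} = 0` (F5).
-/

namespace Vale.Agent.P257.V4.A.ListF

open Finset ML F2Van

variable {p : ℕ} {e : ℕ →₀ ℕ} {m : Mono}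

/-- reduction to numbers for weights less than `p ^ 3` -/
theorem nums (hp : 2 ≤ p) (h : pw p e < p ^ 3) (he : ∀ k, m.e p k = e k) :
    ∃ h01 h02 h03 h12 h13 h23 b01 b02 b12 : ℕ, h01 ≤ 1 ∧ h02 ≤ 1 ∧ h03 ≤ 1 ∧ h12 ≤ 1 ∧ h13 ≤ 1 ∧
      h23 ≤ 1 ∧ m.s = h01 + h02 + h03 + h12 + h13 + h23 + 2 * (b01 + b02 + b12) ∧
      e 0 = h01 + h02 + h03 + p * (b01 + b02) ∧ e 1 = h02 + h03 + h12 + h13 + p * (b02 + b12) ∧
      e 2 = h03 + h13 + h23 ∧ pw p e = e 0 + p * e 1 + p ^ 2 * e 2 := by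
  have hH := card_H hp h he
  have hB := nb_eq hp h he
  have c0 := hcov_eq hp h he 0
  have c1 := hcov_eq hp h he 1
  have c2 := hcov_eq hp h he 2
  have B0 := bcov_eq hp h he 0
  have B1 := bcov_eq hp h he 1
  have B2 := bcov_eq hp h he 2
  have zh : ∀ k i, 3 ≤ i + k → hb m k i = 0 := fun k i hk => hb_zero hp h he hk
  have zB : ∀ k i, 3 ≤ i + k + 1 → m.B (k, i) = 0 := fun k i hk => B_zero hp h he hk
  have z1 := zh 1 2 (by omega)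
  have z2 := zh 2 1 (by omega)
  have z3 := zh 2 2 (by omega)
  have y1 := zB 0 2 (by omega)
  have y2 := zB 1 1 (by omega)
  have y3 := zB 1 2 (by omega)
  have y4 := zB 2 0 (by omega)
  have y5 := zB 2 1 (by omega)
  have y6 := zB 2 2 (by omega)
  have hpw := pw_eq_sum hp e h
  simp only [sum_range_succ, sum_range_zero, z1, z2, z3, y1, y2, y3, y4, y5, y6, ite_self]
    at hH hB c0 c1 c2 B0 B1 B2 hpw
  norm_num at c0 c1 c2 B0 B1 B2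
  have e0 : e 0 = m.hcov 0 + p * m.bcov 0 := (he 0).symm
  have e1 : e 1 = m.hcov 1 + p * m.bcov 1 := (he 1).symm
  have e2 : e 2 = m.hcov 2 + p * m.bcov 2 := (he 2).symm
  rw [B2, mul_zero, add_zero] at e2
  rw [c0, B0] at e0
  rw [c1, B1] at e1
  rw [c2] at e2
  refine ⟨hb m 0 0, hb m 1 0, hb m 2 0, hb m 0 1, hb m 1 1, hb m 0 2, m.B (0, 0), m.B (1, 0),
    m.B (0, 1), hb_le _ _ _, hb_le _ _ _, hb_le _ _ _, hb_le _ _ _, hb_le _ _ _, hb_le _ _ _,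
    ?_, ?_, ?_, ?_, ?_⟩
  · unfold Mono.s
    omega
  · rw [e0]
  · rw [e1]
    ring
  · rw [e2]
    ring
  · rw [hpw]
    ring

theorem digits {p c0 X Y a0 a1 a2 : ℕ} (h : c0 + p * (X + p * Y) = a0 + p * (a1 + p * a2))
    (h0 : a0 < p) (h1 : a1 < p) (g0 : c0 < p) (g1 : X < p) : c0 = a0 ∧ X = a1 ∧ Y = a2 := by
  rcases two_cases h h0 (by omega) with ⟨k0, k1⟩ | ⟨k0, k1⟩
  · rcases two_cases k1 h1 (by omega) with ⟨k2, k3⟩ | ⟨k2, k3⟩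
    · exact ⟨k0, k2, k3⟩
    · omega
  · omega

theorem lt_cube (hp : 11 ≤ p) {D : ℕ} (h : D ≤ 3 * p ^ 2 + 5 * p) : D < p ^ 3 := by
  have h2 : p ^ 2 = p * p := by ring
  have h3 : p ^ 3 = p * p ^ 2 := by ring
  have h5 : 11 * p ≤ p * p := Nat.mul_le_mul_right _ hp
  have h6 : 11 * p ^ 2 ≤ p * p ^ 2 := Nat.mul_le_mul_right _ hp
  omega

/-- the multidegrees in bidegree `(6, 2p^2+4p+2)` -/
theorem list6 (hp : 11 ≤ p) (hw : pw p e = 2 * p ^ 2 + 4 * p + 2) (he : ∀ k, m.e p k = e k)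
    (hs : m.s = 6) :
    (e 0 = p + 2 ∧ e 1 = 3 ∧ e 2 = 2) ∨ (e 0 = p + 2 ∧ e 1 = p + 3 ∧ e 2 = 1) ∨
      (e 0 = 2 * p + 2 ∧ e 1 = p + 2 ∧ e 2 = 1) := by
  have hlt : pw p e < p ^ 3 := lt_cube hp (by omega)
  obtain ⟨h01, h02, h03, h12, h13, h23, b01, b02, b12, H01, H02, H03, H12, H13, H23, s1, s2, s3,
    s4, s5⟩ := nums (by omega) hlt he
  rw [hs] at s1
  rw [hw] at s5
  have key := digits (p := p) (c0 := h01 + h02 + h03) (X := b01 + b02 + (h02 + h03 + h12 + h13))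
    (Y := b02 + b12 + (h03 + h13 + h23)) (a0 := 2) (a1 := 4) (a2 := 2)
    (by
      calc _ = h01 + h02 + h03 + p * (b01 + b02) + p * (h02 + h03 + h12 + h13 + p * (b02 + b12)) +
            p ^ 2 * (h03 + h13 + h23) := by ring
        _ = 2 * p ^ 2 + 4 * p + 2 := by rw [← s2, ← s3, ← s4, ← s5]
        _ = _ := by ring) (by omega) (by omega) (by omega) (by omega)
  obtain ⟨k0, k1, k2⟩ := key
  have hb1 : (b01 + b02 = 1 ∧ b02 + b12 = 0 ∧ h02 + h03 + h12 + h13 = 3 ∧ h03 + h13 + h23 = 2) ∨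
      (b01 + b02 = 1 ∧ b02 + b12 = 1 ∧ h02 + h03 + h12 + h13 = 3 ∧ h03 + h13 + h23 = 1) ∨
      (b01 + b02 = 2 ∧ b02 + b12 = 1 ∧ h02 + h03 + h12 + h13 = 2 ∧ h03 + h13 + h23 = 1) := by
    clear s2 s3 s4 s5
    omega
  rcases hb1 with ⟨a1, a2, a3, a4⟩ | ⟨a1, a2, a3, a4⟩ | ⟨a1, a2, a3, a4⟩
  · left
    rw [s2, s3, s4, k0, a1, a2, a3, a4]
    omega
  · right; left
    rw [s2, s3, s4, k0, a1, a2, a3, a4]
    omega
  · right; right
    rw [s2, s3, s4, k0, a1, a2, a3, a4]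
    omega

/-- the multidegrees in bidegree `(5, 2p^2+3p+3)` -/
theorem list5 (hp : 11 ≤ p) (hw : pw p e = 2 * p ^ 2 + 3 * p + 3) (he : ∀ k, m.e p k = e k)
    (hs : m.s = 5) :
    (e 0 = 3 ∧ e 1 = 3 ∧ e 2 = 2) ∨ (e 0 = p + 3 ∧ e 1 = p + 2 ∧ e 2 = 1) := by
  have hlt : pw p e < p ^ 3 := lt_cube hp (by omega)
  obtain ⟨h01, h02, h03, h12, h13, h23, b01, b02, b12, H01, H02, H03, H12, H13, H23, s1, s2, s3,
    s4, s5⟩ := nums (by omega) hlt he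
  rw [hs] at s1
  rw [hw] at s5
  have key := digits (p := p) (c0 := h01 + h02 + h03) (X := b01 + b02 + (h02 + h03 + h12 + h13))
    (Y := b02 + b12 + (h03 + h13 + h23)) (a0 := 3) (a1 := 3) (a2 := 2)
    (by
      calc _ = h01 + h02 + h03 + p * (b01 + b02) + p * (h02 + h03 + h12 + h13 + p * (b02 + b12)) +
            p ^ 2 * (h03 + h13 + h23) := by ring
        _ = 2 * p ^ 2 + 3 * p + 3 := by rw [← s2, ← s3, ← s4, ← s5]
        _ = _ := by ring) (by omega) (by omega) (by omega) (by omega)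
  obtain ⟨k0, k1, k2⟩ := key
  have hb1 : (b01 + b02 = 0 ∧ b02 + b12 = 0 ∧ h02 + h03 + h12 + h13 = 3 ∧ h03 + h13 + h23 = 2) ∨
      (b01 + b02 = 1 ∧ b02 + b12 = 1 ∧ h02 + h03 + h12 + h13 = 2 ∧ h03 + h13 + h23 = 1) := by
    clear s2 s3 s4 s5
    omega
  rcases hb1 with ⟨a1, a2, a3, a4⟩ | ⟨a1, a2, a3, a4⟩
  · left
    rw [s2, s3, s4, k0, a1, a2, a3, a4]
    omega
  · right
    rw [s2, s3, s4, k0, a1, a2, a3, a4]
    omega

/-- the multidegrees in bidegree `(7, 3p^2+4p)` -/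
theorem list7 (hp : 11 ≤ p) (hw : pw p e = 3 * p ^ 2 + 4 * p) (he : ∀ k, m.e p k = e k)
    (hs : m.s = 7) :
    (e 0 = 2 * p ∧ e 1 = p + 2 ∧ e 2 = 2) ∨ (e 0 = 3 * p ∧ e 1 = 2 * p + 1 ∧ e 2 = 1) ∨
      (e 0 = 3 * p ∧ e 1 = 3 * p + 1 ∧ e 2 = 0) := by
  have hlt : pw p e < p ^ 3 := lt_cube hp (by omega)
  obtain ⟨h01, h02, h03, h12, h13, h23, b01, b02, b12, H01, H02, H03, H12, H13, H23, s1, s2, s3,
    s4, s5⟩ := nums (by omega) hlt he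
  rw [hs] at s1
  rw [hw] at s5
  have key := digits (p := p) (c0 := h01 + h02 + h03) (X := b01 + b02 + (h02 + h03 + h12 + h13))
    (Y := b02 + b12 + (h03 + h13 + h23)) (a0 := 0) (a1 := 4) (a2 := 3)
    (by
      calc _ = h01 + h02 + h03 + p * (b01 + b02) + p * (h02 + h03 + h12 + h13 + p * (b02 + b12)) +
            p ^ 2 * (h03 + h13 + h23) := by ring
        _ = 3 * p ^ 2 + 4 * p := by rw [← s2, ← s3, ← s4, ← s5]
        _ = _ := by ring) (by omega) (by omega) (by omega) (by omega)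
  obtain ⟨k0, k1, k2⟩ := key
  have hb1 : (b01 + b02 = 2 ∧ b02 + b12 = 1 ∧ h02 + h03 + h12 + h13 = 2 ∧ h03 + h13 + h23 = 2) ∨
      (b01 + b02 = 3 ∧ b02 + b12 = 2 ∧ h02 + h03 + h12 + h13 = 1 ∧ h03 + h13 + h23 = 1) ∨
      (b01 + b02 = 3 ∧ b02 + b12 = 3 ∧ h02 + h03 + h12 + h13 = 1 ∧ h03 + h13 + h23 = 0) := by
    clear s2 s3 s4 s5
    omega
  rcases hb1 with ⟨a1, a2, a3, a4⟩ | ⟨a1, a2, a3, a4⟩ | ⟨a1, a2, a3, a4⟩
  · left
    rw [s2, s3, s4, k0, a1, a2, a3, a4]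
    omega
  · right; left
    rw [s2, s3, s4, k0, a1, a2, a3, a4]
    omega
  · right; right
    rw [s2, s3, s4, k0, a1, a2, a3, a4]
    omega

end Vale.Agent.P257.V4.A.ListF
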