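import Vale.Agent.P257.V4.A.UBasic
import Vale.Agent.P257.V4.A.MGPoly

/-!
# P257, V(4): the multigraded engine at the level of `A` (unitriangular model)

`E s = UC p (s+1)`, the last vertex being a coefficient variable; `dE` is the differential which
keeps the last vertex.  `V S s e`: cocycles (modulo `p`-th powers) of multidegree `e` whose last
block involves only letters of `S` are coboundaries.
-/

namespace Vale.Agent.P257.V4.A.MG

open MvPolynomial

variable {p : ℕ}

/-! ### the differential which keeps the last vertex -/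

/-- Delete the vertex `i`, keep the last one. -/
def dl {s : ℕ} (i : Fin (s + 2)) : Fin (s + 2) → Fin (s + 3) := i.castSucc.succAbove

/-- The differential with the last vertex as coefficient variable. -/
noncomputable def dE (s : ℕ) : UC p (s + 1) →ₗ[ZMod p] UC p (s + 2) :=
  ∑ i : Fin (s + 2), (-1 : ZMod p) ^ (i : ℕ) • (UC.map (dl i)).toLinearMap

theorem dE_apply (s : ℕ) (x : UC p (s + 1)) :
    dE s x = ∑ i : Fin (s + 2), (-1 : ZMod p) ^ (i : ℕ) • UC.map (dl i) x := by
  simp [dE]

theorem parity_aux {n : ℕ} (i : Fin (n + 3)) (j : Fin (n + 2)) :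
    ((i.succAbove j : Fin (n + 3)) : ℕ) + ((j.predAbove i : Fin (n + 2)) : ℕ) + 1 = i + j ∨
    ((i.succAbove j : Fin (n + 3)) : ℕ) + ((j.predAbove i : Fin (n + 2)) : ℕ) = i + j + 1 := by
  simp only [Fin.succAbove, Fin.predAbove, Fin.lt_def, Fin.val_castSucc, apply_dite Fin.val,
    Fin.val_pred, Fin.coe_castPred, dite_eq_ite, apply_ite Fin.val, Fin.val_succ]
  split_ifs <;> omega

theorem dl_dl {s : ℕ} (i : Fin (s + 3)) (j : Fin (s + 2)) :
    (dl (i.succAbove j) ∘ dl (j.predAbove i) : Fin (s + 2) → Fin (s + 4)) = dl i ∘ dl j := by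
  funext k
  apply Fin.ext
  simp only [Function.comp, dl, Fin.succAbove, Fin.predAbove, Fin.lt_def, Fin.val_castSucc,
    apply_dite Fin.val, Fin.val_pred, Fin.coe_castPred, dite_eq_ite, apply_ite Fin.val,
    Fin.val_succ]
  split_ifs <;> omega

theorem dE_dE (s : ℕ) (x : UC p (s + 1)) : dE (s + 1) (dE s x) = 0 := by
  rw [dE_apply]
  simp only [dE_apply, map_sum, map_smul, UC.map_map, Finset.smul_sum, smul_smul]
  rw [← Finset.sum_product' (f := fun (i : Fin (s + 3)) (j : Fin (s + 2)) =>
    ((-1 : ZMod p) ^ (i : ℕ) * (-1) ^ (j : ℕ)) • (UC.map (dl i ∘ dl j) x : UC p (s + 3)))]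
  refine Finset.sum_involution (fun ij _ => (ij.1.succAbove ij.2, ij.2.predAbove ij.1))
    ?_ ?_ (fun _ _ => Finset.mem_univ _) ?_
  · rintro ⟨i, j⟩ -
    dsimp only
    rw [dl_dl, ← add_smul, ← pow_add, ← pow_add]
    have : ((-1 : ZMod p) ^ ((i : ℕ) + j) + (-1) ^ (((i.succAbove j : Fin (s + 3)) : ℕ) +
        ((j.predAbove i : Fin (s + 2)) : ℕ))) = 0 := by
      rcases parity_aux i j with h | h
      · rw [← h, pow_succ]
        ring
      · rw [h, pow_succ]
        ring
    rw [this, zero_smul]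
  · rintro ⟨i, j⟩ - - h
    have := congrArg Prod.fst h
    exact Fin.succAbove_ne i j this
  · rintro ⟨i, j⟩ -
    refine Prod.ext ?_ ?_
    · exact Fin.succAbove_succAbove_predAbove i j
    · dsimp only
      apply Fin.ext
      simp only [Fin.succAbove, Fin.predAbove, Fin.lt_def, Fin.val_castSucc, apply_dite Fin.val,
        Fin.val_pred, Fin.coe_castPred, dite_eq_ite, apply_ite Fin.val, Fin.val_succ]
      split_ifs <;> omega

/-! ### the contraction -/

/-- Double the last vertex. -/
def bl (s : ℕ) : Fin (s + 2) → Fin (s + 1) := fun i => ⟨min i s, by omega⟩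

theorem bl_dl_last (s : ℕ) :
    (bl (s + 1) ∘ dl (Fin.last (s + 1)) : Fin (s + 2) → Fin (s + 2)) = id := by
  funext k
  apply Fin.ext
  simp only [Function.comp, dl, bl, Fin.succAbove, Fin.lt_def, Fin.val_castSucc, Fin.val_last,
    apply_ite Fin.val, Fin.val_succ, id]
  split_ifs <;> omega

theorem bl_dl_castSucc {s : ℕ} (i : Fin (s + 2)) :
    (bl (s + 2) ∘ dl i.castSucc : Fin (s + 3) → Fin (s + 3)) =
      (dl i ∘ bl (s + 1) : Fin (s + 3) → Fin (s + 3)) := by
  funext k
  apply Fin.ext
  simp only [Function.comp, dl, bl, Fin.succAbove, Fin.lt_def, Fin.val_castSucc,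
    apply_ite Fin.val, Fin.val_succ]
  split_ifs <;> omega

theorem contr (s : ℕ) (f : UC p (s + 2)) :
    UC.map (bl (s + 2)) (dE (s + 1) f) =
      dE s (UC.map (bl (s + 1)) f) + (-1 : ZMod p) ^ (s + 2) • f := by
  rw [dE_apply, Fin.sum_univ_castSucc, dE_apply, map_add, map_sum, map_smul, UC.map_map,
    bl_dl_last, Fin.val_last]
  congr 1
  · refine Finset.sum_congr rfl fun i _ => ?_
    rw [map_smul, UC.map_map, UC.map_map, bl_dl_castSucc, Fin.val_castSucc]
  · rw [UC.map, UChain.res_id, UC.ev_univ]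

theorem contr_zero (f : UC p 1) :
    UC.map (bl 1) (dE 0 f) = UC.map (fun _ => Fin.last 1) f - f := by
  rw [dE_apply, Fin.sum_univ_two, map_add, map_smul, map_smul, UC.map_map, UC.map_map]
  have h1 : (bl 1 ∘ dl (1 : Fin 2) : Fin 2 → Fin 2) = id := bl_dl_last 0
  have h0 : (bl 1 ∘ dl (0 : Fin 2) : Fin 2 → Fin 2) = fun _ => Fin.last 1 := by decide
  rw [h1, h0]
  have h2 : (UC.map id f : UC p 1) = f := by
    rw [UC.map, UChain.res_id, UC.ev_univ]
  rw [h2]
  simp [sub_eq_add_neg]

/-! ### the last block -/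

/-- The variables of the blocks before the last one, and the letters of `S` in the last one. -/
def ES (S : Finset (ℕ × ℕ)) (s : ℕ) : Set (Fin (s + 1) × (ℕ × ℕ)) :=
  {v | v.1 = Fin.last s → v.2 ∈ S}

theorem ES_insert (S : Finset (ℕ × ℕ)) (s : ℕ) (τ : ℕ × ℕ) :
    ES (insert τ S) s = insert (Fin.last s, τ) (ES S s) := by
  ext ⟨r, l⟩
  simp only [ES, Set.mem_ofPred_eq, Finset.mem_insert, Set.mem_insert_iff, Prod.mk.injEq]
  tauto

theorem ES_mono {S S' : Finset (ℕ × ℕ)} (h : S ⊆ S') (s : ℕ) : ES S s ⊆ ES S' s :=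
  fun _ hv hl => h (hv hl)

/-- The kernel of a derivation is a subring. -/
def kerSub {R A : Type*} [CommRing R] [CommRing A] [Algebra R A] (D : Derivation R A A) :
    Subring A where
  carrier := {x | D x = 0}
  mul_mem' := by
    intro a b ha hb
    change D (a * b) = 0
    rw [Derivation.leibniz, show D a = 0 from ha, show D b = 0 from hb, smul_zero, smul_zero,
      add_zero]
  one_mem' := D.map_one_eq_zero
  add_mem' := by
    intro a b ha hb
    change D (a + b) = 0
    rw [map_add, show D a = 0 from ha, show D b = 0 from hb, add_zero]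
  zero_mem' := map_zero D
  neg_mem' := by
    intro a ha
    change D (-a) = 0
    rw [map_neg, show D a = 0 from ha, neg_zero]

theorem un_inv_mem {B : Type} [CommRing B] (K : Subring B) (a : Un B)
    (h : ∀ i n, a.e i n ∈ K) (i n : ℕ) : (a⁻¹).e i n ∈ K := by
  let a' : Un K := ⟨fun i n => ⟨a.e i n, h i n⟩, fun i => Subtype.ext (a.e_zero i)⟩
  have e : Un.mapHom K.subtype a' = a := by
    ext i n
    rfl
  rw [← e, ← map_inv, Un.mapHom_e]
  exact SetLike.coe_mem _

theorem un_mul_mem {B : Type} [CommRing B] (K : Subring B) (a b : Un B)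
    (h : ∀ i n, a.e i n ∈ K) (h' : ∀ i n, b.e i n ∈ K) (i n : ℕ) : (a * b).e i n ∈ K := by
  rw [Un.mul_e]
  exact K.sum_mem fun x _ => K.mul_mem (h _ _) (h' _ _)

theorem univ_mem_ker {s : ℕ} (τ : ℕ × ℕ) (w : Fin (s + 2)) (hw : w ≠ Fin.last (s + 1)) (i n : ℕ) :
    ((UC.univ p (s + 1)).g w).e i n ∈
      kerSub (pderiv (Fin.last s, τ) : Derivation (ZMod p) (UC p (s + 1)) (UC p (s + 1))) := by
  revert hw
  refine Fin.cases ?_ (fun r => ?_) w
  · intro _
    rw [UC.univ_g_zero, Un.one_e]
    split_ifs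
    · exact Subring.one_mem _
    · exact Subring.zero_mem _
  · intro hw
    rw [UC.univ_g_succ]
    rcases n with _ | n
    · rw [Un.e_zero]
      exact Subring.one_mem _
    · rw [Un.mk'_e_succ]
      refine pderiv_X_of_ne ?_
      intro h
      apply hw
      rw [← Fin.succ_last]
      exact congrArg Fin.succ (congrArg Prod.fst h)

theorem dl_ne_last {s : ℕ} (i : Fin (s + 2)) {k : Fin (s + 2)} (hk : k ≠ Fin.last (s + 1)) :
    dl i k ≠ Fin.last (s + 2) := by
  intro h
  apply hk
  apply Fin.ext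
  have h2 := congrArg Fin.val h
  have hk2 : (k : ℕ) ≠ s + 1 := fun h3 => hk (Fin.ext h3)
  have := k.2
  have := i.2
  simp only [dl, Fin.succAbove, Fin.lt_def, Fin.val_castSucc, apply_ite Fin.val, Fin.val_succ,
    Fin.val_last] at h2 ⊢
  split_ifs at h2 <;> omega

theorem dl_last {s : ℕ} (i : Fin (s + 2)) : dl i (Fin.last (s + 1)) = Fin.last (s + 2) := by
  apply Fin.ext
  have := i.2
  simp only [dl, Fin.succAbove, Fin.lt_def, Fin.val_castSucc, apply_ite Fin.val, Fin.val_succ,
    Fin.val_last]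
  split_ifs <;> omega

/-- `S` is closed under passing to smaller letters of the same row. -/
def Row (S : Finset (ℕ × ℕ)) : Prop := ∀ i k k', (i, k) ∈ S → k' < k → (i, k') ∈ S

variable {S : Finset (ℕ × ℕ)} {τ : ℕ × ℕ}

theorem pderiv_map_X {s : ℕ} (hS : Row S) (hτ : τ ∉ S) (i : Fin (s + 2))
    (v : Fin (s + 1) × (ℕ × ℕ)) (hv : v ∈ ES (insert τ S) s) :
    pderiv (Fin.last (s + 1), τ) (UC.map (dl i) (X v : UC p (s + 1)) : UC p (s + 2)) =
      UC.map (dl i) (pderiv (Fin.last s, τ) (X v : UC p (s + 1))) := by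
  classical
  obtain ⟨r, ⟨a, b⟩⟩ := v
  set K := kerSub (pderiv (Fin.last (s + 1), τ) :
    Derivation (ZMod p) (UC p (s + 2)) (UC p (s + 2))) with hK
  have hc : ∀ a n, (((UC.univ p (s + 2)).g (dl i 0))⁻¹).e a n ∈ K :=
    un_inv_mem K _ fun a n => univ_mem_ker τ _ (dl_ne_last i (by
      intro h
      have := congrArg Fin.val h
      simp at this)) a n
  rw [UC.map_X]
  by_cases hr : r = Fin.last s
  · subst hr
    have eu : (UC.univ p (s + 2)).g (Fin.last (s + 2)) =
        Un.mk' fun i k => X (Fin.last (s + 1), (i, k)) := by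
      rw [← Fin.succ_last]
      exact UC.univ_g_succ _
    rw [Fin.succ_last, dl_last, eu, Un.mul_e, map_sum]
    have h1 : ∀ x ∈ Finset.HasAntidiagonal.antidiagonal (b + 1),
        pderiv (Fin.last (s + 1), τ) ((Un.mk' fun i k => X (Fin.last (s + 1), (i, k)) :
          Un (UC p (s + 2))).e a x.1 * (((UC.univ p (s + 2)).g (dl i 0))⁻¹).e (a + x.1) x.2) =
        if x = (b + 1, 0) ∧ (a, b) = τ then 1 else 0 := by
      rintro ⟨x, y⟩ hx
      rw [Finset.HasAntidiagonal.mem_antidiagonal] at hx
      dsimp only at hx ⊢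
      rw [Derivation.leibniz, show pderiv (Fin.last (s + 1), τ)
        ((((UC.univ p (s + 2)).g (dl i 0))⁻¹).e (a + x) y) = 0 from hc _ _, smul_zero, zero_add]
      rcases x with _ | x
      · rw [Un.e_zero, Derivation.map_one_eq_zero, smul_zero, if_neg]
        rintro ⟨h, -⟩
        simp at h
      · rw [Un.mk'_e_succ]
        by_cases hx2 : (a, x) = τ
        · rw [hx2, pderiv_X_self]
          by_cases hxb : x = b
          · subst hxb
            have hy : y = 0 := by omega
            subst hy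
            rw [Un.e_zero, if_pos ⟨rfl, hx2⟩, smul_eq_mul, mul_one]
          · exfalso
            have h3 : (a, b) ∈ insert τ S := hv rfl
            rcases Finset.mem_insert.1 h3 with h4 | h4
            · rw [← h4] at hx2
              exact hxb (congrArg Prod.snd hx2)
            · exact hτ (hx2 ▸ hS a b x h4 (by omega))
        · rw [pderiv_X_of_ne, smul_zero, if_neg]
          · rintro ⟨h, h2⟩
            rw [Prod.mk.injEq] at h
            have : x = b := by omega
            exact hx2 (this ▸ h2)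
          · intro h
            exact hx2 (congrArg Prod.snd h)
    rw [Finset.sum_congr rfl h1]
    by_cases h2 : (a, b) = τ
    · rw [h2, pderiv_X_self, map_one, Finset.sum_eq_single (b + 1, 0)]
      · rw [if_pos ⟨rfl, rfl⟩]
      · intro x _ hx
        rw [if_neg]
        exact fun h => hx h.1
      · intro h
        exact (h (Finset.HasAntidiagonal.mem_antidiagonal.2 (by simp))).elim
    · rw [pderiv_X_of_ne, map_zero]
      · refine Finset.sum_eq_zero fun x _ => ?_
        rw [if_neg]
        exact fun h => h2 h.2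
      · intro h
        exact h2 (congrArg Prod.snd h)
  · rw [pderiv_X_of_ne, map_zero]
    · refine un_mul_mem K _ _ (fun a n => univ_mem_ker τ _ (dl_ne_last i ?_) a n) hc _ _
      rw [← Fin.succ_last]
      intro h
      exact hr (Fin.succ_injective _ h)
    · intro h
      exact hr (congrArg Prod.fst h)

theorem pderiv_map {s : ℕ} (hS : Row S) (hτ : τ ∉ S) (i : Fin (s + 2)) {f : UC p (s + 1)}
    (hf : Dep (ES (insert τ S) s) f) :
    pderiv (Fin.last (s + 1), τ) (UC.map (dl i) f : UC p (s + 2)) =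
      UC.map (dl i) (pderiv (Fin.last s, τ) f) := by
  have h := dep_iff.1 hf
  rw [supported_eq_adjoin_X] at h
  induction h using Algebra.adjoin_induction with
  | mem x hx =>
    obtain ⟨v, hv, rfl⟩ := hx
    exact pderiv_map_X hS hτ i v hv
  | algebraMap c =>
    rw [AlgHom.commutes, Derivation.map_algebraMap, Derivation.map_algebraMap, map_zero]
  | add x y hx hy ihx ihy =>
    rw [map_add, map_add, map_add, map_add, ihx (dep_iff.2 hx), ihy (dep_iff.2 hy)]
  | mul x y hx hy ihx ihy =>
    rw [map_mul, Derivation.leibniz, Derivation.leibniz, map_add, smul_eq_mul, smul_eq_mul,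
      smul_eq_mul, smul_eq_mul, map_mul, map_mul, ihx (dep_iff.2 hx), ihy (dep_iff.2 hy)]

theorem pderiv_dE {s : ℕ} (hS : Row S) (hτ : τ ∉ S) {f : UC p (s + 1)}
    (hf : Dep (ES (insert τ S) s) f) :
    pderiv (Fin.last (s + 1), τ) (dE s f) = dE s (pderiv (Fin.last s, τ) f) := by
  rw [dE_apply, dE_apply, map_sum]
  refine Finset.sum_congr rfl fun i _ => ?_
  rw [Derivation.map_smul, pderiv_map hS hτ i hf]

end Vale.Agent.P257.V4.A.MG
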