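import Vale.Agent.P257.V4.A.MG

/-!
# P257, V(4): the multigraded engine at the level of `A`, the step
-/

namespace Vale.Agent.P257.V4.A.MG

open MvPolynomial

variable {p : ℕ} [Fact p.Prime]

omit [Fact p.Prime] in
theorem dE_MH {s : ℕ} {e : ℕ →₀ ℕ} {f : UC p (s + 1)} (hf : MH e f) : MH e (dE s f) := by
  rw [dE_apply]
  exact MH.sum fun i _ => (UC.map_MH _ hf).smul _

theorem dE_InJ {s : ℕ} {f : UC p (s + 1)} (hf : InJ f) : InJ (dE s f) := by
  rw [dE_apply]
  exact InJ.sum fun i _ => (UC.map_InJ _ hf).smul _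

/-! ### supports -/

theorem univ_mem_supp {s : ℕ} (S : Finset (ℕ × ℕ)) (w : Fin (s + 2))
    (hw : w ≠ Fin.last (s + 1)) (i n : ℕ) :
    ((UC.univ p (s + 1)).g w).e i n ∈ (supported (ZMod p) (ES S s)).toSubring := by
  revert hw
  refine Fin.cases ?_ (fun r => ?_) w
  · intro _
    rw [UC.univ_g_zero, Un.one_e]
    split_ifs
    · exact Subring.one_mem _
    · exact Subring.zero_mem _
  · intro hw
    rw [UC.univ_g_succ]
    rcases n with _ | n
    · rw [Un.e_zero]
      exact Subring.one_mem _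
    · rw [Un.mk'_e_succ]
      refine X_mem_supported.2 ?_
      intro h
      exact absurd (by rw [← Fin.succ_last]; exact congrArg Fin.succ h) hw

theorem map_dl_mem {s : ℕ} {S : Finset (ℕ × ℕ)} (hS : Row S) (i : Fin (s + 2))
    {f : UC p (s + 1)} (hf : f ∈ supported (ZMod p) (ES S s)) :
    UC.map (dl i) f ∈ supported (ZMod p) (ES S (s + 1)) := by
  set K := (supported (ZMod p) (ES S (s + 1))).toSubring with hK
  have hc : ∀ a n, (((UC.univ p (s + 2)).g (dl i 0))⁻¹).e a n ∈ K :=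
    un_inv_mem K _ fun a n => univ_mem_supp S _ (dl_ne_last i (by
      intro h
      have := congrArg Fin.val h
      simp at this)) a n
  rw [supported_eq_adjoin_X] at hf
  induction hf using Algebra.adjoin_induction with
  | algebraMap c => rw [AlgHom.commutes]; exact Subalgebra.algebraMap_mem _ _
  | add x y _ _ ihx ihy => rw [map_add]; exact add_mem ihx ihy
  | mul x y _ _ ihx ihy => rw [map_mul]; exact mul_mem ihx ihy
  | mem x hx =>
    obtain ⟨⟨r, ⟨a, b⟩⟩, hv, rfl⟩ := hx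
    change _ ∈ K
    rw [UC.map_X]
    by_cases hr : r = Fin.last s
    · subst hr
      have eu : (UC.univ p (s + 2)).g (Fin.last (s + 2)) =
          Un.mk' fun i k => X (Fin.last (s + 1), (i, k)) := by
        rw [← Fin.succ_last]
        exact UC.univ_g_succ _
      rw [Fin.succ_last, dl_last, eu, Un.mul_e]
      refine K.sum_mem fun x hx => K.mul_mem ?_ (hc _ _)
      rw [Finset.HasAntidiagonal.mem_antidiagonal] at hx
      obtain ⟨x, y⟩ := x
      dsimp only at hx ⊢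
      rcases x with _ | x
      · rw [Un.e_zero]
        exact K.one_mem
      · rw [Un.mk'_e_succ]
        refine X_mem_supported.2 ?_
        intro _
        have h3 : (a, b) ∈ S := hv rfl
        by_cases hxb : x = b
        · rwa [hxb]
        · exact hS a b x h3 (by omega)
    · refine un_mul_mem K _ _ (fun a n => univ_mem_supp S _ (dl_ne_last i ?_) a n) hc _ _
      rw [← Fin.succ_last]
      intro h
      exact hr (Fin.succ_injective _ h)

theorem dE_Dep {s : ℕ} {S : Finset (ℕ × ℕ)} (hS : Row S) {f : UC p (s + 1)}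
    (hf : Dep (ES S s) f) : Dep (ES S (s + 1)) (dE s f) := by
  rw [dep_iff, dE_apply]
  exact sum_mem fun i _ => Subalgebra.smul_mem _ (map_dl_mem hS i (dep_iff.1 hf)) _

theorem mw_le_of_MH {s : ℕ} {e : ℕ →₀ ℕ} {f : UC p s} (hf : MH e f)
    {m : (Fin s × (ℕ × ℕ)) →₀ ℕ} (hm : coeff m f ≠ 0) {v : Fin s × (ℕ × ℕ)} (hv : m v ≠ 0) :
    m v • mw v ≤ e := by
  rw [← hf hm, Finsupp.weight_apply, Finsupp.sum]
  exact Finset.single_le_sum (f := fun v => m v • mw v) (fun _ _ => zero_le)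
    (Finsupp.mem_support_iff.2 hv)

omit [Fact p.Prime] in
theorem le_nsmul_of_ne {x : ℕ →₀ ℕ} {n : ℕ} (hn : n ≠ 0) : x ≤ n • x := by
  intro i
  rw [Finsupp.smul_apply, smul_eq_mul]
  exact Nat.le_mul_of_pos_left _ (Nat.pos_of_ne_zero hn)

theorem dep_of_MH {s : ℕ} {S : Finset (ℕ × ℕ)} {e : ℕ →₀ ℕ}
    (hS : ∀ τ : ℕ × ℕ, itv τ.1 τ.2 ≤ e → τ ∈ S) {f : UC p (s + 1)} (hf : MH e f) :
    Dep (ES S s) f := by
  intro m hm v hv _
  exact hS v.2 ((le_nsmul_of_ne hv).trans (mw_le_of_MH hf hm hv))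

omit [Fact p.Prime] in
theorem pderiv_eq_zero {s : ℕ} {S : Finset (ℕ × ℕ)} {τ : ℕ × ℕ} (hτ : τ ∉ S) {f : UC p (s + 1)}
    (hf : Dep (ES S s) f) : pderiv (Fin.last s, τ) f = 0 := by
  ext m
  rw [coeff_pderiv, coeff_zero]
  by_contra h
  exact hτ (hf _ (left_ne_zero_of_mul h) (Fin.last s, τ) (by simp) rfl)

/-! ### vanishing statements -/

/-- `f` is a coboundary modulo `p`-th powers, with the constraints. -/
def Bd {p : ℕ} (S : Finset (ℕ × ℕ)) : ∀ (s : ℕ) (_ : ℕ →₀ ℕ), UC p (s + 1) → Prop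
  | 0, _, f => InJ f
  | s + 1, e, f => ∃ g : UC p (s + 1), Dep (ES S s) g ∧ MH e g ∧ InJ (f - dE s g)

/-- Vanishing with coefficients in the comodule spanned by the letters of `S`. -/
def V (p : ℕ) (S : Finset (ℕ × ℕ)) (s : ℕ) (e : ℕ →₀ ℕ) : Prop :=
  ∀ f : UC p (s + 1), Dep (ES S s) f → MH e f → InJ (dE s f) → Bd S s e f

omit [Fact p.Prime] in
theorem map_const_eq_zero {e : ℕ →₀ ℕ} (he : e ≠ 0) {f : UC p 1} (hf : MH e f) :
    (UC.map (fun _ => Fin.last 1) f : UC p 1) = 0 := by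
  have h1 : (UC.map (fun _ => Fin.last 1) : UC p 1 →ₐ[ZMod p] UC p 1) =
      aeval fun _ => 0 := by
    refine MvPolynomial.algHom_ext fun v => ?_
    obtain ⟨r, i, k⟩ := v
    rw [UC.map_X, mul_inv_cancel, Un.one_e_succ, aeval_X]
  rw [h1]
  have h2 : (aeval (fun _ => 0) : UC p 1 →ₐ[ZMod p] UC p 1) f = C (constantCoeff f) := by
    rw [← MvPolynomial.algebraMap_eq, aeval_zero']
  rw [h2, constantCoeff_eq]
  have h3 : coeff 0 f = 0 := by
    have := hf.zero_notMem_support he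
    rwa [notMem_support_iff] at this
  rw [h3, map_zero]

theorem V_top {S : Finset (ℕ × ℕ)} {s : ℕ} {e : ℕ →₀ ℕ}
    (hS : ∀ τ : ℕ × ℕ, itv τ.1 τ.2 ≤ e → τ ∈ S) (hse : s ≠ 0 ∨ e ≠ 0) : V p S s e := by
  intro f _ hf hd
  rcases s with _ | s
  · have he : e ≠ 0 := by
      rcases hse with h | h
      · exact absurd rfl h
      · exact h
    have h := UC.map_InJ (bl 1) hd
    rw [contr_zero, map_const_eq_zero he hf, zero_sub] at h
    have := h.neg
    rwa [neg_neg] at this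
  · have hg : MH e (-((-1 : ZMod p) ^ (s + 2) • UC.map (bl (s + 1)) f) : UC p (s + 1)) :=
      ((UC.map_MH _ hf).smul _).neg
    refine ⟨_, dep_of_MH hS hg, hg, ?_⟩
    have h := (UC.map_InJ (bl (s + 2)) hd).smul ((-1 : ZMod p) ^ (s + 2))
    rw [contr, smul_add, smul_smul, ← mul_pow, neg_one_mul, neg_neg, one_pow, one_smul] at h
    rw [map_neg, sub_neg_eq_add, map_smul, add_comm f]
    exact h

end Vale.Agent.P257.V4.A.MG
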