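import Vale.Agent.P257.V4.A.MG2

/-!
# P257, V(4): the multigraded engine at the level of `A`, step and recursion
-/

namespace Vale.Agent.P257.V4.A.MG

open MvPolynomial

variable {p : ℕ} [Fact p.Prime]

/-! ### iterated derivatives -/

theorem iter_sub {s : ℕ} (v : Fin s × (ℕ × ℕ)) (k : ℕ) (a b : UC p s) :
    (pderiv v)^[k] (a - b) = (pderiv v)^[k] a - (pderiv v)^[k] b := by
  induction k with
  | zero => rfl
  | succ k ih => rw [Function.iterate_succ_apply', ih, map_sub, Function.iterate_succ_apply',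
      Function.iterate_succ_apply']

theorem iter_dE {s : ℕ} {S : Finset (ℕ × ℕ)} {τ : ℕ × ℕ} (hS : Row S) (hτ : τ ∉ S) (k : ℕ)
    {f : UC p (s + 1)} (hf : Dep (ES (insert τ S) s) f) :
    (pderiv (Fin.last (s + 1), τ))^[k] (dE s f) = dE s ((pderiv (Fin.last s, τ))^[k] f) := by
  induction k with
  | zero => rfl
  | succ k ih =>
    rw [Function.iterate_succ_apply', ih, Function.iterate_succ_apply',
      pderiv_dE hS hτ (hf.iterate_pderiv _ k)]

theorem iter_X_pow {s : ℕ} (v : Fin s × (ℕ × ℕ)) (k : ℕ) {g : UC p s} (hg : pderiv v g = 0) :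
    (pderiv v)^[k] (X v ^ k * g) = (Nat.factorial k : ZMod p) • g := by
  induction k with
  | zero => simp
  | succ k ih =>
    have h : pderiv v (X v ^ (k + 1) * g) = ((k + 1 : ℕ) : ZMod p) • (X v ^ k * g) := by
      rw [Derivation.leibniz, hg, smul_zero, zero_add, Derivation.leibniz_pow, pderiv_X_self,
        Nat.add_sub_cancel, smul_eq_mul, smul_eq_mul, mul_one, nsmul_eq_mul, MvPolynomial.smul_eq_C_mul,
        map_natCast]
      ring
    have h2 : ∀ (j : ℕ) (c : ZMod p) (x : UC p s), (pderiv v)^[j] (c • x) = c • (pderiv v)^[j] x := by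
      intro j c x
      induction j with
      | zero => rfl
      | succ j ih => rw [Function.iterate_succ_apply', ih, Derivation.map_smul,
          Function.iterate_succ_apply']
    rw [Function.iterate_succ_apply, h, h2, ih, smul_smul, Nat.factorial_succ, Nat.cast_mul]

section step

variable {S : Finset (ℕ × ℕ)} {τ : ℕ × ℕ}

theorem pderiv_iter {s : ℕ} (v : Fin s × (ℕ × ℕ)) (f : UC p s) :
    pderiv v ((pderiv v)^[p - 1] f) = 0 := by
  have hp := (Fact.out : p.Prime)
  have h := Function.iterate_succ_apply' (⇑(pderiv v : Derivation (ZMod p) (UC p s) (UC p s)))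
    (p - 1) f
  rw [← h, Nat.succ_eq_add_one, Nat.sub_add_cancel hp.one_le]
  exact iterate_pderiv_p _ _

theorem MH_iter {s : ℕ} (v : Fin s × (ℕ × ℕ)) (k : ℕ) {e e' : ℕ →₀ ℕ} {f : UC p s}
    (hf : MH e' f) (he : e' = e + k • mw v) : MH e ((pderiv v)^[k] f) := by
  intro m hm
  rw [coeff_iterate_pderiv] at hm
  have h := hf (left_ne_zero_of_mul hm)
  rw [map_add, Finsupp.weight_single, he] at h
  exact add_right_cancel h

theorem MH_pderiv {s : ℕ} (v : Fin s × (ℕ × ℕ)) {e e' : ℕ →₀ ℕ} {f : UC p s}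
    (hf : MH e' f) (he : e' = e + mw v) : MH e (pderiv v f) :=
  MH_iter v 1 hf (by rw [one_smul]; exact he)

theorem MH_cut {s : ℕ} (v : Fin s × (ℕ × ℕ)) {e : ℕ →₀ ℕ} {f : UC p s} (hf : MH e f) :
    MH e (cut v f) := isWH_cut hf

theorem MH_intg {s : ℕ} (v : Fin s × (ℕ × ℕ)) {e : ℕ →₀ ℕ} {f : UC p s} (hf : MH e f) :
    MH (e + mw v) (intg v f) := isWH_intg hf

theorem InJ_iter {s : ℕ} (v : Fin s × (ℕ × ℕ)) (k : ℕ) {f : UC p s} (hf : InJ f) :
    InJ ((pderiv v)^[k] f) := PJ.iterate_pderiv (f := f) hf v k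

theorem InJ_pderiv {s : ℕ} (v : Fin s × (ℕ × ℕ)) {f : UC p s} (hf : InJ f) :
    InJ (pderiv v f) := PJ.pderiv (f := f) hf v

theorem InJ_sub_cut {s : ℕ} (v : Fin s × (ℕ × ℕ)) {f : UC p s} (hf : InJ (pderiv v f)) :
    InJ (f - cut v f) := pj_sub_cut v hf

theorem InJ_sub_intg {s : ℕ} (v : Fin s × (ℕ × ℕ)) {f : UC p s}
    (hf : InJ ((pderiv v)^[p - 1] f)) : InJ (f - pderiv v (intg v f)) :=
  pj_sub_pderiv_intg v hf

/-- If `(p - 1) v` does not fit into the multidegree then the iterated derivative vanishes. -/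
theorem iter_eq_zero {s : ℕ} (v : Fin s × (ℕ × ℕ)) (k : ℕ) {e : ℕ →₀ ℕ} {f : UC p s}
    (hf : MH e f) (hk : ¬ k • mw v ≤ e) : (pderiv v)^[k] f = 0 := by
  ext m
  rw [coeff_iterate_pderiv, coeff_zero]
  by_contra h
  have h1 := left_ne_zero_of_mul h
  by_cases hk0 : k = 0
  · subst hk0
    exact hk (by rw [zero_smul]; exact fun _ => Nat.zero_le _)
  · have h2 := mw_le_of_MH hf h1 (v := v) (by
      rw [Finsupp.add_apply, Finsupp.single_eq_same]
      omega)
    apply hk
    refine le_trans ?_ h2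
    intro i
    rw [Finsupp.smul_apply, Finsupp.smul_apply, Finsupp.add_apply, Finsupp.single_eq_same]
    exact Nat.mul_le_mul_right _ (Nat.le_add_left _ _)

/-- The correction of `β`. -/
theorem step_beta {t : ℕ} {e e1 : ℕ →₀ ℕ} (hS : Row S) (hS' : Row (insert τ S)) (hτ : τ ∉ S)
    (he : e = e1 + itv τ.1 τ.2)
    (h2 : ∀ e2, e = e2 + p • itv τ.1 τ.2 → V p S t e2) {a : UC p (t + 2)}
    (hDa : InJ ((pderiv (Fin.last (t + 1), τ))^[p - 1] a))
    {β : UC p (t + 1)} (hβ : Dep (ES (insert τ S) t) β) (hβ1 : MH e1 β)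
    (hβ2 : InJ (a - dE t β)) :
    ∃ β' : UC p (t + 1), Dep (ES (insert τ S) t) β' ∧
      MH e1 β' ∧ InJ (a - dE t β') ∧ InJ ((pderiv (Fin.last t, τ))^[p - 1] β') := by
  have hp := (Fact.out : p.Prime)
  have hp1 : p - 1 + 1 = p := Nat.sub_add_cancel hp.one_le
  by_cases hpe : p • itv τ.1 τ.2 ≤ e
  · obtain ⟨e2, hee2⟩ : ∃ e2, e = e2 + p • itv τ.1 τ.2 := ⟨_, (tsub_add_cancel_of_le hpe).symm⟩
    have he1 : e1 = e2 + (p - 1) • mw (Fin.last t, τ) := by
      have h3 : e2 + (p - 1) • itv τ.1 τ.2 + itv τ.1 τ.2 = e1 + itv τ.1 τ.2 := by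
        rw [add_assoc, ← succ_nsmul, hp1, ← hee2, he]
      exact (add_right_cancel h3).symm
    obtain ⟨c, hc⟩ : ∃ c, c = (pderiv (Fin.last t, τ))^[p - 1] β := ⟨_, rfl⟩
    have hDc : pderiv (Fin.last t, τ) c = 0 := by
      rw [hc]
      exact pderiv_iter _ _
    have hcut : InJ (c - cut (Fin.last t, τ) c) :=
      InJ_sub_cut _ (by rw [hDc]; exact InJ.zero)
    have hcD : Dep (ES (insert τ S) t) c := by
      rw [hc]
      exact hβ.iterate_pderiv _ _
    have hcutD : Dep (ES S t) (cut (Fin.last t, τ) c) := by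
      apply Dep.cut
      rw [← ES_insert]
      exact hcD
    have hdc : InJ (dE t c) := by
      rw [hc, ← iter_dE hS hτ _ hβ]
      have h := InJ_iter (Fin.last (t + 1), τ) (p - 1) hβ2
      rw [iter_sub] at h
      have := hDa.sub h
      rwa [sub_sub_cancel] at this
    have hdcut : InJ (dE t (cut (Fin.last t, τ) c)) := by
      have := hdc.sub (dE_InJ hcut)
      rwa [map_sub, sub_sub_cancel] at this
    have hcM : MH e2 c := by
      rw [hc]
      exact MH_iter _ _ hβ1 he1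
    have hcutM : MH e2 (cut (Fin.last t, τ) c) := MH_cut _ hcM
    have hB := h2 e2 hee2 _ hcutD hcutM hdcut
    rcases t with _ | t
    · refine ⟨β, hβ, hβ1, hβ2, ?_⟩
      rw [← hc]
      exact hcut.of_sub hB
    · obtain ⟨γ, hγ1, hγ2, hγ3⟩ := hB
      have hDγ : pderiv (Fin.last t, τ) γ = 0 := pderiv_eq_zero hτ hγ1
      obtain ⟨γ', hγ'⟩ : ∃ γ' : UC p (t + 1), γ' = ((Nat.factorial (p - 1) : ZMod p))⁻¹ •
        (X (Fin.last t, τ) ^ (p - 1) * γ) := ⟨_, rfl⟩
      have hfac : (Nat.factorial (p - 1) : ZMod p) ≠ 0 := by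
        intro h0
        rw [ZMod.natCast_eq_zero_iff, hp.dvd_factorial] at h0
        have := hp.pos
        omega
      have hγ'D : (pderiv (Fin.last t, τ))^[p - 1] γ' = γ := by
        have h := iter_X_pow (Fin.last t, τ) (p - 1)
          (g := (((Nat.factorial (p - 1) : ZMod p))⁻¹ • γ)) (by
            rw [Derivation.map_smul, hDγ, smul_zero])
        rw [hγ', ← mul_smul_comm, h, smul_smul, mul_inv_cancel₀ hfac, one_smul]
      have hγ'M : MH e1 γ' := by
        have he1' : e1 = (p - 1) • mw (Fin.last t, τ) + e2 := he1.trans (add_comm _ _)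
        rw [hγ', he1']
        exact (((MH.X (p := p) (Fin.last t, τ)).pow (p - 1)).mul hγ2).smul _
      have hγ'S : Dep (ES (insert τ S) t) γ' := by
        rw [hγ', dep_iff]
        refine Subalgebra.smul_mem _ (mul_mem (pow_mem (X_mem_supported.2 ?_) _)
          (dep_iff.1 (hγ1.mono (ES_mono (Finset.subset_insert _ _) _)))) _
        intro _
        exact Finset.mem_insert_self _ _
      refine ⟨β - dE t γ', hβ.sub (dE_Dep hS' hγ'S), hβ1.sub (dE_MH hγ'M), ?_, ?_⟩
      · rw [map_sub, dE_dE, sub_zero]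
        exact hβ2
      · rw [iter_sub, iter_dE hS hτ _ hγ'S, hγ'D, ← hc]
        have := hcut.add hγ3
        rwa [sub_add_sub_cancel] at this
  · refine ⟨β, hβ, hβ1, hβ2, ?_⟩
    rw [iter_eq_zero (Fin.last t, τ) (p - 1) hβ1]
    · exact InJ.zero
    · intro h
      apply hpe
      rw [he]
      intro i
      have h3 := h i
      rw [Finsupp.smul_apply, smul_eq_mul] at h3
      rw [Finsupp.smul_apply, Finsupp.add_apply, smul_eq_mul]
      have h4 : p * (itv τ.1 τ.2) i = (p - 1) * (itv τ.1 τ.2) i + (itv τ.1 τ.2) i := by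
        conv_lhs => rw [← hp1]
        ring
      rw [h4]
      exact Nat.add_le_add_right h3 _

/-- The integration step. -/
theorem step_delta {t : ℕ} {e e1 : ℕ →₀ ℕ} (hS : Row S) (hS' : Row (insert τ S)) (hτ : τ ∉ S)
    (he : e = e1 + itv τ.1 τ.2) (h1 : V p (insert τ S) (t + 1) e1)
    (h2 : ∀ e2, e = e2 + p • itv τ.1 τ.2 → V p S t e2) {a : UC p (t + 2)}
    (ha : Dep (ES (insert τ S) (t + 1)) a) (ha1 : MH e1 a) (hda : InJ (dE (t + 1) a))
    (hDa : InJ ((pderiv (Fin.last (t + 1), τ))^[p - 1] a)) :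
    ∃ δ : UC p (t + 1), Dep (ES (insert τ S) t) δ ∧ MH e δ ∧
      InJ (a - pderiv (Fin.last (t + 1), τ) (dE t δ)) := by
  obtain ⟨β, hβ, hβ1, hβ2⟩ := h1 a ha ha1 hda
  obtain ⟨β', hb1, hb2, hb3, hb4⟩ := step_beta hS hS' hτ he h2 hDa hβ hβ1 hβ2
  have hmem : (Fin.last t, τ) ∈ ES (insert τ S) t := fun _ => Finset.mem_insert_self _ _
  have hδ := hb1.intg hmem
  refine ⟨intg (Fin.last t, τ) β', hδ, ?_, ?_⟩
  · rw [he]
    exact MH_intg (Fin.last t, τ) hb2
  · rw [pderiv_dE hS hτ hδ]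
    have := hb3.add (dE_InJ (InJ_sub_intg _ hb4))
    rwa [map_sub, sub_add_sub_cancel] at this

/-- The step. -/
theorem V_step {s : ℕ} {e e1 : ℕ →₀ ℕ} (hS : Row S) (hS' : Row (insert τ S)) (hτ : τ ∉ S)
    (he : e = e1 + itv τ.1 τ.2) (h0 : V p (insert τ S) s e)
    (h1 : ∀ t, s = t + 1 → V p (insert τ S) t e1)
    (h2 : ∀ t, s = t + 2 → ∀ e2, e = e2 + p • itv τ.1 τ.2 → V p S t e2) : V p S s e := by
  intro f hf hfM hfd
  have hB := h0 f (hf.mono (ES_mono (Finset.subset_insert _ _) _)) hfM hfd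
  rcases s with _ | s
  · exact hB
  · obtain ⟨α, hα1, hα2, hα3⟩ := hB
    have haM : MH e1 (pderiv (Fin.last s, τ) α) := MH_pderiv _ hα2 he
    have haD : Dep (ES (insert τ S) s) (pderiv (Fin.last s, τ) α) := hα1.pderiv _
    have hda : InJ (dE s (pderiv (Fin.last s, τ) α)) := by
      rw [← pderiv_dE hS hτ hα1]
      have h := InJ_pderiv (Fin.last (s + 1), τ) hα3
      rw [map_sub, pderiv_eq_zero hτ hf, zero_sub] at h
      have := h.neg
      rwa [neg_neg] at this
    -- a primitive with vanishing derivative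
    obtain ⟨α', h1', h2', h3', h4'⟩ : ∃ α' : UC p (s + 1), Dep (ES (insert τ S) s) α' ∧ MH e α' ∧
        InJ (f - dE s α') ∧ InJ (pderiv (Fin.last s, τ) α') := by
      rcases s with _ | t
      · exact ⟨α, hα1, hα2, hα3, h1 0 rfl _ haD haM hda⟩
      · have hDa : InJ ((pderiv (Fin.last (t + 1), τ))^[p - 1]
            (pderiv (Fin.last (t + 1), τ) α)) := by
          rw [← Function.iterate_succ_apply, Function.iterate_succ_apply', pderiv_iter]
          exact InJ.zero
        obtain ⟨δ, hδ1, hδ2, hδ3⟩ := step_delta hS hS' hτ he (h1 (t + 1) rfl)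
          (fun e2 he2 => h2 t rfl e2 he2) haD haM hda hDa
        refine ⟨α - dE t δ, hα1.sub (dE_Dep hS' hδ1), hα2.sub (dE_MH hδ2), ?_, ?_⟩
        · rw [map_sub, dE_dE, sub_zero]
          exact hα3
        · rw [map_sub]
          exact hδ3
    have hcut := InJ_sub_cut _ h4'
    refine ⟨cut (Fin.last s, τ) α', ?_, MH_cut _ h2', ?_⟩
    · apply Dep.cut
      rw [← ES_insert]
      exact h1'
    · have := h3'.add (dE_InJ hcut)
      rwa [map_sub, sub_add_sub_cancel] at this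

end step

end Vale.Agent.P257.V4.A.MG
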