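import Vale.Agent.P257.V4.A.MonoBd

namespace Vale.Agent.P257.V4.A.ML

/-- The core of the empty lists `(AE)`: `V(0..3)` and their pairings. -/
theorem ae_core (p x y z h01 h02 h03 h12 h13 h23 m0 m1 m2 m3 : ℤ) (hp : 11 ≤ p)
    (hx : 0 ≤ x) (hy : 0 ≤ y) (hz : 0 ≤ z)
    (a1 : 0 ≤ h01) (b1 : h01 ≤ 1) (a2 : 0 ≤ h02) (b2 : h02 ≤ 1) (a3 : 0 ≤ h03) (b3 : h03 ≤ 1)
    (a4 : 0 ≤ h12) (b4 : h12 ≤ 1) (a5 : 0 ≤ h13) (b5 : h13 ≤ 1) (a6 : 0 ≤ h23) (b6 : h23 ≤ 1)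
    (c0 : 0 ≤ m0) (d0 : m0 ≤ 2) (c1 : 0 ≤ m1) (d1 : m1 ≤ 2) (c2 : 0 ≤ m2) (d2 : m2 ≤ 2)
    (c3 : 0 ≤ m3) (d3 : m3 ≤ 2)
    (E : x*(2*p^2-2*p-2)+y*(2*p^3-2*p-2)+z*(2*p^3-2*p^2-2)+h01*(2*p-3)+h02*(2*p^2-3)
      +h03*(2*p^3-3)+h12*(2*p^2-2*p-1)+h13*(2*p^3-2*p-1)+h23*(2*p^3-2*p^2-1)
      = m0+m1*(2*p-1)+m2*(2*p^2-1)+m3*(2*p^3-1)-1)
    (hs : 1 ≤ h01+h02+h03+h12+h13+h23+2*(x+y+z)) : False := by
  obtain ⟨k, t, Y, k0, k3, t3, t0, Y3, Y0, e1, e2, e3, e4⟩ :=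
    digits3 p x y z h01 h02 h03 h12 h13 h23 m1 m2 m3 (1+m1+m2+m3-m0) hp hx hy hz
      a1 b1 a2 b2 a3 b3 a4 b4 a5 b5 a6 b6 (by linarith) (by linarith) (by linarith) d1
      (by linarith) d2 (by linarith) d3 (by linarith [E])
  clear E
  have h1 : k + t ≤ 0 := by
    by_contra hc
    push Not at hc
    have : p * 1 ≤ p * (k + t) := mul_le_mul_of_nonneg_left (by linarith) (by linarith)
    linarith
  have h2 : 0 ≤ k + t := by
    by_contra hc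
    push Not at hc
    have : p * (k + t) ≤ p * (-1) := mul_le_mul_of_nonneg_left (by linarith) (by linarith)
    linarith
  obtain rfl : t = -k := by linarith
  obtain ⟨r, rfl⟩ : ∃ r, Y = r - k := ⟨Y + k, by ring⟩
  have r0 : 0 ≤ r := by linarith
  have r1 : r ≤ 1 := by linarith
  have B : p * r - r = k + m1 + m2 + m3 - h01 - h02 - h03 := by linarith
  have r2 : r = 0 := by
    by_contra hc
    have : r = 1 := by omega
    subst this
    linarith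
  subst r2
  have A : 2*z + k + 2*m2 + 2*m3 + m0 + 2*h01 + h23 = 1 + h12 + h13 := by linarith
  have C : y + z = m3 - k - h03 - h13 - h23 := by linarith
  have X : x = p * k - k - y + h01 - h12 - h13 - m1 := by linarith
  have B' : k = h01 + h02 + h03 - m1 - m2 - m3 := by linarith
  clear e1 e2 e3 e4 B
  interval_cases k
  · have hz' : z = 0 := by omega
    subst hz'
    interval_cases m3
    · omega
    · omega
    · omega
  · interval_cases m3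
    · omega
    · omega
    · omega
  · omega
  · omega

/-- The core of the empty lists for the lifts of `v_1, v_2, v_3`. -/
theorem v_core (p x y z h01 h02 h03 h12 h13 h23 m1 m2 m3 : ℤ) (hp : 11 ≤ p)
    (hx : 0 ≤ x) (hy : 0 ≤ y) (hz : 0 ≤ z)
    (a1 : 0 ≤ h01) (b1 : h01 ≤ 1) (a2 : 0 ≤ h02) (b2 : h02 ≤ 1) (a3 : 0 ≤ h03) (b3 : h03 ≤ 1)
    (a4 : 0 ≤ h12) (b4 : h12 ≤ 1) (a5 : 0 ≤ h13) (b5 : h13 ≤ 1) (a6 : 0 ≤ h23) (b6 : h23 ≤ 1)
    (c1 : 0 ≤ m1) (c2 : 0 ≤ m2) (c3 : 0 ≤ m3) (d : m1 + m2 + m3 = 1)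
    (E : x*(2*p^2-2*p-2)+y*(2*p^3-2*p-2)+z*(2*p^3-2*p^2-2)+h01*(2*p-3)+h02*(2*p^2-3)
      +h03*(2*p^3-3)+h12*(2*p^2-2*p-1)+h13*(2*p^3-2*p-1)+h23*(2*p^3-2*p^2-1)
      = 2*m1*p+2*m2*p^2+2*m3*p^3-3)
    (hs : 2 ≤ h01+h02+h03+h12+h13+h23+2*(x+y+z)) : False := by
  obtain ⟨k, t, Y, k0, k3, t3, t0, Y3, Y0, e1, e2, e3, e4⟩ :=
    digits3 p x y z h01 h02 h03 h12 h13 h23 m1 m2 m3 3 hp hx hy hz
      a1 b1 a2 b2 a3 b3 a4 b4 a5 b5 a6 b6 (by linarith) (by linarith) (by linarith) (by linarith)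
      (by linarith) (by linarith) (by linarith) (by linarith) E
  clear E
  have h1 : k + t ≤ 0 := by
    by_contra hc
    push Not at hc
    have : p * 1 ≤ p * (k + t) := mul_le_mul_of_nonneg_left (by linarith) (by linarith)
    linarith
  have h2 : 0 ≤ k + t := by
    by_contra hc
    push Not at hc
    have : p * (k + t) ≤ p * (-1) := mul_le_mul_of_nonneg_left (by linarith) (by linarith)
    linarith
  obtain rfl : t = -k := by linarith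
  obtain ⟨r, rfl⟩ : ∃ r, Y = r - k := ⟨Y + k, by ring⟩
  have r0 : 0 ≤ r := by linarith
  have r1 : r ≤ 1 := by linarith
  have B : p * r - r = k + m1 + m2 + m3 - h01 - h02 - h03 := by linarith
  have r2 : r = 0 := by
    by_contra hc
    have : r = 1 := by omega
    subst this
    linarith
  subst r2
  have A : 2*z + k + 2*m2 + 2*m3 + 2*h01 + h23 = 2 + h12 + h13 := by linarith
  have C : y + z = m3 - k - h03 - h13 - h23 := by linarith
  have X : x = p * k - k - y + h01 - h12 - h13 - m1 := by linarith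
  have B' : k = h01 + h02 + h03 - m1 - m2 - m3 := by linarith
  clear e1 e2 e3 e4 B
  have k1 : k ≤ 1 := by linarith
  have m11 : m1 ≤ 1 := by linarith
  have m21 : m2 ≤ 1 := by linarith
  interval_cases k <;> interval_cases m1 <;> interval_cases m2 <;> omega

end Vale.Agent.P257.V4.A.ML
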