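import Mathlib

/-!
# P257 / V(4), part A: arithmetic of the list in bidegree `(2p-1, N_5 + 1)` (helper717)
-/

namespace Vale.Agent.P257.V4.A.ML

set_option linter.unusedVariables false

/-- digit equations -/
theorem f2_digits (p a0 a1 a2 a3 a4 c0 c1 c2 c3 : ℤ) (hp : 11 ≤ p)
    (u0 : 0 ≤ a0) (v0 : a0 ≤ 5) (u1 : 0 ≤ a1) (v1 : a1 ≤ 8) (u2 : 0 ≤ a2) (v2 : a2 ≤ 9)
    (u3 : 0 ≤ a3) (v3 : a3 ≤ 8) (u4 : 0 ≤ a4) (w0 : 0 ≤ c0) (x0 : c0 ≤ p - 1) (w1 : 0 ≤ c1)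
    (x1 : c1 ≤ p - 1) (w2 : 0 ≤ c2) (x2 : c2 ≤ p - 1) (w3 : 0 ≤ c3)
    (E : a0 + (a1+c0)*p + (a2+c1)*p^2 + (a3+c2)*p^3 + (a4+c3)*p^4 = p^4+p^3+p^2+p+2) :
    a0 = 2 ∧ ∃ k1 k2 k3 : ℤ, 0 ≤ k1 ∧ k1 ≤ 1 ∧ 0 ≤ k2 ∧ k2 ≤ 1 ∧ 0 ≤ k3 ∧ k3 ≤ 1 ∧
      a1 + c0 = 1 + p*k1 ∧ a2 + c1 + k1 = 1 + p*k2 ∧ a3 + c2 + k2 = 1 + p*k3 ∧
      a4 + c3 + k3 = 1 := by
  obtain ⟨Y, hY⟩ : ∃ Y, Y = (1 + p*(1 + p*(1+p))) - (a1+c0 + p*(a2+c1+p*(a3+c2+p*(a4+c3)))) :=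
    ⟨_, rfl⟩
  have e0 : a0 - 2 = p*Y := by rw [hY]; linear_combination E
  have y1 : Y ≤ 0 := by
    by_contra hc
    push Not at hc
    have : p*1 ≤ p*Y := mul_le_mul_of_nonneg_left (by linarith) (by linarith)
    linarith
  have y2 : 0 ≤ Y := by
    by_contra hc
    push Not at hc
    have : p*Y ≤ p*(-1) := mul_le_mul_of_nonneg_left (by linarith) (by linarith)
    linarith
  obtain rfl : Y = 0 := by linarith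
  have ha0 : a0 = 2 := by linarith
  obtain ⟨k1, hk1⟩ : ∃ k1, k1 = 1 + p*(1+p) - (a2+c1+p*(a3+c2+p*(a4+c3))) := ⟨_, rfl⟩
  have e1 : a1 + c0 = 1 + p*k1 := by rw [hk1]; linear_combination hY
  obtain ⟨k2, hk2⟩ : ∃ k2, k2 = 1 + p - (a3+c2+p*(a4+c3)) := ⟨_, rfl⟩
  have e2 : a2 + c1 + k1 = 1 + p*k2 := by rw [hk1, hk2]; ring
  obtain ⟨k3, hk3⟩ : ∃ k3, k3 = 1 - (a4+c3) := ⟨_, rfl⟩
  have e3 : a3 + c2 + k2 = 1 + p*k3 := by rw [hk2, hk3]; ring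
  have k11 : k1 ≤ 1 := by
    by_contra hc
    push Not at hc
    have : p*2 ≤ p*k1 := mul_le_mul_of_nonneg_left (by linarith) (by linarith)
    linarith
  have k10 : 0 ≤ k1 := by
    by_contra hc
    push Not at hc
    have : p*k1 ≤ p*(-1) := mul_le_mul_of_nonneg_left (by linarith) (by linarith)
    linarith
  have k21 : k2 ≤ 1 := by
    by_contra hc
    push Not at hc
    have : p*2 ≤ p*k2 := mul_le_mul_of_nonneg_left (by linarith) (by linarith)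
    linarith
  have k20 : 0 ≤ k2 := by
    by_contra hc
    push Not at hc
    have : p*k2 ≤ p*(-1) := mul_le_mul_of_nonneg_left (by linarith) (by linarith)
    linarith
  have k30 : 0 ≤ k3 := by
    by_contra hc
    push Not at hc
    have : p*k3 ≤ p*(-1) := mul_le_mul_of_nonneg_left (by linarith) (by linarith)
    linarith
  exact ⟨ha0, k1, k2, k3, k10, k11, k20, k21, k30, by linarith, e1, e2, e3, by linarith⟩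

/-- all carries are one -/
theorem f2_stage1 (p h01 h02 h03 h04 h05 h12 h13 h14 h15 h23 h24 h25 h34 h35 h45
    b01 b02 b03 b04 b12 b13 b14 b23 b24 b34 k1 k2 k3 : ℤ)
    (hp : 11 ≤ p)
    (h01a : 0 ≤ h01) (h01b : h01 ≤ 1)
    (h02a : 0 ≤ h02) (h02b : h02 ≤ 1)
    (h03a : 0 ≤ h03) (h03b : h03 ≤ 1)
    (h04a : 0 ≤ h04) (h04b : h04 ≤ 1)
    (h05a : 0 ≤ h05) (h05b : h05 ≤ 1)
    (h12a : 0 ≤ h12) (h12b : h12 ≤ 1)
    (h13a : 0 ≤ h13) (h13b : h13 ≤ 1)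
    (h14a : 0 ≤ h14) (h14b : h14 ≤ 1)
    (h15a : 0 ≤ h15) (h15b : h15 ≤ 1)
    (h23a : 0 ≤ h23) (h23b : h23 ≤ 1)
    (h24a : 0 ≤ h24) (h24b : h24 ≤ 1)
    (h25a : 0 ≤ h25) (h25b : h25 ≤ 1)
    (h34a : 0 ≤ h34) (h34b : h34 ≤ 1)
    (h35a : 0 ≤ h35) (h35b : h35 ≤ 1)
    (h45a : 0 ≤ h45) (h45b : h45 ≤ 1)
    (b01a : 0 ≤ b01)
    (b02a : 0 ≤ b02)
    (b03a : 0 ≤ b03)
    (b04a : 0 ≤ b04)
    (b12a : 0 ≤ b12)
    (b13a : 0 ≤ b13)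
    (b14a : 0 ≤ b14)
    (b23a : 0 ≤ b23)
    (b24a : 0 ≤ b24)
    (b34a : 0 ≤ b34)
    (S : h01+h02+h03+h04+h05+h12+h13+h14+h15+h23+h24+h25+h34+h35+h45
      + 2*(b01+b02+b03+b04+b12+b13+b14+b23+b24+b34) = 2*p-1)
    (k10 : 0 ≤ k1) (k11 : k1 ≤ 1) (k20 : 0 ≤ k2) (k21 : k2 ≤ 1) (k30 : 0 ≤ k3) (k31 : k3 ≤ 1)
    (e0 : h01+h02+h03+h04+h05 = 2)
    (e1 : (h02+h03+h04+h05+h12+h13+h14+h15) + (b01+b02+b03+b04) = 1 + p*k1)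
    (e2 : (h03+h04+h05+h13+h14+h15+h23+h24+h25) + (b02+b03+b04+b12+b13+b14) + k1 = 1 + p*k2)
    (e3 : (h04+h05+h14+h15+h24+h25+h34+h35) + (b03+b04+b13+b14+b23+b24) + k2 = 1 + p*k3)
    (e4 : (h05+h15+h25+h35+h45) + (b04+b14+b24+b34) + k3 = 1) :
    k1 = 1 ∧ k2 = 1 ∧ k3 = 1 := by
  interval_cases k1 <;> interval_cases k2 <;> interval_cases k3
  · exfalso; linarith
  · exfalso; linarith
  · exfalso; linarith
  · exfalso; linarith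
  · exfalso; linarith
  · exfalso; linarith
  · exfalso; linarith
  · exact ⟨rfl, rfl, rfl⟩

/-- The complete list, in integers: `h04 = h14 = 1`, five cases. -/
theorem f2_core (p h01 h02 h03 h04 h05 h12 h13 h14 h15 h23 h24 h25 h34 h35 h45
    b01 b02 b03 b04 b12 b13 b14 b23 b24 b34 : ℤ) (hp : 11 ≤ p)
    (h01a : 0 ≤ h01) (h01b : h01 ≤ 1)
    (h02a : 0 ≤ h02) (h02b : h02 ≤ 1)
    (h03a : 0 ≤ h03) (h03b : h03 ≤ 1)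
    (h04a : 0 ≤ h04) (h04b : h04 ≤ 1)
    (h05a : 0 ≤ h05) (h05b : h05 ≤ 1)
    (h12a : 0 ≤ h12) (h12b : h12 ≤ 1)
    (h13a : 0 ≤ h13) (h13b : h13 ≤ 1)
    (h14a : 0 ≤ h14) (h14b : h14 ≤ 1)
    (h15a : 0 ≤ h15) (h15b : h15 ≤ 1)
    (h23a : 0 ≤ h23) (h23b : h23 ≤ 1)
    (h24a : 0 ≤ h24) (h24b : h24 ≤ 1)
    (h25a : 0 ≤ h25) (h25b : h25 ≤ 1)
    (h34a : 0 ≤ h34) (h34b : h34 ≤ 1)
    (h35a : 0 ≤ h35) (h35b : h35 ≤ 1)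
    (h45a : 0 ≤ h45) (h45b : h45 ≤ 1)
    (b01a : 0 ≤ b01)
    (b02a : 0 ≤ b02)
    (b03a : 0 ≤ b03)
    (b04a : 0 ≤ b04)
    (b12a : 0 ≤ b12)
    (b13a : 0 ≤ b13)
    (b14a : 0 ≤ b14)
    (b23a : 0 ≤ b23)
    (b24a : 0 ≤ b24)
    (b34a : 0 ≤ b34)
    (S : h01+h02+h03+h04+h05+h12+h13+h14+h15+h23+h24+h25+h34+h35+h45
      + 2*(b01+b02+b03+b04+b12+b13+b14+b23+b24+b34) = 2*p-1)
    (E : (h01+h02+h03+h04+h05)
      + ((h02+h03+h04+h05+h12+h13+h14+h15) + (b01+b02+b03+b04))*p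
      + ((h03+h04+h05+h13+h14+h15+h23+h24+h25) + (b02+b03+b04+b12+b13+b14))*p^2
      + ((h04+h05+h14+h15+h24+h25+h34+h35) + (b03+b04+b13+b14+b23+b24))*p^3
      + ((h05+h15+h25+h35+h45) + (b04+b14+b24+b34))*p^4 = p^4+p^3+p^2+p+2) :
    (h04 = 1 ∧ h14 = 1 ∧ h01 = 0 ∧ h23 = 0 ∧ h05 = 0 ∧ h15 = 0 ∧ h25 = 0 ∧ h35 = 0 ∧ h45 = 0 ∧ b01 = 0 ∧ b02 = 0 ∧ b04 = 0 ∧ b12 = 0 ∧ b13 = 0 ∧ b14 = 0 ∧ b23 = 0 ∧ b24 = 0 ∧ b34 = 0) ∧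
    (
    (h02 = 1 ∧ h03 = 0 ∧ h12 = 1 ∧ h13 = 1 ∧ h24 = 1 ∧ h34 = 1 ∧ b03 = p - 4) ∨
    (h02 = 1 ∧ h03 = 0 ∧ h12 = 1 ∧ h13 = 0 ∧ h24 = 1 ∧ h34 = 0 ∧ b03 = p - 3) ∨
    (h02 = 0 ∧ h03 = 1 ∧ h12 = 1 ∧ h13 = 0 ∧ h24 = 0 ∧ h34 = 1 ∧ b03 = p - 3) ∨
    (h02 = 1 ∧ h03 = 0 ∧ h12 = 0 ∧ h13 = 1 ∧ h24 = 0 ∧ h34 = 1 ∧ b03 = p - 3) ∨
    (h02 = 1 ∧ h03 = 0 ∧ h12 = 0 ∧ h13 = 0 ∧ h24 = 0 ∧ h34 = 0 ∧ b03 = p - 2)) := by
  have hc : 0 ≤ (b01+b02+b03+b04+b12+b13+b14+b23+b24+b34) ∧ (b01+b02+b03+b04+b12+b13+b14+b23+b24+b34) ≤ p - 1 := ⟨by linarith, by linarith⟩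
  obtain ⟨e0, k1, k2, k3, k10, k11, k20, k21, k30, k31, e1, e2, e3, e4⟩ := f2_digits p
    (h01+h02+h03+h04+h05) (h02+h03+h04+h05+h12+h13+h14+h15) (h03+h04+h05+h13+h14+h15+h23+h24+h25) (h04+h05+h14+h15+h24+h25+h34+h35) (h05+h15+h25+h35+h45)
    (b01+b02+b03+b04) (b02+b03+b04+b12+b13+b14) (b03+b04+b13+b14+b23+b24) (b04+b14+b24+b34)
    hp (by linarith) (by linarith) (by linarith) (by linarith) (by linarith) (by linarith)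
    (by linarith) (by linarith) (by linarith) (by linarith) (by linarith) (by linarith)
    (by linarith) (by linarith) (by linarith) (by linarith) E
  obtain ⟨rfl, rfl, rfl⟩ := f2_stage1 p h01 h02 h03 h04 h05 h12 h13 h14 h15 h23 h24 h25 h34 h35 h45
    b01 b02 b03 b04 b12 b13 b14 b23 b24 b34 k1 k2 k3 hp
    h01a h01b h02a h02b h03a h03b h04a h04b h05a h05b h12a h12b h13a h13b h14a h14b h15a h15b h23a h23b h24a h24b h25a h25b h34a h34b h35a h35b h45a h45b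
    b01a b02a b03a b04a b12a b13a b14a b23a b24a b34a
    S k10 k11 k20 k21 k30 k31 e0 e1 e2 e3 e4
  obtain rfl : h05 = 0 := by linarith
  obtain rfl : h15 = 0 := by linarith
  obtain rfl : h25 = 0 := by linarith
  obtain rfl : h35 = 0 := by linarith
  obtain rfl : h45 = 0 := by linarith
  obtain rfl : b04 = 0 := by linarith
  obtain rfl : b14 = 0 := by linarith
  obtain rfl : b24 = 0 := by linarith
  obtain rfl : b34 = 0 := by linarith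
  have key : b01+b02+2*b12+b13+b23 = -2 - h01 + h04 + h14 - h23 := by linarith
  obtain rfl : h04 = 1 := by linarith
  obtain rfl : h14 = 1 := by linarith
  obtain rfl : h01 = 0 := by linarith
  obtain rfl : h23 = 0 := by linarith
  obtain rfl : b01 = 0 := by linarith
  obtain rfl : b02 = 0 := by linarith
  obtain rfl : b12 = 0 := by linarith
  obtain rfl : b13 = 0 := by linarith
  obtain rfl : b23 = 0 := by linarith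
  refine ⟨⟨rfl, rfl, rfl, rfl, rfl, rfl, rfl, rfl, rfl, rfl, rfl, rfl, rfl, rfl, rfl, rfl, rfl, rfl⟩, ?_⟩
  have r1 : h02 + h03 = 1 := by linarith
  have r2 : h03 + h13 = h34 := by linarith
  have r3 : h02 + h12 = 1 + h24 := by linarith
  have r4 : b03 = p - 2 - h24 - h34 := by linarith
  rcases (show h02 = 0 ∨ h02 = 1 by omega) with rfl | rfl
  · right; right; left
    refine ⟨rfl, ?_, ?_, ?_, ?_, ?_, ?_⟩ <;> linarith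
  · rcases (show h24 = 0 ∨ h24 = 1 by omega) with rfl | rfl <;>
      rcases (show h34 = 0 ∨ h34 = 1 by omega) with rfl | rfl
    · right; right; right; right
      refine ⟨rfl, ?_, ?_, ?_, ?_, ?_, ?_⟩ <;> linarith
    · right; right; right; left
      refine ⟨rfl, ?_, ?_, ?_, ?_, ?_, ?_⟩ <;> linarith
    · right; left
      refine ⟨rfl, ?_, ?_, ?_, ?_, ?_, ?_⟩ <;> linarith
    · left
      refine ⟨rfl, ?_, ?_, ?_, ?_, ?_, ?_⟩ <;> linarith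

end Vale.Agent.P257.V4.A.ML
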