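import Vale.Agent.P257.V4.A.MonoF2
import Vale.Agent.P257.V4.A.MonoV4E

/-!
# P257 / V(4), part A: the complete list in bidegree `(2p-1, N_5 + 1)` (helper717)
-/

namespace Vale.Agent.P257.V4.A.ML

open Finset

set_option linter.unusedSimpArgs false

/-- letters with `k + i < 5` -/
def L5 : Finset (ℕ × ℕ) :=
  {(0,0), (1,0), (2,0), (3,0), (4,0), (0,1), (1,1), (2,1), (3,1), (0,2), (1,2), (2,2), (0,3), (1,3), (0,4)}

theorem mem_L5 {a : ℕ × ℕ} : a ∈ L5 ↔ a.1 + a.2 < 5 := by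
  obtain ⟨k, i⟩ := a
  simp only [L5, mem_insert, mem_singleton, Prod.mk.injEq]
  omega

theorem sum_L5 (f : ℕ × ℕ → ℤ) :
    ∑ a ∈ L5, f a = f (0,0) + f (1,0) + f (2,0) + f (3,0) + f (4,0) + f (0,1) + f (1,1) + f (2,1) + f (3,1) + f (0,2) + f (1,2) + f (2,2) + f (0,3) + f (1,3) + f (0,4) := by
  simp [L5, sum_insert, add_assoc]

theorem forall_L5 (P : ℕ × ℕ → Prop) : (∀ a ∈ L5, P a) ↔ P (0,0) ∧ P (1,0) ∧ P (2,0) ∧ P (3,0) ∧ P (4,0) ∧ P (0,1) ∧ P (1,1) ∧ P (2,1) ∧ P (3,1) ∧ P (0,2) ∧ P (1,2) ∧ P (2,2) ∧ P (0,3) ∧ P (1,3) ∧ P (0,4) := by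
  simp [L5]

theorem Mono.deg_eq_L (p : ℕ) (m : Mono) (L L' : Finset (ℕ × ℕ)) (h : ∀ a ∈ m.H, a ∈ L)
    (h' : ∀ a, m.B a ≠ 0 → a ∈ L') :
    (m.deg p : ℤ) = ∑ a ∈ L, m.hv a * lw p a + ∑ a ∈ L', m.bv a * (p * lw p a) := by
  rw [← m.sumH_eq L h (fun a => (lw p a : ℤ)), ← m.sumB_eq L' h' (fun a => (p * lw p a : ℤ))]
  unfold Mono.deg Finsupp.sum
  push_cast
  rfl

open Finsupp in
/-- monomial of the list in bidegree `(2p-1, N_5 + 1)` -/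
noncomputable def Fa (p : ℕ) : Mono := ⟨{(0,1), (0,3), (1,0), (1,1), (1,2), (2,1), (3,0)}, single (2,0) (p - 4)⟩

open Finsupp in
/-- monomial of the list in bidegree `(2p-1, N_5 + 1)` -/
noncomputable def Fb (p : ℕ) : Mono := ⟨{(0,1), (1,0), (1,2), (2,1), (3,0)}, single (2,0) (p - 3)⟩

open Finsupp in
/-- monomial of the list in bidegree `(2p-1, N_5 + 1)` -/
noncomputable def Fc (p : ℕ) : Mono := ⟨{(0,1), (0,3), (2,0), (2,1), (3,0)}, single (2,0) (p - 3)⟩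

open Finsupp in
/-- monomial of the list in bidegree `(2p-1, N_5 + 1)` -/
noncomputable def Fd (p : ℕ) : Mono := ⟨{(0,3), (1,0), (1,1), (2,1), (3,0)}, single (2,0) (p - 3)⟩

open Finsupp in
/-- monomial of the list in bidegree `(2p-1, N_5 + 1)` -/
noncomputable def Fe (p : ℕ) : Mono := ⟨{(1,0), (2,1), (3,0)}, single (2,0) (p - 2)⟩

/-- Complete list of monomials of bidegree `(2p-1, N_5 + 1)`. -/
theorem list_f2 {p : ℕ} (hp : 11 ≤ p) (m : Mono) (hs : m.s = 2 * p - 1)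
    (hD : m.deg p = NN p 5 + 1) :
    m = Fa p ∨ m = Fb p ∨ m = Fc p ∨ m = Fd p ∨ m = Fe p := by
  have hp' : (11 : ℤ) ≤ p := by exact_mod_cast hp
  have hsz : (m.s : ℤ) = 2 * (p : ℤ) - 1 := by
    rw [hs]
    have : 1 ≤ 2 * p := by omega
    push_cast [this]
    ring
  have hDz : (m.deg p : ℤ) = NN p 5 + 1 := by rw [hD]; push_cast; ring
  have q5 : 11 * (p : ℤ) ^ 5 ≤ (p : ℤ) ^ 6 := by
    have : 0 ≤ (p : ℤ) ^ 5 := by positivity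
    nlinarith
  have q6 : 0 < (p : ℤ) ^ 5 := by positivity
  have hW : (2 * (p : ℤ) - 2) * (m.deg p : ℤ) - (m.s : ℤ) = 2 * (p : ℤ) ^ 5 - 3 := by
    rw [hsz, hDz]
    linear_combination q_mul_NN p 5
  obtain ⟨hH, hB⟩ := Mono.small (K := 5) hp (m := m) (by rw [hW]; norm_num; linarith)
  have hH' : ∀ a ∈ m.H, a ∈ L5 := fun a ha => mem_L5.2 (hH a ha)
  have hB' : ∀ a, m.B a ≠ 0 → a ∈ L4 := fun a ha => mem_L4.2 (by have := hB a ha; omega)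
  have hs' := m.s_eq L5 L4 hH' hB'
  have hd' := m.deg_eq_L p L5 L4 hH' hB'
  rw [hsz, sum_L5, sum_L4] at hs'
  rw [hDz, sum_L5, sum_L4] at hd'
  simp only [lw, Nat.cast_mul, Nat.cast_pow, zero_add, Nat.reduceAdd, NN_one, NN_two, NN_three,
    NN_four, NN_five, Nat.cast_add, Nat.cast_one] at hd'
  obtain ⟨⟨z1, z2, z3, z4, z5, z6, z7, z8, z9, z10, z11, z12, z13, z14, z15, z16, z17, z18⟩, hcase⟩ := f2_core p
    (m.hv (0,0)) (m.hv (1,0)) (m.hv (2,0)) (m.hv (3,0)) (m.hv (4,0)) (m.hv (0,1)) (m.hv (1,1)) (m.hv (2,1)) (m.hv (3,1)) (m.hv (0,2)) (m.hv (1,2)) (m.hv (2,2)) (m.hv (0,3)) (m.hv (1,3)) (m.hv (0,4))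
    (m.bv (0,0)) (m.bv (1,0)) (m.bv (2,0)) (m.bv (3,0)) (m.bv (0,1)) (m.bv (1,1)) (m.bv (2,1)) (m.bv (0,2)) (m.bv (1,2)) (m.bv (0,3)) hp'
    (m.hv_nonneg _) (m.hv_le_one _) (m.hv_nonneg _) (m.hv_le_one _) (m.hv_nonneg _) (m.hv_le_one _) (m.hv_nonneg _) (m.hv_le_one _) (m.hv_nonneg _) (m.hv_le_one _) (m.hv_nonneg _) (m.hv_le_one _) (m.hv_nonneg _) (m.hv_le_one _) (m.hv_nonneg _) (m.hv_le_one _) (m.hv_nonneg _) (m.hv_le_one _) (m.hv_nonneg _) (m.hv_le_one _) (m.hv_nonneg _) (m.hv_le_one _) (m.hv_nonneg _) (m.hv_le_one _) (m.hv_nonneg _) (m.hv_le_one _) (m.hv_nonneg _) (m.hv_le_one _) (m.hv_nonneg _) (m.hv_le_one _)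
    (m.bv_nonneg _) (m.bv_nonneg _) (m.bv_nonneg _) (m.bv_nonneg _) (m.bv_nonneg _) (m.bv_nonneg _) (m.bv_nonneg _) (m.bv_nonneg _) (m.bv_nonneg _) (m.bv_nonneg _)
    (by linarith) (by linarith)
  have t2 : ((p - 2 : ℕ) : ℤ) = (p : ℤ) - 2 := by
    rw [Nat.cast_sub (by omega)]; norm_num
  have t3 : ((p - 3 : ℕ) : ℤ) = (p : ℤ) - 3 := by
    rw [Nat.cast_sub (by omega)]; norm_num
  have t4 : ((p - 4 : ℕ) : ℤ) = (p : ℤ) - 4 := by
    rw [Nat.cast_sub (by omega)]; norm_num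
  have fin : ∀ m' : Mono, (∀ a ∈ m'.H, a ∈ L5) → (∀ a, m'.B a ≠ 0 → a ∈ L4) →
      0 = m'.hv (0,0) →
      m.hv (1,0) = m'.hv (1,0) →
      m.hv (2,0) = m'.hv (2,0) →
      1 = m'.hv (3,0) →
      0 = m'.hv (4,0) →
      m.hv (0,1) = m'.hv (0,1) →
      m.hv (1,1) = m'.hv (1,1) →
      1 = m'.hv (2,1) →
      0 = m'.hv (3,1) →
      0 = m'.hv (0,2) →
      m.hv (1,2) = m'.hv (1,2) →
      0 = m'.hv (2,2) →
      m.hv (0,3) = m'.hv (0,3) →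
      0 = m'.hv (1,3) →
      0 = m'.hv (0,4) →
      0 = m'.bv (0,0) →
      0 = m'.bv (1,0) →
      m.bv (2,0) = m'.bv (2,0) →
      0 = m'.bv (3,0) →
      0 = m'.bv (0,1) →
      0 = m'.bv (1,1) →
      0 = m'.bv (2,1) →
      0 = m'.bv (0,2) →
      0 = m'.bv (1,2) →
      0 = m'.bv (0,3) → m = m' := by
    intro m' i1 i2 i3 i4 i5 i6 i7 i8 i9 i10 i11 i12 i13 i14 i15 i16 i17 i18 i19 i20 i21 i22 i23 i24 i25 i26 i27
    refine Mono.ext_of L5 L4 hH' i1 hB' i2 ?_ ?_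
    · rw [forall_L5, z3, z1, z5, z2, z6, z4, z7, z8, z9]
      exact ⟨i3, i4, i5, i6, i7, i8, i9, i10, i11, i12, i13, i14, i15, i16, i17⟩
    · rw [forall_L4, z10, z11, z12, z13, z14, z15, z16, z17, z18]
      exact ⟨i18, i19, i20, i21, i22, i23, i24, i25, i26, i27⟩
  rcases hcase with h | h | h | h | h <;> obtain ⟨f1, f2, f3, f4, f5, f6, f7⟩ := h
  · refine Or.inl (fin (Fa p) ?_ ?_ ?_ ?_ ?_ ?_ ?_ ?_ ?_ ?_ ?_ ?_ ?_ ?_ ?_ ?_ ?_ ?_ ?_ ?_ ?_ ?_ ?_ ?_ ?_ ?_ ?_)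
    · simp [Fa, L5]
    · intro a ha
      simp only [Fa] at ha
      rw [supp_single ha]; simp [L4]
    · simp [Mono.hv, Fa]
    · rw [f1]; simp [Mono.hv, Fa]
    · rw [f2]; simp [Mono.hv, Fa]
    · simp [Mono.hv, Fa]
    · simp [Mono.hv, Fa]
    · rw [f3]; simp [Mono.hv, Fa]
    · rw [f4]; simp [Mono.hv, Fa]
    · simp [Mono.hv, Fa]
    · simp [Mono.hv, Fa]
    · simp [Mono.hv, Fa]
    · rw [f5]; simp [Mono.hv, Fa]
    · simp [Mono.hv, Fa]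
    · rw [f6]; simp [Mono.hv, Fa]
    · simp [Mono.hv, Fa]
    · simp [Mono.hv, Fa]
    · simp [Mono.bv, Fa]
    · simp [Mono.bv, Fa]
    · rw [f7]; simp [Mono.bv, Fa, t4]
    · simp [Mono.bv, Fa]
    · simp [Mono.bv, Fa]
    · simp [Mono.bv, Fa]
    · simp [Mono.bv, Fa]
    · simp [Mono.bv, Fa]
    · simp [Mono.bv, Fa]
    · simp [Mono.bv, Fa]
  · refine Or.inr (Or.inl (fin (Fb p) ?_ ?_ ?_ ?_ ?_ ?_ ?_ ?_ ?_ ?_ ?_ ?_ ?_ ?_ ?_ ?_ ?_ ?_ ?_ ?_ ?_ ?_ ?_ ?_ ?_ ?_ ?_))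
    · simp [Fb, L5]
    · intro a ha
      simp only [Fb] at ha
      rw [supp_single ha]; simp [L4]
    · simp [Mono.hv, Fb]
    · rw [f1]; simp [Mono.hv, Fb]
    · rw [f2]; simp [Mono.hv, Fb]
    · simp [Mono.hv, Fb]
    · simp [Mono.hv, Fb]
    · rw [f3]; simp [Mono.hv, Fb]
    · rw [f4]; simp [Mono.hv, Fb]
    · simp [Mono.hv, Fb]
    · simp [Mono.hv, Fb]
    · simp [Mono.hv, Fb]
    · rw [f5]; simp [Mono.hv, Fb]
    · simp [Mono.hv, Fb]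
    · rw [f6]; simp [Mono.hv, Fb]
    · simp [Mono.hv, Fb]
    · simp [Mono.hv, Fb]
    · simp [Mono.bv, Fb]
    · simp [Mono.bv, Fb]
    · rw [f7]; simp [Mono.bv, Fb, t3]
    · simp [Mono.bv, Fb]
    · simp [Mono.bv, Fb]
    · simp [Mono.bv, Fb]
    · simp [Mono.bv, Fb]
    · simp [Mono.bv, Fb]
    · simp [Mono.bv, Fb]
    · simp [Mono.bv, Fb]
  · refine Or.inr (Or.inr (Or.inl (fin (Fc p) ?_ ?_ ?_ ?_ ?_ ?_ ?_ ?_ ?_ ?_ ?_ ?_ ?_ ?_ ?_ ?_ ?_ ?_ ?_ ?_ ?_ ?_ ?_ ?_ ?_ ?_ ?_)))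
    · simp [Fc, L5]
    · intro a ha
      simp only [Fc] at ha
      rw [supp_single ha]; simp [L4]
    · simp [Mono.hv, Fc]
    · rw [f1]; simp [Mono.hv, Fc]
    · rw [f2]; simp [Mono.hv, Fc]
    · simp [Mono.hv, Fc]
    · simp [Mono.hv, Fc]
    · rw [f3]; simp [Mono.hv, Fc]
    · rw [f4]; simp [Mono.hv, Fc]
    · simp [Mono.hv, Fc]
    · simp [Mono.hv, Fc]
    · simp [Mono.hv, Fc]
    · rw [f5]; simp [Mono.hv, Fc]
    · simp [Mono.hv, Fc]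
    · rw [f6]; simp [Mono.hv, Fc]
    · simp [Mono.hv, Fc]
    · simp [Mono.hv, Fc]
    · simp [Mono.bv, Fc]
    · simp [Mono.bv, Fc]
    · rw [f7]; simp [Mono.bv, Fc, t3]
    · simp [Mono.bv, Fc]
    · simp [Mono.bv, Fc]
    · simp [Mono.bv, Fc]
    · simp [Mono.bv, Fc]
    · simp [Mono.bv, Fc]
    · simp [Mono.bv, Fc]
    · simp [Mono.bv, Fc]
  · refine Or.inr (Or.inr (Or.inr (Or.inl (fin (Fd p) ?_ ?_ ?_ ?_ ?_ ?_ ?_ ?_ ?_ ?_ ?_ ?_ ?_ ?_ ?_ ?_ ?_ ?_ ?_ ?_ ?_ ?_ ?_ ?_ ?_ ?_ ?_))))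
    · simp [Fd, L5]
    · intro a ha
      simp only [Fd] at ha
      rw [supp_single ha]; simp [L4]
    · simp [Mono.hv, Fd]
    · rw [f1]; simp [Mono.hv, Fd]
    · rw [f2]; simp [Mono.hv, Fd]
    · simp [Mono.hv, Fd]
    · simp [Mono.hv, Fd]
    · rw [f3]; simp [Mono.hv, Fd]
    · rw [f4]; simp [Mono.hv, Fd]
    · simp [Mono.hv, Fd]
    · simp [Mono.hv, Fd]
    · simp [Mono.hv, Fd]
    · rw [f5]; simp [Mono.hv, Fd]
    · simp [Mono.hv, Fd]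
    · rw [f6]; simp [Mono.hv, Fd]
    · simp [Mono.hv, Fd]
    · simp [Mono.hv, Fd]
    · simp [Mono.bv, Fd]
    · simp [Mono.bv, Fd]
    · rw [f7]; simp [Mono.bv, Fd, t3]
    · simp [Mono.bv, Fd]
    · simp [Mono.bv, Fd]
    · simp [Mono.bv, Fd]
    · simp [Mono.bv, Fd]
    · simp [Mono.bv, Fd]
    · simp [Mono.bv, Fd]
    · simp [Mono.bv, Fd]
  · refine Or.inr (Or.inr (Or.inr (Or.inr (fin (Fe p) ?_ ?_ ?_ ?_ ?_ ?_ ?_ ?_ ?_ ?_ ?_ ?_ ?_ ?_ ?_ ?_ ?_ ?_ ?_ ?_ ?_ ?_ ?_ ?_ ?_ ?_ ?_))))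
    · simp [Fe, L5]
    · intro a ha
      simp only [Fe] at ha
      rw [supp_single ha]; simp [L4]
    · simp [Mono.hv, Fe]
    · rw [f1]; simp [Mono.hv, Fe]
    · rw [f2]; simp [Mono.hv, Fe]
    · simp [Mono.hv, Fe]
    · simp [Mono.hv, Fe]
    · rw [f3]; simp [Mono.hv, Fe]
    · rw [f4]; simp [Mono.hv, Fe]
    · simp [Mono.hv, Fe]
    · simp [Mono.hv, Fe]
    · simp [Mono.hv, Fe]
    · rw [f5]; simp [Mono.hv, Fe]
    · simp [Mono.hv, Fe]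
    · rw [f6]; simp [Mono.hv, Fe]
    · simp [Mono.hv, Fe]
    · simp [Mono.hv, Fe]
    · simp [Mono.bv, Fe]
    · simp [Mono.bv, Fe]
    · rw [f7]; simp [Mono.bv, Fe, t2]
    · simp [Mono.bv, Fe]
    · simp [Mono.bv, Fe]
    · simp [Mono.bv, Fe]
    · simp [Mono.bv, Fe]
    · simp [Mono.bv, Fe]
    · simp [Mono.bv, Fe]
    · simp [Mono.bv, Fe]

theorem Fa_s (p : ℕ) : (Fa p).s = 7 + 2 * (p - 4) := by
  simp only [Mono.s, Fa, Mono.nb_single]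
  rfl

theorem Fa_e0 (p : ℕ) : (Fa p).e p 0 = 2 + p * (p - 4) := by
  have h : (Fa p).hcov 0 = 2 := rfl
  unfold Mono.e
  rw [h]
  simp only [Fa, Mono.bcov_single]
  simp

theorem Fa_e1 (p : ℕ) : (Fa p).e p 1 = 5 + p * (p - 4) := by
  have h : (Fa p).hcov 1 = 5 := rfl
  unfold Mono.e
  rw [h]
  simp only [Fa, Mono.bcov_single]
  simp

theorem Fa_e2 (p : ℕ) : (Fa p).e p 2 = 4 + p * (p - 4) := by
  have h : (Fa p).hcov 2 = 4 := rfl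
  unfold Mono.e
  rw [h]
  simp only [Fa, Mono.bcov_single]
  simp

theorem Fa_e3 (p : ℕ) : (Fa p).e p 3 = 4 := by
  have h : (Fa p).hcov 3 = 4 := rfl
  unfold Mono.e
  rw [h]
  simp only [Fa, Mono.bcov_single]
  simp

theorem Fa_e (p : ℕ) {k : ℕ} (hk : 4 ≤ k) : (Fa p).e p k = 0 := by
  have h : (Fa p).hcov k = 0 := by
    simp only [Mono.hcov, Fa, card_eq_zero, filter_eq_empty_iff, mem_insert, mem_singleton]
    rintro a h
    rcases h with rfl | rfl | rfl | rfl | rfl | rfl | rfl <;> simp <;> omega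
  unfold Mono.e
  rw [h]
  simp only [Fa, Mono.bcov_single]
  rw [zero_add, Nat.mul_eq_zero]
  right
  rw [if_neg (by omega)]

theorem Fb_s (p : ℕ) : (Fb p).s = 5 + 2 * (p - 3) := by
  simp only [Mono.s, Fb, Mono.nb_single]
  rfl

theorem Fb_e0 (p : ℕ) : (Fb p).e p 0 = 2 + p * (p - 3) := by
  have h : (Fb p).hcov 0 = 2 := rfl
  unfold Mono.e
  rw [h]
  simp only [Fb, Mono.bcov_single]
  simp

theorem Fb_e1 (p : ℕ) : (Fb p).e p 1 = 4 + p * (p - 3) := by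
  have h : (Fb p).hcov 1 = 4 := rfl
  unfold Mono.e
  rw [h]
  simp only [Fb, Mono.bcov_single]
  simp

theorem Fb_e2 (p : ℕ) : (Fb p).e p 2 = 3 + p * (p - 3) := by
  have h : (Fb p).hcov 2 = 3 := rfl
  unfold Mono.e
  rw [h]
  simp only [Fb, Mono.bcov_single]
  simp

theorem Fb_e3 (p : ℕ) : (Fb p).e p 3 = 3 := by
  have h : (Fb p).hcov 3 = 3 := rfl
  unfold Mono.e
  rw [h]
  simp only [Fb, Mono.bcov_single]
  simp

theorem Fb_e (p : ℕ) {k : ℕ} (hk : 4 ≤ k) : (Fb p).e p k = 0 := by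
  have h : (Fb p).hcov k = 0 := by
    simp only [Mono.hcov, Fb, card_eq_zero, filter_eq_empty_iff, mem_insert, mem_singleton]
    rintro a h
    rcases h with rfl | rfl | rfl | rfl | rfl <;> simp <;> omega
  unfold Mono.e
  rw [h]
  simp only [Fb, Mono.bcov_single]
  rw [zero_add, Nat.mul_eq_zero]
  right
  rw [if_neg (by omega)]

theorem Fc_s (p : ℕ) : (Fc p).s = 5 + 2 * (p - 3) := by
  simp only [Mono.s, Fc, Mono.nb_single]
  rfl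

theorem Fc_e0 (p : ℕ) : (Fc p).e p 0 = 2 + p * (p - 3) := by
  have h : (Fc p).hcov 0 = 2 := rfl
  unfold Mono.e
  rw [h]
  simp only [Fc, Mono.bcov_single]
  simp

theorem Fc_e1 (p : ℕ) : (Fc p).e p 1 = 4 + p * (p - 3) := by
  have h : (Fc p).hcov 1 = 4 := rfl
  unfold Mono.e
  rw [h]
  simp only [Fc, Mono.bcov_single]
  simp

theorem Fc_e2 (p : ℕ) : (Fc p).e p 2 = 3 + p * (p - 3) := by
  have h : (Fc p).hcov 2 = 3 := rfl
  unfold Mono.e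
  rw [h]
  simp only [Fc, Mono.bcov_single]
  simp

theorem Fc_e3 (p : ℕ) : (Fc p).e p 3 = 3 := by
  have h : (Fc p).hcov 3 = 3 := rfl
  unfold Mono.e
  rw [h]
  simp only [Fc, Mono.bcov_single]
  simp

theorem Fc_e (p : ℕ) {k : ℕ} (hk : 4 ≤ k) : (Fc p).e p k = 0 := by
  have h : (Fc p).hcov k = 0 := by
    simp only [Mono.hcov, Fc, card_eq_zero, filter_eq_empty_iff, mem_insert, mem_singleton]
    rintro a h
    rcases h with rfl | rfl | rfl | rfl | rfl <;> simp <;> omega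
  unfold Mono.e
  rw [h]
  simp only [Fc, Mono.bcov_single]
  rw [zero_add, Nat.mul_eq_zero]
  right
  rw [if_neg (by omega)]

theorem Fd_s (p : ℕ) : (Fd p).s = 5 + 2 * (p - 3) := by
  simp only [Mono.s, Fd, Mono.nb_single]
  rfl

theorem Fd_e0 (p : ℕ) : (Fd p).e p 0 = 2 + p * (p - 3) := by
  have h : (Fd p).hcov 0 = 2 := rfl
  unfold Mono.e
  rw [h]
  simp only [Fd, Mono.bcov_single]
  simp

theorem Fd_e1 (p : ℕ) : (Fd p).e p 1 = 4 + p * (p - 3) := by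
  have h : (Fd p).hcov 1 = 4 := rfl
  unfold Mono.e
  rw [h]
  simp only [Fd, Mono.bcov_single]
  simp

theorem Fd_e2 (p : ℕ) : (Fd p).e p 2 = 3 + p * (p - 3) := by
  have h : (Fd p).hcov 2 = 3 := rfl
  unfold Mono.e
  rw [h]
  simp only [Fd, Mono.bcov_single]
  simp

theorem Fd_e3 (p : ℕ) : (Fd p).e p 3 = 3 := by
  have h : (Fd p).hcov 3 = 3 := rfl
  unfold Mono.e
  rw [h]
  simp only [Fd, Mono.bcov_single]
  simp

theorem Fd_e (p : ℕ) {k : ℕ} (hk : 4 ≤ k) : (Fd p).e p k = 0 := by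
  have h : (Fd p).hcov k = 0 := by
    simp only [Mono.hcov, Fd, card_eq_zero, filter_eq_empty_iff, mem_insert, mem_singleton]
    rintro a h
    rcases h with rfl | rfl | rfl | rfl | rfl <;> simp <;> omega
  unfold Mono.e
  rw [h]
  simp only [Fd, Mono.bcov_single]
  rw [zero_add, Nat.mul_eq_zero]
  right
  rw [if_neg (by omega)]

theorem Fe_s (p : ℕ) : (Fe p).s = 3 + 2 * (p - 2) := by
  simp only [Mono.s, Fe, Mono.nb_single]
  rfl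

theorem Fe_e0 (p : ℕ) : (Fe p).e p 0 = 2 + p * (p - 2) := by
  have h : (Fe p).hcov 0 = 2 := rfl
  unfold Mono.e
  rw [h]
  simp only [Fe, Mono.bcov_single]
  simp

theorem Fe_e1 (p : ℕ) : (Fe p).e p 1 = 3 + p * (p - 2) := by
  have h : (Fe p).hcov 1 = 3 := rfl
  unfold Mono.e
  rw [h]
  simp only [Fe, Mono.bcov_single]
  simp

theorem Fe_e2 (p : ℕ) : (Fe p).e p 2 = 2 + p * (p - 2) := by
  have h : (Fe p).hcov 2 = 2 := rfl
  unfold Mono.e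
  rw [h]
  simp only [Fe, Mono.bcov_single]
  simp

theorem Fe_e3 (p : ℕ) : (Fe p).e p 3 = 2 := by
  have h : (Fe p).hcov 3 = 2 := rfl
  unfold Mono.e
  rw [h]
  simp only [Fe, Mono.bcov_single]
  simp

theorem Fe_e (p : ℕ) {k : ℕ} (hk : 4 ≤ k) : (Fe p).e p k = 0 := by
  have h : (Fe p).hcov k = 0 := by
    simp only [Mono.hcov, Fe, card_eq_zero, filter_eq_empty_iff, mem_insert, mem_singleton]
    rintro a h
    rcases h with rfl | rfl | rfl <;> simp <;> omega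
  unfold Mono.e
  rw [h]
  simp only [Fe, Mono.bcov_single]
  rw [zero_add, Nat.mul_eq_zero]
  right
  rw [if_neg (by omega)]

end Vale.Agent.P257.V4.A.ML
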