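import Mathlib

namespace Vale.Agent.P257.V4.A.ML

/-- The nine solutions of the `v_4` weight equation, first half (`S = -1`, i.e. `l = 1, 2`). -/
theorem v4_caseA (p x y z h01 h02 h03 h12 h13 h23 T : ℤ) (hp : 11 ≤ p)
    (hx : 0 ≤ x) (hy : 0 ≤ y) (hz : 0 ≤ z)
    (a1 : 0 ≤ h01) (b1 : h01 ≤ 1) (a2 : 0 ≤ h02) (b2 : h02 ≤ 1) (a3 : 0 ≤ h03) (b3 : h03 ≤ 1)
    (a4 : 0 ≤ h12) (b4 : h12 ≤ 1) (a5 : 0 ≤ h13) (b5 : h13 ≤ 1) (a6 : 0 ≤ h23) (b6 : h23 ≤ 1)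
    (eT : y + z = p - (h03+h13+h23) - T)
    (eU : x = p*T + h23 - h02 - h12 + z + 1 + T)
    (e0 : h01+h02+h03+h12+h13+h23+2*(x+y+z)+2*(h01+h02+h03)-3 = 2*(p*(h01+h02+h03-1))) :
    (h01 = 0 ∧ h02 = 1 ∧ h03 = 1 ∧ h12 = 1 ∧ h13 = 1 ∧ h23 = 1 ∧ x = 0 ∧ y = p-3 ∧ z = 0) ∨
    (h01 = 0 ∧ h02 = 1 ∧ h03 = 1 ∧ h12 = 0 ∧ h13 = 1 ∧ h23 = 0 ∧ x = 0 ∧ y = p-2 ∧ z = 0) ∨
    (h01 = 1 ∧ h02 = 1 ∧ h03 = 1 ∧ h12 = 1 ∧ h13 = 0 ∧ h23 = 1 ∧ x = p-2 ∧ y = 0 ∧ z = p-2) ∨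
    (h01 = 1 ∧ h02 = 1 ∧ h03 = 1 ∧ h12 = 0 ∧ h13 = 0 ∧ h23 = 0 ∧ x = p-2 ∧ y = 1 ∧ z = p-2) := by
  obtain ⟨α, hα⟩ : ∃ α, α = h01+h02+h03 := ⟨_, rfl⟩
  have α0 : 0 ≤ α := by linarith
  have α3 : α ≤ 3 := by linarith
  rw [← hα] at e0
  have Z : 2*z = 2*(p*(α-2-T)) + (1-3*h01-h02-h03+h12+h13-h23) := by
    have : p*(α-2-T) = p*(α-1) - p - p*T := by ring
    linarith
  have X : 2*x = 2*(p*(α-2)) + (3 - (h01+h02+h03+h12+h13+h23)) - 2*α + 2*(h03+h13+h23) + 2*T := by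
    have : p*(α-2) = p*(α-1) - p := by ring
    linarith
  have T1 : T ≤ α - 2 := by
    by_contra hc
    push Not at hc
    have : p*(α-2-T) ≤ p*(-1) := mul_le_mul_of_nonneg_left (by linarith) (by linarith)
    linarith
  have A2 : 2 ≤ α := by
    by_contra hc
    push Not at hc
    have : p*(α-2) ≤ p*(-1) := mul_le_mul_of_nonneg_left (by linarith) (by linarith)
    linarith
  have T0 : -1 ≤ T := by
    by_contra hc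
    push Not at hc
    have r1 : p*(-T) ≤ p*(α-2-T) := mul_le_mul_of_nonneg_left (by linarith) (by linarith)
    have r2 : (p-1)*2 ≤ (p-1)*(-T) := mul_le_mul_of_nonneg_left (by linarith) (by linarith)
    linarith
  interval_cases α
  · interval_cases T
    · exfalso; omega
    · have : h03 = 1 := by omega
      subst this
      have : h02 = 1 := by omega
      subst this
      have : h01 = 0 := by omega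
      subst this
      interval_cases h12 <;> interval_cases h13 <;> interval_cases h23 <;> omega
  · have q1 : h01 = 1 := by omega
    have q2 : h02 = 1 := by omega
    have q3 : h03 = 1 := by omega
    subst q1; subst q2; subst q3
    interval_cases T <;> interval_cases h12 <;> interval_cases h13 <;> interval_cases h23 <;> omega

/-- Second half (`S = -2`, i.e. `l = p-1, p`). -/
theorem v4_caseB (p x y z h01 h02 h03 h12 h13 h23 T : ℤ) (hp : 11 ≤ p)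
    (hy : 0 ≤ y) (hz : 0 ≤ z)
    (a1 : 0 ≤ h01) (b1 : h01 ≤ 1) (a2 : 0 ≤ h02) (b2 : h02 ≤ 1) (a3 : 0 ≤ h03) (b3 : h03 ≤ 1)
    (a4 : 0 ≤ h12) (b4 : h12 ≤ 1) (a5 : 0 ≤ h13) (b5 : h13 ≤ 1) (a6 : 0 ≤ h23) (b6 : h23 ≤ 1)
    (eT : y + z = p - (h03+h13+h23) - T)
    (eU : x = p*T + h23 - h02 - h12 + z + 2 + T)
    (e0 : h01+h02+h03+h12+h13+h23+2*(x+y+z)+2*(h01+h02+h03)-3
      = 2*(p*p)-4*p+2*(p*(h01+h02+h03))) :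
    (h01 = 0 ∧ h02 = 0 ∧ h03 = 0 ∧ h12 = 0 ∧ h13 = 1 ∧ h23 = 0 ∧ x = p*p-2*p-1 ∧ y = 2 ∧ z = 0) ∨
    (h01 = 0 ∧ h02 = 0 ∧ h03 = 0 ∧ h12 = 1 ∧ h13 = 1 ∧ h23 = 1 ∧ x = p*p-2*p-1 ∧ y = 1 ∧ z = 0) ∨
    (h01 = 0 ∧ h02 = 0 ∧ h03 = 0 ∧ h12 = 1 ∧ h13 = 0 ∧ h23 = 0 ∧ x = p*p-2*p-2 ∧ y = 3 ∧ z = 0) ∨
    (h01 = 0 ∧ h02 = 0 ∧ h03 = 1 ∧ h12 = 1 ∧ h13 = 1 ∧ h23 = 0 ∧ x = p*p-p-1 ∧ y = 0 ∧ z = 0) ∨
    (h01 = 0 ∧ h02 = 1 ∧ h03 = 0 ∧ h12 = 1 ∧ h13 = 1 ∧ h23 = 0 ∧ x = p*p-p-2 ∧ y = 1 ∧ z = 0) := by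
  obtain ⟨α, hα⟩ : ∃ α, α = h01+h02+h03 := ⟨_, rfl⟩
  have α0 : 0 ≤ α := by linarith
  have α3 : α ≤ 3 := by linarith
  rw [← hα] at e0
  obtain ⟨V, rfl⟩ : ∃ V, T = p - 3 + α - V := ⟨p - 3 + α - T, by ring⟩
  have Z : 2*z = 2*(p*V) + (-1-3*h01-h02-h03+h12+h13-h23) := by
    linarith
  have V0 : 0 ≤ V := by
    by_contra hc
    push Not at hc
    have : p*V ≤ p*(-1) := mul_le_mul_of_nonneg_left (by linarith) (by linarith)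
    linarith
  have V1 : V ≤ 0 := by
    by_contra hc
    push Not at hc
    have : (p-1)*1 ≤ (p-1)*V := mul_le_mul_of_nonneg_left (by linarith) (by linarith)
    linarith
  obtain rfl : V = 0 := by linarith
  have q1 : h01 = 0 := by omega
  subst q1
  have q2 : z = 0 := by omega
  subst q2
  clear eU
  interval_cases h02 <;> interval_cases h03 <;> interval_cases h12 <;> interval_cases h13 <;>
    interval_cases h23 <;> subst hα <;> omega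

/-- The nine solutions of the `v_4` weight equation without letters of size `p^4`. -/
theorem v4_core (p x y z h01 h02 h03 h12 h13 h23 : ℤ) (hp : 11 ≤ p)
    (hx : 0 ≤ x) (hy : 0 ≤ y) (hz : 0 ≤ z)
    (a1 : 0 ≤ h01) (b1 : h01 ≤ 1) (a2 : 0 ≤ h02) (b2 : h02 ≤ 1) (a3 : 0 ≤ h03) (b3 : h03 ≤ 1)
    (a4 : 0 ≤ h12) (b4 : h12 ≤ 1) (a5 : 0 ≤ h13) (b5 : h13 ≤ 1) (a6 : 0 ≤ h23) (b6 : h23 ≤ 1)
    (E : x*(2*p^2-2*p-2)+y*(2*p^3-2*p-2)+z*(2*p^3-2*p^2-2)+h01*(2*p-3)+h02*(2*p^2-3)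
      +h03*(2*p^3-3)+h12*(2*p^2-2*p-1)+h13*(2*p^3-2*p-1)+h23*(2*p^3-2*p^2-1) = 2*p^4-3) :
    (h01 = 0 ∧ h02 = 1 ∧ h03 = 1 ∧ h12 = 1 ∧ h13 = 1 ∧ h23 = 1 ∧ x = 0 ∧ y = p-3 ∧ z = 0) ∨
    (h01 = 0 ∧ h02 = 1 ∧ h03 = 1 ∧ h12 = 0 ∧ h13 = 1 ∧ h23 = 0 ∧ x = 0 ∧ y = p-2 ∧ z = 0) ∨
    (h01 = 1 ∧ h02 = 1 ∧ h03 = 1 ∧ h12 = 1 ∧ h13 = 0 ∧ h23 = 1 ∧ x = p-2 ∧ y = 0 ∧ z = p-2) ∨
    (h01 = 1 ∧ h02 = 1 ∧ h03 = 1 ∧ h12 = 0 ∧ h13 = 0 ∧ h23 = 0 ∧ x = p-2 ∧ y = 1 ∧ z = p-2) ∨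
    (h01 = 0 ∧ h02 = 0 ∧ h03 = 0 ∧ h12 = 0 ∧ h13 = 1 ∧ h23 = 0 ∧ x = p*p-2*p-1 ∧ y = 2 ∧ z = 0) ∨
    (h01 = 0 ∧ h02 = 0 ∧ h03 = 0 ∧ h12 = 1 ∧ h13 = 1 ∧ h23 = 1 ∧ x = p*p-2*p-1 ∧ y = 1 ∧ z = 0) ∨
    (h01 = 0 ∧ h02 = 0 ∧ h03 = 0 ∧ h12 = 1 ∧ h13 = 0 ∧ h23 = 0 ∧ x = p*p-2*p-2 ∧ y = 3 ∧ z = 0) ∨
    (h01 = 0 ∧ h02 = 0 ∧ h03 = 1 ∧ h12 = 1 ∧ h13 = 1 ∧ h23 = 0 ∧ x = p*p-p-1 ∧ y = 0 ∧ z = 0) ∨
    (h01 = 0 ∧ h02 = 1 ∧ h03 = 0 ∧ h12 = 1 ∧ h13 = 1 ∧ h23 = 0 ∧ x = p*p-p-2 ∧ y = 1 ∧ z = 0) := by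
  have q2 : 11*p ≤ p^2 := by nlinarith
  have q3 : 11*p^2 ≤ p^3 := by nlinarith
  obtain ⟨T, hT⟩ : ∃ T, T = p - (h03+h13+h23) - y - z := ⟨_, rfl⟩
  obtain ⟨S, hS⟩ : ∃ S, S = T + (p*T + h23 - h02 - h12 + z - x) := ⟨_, rfl⟩
  have e0 : h01+h02+h03+h12+h13+h23+2*(x+y+z)+2*(h01+h02+h03)-3
      = -(2*(p*((p-1)*(1+S)+1-(h01+h02+h03)))) := by
    subst hS; subst hT; linear_combination (-1)*E
  have s1 : S ≤ -1 := by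
    by_contra hc
    push Not at hc
    have r1 : (p-1)*1 ≤ (p-1)*(1+S) := mul_le_mul_of_nonneg_left (by linarith) (by linarith)
    have r2 : p*1 ≤ p*((p-1)*(1+S)+1-(h01+h02+h03)) :=
      mul_le_mul_of_nonneg_left (by linarith) (by linarith)
    linarith
  have hn : x + y + z ≤ p^2+p+3 := by
    by_contra hc
    push Not at hc
    have r1 : (p^2+p+4)*(2*p^2-2*p-2) ≤ (x+y+z)*(2*p^2-2*p-2) :=
      mul_le_mul_of_nonneg_right (by linarith) (by linarith)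
    have r2 : y*(2*p^2-2*p-2) ≤ y*(2*p^3-2*p-2) :=
      mul_le_mul_of_nonneg_left (by linarith) hy
    have r3 : z*(2*p^2-2*p-2) ≤ z*(2*p^3-2*p^2-2) :=
      mul_le_mul_of_nonneg_left (by linarith) hz
    have n4 : 0 ≤ h01*(2*p-3) := mul_nonneg a1 (by linarith)
    have n5 : 0 ≤ h02*(2*p^2-3) := mul_nonneg a2 (by linarith)
    have n6 : 0 ≤ h03*(2*p^3-3) := mul_nonneg a3 (by linarith)
    have n7 : 0 ≤ h12*(2*p^2-2*p-1) := mul_nonneg a4 (by linarith)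
    have n8 : 0 ≤ h13*(2*p^3-2*p-1) := mul_nonneg a5 (by linarith)
    have n9 : 0 ≤ h23*(2*p^3-2*p^2-1) := mul_nonneg a6 (by linarith)
    have r4 : (p^2+p+4)*(2*p^2-2*p-2) = 2*p^4+4*p^2-10*p-8 := by ring
    linarith
  have s2 : -2 ≤ S := by
    by_contra hc
    push Not at hc
    have r1 : (p-1)*(1+S) ≤ (p-1)*(-2) := mul_le_mul_of_nonneg_left (by linarith) (by linarith)
    have r2 : p*((p-1)*(1+S)+1-(h01+h02+h03)) ≤ p*(3-2*p) :=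
      mul_le_mul_of_nonneg_left (by linarith) (by linarith)
    nlinarith
  interval_cases S
  · have := v4_caseB p x y z h01 h02 h03 h12 h13 h23 T hp hy hz a1 b1 a2 b2 a3 b3 a4 b4 a5 b5 a6 b6
      (by linarith) (by linarith) (by linarith)
    exact Or.inr (Or.inr (Or.inr (Or.inr this)))
  · have := v4_caseA p x y z h01 h02 h03 h12 h13 h23 T hp hx hy hz a1 b1 a2 b2 a3 b3 a4 b4 a5 b5 a6
      b6 (by linarith) (by linarith) (by linarith)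
    rcases this with h | h | h | h
    · exact Or.inl h
    · exact Or.inr (Or.inl h)
    · exact Or.inr (Or.inr (Or.inl h))
    · exact Or.inr (Or.inr (Or.inr (Or.inl h)))

end Vale.Agent.P257.V4.A.ML
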