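import Vale.Agent.P257.V4.A.MonoWt
import Vale.Agent.P257.V4.A.MonoAE
import Vale.Agent.P257.V4.A.MonoV4

/-!
# P257 / V(4), part A: the monomial lists (helper717)

Letter `(k, i)` = interval `[i, i + k + 1)`.
-/

namespace Vale.Agent.P257.V4.A.ML

open Finset

/-- letters with `k + i < 2` -/
def L2 : Finset (ℕ × ℕ) := {(0,0), (1,0), (0,1)}

/-- letters with `k + i < 3` -/
def L3 : Finset (ℕ × ℕ) := {(0,0), (1,0), (2,0), (0,1), (1,1), (0,2)}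

/-- letters with `k + i < 4` -/
def L4 : Finset (ℕ × ℕ) :=
  {(0,0), (1,0), (2,0), (3,0), (0,1), (1,1), (2,1), (0,2), (1,2), (0,3)}

theorem mem_L2 {a : ℕ × ℕ} : a ∈ L2 ↔ a.1 + a.2 < 2 := by
  obtain ⟨k, i⟩ := a
  simp only [L2, mem_insert, mem_singleton, Prod.mk.injEq]
  omega

theorem mem_L3 {a : ℕ × ℕ} : a ∈ L3 ↔ a.1 + a.2 < 3 := by
  obtain ⟨k, i⟩ := a
  simp only [L3, mem_insert, mem_singleton, Prod.mk.injEq]
  omega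

theorem mem_L4 {a : ℕ × ℕ} : a ∈ L4 ↔ a.1 + a.2 < 4 := by
  obtain ⟨k, i⟩ := a
  simp only [L4, mem_insert, mem_singleton, Prod.mk.injEq]
  omega

theorem sum_L2 (f : ℕ × ℕ → ℤ) : ∑ a ∈ L2, f a = f (0,0) + f (1,0) + f (0,1) := by
  simp [L2, sum_insert, add_assoc]

theorem sum_L3 (f : ℕ × ℕ → ℤ) :
    ∑ a ∈ L3, f a = f (0,0) + f (1,0) + f (2,0) + f (0,1) + f (1,1) + f (0,2) := by
  simp [L3, sum_insert, add_assoc]

theorem sum_L4 (f : ℕ × ℕ → ℤ) :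
    ∑ a ∈ L4, f a = f (0,0) + f (1,0) + f (2,0) + f (3,0) + f (0,1) + f (1,1) + f (2,1) +
      f (0,2) + f (1,2) + f (0,3) := by
  simp [L4, sum_insert, add_assoc]

theorem Mono.s_eq (m : Mono) (L L' : Finset (ℕ × ℕ)) (h : ∀ a ∈ m.H, a ∈ L)
    (h' : ∀ a, m.B a ≠ 0 → a ∈ L') :
    (m.s : ℤ) = ∑ a ∈ L, m.hv a + 2 * ∑ a ∈ L', m.bv a := by
  have h1 := m.sumH_eq L h (fun _ => 1)
  have h2 := m.sumB_eq L' h' (fun _ => 1)
  simp only [mul_one] at h1 h2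
  rw [← h1, ← h2]
  unfold Mono.s Mono.nb Finsupp.sum
  push_cast
  simp

theorem Mono.wt_eq_L (p : ℕ) (m : Mono) (L L' : Finset (ℕ × ℕ)) (h : ∀ a ∈ m.H, a ∈ L)
    (h' : ∀ a, m.B a ≠ 0 → a ∈ L') :
    (2 * (p : ℤ) - 2) * (m.deg p : ℤ) - (m.s : ℤ) =
      ∑ a ∈ L, m.hv a * wh p a + ∑ a ∈ L', m.bv a * wb p a := by
  rw [Mono.wt_eq, m.sumH_eq L h, m.sumB_eq L' h']

/-- **(AE)** The common form of all the empty lists for `V(0..3)` and their pairings. -/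
theorem ae {p : ℕ} (hp : 11 ≤ p) (m0 m1 m2 m3 : ℤ) (c0 : 0 ≤ m0) (d0 : m0 ≤ 2) (c1 : 0 ≤ m1)
    (d1 : m1 ≤ 2) (c2 : 0 ≤ m2) (d2 : m2 ≤ 2) (c3 : 0 ≤ m3) (d3 : m3 ≤ 2) (m : Mono)
    (hs : 1 ≤ m.s) :
    (2 * (p : ℤ) - 2) * (m.deg p : ℤ) - (m.s : ℤ) ≠
      m0 + m1 * (2 * p - 1) + m2 * (2 * (p : ℤ) ^ 2 - 1) + m3 * (2 * (p : ℤ) ^ 3 - 1) - 1 := by
  intro hW
  have hp' : (11 : ℤ) ≤ p := by exact_mod_cast hp
  have q2 : 11 * (p : ℤ) ≤ (p : ℤ) ^ 2 := by nlinarith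
  have q3 : 11 * (p : ℤ) ^ 2 ≤ (p : ℤ) ^ 3 := by nlinarith
  have q4 : 11 * (p : ℤ) ^ 3 ≤ (p : ℤ) ^ 4 := by nlinarith
  have r1 := mul_nonneg (sub_nonneg.2 d1) (show (0:ℤ) ≤ p by linarith)
  have r2 := mul_nonneg (sub_nonneg.2 d2) (show (0:ℤ) ≤ (p:ℤ)^2 by linarith)
  have r3 := mul_nonneg (sub_nonneg.2 d3) (show (0:ℤ) ≤ (p:ℤ)^3 by linarith)
  obtain ⟨hH, hB⟩ := Mono.small (K := 3) hp (m := m) (by rw [hW]; norm_num; linarith)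
  have hH' : ∀ a ∈ m.H, a ∈ L3 := fun a ha => mem_L3.2 (hH a ha)
  have hB' : ∀ a, m.B a ≠ 0 → a ∈ L2 := fun a ha => mem_L2.2 (by have := hB a ha; omega)
  have hs' := m.s_eq L3 L2 hH' hB'
  rw [m.wt_eq_L p L3 L2 hH' hB'] at hW
  rw [sum_L3, sum_L2] at hs' hW
  simp only [wh, wb] at hW
  norm_num at hW
  refine ae_core p (m.bv (0,0)) (m.bv (1,0)) (m.bv (0,1)) (m.hv (0,0)) (m.hv (1,0)) (m.hv (2,0))
    (m.hv (0,1)) (m.hv (1,1)) (m.hv (0,2)) m0 m1 m2 m3 hp' (m.bv_nonneg _) (m.bv_nonneg _)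
    (m.bv_nonneg _) (m.hv_nonneg _) (m.hv_le_one _) (m.hv_nonneg _) (m.hv_le_one _)
    (m.hv_nonneg _) (m.hv_le_one _) (m.hv_nonneg _) (m.hv_le_one _) (m.hv_nonneg _)
    (m.hv_le_one _) (m.hv_nonneg _) (m.hv_le_one _) c0 d0 c1 d1 c2 d2 c3 d3 ?_ ?_
  · linarith [hW]
  · have : (1 : ℤ) ≤ m.s := by exact_mod_cast hs
    linarith

theorem sum_range4 (S : Finset ℕ) (hS : S ⊆ range 4) (f : ℕ → ℤ) :
    ∑ i ∈ S, f i = (if 0 ∈ S then 1 else 0) * f 0 + (if 1 ∈ S then 1 else 0) * f 1 +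
      (if 2 ∈ S then 1 else 0) * f 2 + (if 3 ∈ S then 1 else 0) * f 3 := by
  have : ∑ i ∈ S, f i = ∑ i ∈ range 4, (if i ∈ S then 1 else 0) * f i := by
    rw [← sum_subset hS (f := fun i => (if i ∈ S then 1 else 0) * f i)]
    · apply sum_congr rfl
      intro i hi
      simp [hi]
    · intro i _ hi
      simp [hi]
  rw [this]
  simp only [sum_range_succ, sum_range_zero, zero_add]

theorem ite01 (P : Prop) [Decidable P] : (0 : ℤ) ≤ (if P then 1 else 0) ∧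
    (if P then (1 : ℤ) else 0) ≤ 1 := by
  split <;> norm_num

theorem q_mul_NN (p n : ℕ) : (2 * (p : ℤ) - 2) * (NN p n : ℤ) = 2 * (p : ℤ) ^ n - 2 := by
  have := NN_geom p n
  linear_combination 2 * this

/-- The groups for the pairings of `V(0), .., V(3)`. -/
theorem noMono_mu {p : ℕ} (hp : 11 ≤ p) (S T : Finset ℕ) (hS : S ⊆ range 4) (hT : T ⊆ range 4)
    (l s : ℕ) (hs : 1 ≤ s) (h : s + (S.card + T.card) = (2 * p - 2) * l + 1) :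
    NoMono p s (∑ i ∈ S, NN p i + ∑ i ∈ T, NN p i + l) := by
  intro m hms hD
  have hS' := sum_range4 S hS (fun i => 2 * (p : ℤ) ^ i - 1)
  have hT' := sum_range4 T hT (fun i => 2 * (p : ℤ) ^ i - 1)
  have key : ∀ R : Finset ℕ, (2 * (p : ℤ) - 2) * ((∑ i ∈ R, NN p i : ℕ) : ℤ) + R.card =
      ∑ i ∈ R, (2 * (p : ℤ) ^ i - 1) := by
    intro R
    push_cast
    rw [mul_sum, card_eq_sum_ones]
    push_cast
    rw [← sum_add_distrib]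
    apply sum_congr rfl
    intro i _
    rw [q_mul_NN]
    ring
  have kS := key S
  have kT := key T
  have h2 : (2 * p - 2 : ℕ) = (2 * (p : ℤ) - 2) := by
    have : 2 ≤ 2 * p := by omega
    push_cast [this]
    ring
  have h3 : (s : ℤ) + (S.card + T.card) = (2 * (p : ℤ) - 2) * l + 1 := by
    rw [← h2]; exact_mod_cast h
  refine ae hp ((if 0 ∈ S then 1 else 0) + (if 0 ∈ T then 1 else 0))
    ((if 1 ∈ S then 1 else 0) + (if 1 ∈ T then 1 else 0))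
    ((if 2 ∈ S then 1 else 0) + (if 2 ∈ T then 1 else 0))
    ((if 3 ∈ S then 1 else 0) + (if 3 ∈ T then 1 else 0)) ?_ ?_ ?_ ?_ ?_ ?_ ?_ ?_ m
    (by rw [hms]; exact hs) ?_
  all_goals try linarith [(ite01 (0 ∈ S)).1, (ite01 (0 ∈ S)).2, (ite01 (0 ∈ T)).1,
    (ite01 (0 ∈ T)).2, (ite01 (1 ∈ S)).1, (ite01 (1 ∈ S)).2, (ite01 (1 ∈ T)).1,
    (ite01 (1 ∈ T)).2, (ite01 (2 ∈ S)).1, (ite01 (2 ∈ S)).2, (ite01 (2 ∈ T)).1,
    (ite01 (2 ∈ T)).2, (ite01 (3 ∈ S)).1, (ite01 (3 ∈ S)).2, (ite01 (3 ∈ T)).1,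
    (ite01 (3 ∈ T)).2]
  rw [hD, hms]
  push_cast at kS kT ⊢
  simp only [pow_zero, pow_one] at hS' hT'
  linear_combination kS + kT + hS' + hT' - h3

/-- The groups for the lifts of `v_1, v_2, v_3`. -/
theorem noMono_v {p : ℕ} (hp : 11 ≤ p) (n : ℕ) (hn : 1 ≤ n) (hn' : n ≤ 3) (l : ℕ) (hl : 1 ≤ l) :
    NoMono p ((2 * p - 2) * l + 1) (NN p n + l) := by
  intro m hms hD
  have hp' : (11 : ℤ) ≤ p := by exact_mod_cast hp
  have h2 : ((2 * p - 2 : ℕ) : ℤ) = (2 * (p : ℤ) - 2) := by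
    have : 2 ≤ 2 * p := by omega
    push_cast [this]
    ring
  have hl' : (1 : ℤ) ≤ l := by exact_mod_cast hl
  have hsZ : (m.s : ℤ) = (2 * (p : ℤ) - 2) * l + 1 := by
    rw [hms]; push_cast [h2]; ring
  have hDZ : (m.deg p : ℤ) = NN p n + l := by rw [hD]; push_cast; ring
  have hs2 : (2 : ℤ) ≤ m.s := by
    rw [hsZ]; nlinarith
  have hW : (2 * (p : ℤ) - 2) * (m.deg p : ℤ) - (m.s : ℤ) = 2 * (p : ℤ) ^ n - 3 := by
    rw [hsZ, hDZ]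
    linear_combination q_mul_NN p n
  have q2 : 11 * (p : ℤ) ≤ (p : ℤ) ^ 2 := by nlinarith
  have q3 : 11 * (p : ℤ) ^ 2 ≤ (p : ℤ) ^ 3 := by nlinarith
  have q4 : 11 * (p : ℤ) ^ 3 ≤ (p : ℤ) ^ 4 := by nlinarith
  have hpn : (p : ℤ) ^ n ≤ (p : ℤ) ^ 3 := pow_le_pow_right₀ (by linarith) hn'
  obtain ⟨hH, hB⟩ := Mono.small (K := 3) hp (m := m) (by rw [hW]; norm_num; linarith)
  have hH' : ∀ a ∈ m.H, a ∈ L3 := fun a ha => mem_L3.2 (hH a ha)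
  have hB' : ∀ a, m.B a ≠ 0 → a ∈ L2 := fun a ha => mem_L2.2 (by have := hB a ha; omega)
  have hs' := m.s_eq L3 L2 hH' hB'
  rw [m.wt_eq_L p L3 L2 hH' hB'] at hW
  rw [sum_L3, sum_L2] at hs' hW
  simp only [wh, wb] at hW
  norm_num at hW
  have main : ∀ m1 m2 m3 : ℤ, 0 ≤ m1 → 0 ≤ m2 → 0 ≤ m3 → m1 + m2 + m3 = 1 →
      2 * m1 * (p : ℤ) + 2 * m2 * (p : ℤ) ^ 2 + 2 * m3 * (p : ℤ) ^ 3 = 2 * (p : ℤ) ^ n → False := by
    intro m1 m2 m3 c1 c2 c3 d he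
    refine v_core p (m.bv (0,0)) (m.bv (1,0)) (m.bv (0,1)) (m.hv (0,0)) (m.hv (1,0)) (m.hv (2,0))
      (m.hv (0,1)) (m.hv (1,1)) (m.hv (0,2)) m1 m2 m3 hp' (m.bv_nonneg _) (m.bv_nonneg _)
      (m.bv_nonneg _) (m.hv_nonneg _) (m.hv_le_one _) (m.hv_nonneg _) (m.hv_le_one _)
      (m.hv_nonneg _) (m.hv_le_one _) (m.hv_nonneg _) (m.hv_le_one _) (m.hv_nonneg _)
      (m.hv_le_one _) (m.hv_nonneg _) (m.hv_le_one _) c1 c2 c3 d ?_ ?_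
    · linarith [hW]
    · linarith
  interval_cases n
  · exact main 1 0 0 (by norm_num) (by norm_num) (by norm_num) (by norm_num) (by ring)
  · exact main 0 1 0 (by norm_num) (by norm_num) (by norm_num) (by norm_num) (by ring)
  · exact main 0 0 1 (by norm_num) (by norm_num) (by norm_num) (by norm_num) (by ring)

end Vale.Agent.P257.V4.A.ML
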