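import Vale.Agent.P257.V4.A.MonoList

/-!
# P257 / V(4), part A: the complete `v_4` list (helper717)
-/

namespace Vale.Agent.P257.V4.A.ML

open Finset

set_option linter.unusedSimpArgs false

/-- A small weight which is a unit of the `ae`-form plus nothing else. -/
theorem ae_core' (p x y z h01 h02 h03 h12 h13 h23 m0 m1 m2 m3 : ℤ) (hp : 11 ≤ p)
    (hx : 0 ≤ x) (hy : 0 ≤ y) (hz : 0 ≤ z)
    (a1 : 0 ≤ h01) (b1 : h01 ≤ 1) (a2 : 0 ≤ h02) (b2 : h02 ≤ 1) (a3 : 0 ≤ h03) (b3 : h03 ≤ 1)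
    (a4 : 0 ≤ h12) (b4 : h12 ≤ 1) (a5 : 0 ≤ h13) (b5 : h13 ≤ 1) (a6 : 0 ≤ h23) (b6 : h23 ≤ 1)
    (c0 : 0 ≤ m0) (d0 : m0 ≤ 2) (c1 : 0 ≤ m1) (d1 : m1 ≤ 2) (c2 : 0 ≤ m2) (d2 : m2 ≤ 2)
    (c3 : 0 ≤ m3) (d3 : m3 ≤ 2)
    (E : x*(2*p^2-2*p-2)+y*(2*p^3-2*p-2)+z*(2*p^3-2*p^2-2)+h01*(2*p-3)+h02*(2*p^2-3)
      +h03*(2*p^3-3)+h12*(2*p^2-2*p-1)+h13*(2*p^3-2*p-1)+h23*(2*p^3-2*p^2-1)
      = m0+m1*(2*p-1)+m2*(2*p^2-1)+m3*(2*p^3-1)-1) :
    h01+h02+h03+h12+h13+h23+2*(x+y+z) = 0 := by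
  by_contra hc
  exact ae_core p x y z h01 h02 h03 h12 h13 h23 m0 m1 m2 m3 hp hx hy hz a1 b1 a2 b2 a3 b3 a4 b4
    a5 b5 a6 b6 c0 d0 c1 d1 c2 d2 c3 d3 E (by omega)

theorem one_of_seven {u v w g04 g14 g24 g34 : ℤ} (hu : 0 ≤ u) (hv : 0 ≤ v) (hw : 0 ≤ w)
    (k1 : 0 ≤ g04) (k2 : 0 ≤ g14) (k3 : 0 ≤ g24) (k4 : 0 ≤ g34)
    (hone : u+v+w+g04+g14+g24+g34 = 1) :
      (u = 1 ∧ v = 0 ∧ w = 0 ∧ g04 = 0 ∧ g14 = 0 ∧ g24 = 0 ∧ g34 = 0) ∨
      (u = 0 ∧ v = 1 ∧ w = 0 ∧ g04 = 0 ∧ g14 = 0 ∧ g24 = 0 ∧ g34 = 0) ∨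
      (u = 0 ∧ v = 0 ∧ w = 1 ∧ g04 = 0 ∧ g14 = 0 ∧ g24 = 0 ∧ g34 = 0) ∨
      (u = 0 ∧ v = 0 ∧ w = 0 ∧ g04 = 1 ∧ g14 = 0 ∧ g24 = 0 ∧ g34 = 0) ∨
      (u = 0 ∧ v = 0 ∧ w = 0 ∧ g04 = 0 ∧ g14 = 1 ∧ g24 = 0 ∧ g34 = 0) ∨
      (u = 0 ∧ v = 0 ∧ w = 0 ∧ g04 = 0 ∧ g14 = 0 ∧ g24 = 1 ∧ g34 = 0) ∨
      (u = 0 ∧ v = 0 ∧ w = 0 ∧ g04 = 0 ∧ g14 = 0 ∧ g24 = 0 ∧ g34 = 1) := by
  rcases (show u = 0 ∨ u = 1 by omega) with rfl | rfl
  · right
    rcases (show v = 0 ∨ v = 1 by omega) with rfl | rfl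
    · right
      rcases (show w = 0 ∨ w = 1 by omega) with rfl | rfl
      · right
        rcases (show g04 = 0 ∨ g04 = 1 by omega) with rfl | rfl
        · right
          rcases (show g14 = 0 ∨ g14 = 1 by omega) with rfl | rfl
          · right
            rcases (show g24 = 0 ∨ g24 = 1 by omega) with rfl | rfl
            · right
              refine ⟨rfl, rfl, rfl, rfl, rfl, rfl, by omega⟩
            · left
              refine ⟨rfl, rfl, rfl, rfl, rfl, rfl, by omega⟩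
          · left
            refine ⟨rfl, rfl, rfl, rfl, rfl, by omega, by omega⟩
        · left
          refine ⟨rfl, rfl, rfl, rfl, by omega, by omega, by omega⟩
      · left
        refine ⟨rfl, rfl, rfl, by omega, by omega, by omega, by omega⟩
    · left
      refine ⟨rfl, rfl, by omega, by omega, by omega, by omega, by omega⟩
  · left
    refine ⟨rfl, by omega, by omega, by omega, by omega, by omega, by omega⟩

/-- In weight `2p^4 - 3` there are no letters of size `p^4`, except `h_[0,4)` alone. -/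
theorem v4_big (p x y z h01 h02 h03 h12 h13 h23 u v w g04 g14 g24 g34 : ℤ) (hp : 11 ≤ p)
    (hx : 0 ≤ x) (hy : 0 ≤ y) (hz : 0 ≤ z)
    (a1 : 0 ≤ h01) (b1 : h01 ≤ 1) (a2 : 0 ≤ h02) (b2 : h02 ≤ 1) (a3 : 0 ≤ h03) (b3 : h03 ≤ 1)
    (a4 : 0 ≤ h12) (b4 : h12 ≤ 1) (a5 : 0 ≤ h13) (b5 : h13 ≤ 1) (a6 : 0 ≤ h23) (b6 : h23 ≤ 1)
    (hu : 0 ≤ u) (hv : 0 ≤ v) (hw : 0 ≤ w) (k1 : 0 ≤ g04) (k2 : 0 ≤ g14) (k3 : 0 ≤ g24)
    (k4 : 0 ≤ g34)
    (E : x*(2*p^2-2*p-2)+y*(2*p^3-2*p-2)+z*(2*p^3-2*p^2-2)+h01*(2*p-3)+h02*(2*p^2-3)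
      +h03*(2*p^3-3)+h12*(2*p^2-2*p-1)+h13*(2*p^3-2*p-1)+h23*(2*p^3-2*p^2-1)
      +(u*(2*p^4-2*p-2)+v*(2*p^4-2*p^2-2)+w*(2*p^4-2*p^3-2)+g04*(2*p^4-3)+g14*(2*p^4-2*p-1)
      +g24*(2*p^4-2*p^2-1)+g34*(2*p^4-2*p^3-1)) = 2*p^4-3)
    (hs : 2 ≤ h01+h02+h03+h12+h13+h23+2*(x+y+z)+(2*(u+v+w)+(g04+g14+g24+g34))) :
    u = 0 ∧ v = 0 ∧ w = 0 ∧ g04 = 0 ∧ g14 = 0 ∧ g24 = 0 ∧ g34 = 0 := by
  have q2 : 11*p ≤ p^2 := by nlinarith
  have q3 : 11*p^2 ≤ p^3 := by nlinarith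
  have q4 : 11*p^3 ≤ p^4 := by nlinarith
  have n4 : 0 ≤ h01*(2*p-3) := mul_nonneg a1 (by linarith)
  have n5 : 0 ≤ h02*(2*p^2-3) := mul_nonneg a2 (by linarith)
  have n6 : 0 ≤ h03*(2*p^3-3) := mul_nonneg a3 (by linarith)
  have n7 : 0 ≤ h12*(2*p^2-2*p-1) := mul_nonneg a4 (by linarith)
  have n8 : 0 ≤ h13*(2*p^3-2*p-1) := mul_nonneg a5 (by linarith)
  have n9 : 0 ≤ h23*(2*p^3-2*p^2-1) := mul_nonneg a6 (by linarith)
  have n1 : 0 ≤ x*(2*p^2-2*p-2) := mul_nonneg hx (by linarith)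
  have n2 : 0 ≤ y*(2*p^3-2*p-2) := mul_nonneg hy (by linarith)
  have n3 : 0 ≤ z*(2*p^3-2*p^2-2) := mul_nonneg hz (by linarith)
  have hsum : u+v+w+g04+g14+g24+g34 ≤ 1 := by
    by_contra hc
    push Not at hc
    have r0 : 2*(2*p^4-2*p^3-2) ≤ (u+v+w+g04+g14+g24+g34)*(2*p^4-2*p^3-2) :=
      mul_le_mul_of_nonneg_right (by linarith) (by linarith)
    have r1 := mul_nonneg hu (show (0:ℤ) ≤ 2*p^3-2*p by linarith)
    have r2 := mul_nonneg hv (show (0:ℤ) ≤ 2*p^3-2*p^2 by linarith)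
    have r3 := mul_nonneg k1 (show (0:ℤ) ≤ 2*p^3-1 by linarith)
    have r4 := mul_nonneg k2 (show (0:ℤ) ≤ 2*p^3-2*p+1 by linarith)
    have r5 := mul_nonneg k3 (show (0:ℤ) ≤ 2*p^3-2*p^2+1 by linarith)
    linarith
  have low : ∀ m0 m1 m2 m3 : ℤ, 0 ≤ m0 → m0 ≤ 2 → 0 ≤ m1 → m1 ≤ 2 → 0 ≤ m2 → m2 ≤ 2 → 0 ≤ m3 →
      m3 ≤ 2 → 1 ≤ m0 + m1 + m2 + m3 →
      x*(2*p^2-2*p-2)+y*(2*p^3-2*p-2)+z*(2*p^3-2*p^2-2)+h01*(2*p-3)+h02*(2*p^2-3)
      +h03*(2*p^3-3)+h12*(2*p^2-2*p-1)+h13*(2*p^3-2*p-1)+h23*(2*p^3-2*p^2-1)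
      = m0+m1*(2*p-1)+m2*(2*p^2-1)+m3*(2*p^3-1)-1 →
      (m0 = 1 ∧ m1 = 0 ∧ m2 = 0 ∧ m3 = 0) ∧
      h01+h02+h03+h12+h13+h23+2*(x+y+z) = 0 := by
    intro m0 m1 m2 m3 c0 d0 c1 d1 c2 d2 c3 d3 hm he
    have h0 := ae_core' p x y z h01 h02 h03 h12 h13 h23 m0 m1 m2 m3 hp hx hy hz a1 b1 a2 b2 a3 b3
      a4 b4 a5 b5 a6 b6 c0 d0 c1 d1 c2 d2 c3 d3 he
    refine ⟨?_, h0⟩
    have z1 : x = 0 := by linarith
    have z2 : y = 0 := by linarith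
    have z3 : z = 0 := by linarith
    have z4 : h01 = 0 := by linarith
    have z5 : h02 = 0 := by linarith
    have z6 : h03 = 0 := by linarith
    have z7 : h12 = 0 := by linarith
    have z8 : h13 = 0 := by linarith
    have z9 : h23 = 0 := by linarith
    rw [z1, z2, z3, z4, z5, z6, z7, z8, z9] at he
    have t1 : 0 ≤ m1*(2*p-2) := mul_nonneg c1 (by linarith)
    have t2 : 0 ≤ m2*(2*p^2-2) := mul_nonneg c2 (by linarith)
    have t3 : 0 ≤ m3*(2*p^3-2) := mul_nonneg c3 (by linarith)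
    have w1 : m1*(2*p-2) = 0 := by linarith
    have w2 : m2*(2*p^2-2) = 0 := by linarith
    have w3 : m3*(2*p^3-2) = 0 := by linarith
    have v1 : m1 = 0 := by
      rcases mul_eq_zero.1 w1 with h | h
      · exact h
      · exfalso; linarith
    have v2 : m2 = 0 := by
      rcases mul_eq_zero.1 w2 with h | h
      · exact h
      · exfalso; linarith
    have v3 : m3 = 0 := by
      rcases mul_eq_zero.1 w3 with h | h
      · exact h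
      · exfalso; linarith
    subst v1; subst v2; subst v3
    refine ⟨by linarith, rfl, rfl, rfl⟩
  by_contra hne
  have hone : u+v+w+g04+g14+g24+g34 = 1 := by omega
  have cases7 := one_of_seven hu hv hw k1 k2 k3 k4 hone
  rcases cases7 with h | h | h | h | h | h | h <;>
    obtain ⟨e1, e2, e3, e4, e5, e6, e7⟩ := h <;>
    rw [e1, e2, e3, e4, e5, e6, e7] at E hs
  · obtain ⟨⟨_, h, _⟩, _⟩ := low 1 1 0 0 (by norm_num) (by norm_num) (by norm_num) (by norm_num)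
      (by norm_num) (by norm_num) (by norm_num) (by norm_num) (by norm_num) (by linarith)
    norm_num at h
  · obtain ⟨⟨_, _, h, _⟩, _⟩ := low 1 0 1 0 (by norm_num) (by norm_num) (by norm_num) (by norm_num)
      (by norm_num) (by norm_num) (by norm_num) (by norm_num) (by norm_num) (by linarith)
    norm_num at h
  · obtain ⟨⟨_, _, _, h⟩, _⟩ := low 1 0 0 1 (by norm_num) (by norm_num) (by norm_num) (by norm_num)
      (by norm_num) (by norm_num) (by norm_num) (by norm_num) (by norm_num) (by linarith)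
    norm_num at h
  · obtain ⟨_, h⟩ := low 1 0 0 0 (by norm_num) (by norm_num) (by norm_num) (by norm_num)
      (by norm_num) (by norm_num) (by norm_num) (by norm_num) (by norm_num) (by linarith)
    linarith
  · obtain ⟨⟨h, _⟩, _⟩ := low 0 1 0 0 (by norm_num) (by norm_num) (by norm_num) (by norm_num)
      (by norm_num) (by norm_num) (by norm_num) (by norm_num) (by norm_num) (by linarith)
    norm_num at h
  · obtain ⟨⟨h, _⟩, _⟩ := low 0 0 1 0 (by norm_num) (by norm_num) (by norm_num) (by norm_num)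
      (by norm_num) (by norm_num) (by norm_num) (by norm_num) (by norm_num) (by linarith)
    norm_num at h
  · obtain ⟨⟨h, _⟩, _⟩ := low 0 0 0 1 (by norm_num) (by norm_num) (by norm_num) (by norm_num)
      (by norm_num) (by norm_num) (by norm_num) (by norm_num) (by norm_num) (by linarith)
    norm_num at h

theorem forall_L4 (P : ℕ × ℕ → Prop) : (∀ a ∈ L4, P a) ↔ P (0,0) ∧ P (1,0) ∧ P (2,0) ∧ P (3,0) ∧
    P (0,1) ∧ P (1,1) ∧ P (2,1) ∧ P (0,2) ∧ P (1,2) ∧ P (0,3) := by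
  simp [L4]

theorem forall_L3 (P : ℕ × ℕ → Prop) : (∀ a ∈ L3, P a) ↔ P (0,0) ∧ P (1,0) ∧ P (2,0) ∧
    P (0,1) ∧ P (1,1) ∧ P (0,2) := by
  simp [L3]

theorem Mono.ext_of {m m' : Mono} (L L' : Finset (ℕ × ℕ)) (h : ∀ a ∈ m.H, a ∈ L)
    (h' : ∀ a ∈ m'.H, a ∈ L) (hB : ∀ a, m.B a ≠ 0 → a ∈ L') (hB' : ∀ a, m'.B a ≠ 0 → a ∈ L')
    (e : ∀ a ∈ L, m.hv a = m'.hv a) (e' : ∀ a ∈ L', m.bv a = m'.bv a) : m = m' := by
  obtain ⟨H, B⟩ := m
  obtain ⟨H', B'⟩ := m'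
  have h1 : H = H' := by
    ext a
    by_cases ha : a ∈ L
    · have := e a ha
      constructor
      · intro h2
        exact Mono.hv_eq_one.1 (this ▸ Mono.hv_eq_one.2 h2)
      · intro h2
        exact Mono.hv_eq_one.1 (this.symm ▸ Mono.hv_eq_one.2 h2)
    · exact ⟨fun h2 => absurd (h a h2) ha, fun h2 => absurd (h' a h2) ha⟩
  have h2 : B = B' := by
    ext a
    by_cases ha : a ∈ L'
    · have := e' a ha
      unfold Mono.bv at this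
      exact_mod_cast this
    · have r1 : B a = 0 := by
        by_contra hc
        exact ha (hB a hc)
      have r2 : B' a = 0 := by
        by_contra hc
        exact ha (hB' a hc)
      rw [r1, r2]
  rw [h1, h2]

open Finsupp in
theorem supp_single {a b : ℕ × ℕ} {c : ℕ} (h : (single b c : (ℕ × ℕ) →₀ ℕ) a ≠ 0) : a = b := by
  by_contra hc
  exact h (Finsupp.single_eq_of_ne hc)

theorem supp_add {f g : (ℕ × ℕ) →₀ ℕ} {a : ℕ × ℕ} (h : (f + g) a ≠ 0) : f a ≠ 0 ∨ g a ≠ 0 := by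
  by_contra hc
  push Not at hc
  exact h (by simp [hc.1, hc.2])

open Finsupp in
/-- `h30 h21 h12 h20 h11 b20^(p-3)` -/
noncomputable def V1a (p : ℕ) : Mono := ⟨{(1,0), (2,0), (0,1), (1,1), (0,2)}, single (1,0) (p - 3)⟩

open Finsupp in
/-- `h30 h21 h20 b20^(p-2)` -/
noncomputable def V1b (p : ℕ) : Mono := ⟨{(1,0), (2,0), (1,1)}, single (1,0) (p - 2)⟩

open Finsupp in
/-- `h30 h12 h20 h11 h10 b11^(p-2) b10^(p-2)` -/
noncomputable def V2a (p : ℕ) : Mono :=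
  ⟨{(0,0), (1,0), (2,0), (0,1), (0,2)}, single (0,0) (p - 2) + single (0,1) (p - 2)⟩

open Finsupp in
/-- `h30 h20 h10 b20 b11^(p-2) b10^(p-2)` -/
noncomputable def V2b (p : ℕ) : Mono :=
  ⟨{(0,0), (1,0), (2,0)}, single (0,0) (p - 2) + single (0,1) (p - 2) + single (1,0) 1⟩

open Finsupp in
/-- `h21 b20^2 b10^(p^2-2p-1)` -/
noncomputable def Va (p : ℕ) : Mono := ⟨{(1,1)}, single (0,0) (p ^ 2 - 2 * p - 1) + single (1,0) 2⟩

open Finsupp in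
/-- `h21 h12 h11 b20 b10^(p^2-2p-1)` -/
noncomputable def Vb (p : ℕ) : Mono :=
  ⟨{(0,1), (1,1), (0,2)}, single (0,0) (p ^ 2 - 2 * p - 1) + single (1,0) 1⟩

open Finsupp in
/-- `h11 b20^3 b10^(p^2-2p-2)` -/
noncomputable def Vc (p : ℕ) : Mono := ⟨{(0,1)}, single (0,0) (p ^ 2 - 2 * p - 2) + single (1,0) 3⟩

open Finsupp in
/-- `h30 h21 h11 b10^(p^2-p-1)` -/
noncomputable def Wa (p : ℕ) : Mono := ⟨{(2,0), (0,1), (1,1)}, single (0,0) (p ^ 2 - p - 1)⟩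

open Finsupp in
/-- `h21 h20 h11 b20 b10^(p^2-p-2)` -/
noncomputable def Wb (p : ℕ) : Mono :=
  ⟨{(1,0), (0,1), (1,1)}, single (0,0) (p ^ 2 - p - 2) + single (1,0) 1⟩

/-- Complete list of monomials of weight `2p^4 - 3` and `s ≥ 2`: the groups
`((2p-2) l + 1, N_4 + l)`, all `l ≥ 1` at once. -/
theorem list_v4 {p : ℕ} (hp : 11 ≤ p) (m : Mono) (hs : 2 ≤ m.s)
    (hW : (2 * (p : ℤ) - 2) * (m.deg p : ℤ) - (m.s : ℤ) = 2 * (p : ℤ) ^ 4 - 3) :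
    m = V1a p ∨ m = V1b p ∨ m = V2a p ∨ m = V2b p ∨ m = Va p ∨ m = Vb p ∨ m = Vc p ∨
      m = Wa p ∨ m = Wb p := by
  have hp' : (11 : ℤ) ≤ p := by exact_mod_cast hp
  have q4 : 11 * (p : ℤ) ^ 4 ≤ (p : ℤ) ^ 5 := by
    have : 0 ≤ (p : ℤ) ^ 4 := by positivity
    nlinarith
  have q5 : 0 < (p : ℤ) ^ 4 := by positivity
  obtain ⟨hH, hB⟩ := Mono.small (K := 4) hp (m := m) (by rw [hW]; norm_num; linarith)
  have hH' : ∀ a ∈ m.H, a ∈ L4 := fun a ha => mem_L4.2 (hH a ha)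
  have hB' : ∀ a, m.B a ≠ 0 → a ∈ L3 := fun a ha => mem_L3.2 (by have := hB a ha; omega)
  have hs' := m.s_eq L4 L3 hH' hB'
  rw [m.wt_eq_L p L4 L3 hH' hB'] at hW
  rw [sum_L4, sum_L3] at hs' hW
  simp only [wh, wb] at hW
  norm_num at hW
  have hs2 : (2 : ℤ) ≤ m.s := by exact_mod_cast hs
  obtain ⟨z1, z2, z3, z4, z5, z6, z7⟩ := v4_big p (m.bv (0,0)) (m.bv (1,0)) (m.bv (0,1))
    (m.hv (0,0)) (m.hv (1,0)) (m.hv (2,0)) (m.hv (0,1)) (m.hv (1,1)) (m.hv (0,2))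
    (m.bv (2,0)) (m.bv (1,1)) (m.bv (0,2)) (m.hv (3,0)) (m.hv (2,1)) (m.hv (1,2)) (m.hv (0,3)) hp'
    (m.bv_nonneg _) (m.bv_nonneg _)
    (m.bv_nonneg _) (m.hv_nonneg _) (m.hv_le_one _) (m.hv_nonneg _) (m.hv_le_one _)
    (m.hv_nonneg _) (m.hv_le_one _) (m.hv_nonneg _) (m.hv_le_one _) (m.hv_nonneg _)
    (m.hv_le_one _) (m.hv_nonneg _) (m.hv_le_one _) (m.bv_nonneg _) (m.bv_nonneg _)
    (m.bv_nonneg _) (m.hv_nonneg _) (m.hv_nonneg _) (m.hv_nonneg _) (m.hv_nonneg _)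
    (by linarith [hW]) (by linarith)
  rw [z1, z2, z3, z4, z5, z6, z7] at hW
  have nat2 : ((p ^ 2 : ℕ) : ℤ) = (p : ℤ) * p := by push_cast; ring
  have hpp : 11 * (p : ℤ) ≤ (p : ℤ) * p := by nlinarith
  have sub : ∀ c d : ℕ, (c : ℤ) * p + d ≤ (p : ℤ) * p →
      ((p ^ 2 - c * p - d : ℕ) : ℤ) = (p : ℤ) * p - c * p - d := by
    intro c d h
    have h1 : c * p + d ≤ p ^ 2 := by
      rw [← nat2] at h; exact_mod_cast h
    rw [Nat.sub_sub, Nat.cast_sub h1, nat2]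
    push_cast
    ring
  have s1 := sub 2 1 (by push_cast; linarith)
  have s2 := sub 2 2 (by push_cast; linarith)
  have s3 := sub 1 1 (by push_cast; linarith)
  have s4 := sub 1 2 (by push_cast; linarith)
  have t2 : ((p - 2 : ℕ) : ℤ) = (p : ℤ) - 2 := by
    rw [Nat.cast_sub (by omega)]; norm_num
  have t3 : ((p - 3 : ℕ) : ℤ) = (p : ℤ) - 3 := by
    rw [Nat.cast_sub (by omega)]; norm_num
  simp only [one_mul] at s3 s4
  push_cast at s1 s2 s3 s4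
  have fin : ∀ m' : Mono, (∀ a ∈ m'.H, a ∈ L4) → (∀ a, m'.B a ≠ 0 → a ∈ L3) →
      m.hv (0,0) = m'.hv (0,0) → m.hv (1,0) = m'.hv (1,0) → m.hv (2,0) = m'.hv (2,0) →
      m.hv (0,1) = m'.hv (0,1) → m.hv (1,1) = m'.hv (1,1) → m.hv (0,2) = m'.hv (0,2) →
      0 = m'.hv (3,0) → 0 = m'.hv (2,1) → 0 = m'.hv (1,2) → 0 = m'.hv (0,3) →
      m.bv (0,0) = m'.bv (0,0) → m.bv (1,0) = m'.bv (1,0) → m.bv (0,1) = m'.bv (0,1) →
      0 = m'.bv (2,0) → 0 = m'.bv (1,1) → 0 = m'.bv (0,2) → m = m' := by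
    intro m' i1 i2 i3 i4 i5 i6 i7 i8 i9 i10 i11 i12 i13 i14 i15 i16 i17 i18
    refine Mono.ext_of L4 L3 hH' i1 hB' i2 ?_ ?_
    · rw [forall_L4, z4, z5, z6, z7]
      exact ⟨i3, i4, i5, i9, i6, i7, i10, i8, i11, i12⟩
    · rw [forall_L3, z1, z2, z3]
      exact ⟨i13, i14, i16, i15, i17, i18⟩
  have bsup : ∀ (B : (ℕ × ℕ) →₀ ℕ), (B.support ⊆ L3) → ∀ a, B a ≠ 0 → a ∈ L3 :=
    fun B h a ha => h (Finsupp.mem_support_iff.2 ha)
  rcases v4_core p (m.bv (0,0)) (m.bv (1,0)) (m.bv (0,1)) (m.hv (0,0)) (m.hv (1,0)) (m.hv (2,0))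
    (m.hv (0,1)) (m.hv (1,1)) (m.hv (0,2)) hp' (m.bv_nonneg _) (m.bv_nonneg _)
    (m.bv_nonneg _) (m.hv_nonneg _) (m.hv_le_one _) (m.hv_nonneg _) (m.hv_le_one _)
    (m.hv_nonneg _) (m.hv_le_one _) (m.hv_nonneg _) (m.hv_le_one _) (m.hv_nonneg _)
    (m.hv_le_one _) (m.hv_nonneg _) (m.hv_le_one _) (by linarith [hW]) with
    h | h | h | h | h | h | h | h | h <;> obtain ⟨f1, f2, f3, f4, f5, f6, f7, f8, f9⟩ := h
  · refine Or.inl (fin (V1a p) ?_ ?_ ?_ ?_ ?_ ?_ ?_ ?_ ?_ ?_ ?_ ?_ ?_ ?_ ?_ ?_ ?_ ?_)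
    · simp [V1a, L4]
    · intro a ha
      simp only [V1a] at ha
      rw [supp_single ha]; simp [L3]
    · rw [f1]; simp [Mono.hv, V1a]
    · rw [f2]; simp [Mono.hv, V1a]
    · rw [f3]; simp [Mono.hv, V1a]
    · rw [f4]; simp [Mono.hv, V1a]
    · rw [f5]; simp [Mono.hv, V1a]
    · rw [f6]; simp [Mono.hv, V1a]
    · simp [Mono.hv, V1a]
    · simp [Mono.hv, V1a]
    · simp [Mono.hv, V1a]
    · simp [Mono.hv, V1a]
    · rw [f7]; simp only [Mono.bv, V1a, Finsupp.add_apply, Finsupp.single_apply, Prod.mk.injEq]; norm_num [t3]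
    · rw [f8]; simp only [Mono.bv, V1a, Finsupp.add_apply, Finsupp.single_apply, Prod.mk.injEq]; norm_num [t3]
    · rw [f9]; simp only [Mono.bv, V1a, Finsupp.add_apply, Finsupp.single_apply, Prod.mk.injEq]; norm_num [t3]
    · simp [Mono.bv, V1a]
    · simp [Mono.bv, V1a]
    · simp [Mono.bv, V1a]
  · refine Or.inr (Or.inl (fin (V1b p) ?_ ?_ ?_ ?_ ?_ ?_ ?_ ?_ ?_ ?_ ?_ ?_ ?_ ?_ ?_ ?_ ?_ ?_))
    · simp [V1b, L4]
    · intro a ha
      simp only [V1b] at ha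
      rw [supp_single ha]; simp [L3]
    · rw [f1]; simp [Mono.hv, V1b]
    · rw [f2]; simp [Mono.hv, V1b]
    · rw [f3]; simp [Mono.hv, V1b]
    · rw [f4]; simp [Mono.hv, V1b]
    · rw [f5]; simp [Mono.hv, V1b]
    · rw [f6]; simp [Mono.hv, V1b]
    · simp [Mono.hv, V1b]
    · simp [Mono.hv, V1b]
    · simp [Mono.hv, V1b]
    · simp [Mono.hv, V1b]
    · rw [f7]; simp only [Mono.bv, V1b, Finsupp.add_apply, Finsupp.single_apply, Prod.mk.injEq]; norm_num [t2]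
    · rw [f8]; simp only [Mono.bv, V1b, Finsupp.add_apply, Finsupp.single_apply, Prod.mk.injEq]; norm_num [t2]
    · rw [f9]; simp only [Mono.bv, V1b, Finsupp.add_apply, Finsupp.single_apply, Prod.mk.injEq]; norm_num [t2]
    · simp [Mono.bv, V1b]
    · simp [Mono.bv, V1b]
    · simp [Mono.bv, V1b]
  · refine Or.inr (Or.inr (Or.inl (fin (V2a p) ?_ ?_ ?_ ?_ ?_ ?_ ?_ ?_ ?_ ?_ ?_ ?_ ?_ ?_ ?_ ?_ ?_ ?_)))
    · simp [V2a, L4]
    · intro a ha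
      simp only [V2a] at ha
      rcases supp_add ha with h | h <;> rw [supp_single h] <;> simp [L3]
    · rw [f1]; simp [Mono.hv, V2a]
    · rw [f2]; simp [Mono.hv, V2a]
    · rw [f3]; simp [Mono.hv, V2a]
    · rw [f4]; simp [Mono.hv, V2a]
    · rw [f5]; simp [Mono.hv, V2a]
    · rw [f6]; simp [Mono.hv, V2a]
    · simp [Mono.hv, V2a]
    · simp [Mono.hv, V2a]
    · simp [Mono.hv, V2a]
    · simp [Mono.hv, V2a]
    · rw [f7]; simp only [Mono.bv, V2a, Finsupp.add_apply, Finsupp.single_apply, Prod.mk.injEq]; norm_num [t2]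
    · rw [f8]; simp only [Mono.bv, V2a, Finsupp.add_apply, Finsupp.single_apply, Prod.mk.injEq]; norm_num [t2]
    · rw [f9]; simp only [Mono.bv, V2a, Finsupp.add_apply, Finsupp.single_apply, Prod.mk.injEq]; norm_num [t2]
    · simp [Mono.bv, V2a]
    · simp [Mono.bv, V2a]
    · simp [Mono.bv, V2a]
  · refine Or.inr (Or.inr (Or.inr (Or.inl (fin (V2b p) ?_ ?_ ?_ ?_ ?_ ?_ ?_ ?_ ?_ ?_ ?_ ?_ ?_ ?_ ?_ ?_ ?_ ?_))))
    · simp [V2b, L4]
    · intro a ha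
      simp only [V2b] at ha
      rcases supp_add ha with h | h
      · rcases supp_add h with h | h <;> rw [supp_single h] <;> simp [L3]
      · rw [supp_single h]; simp [L3]
    · rw [f1]; simp [Mono.hv, V2b]
    · rw [f2]; simp [Mono.hv, V2b]
    · rw [f3]; simp [Mono.hv, V2b]
    · rw [f4]; simp [Mono.hv, V2b]
    · rw [f5]; simp [Mono.hv, V2b]
    · rw [f6]; simp [Mono.hv, V2b]
    · simp [Mono.hv, V2b]
    · simp [Mono.hv, V2b]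
    · simp [Mono.hv, V2b]
    · simp [Mono.hv, V2b]
    · rw [f7]; simp only [Mono.bv, V2b, Finsupp.add_apply, Finsupp.single_apply, Prod.mk.injEq]; norm_num [t2]
    · rw [f8]; simp only [Mono.bv, V2b, Finsupp.add_apply, Finsupp.single_apply, Prod.mk.injEq]; norm_num [t2]
    · rw [f9]; simp only [Mono.bv, V2b, Finsupp.add_apply, Finsupp.single_apply, Prod.mk.injEq]; norm_num [t2]
    · simp [Mono.bv, V2b]
    · simp [Mono.bv, V2b]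
    · simp [Mono.bv, V2b]
  · refine Or.inr (Or.inr (Or.inr (Or.inr (Or.inl (fin (Va p) ?_ ?_ ?_ ?_ ?_ ?_ ?_ ?_ ?_ ?_ ?_ ?_ ?_ ?_ ?_ ?_ ?_ ?_)))))
    · simp [Va, L4]
    · intro a ha
      simp only [Va] at ha
      rcases supp_add ha with h | h <;> rw [supp_single h] <;> simp [L3]
    · rw [f1]; simp [Mono.hv, Va]
    · rw [f2]; simp [Mono.hv, Va]
    · rw [f3]; simp [Mono.hv, Va]
    · rw [f4]; simp [Mono.hv, Va]
    · rw [f5]; simp [Mono.hv, Va]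
    · rw [f6]; simp [Mono.hv, Va]
    · simp [Mono.hv, Va]
    · simp [Mono.hv, Va]
    · simp [Mono.hv, Va]
    · simp [Mono.hv, Va]
    · rw [f7]; simp only [Mono.bv, Va, Finsupp.add_apply, Finsupp.single_apply, Prod.mk.injEq]; norm_num [s1]
    · rw [f8]; simp only [Mono.bv, Va, Finsupp.add_apply, Finsupp.single_apply, Prod.mk.injEq]; norm_num [s1]
    · rw [f9]; simp only [Mono.bv, Va, Finsupp.add_apply, Finsupp.single_apply, Prod.mk.injEq]; norm_num [s1]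
    · simp [Mono.bv, Va]
    · simp [Mono.bv, Va]
    · simp [Mono.bv, Va]
  · refine Or.inr (Or.inr (Or.inr (Or.inr (Or.inr (Or.inl (fin (Vb p) ?_ ?_ ?_ ?_ ?_ ?_ ?_ ?_ ?_ ?_ ?_ ?_ ?_ ?_ ?_ ?_ ?_ ?_))))))
    · simp [Vb, L4]
    · intro a ha
      simp only [Vb] at ha
      rcases supp_add ha with h | h <;> rw [supp_single h] <;> simp [L3]
    · rw [f1]; simp [Mono.hv, Vb]
    · rw [f2]; simp [Mono.hv, Vb]
    · rw [f3]; simp [Mono.hv, Vb]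
    · rw [f4]; simp [Mono.hv, Vb]
    · rw [f5]; simp [Mono.hv, Vb]
    · rw [f6]; simp [Mono.hv, Vb]
    · simp [Mono.hv, Vb]
    · simp [Mono.hv, Vb]
    · simp [Mono.hv, Vb]
    · simp [Mono.hv, Vb]
    · rw [f7]; simp only [Mono.bv, Vb, Finsupp.add_apply, Finsupp.single_apply, Prod.mk.injEq]; norm_num [s1]
    · rw [f8]; simp only [Mono.bv, Vb, Finsupp.add_apply, Finsupp.single_apply, Prod.mk.injEq]; norm_num [s1]
    · rw [f9]; simp only [Mono.bv, Vb, Finsupp.add_apply, Finsupp.single_apply, Prod.mk.injEq]; norm_num [s1]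
    · simp [Mono.bv, Vb]
    · simp [Mono.bv, Vb]
    · simp [Mono.bv, Vb]
  · refine Or.inr (Or.inr (Or.inr (Or.inr (Or.inr (Or.inr (Or.inl (fin (Vc p) ?_ ?_ ?_ ?_ ?_ ?_ ?_ ?_ ?_ ?_ ?_ ?_ ?_ ?_ ?_ ?_ ?_ ?_)))))))
    · simp [Vc, L4]
    · intro a ha
      simp only [Vc] at ha
      rcases supp_add ha with h | h <;> rw [supp_single h] <;> simp [L3]
    · rw [f1]; simp [Mono.hv, Vc]
    · rw [f2]; simp [Mono.hv, Vc]
    · rw [f3]; simp [Mono.hv, Vc]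
    · rw [f4]; simp [Mono.hv, Vc]
    · rw [f5]; simp [Mono.hv, Vc]
    · rw [f6]; simp [Mono.hv, Vc]
    · simp [Mono.hv, Vc]
    · simp [Mono.hv, Vc]
    · simp [Mono.hv, Vc]
    · simp [Mono.hv, Vc]
    · rw [f7]; simp only [Mono.bv, Vc, Finsupp.add_apply, Finsupp.single_apply, Prod.mk.injEq]; norm_num [s2]
    · rw [f8]; simp only [Mono.bv, Vc, Finsupp.add_apply, Finsupp.single_apply, Prod.mk.injEq]; norm_num [s2]
    · rw [f9]; simp only [Mono.bv, Vc, Finsupp.add_apply, Finsupp.single_apply, Prod.mk.injEq]; norm_num [s2]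
    · simp [Mono.bv, Vc]
    · simp [Mono.bv, Vc]
    · simp [Mono.bv, Vc]
  · refine Or.inr (Or.inr (Or.inr (Or.inr (Or.inr (Or.inr (Or.inr (Or.inl (fin (Wa p) ?_ ?_ ?_ ?_ ?_ ?_ ?_ ?_ ?_ ?_ ?_ ?_ ?_ ?_ ?_ ?_ ?_ ?_))))))))
    · simp [Wa, L4]
    · intro a ha
      simp only [Wa] at ha
      rw [supp_single ha]; simp [L3]
    · rw [f1]; simp [Mono.hv, Wa]
    · rw [f2]; simp [Mono.hv, Wa]
    · rw [f3]; simp [Mono.hv, Wa]
    · rw [f4]; simp [Mono.hv, Wa]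
    · rw [f5]; simp [Mono.hv, Wa]
    · rw [f6]; simp [Mono.hv, Wa]
    · simp [Mono.hv, Wa]
    · simp [Mono.hv, Wa]
    · simp [Mono.hv, Wa]
    · simp [Mono.hv, Wa]
    · rw [f7]; simp only [Mono.bv, Wa, Finsupp.add_apply, Finsupp.single_apply, Prod.mk.injEq]; norm_num [s3]
    · rw [f8]; simp only [Mono.bv, Wa, Finsupp.add_apply, Finsupp.single_apply, Prod.mk.injEq]; norm_num [s3]
    · rw [f9]; simp only [Mono.bv, Wa, Finsupp.add_apply, Finsupp.single_apply, Prod.mk.injEq]; norm_num [s3]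
    · simp [Mono.bv, Wa]
    · simp [Mono.bv, Wa]
    · simp [Mono.bv, Wa]
  · refine Or.inr (Or.inr (Or.inr (Or.inr (Or.inr (Or.inr (Or.inr (Or.inr ((fin (Wb p) ?_ ?_ ?_ ?_ ?_ ?_ ?_ ?_ ?_ ?_ ?_ ?_ ?_ ?_ ?_ ?_ ?_ ?_)))))))))
    · simp [Wb, L4]
    · intro a ha
      simp only [Wb] at ha
      rcases supp_add ha with h | h <;> rw [supp_single h] <;> simp [L3]
    · rw [f1]; simp [Mono.hv, Wb]
    · rw [f2]; simp [Mono.hv, Wb]
    · rw [f3]; simp [Mono.hv, Wb]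
    · rw [f4]; simp [Mono.hv, Wb]
    · rw [f5]; simp [Mono.hv, Wb]
    · rw [f6]; simp [Mono.hv, Wb]
    · simp [Mono.hv, Wb]
    · simp [Mono.hv, Wb]
    · simp [Mono.hv, Wb]
    · simp [Mono.hv, Wb]
    · rw [f7]; simp only [Mono.bv, Wb, Finsupp.add_apply, Finsupp.single_apply, Prod.mk.injEq]; norm_num [s4]
    · rw [f8]; simp only [Mono.bv, Wb, Finsupp.add_apply, Finsupp.single_apply, Prod.mk.injEq]; norm_num [s4]
    · rw [f9]; simp only [Mono.bv, Wb, Finsupp.add_apply, Finsupp.single_apply, Prod.mk.injEq]; norm_num [s4]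
    · simp [Mono.bv, Wb]
    · simp [Mono.bv, Wb]
    · simp [Mono.bv, Wb]

end Vale.Agent.P257.V4.A.ML
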