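import Vale.Agent.P257.V4.A.Mono

/-!
# P257 / V(4), part A: the weight `q deg - s` of a monomial (helper717)
-/

namespace Vale.Agent.P257.V4.A.ML

open Finset

/-- weight of an exterior letter: `q * lw - 1` -/
def wh (p : ℤ) (a : ℕ × ℕ) : ℤ := 2 * p ^ (a.1 + a.2 + 1) - 2 * p ^ a.2 - 1

/-- weight of a polynomial letter: `q * p * lw - 2` -/
def wb (p : ℤ) (a : ℕ × ℕ) : ℤ := 2 * p ^ (a.1 + a.2 + 2) - 2 * p ^ (a.2 + 1) - 2

/-- indicator of the exterior letter `a` -/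
def Mono.hv (m : Mono) (a : ℕ × ℕ) : ℤ := if a ∈ m.H then 1 else 0

/-- multiplicity of the polynomial letter `a`, as an integer -/
def Mono.bv (m : Mono) (a : ℕ × ℕ) : ℤ := m.B a

theorem Mono.hv_nonneg (m : Mono) (a : ℕ × ℕ) : 0 ≤ m.hv a := by
  unfold Mono.hv; split <;> norm_num

theorem Mono.hv_le_one (m : Mono) (a : ℕ × ℕ) : m.hv a ≤ 1 := by
  unfold Mono.hv; split <;> norm_num

theorem Mono.bv_nonneg (m : Mono) (a : ℕ × ℕ) : 0 ≤ m.bv a := Int.natCast_nonneg _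

theorem Mono.hv_eq_one {m : Mono} {a : ℕ × ℕ} : m.hv a = 1 ↔ a ∈ m.H := by
  unfold Mono.hv; split <;> simp_all

theorem Mono.hv_eq_zero {m : Mono} {a : ℕ × ℕ} : m.hv a = 0 ↔ a ∉ m.H := by
  unfold Mono.hv; split <;> simp_all

theorem q_mul_lw (p : ℕ) (a : ℕ × ℕ) :
    (2 * (p : ℤ) - 2) * lw p a = 2 * (p : ℤ) ^ (a.1 + a.2 + 1) - 2 * (p : ℤ) ^ a.2 := by
  have h := NN_geom p (a.1 + 1)
  unfold lw
  push_cast
  have : (2 * (p : ℤ) - 2) * ((p : ℤ) ^ a.2 * (NN p (a.1 + 1) : ℤ)) =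
      2 * (p : ℤ) ^ a.2 * (NN p (a.1 + 1) * (p - 1 : ℤ)) := by ring
  rw [this, h]
  ring

theorem Mono.sumH_eq (m : Mono) (L : Finset (ℕ × ℕ)) (h : m.H ⊆ L) (f : ℕ × ℕ → ℤ) :
    ∑ a ∈ m.H, f a = ∑ a ∈ L, m.hv a * f a := by
  rw [← sum_subset h]
  · apply sum_congr rfl
    intro a ha
    rw [Mono.hv_eq_one.2 ha, one_mul]
  · intro a _ ha
    rw [Mono.hv_eq_zero.2 ha, zero_mul]

theorem Mono.sumB_eq (m : Mono) (L : Finset (ℕ × ℕ)) (h : ∀ a, m.B a ≠ 0 → a ∈ L)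
    (f : ℕ × ℕ → ℤ) : ∑ a ∈ m.B.support, (m.B a : ℤ) * f a = ∑ a ∈ L, m.bv a * f a := by
  apply sum_subset
  · intro a ha
    exact h a (Finsupp.mem_support_iff.1 ha)
  · intro a _ ha
    rw [Finsupp.notMem_support_iff.1 ha]
    simp

/-- `q deg - s` is the sum of the weights of the letters. -/
theorem Mono.wt_eq (p : ℕ) (m : Mono) :
    (2 * (p : ℤ) - 2) * (m.deg p : ℤ) - (m.s : ℤ) =
      ∑ a ∈ m.H, wh p a + ∑ a ∈ m.B.support, (m.B a : ℤ) * wb p a := by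
  unfold Mono.deg Mono.s Mono.nb Finsupp.sum
  push_cast
  have h1 : ∀ a, wh (p : ℤ) a = (2 * (p : ℤ) - 2) * lw p a - 1 := by
    intro a; rw [q_mul_lw]; rfl
  have h2 : ∀ a, wb (p : ℤ) a = (2 * (p : ℤ) - 2) * (p * lw p a) - 2 := by
    intro a
    have := q_mul_lw p a
    unfold wb
    have e : (2 * (p : ℤ) - 2) * (p * lw p a) = p * ((2 * (p : ℤ) - 2) * lw p a) := by ring
    rw [e, this]; ring
  simp only [h1, h2]
  rw [mul_add, mul_sum, mul_sum, sum_sub_distrib, mul_sum]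
  simp only [mul_sub, sum_sub_distrib, sum_const, smul_eq_mul]
  have e3 : ∑ x ∈ m.B.support, (m.B x : ℤ) * ((2 * (p : ℤ) - 2) * (p * lw p x)) =
      ∑ x ∈ m.B.support, (2 * (p : ℤ) - 2) * ((m.B x : ℤ) * (p * lw p x)) := by
    apply sum_congr rfl; intros; ring
  rw [e3]
  have e4 : ∑ x ∈ m.B.support, (m.B x : ℤ) * 2 = ∑ i ∈ m.B.support, 2 * (m.B i : ℤ) := by
    apply sum_congr rfl; intros; ring
  rw [e4]
  simp
  ring

theorem pow_gap {p : ℤ} (hp : 11 ≤ p) (n : ℕ) : 10 * p ^ n ≤ p ^ (n + 1) - p ^ n := by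
  have : 0 < p ^ n := by positivity
  rw [pow_succ]
  nlinarith

theorem wh_lower {p : ℤ} (hp : 11 ≤ p) (a : ℕ × ℕ) :
    2 * p ^ (a.1 + a.2 + 1) - 2 * p ^ (a.1 + a.2) - 1 ≤ wh p a := by
  have : p ^ a.2 ≤ p ^ (a.1 + a.2) := pow_le_pow_right₀ (by linarith) (by omega)
  unfold wh
  linarith

theorem wb_lower {p : ℤ} (hp : 11 ≤ p) (a : ℕ × ℕ) :
    2 * p ^ (a.1 + a.2 + 2) - 2 * p ^ (a.1 + a.2 + 1) - 2 ≤ wb p a := by
  have : p ^ (a.2 + 1) ≤ p ^ (a.1 + a.2 + 1) := pow_le_pow_right₀ (by linarith) (by omega)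
  unfold wb
  linarith

theorem wh_pos {p : ℤ} (hp : 11 ≤ p) (a : ℕ × ℕ) : 0 < wh p a := by
  have h := wh_lower hp a
  have h2 := pow_gap hp (a.1 + a.2)
  have : 0 < p ^ (a.1 + a.2) := by positivity
  linarith

theorem wb_pos {p : ℤ} (hp : 11 ≤ p) (a : ℕ × ℕ) : 0 < wb p a := by
  have h := wb_lower hp a
  have h2 := pow_gap hp (a.1 + a.2 + 1)
  have : 0 < p ^ (a.1 + a.2 + 1) := by positivity
  linarith

/-- A letter of weight larger than the total weight does not occur. -/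
theorem Mono.wh_le {p : ℕ} (hp : 11 ≤ p) {m : Mono} {a : ℕ × ℕ} (ha : a ∈ m.H) :
    wh p a ≤ (2 * (p : ℤ) - 2) * (m.deg p : ℤ) - (m.s : ℤ) := by
  have hp' : (11 : ℤ) ≤ p := by exact_mod_cast hp
  rw [Mono.wt_eq]
  have h1 := single_le_sum (f := fun a => wh (p : ℤ) a) (fun b _ => (wh_pos hp' b).le) ha
  have h2 : 0 ≤ ∑ a ∈ m.B.support, (m.B a : ℤ) * wb p a :=
    sum_nonneg fun b _ => mul_nonneg (by positivity) (wb_pos hp' b).le
  exact le_trans h1 (le_add_of_nonneg_right h2)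

theorem Mono.wb_le {p : ℕ} (hp : 11 ≤ p) {m : Mono} {a : ℕ × ℕ} (ha : m.B a ≠ 0) :
    wb p a ≤ (2 * (p : ℤ) - 2) * (m.deg p : ℤ) - (m.s : ℤ) := by
  have hp' : (11 : ℤ) ≤ p := by exact_mod_cast hp
  rw [Mono.wt_eq]
  have h1 := single_le_sum (f := fun a => (m.B a : ℤ) * wb (p : ℤ) a)
    (fun b _ => mul_nonneg (by positivity) (wb_pos hp' b).le) (Finsupp.mem_support_iff.2 ha)
  have h2 : 0 ≤ ∑ a ∈ m.H, wh (p : ℤ) a := sum_nonneg fun b _ => (wh_pos hp' b).le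
  have h3 : wb (p : ℤ) a ≤ (m.B a : ℤ) * wb (p : ℤ) a := by
    have : (1 : ℤ) ≤ m.B a := by exact_mod_cast Nat.one_le_iff_ne_zero.2 ha
    have h4 := (wb_pos hp' a).le
    nlinarith
  linarith [h1, h2, h3]

/-- If the total weight is less than `2p^(K+1) - 2p^K - 2` then the letters satisfy
`a.1 + a.2 < K` (exterior), `a.1 + a.2 + 1 < K` (polynomial). -/
theorem Mono.small {p : ℕ} (hp : 11 ≤ p) {m : Mono} {K : ℕ}
    (hW : (2 * (p : ℤ) - 2) * (m.deg p : ℤ) - (m.s : ℤ) < 2 * (p : ℤ) ^ (K + 1) - 2 * (p : ℤ) ^ K - 2) :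
    (∀ a ∈ m.H, a.1 + a.2 < K) ∧ ∀ a, m.B a ≠ 0 → a.1 + a.2 + 1 < K := by
  have hp' : (11 : ℤ) ≤ p := by exact_mod_cast hp
  have mono : ∀ n, K ≤ n → 2 * (p : ℤ) ^ (K + 1) - 2 * (p : ℤ) ^ K ≤
      2 * (p : ℤ) ^ (n + 1) - 2 * (p : ℤ) ^ n := by
    intro n hn
    have h1 : (p : ℤ) ^ K ≤ (p : ℤ) ^ n := pow_le_pow_right₀ (by linarith) hn
    have : 2 * ((p : ℤ) - 1) * (p : ℤ) ^ K ≤ 2 * ((p : ℤ) - 1) * (p : ℤ) ^ n :=
      mul_le_mul_of_nonneg_left h1 (by linarith)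
    rw [pow_succ, pow_succ]
    linarith
  constructor
  · intro a ha
    by_contra hc
    push Not at hc
    have h1 := Mono.wh_le hp ha
    have h2 := wh_lower hp' a
    have h3 := mono _ hc
    linarith
  · intro a ha
    by_contra hc
    push Not at hc
    have h1 := Mono.wb_le hp ha
    have h2 := wb_lower hp' a
    have h3 := mono _ hc
    have e : a.1 + a.2 + 1 + 1 = a.1 + a.2 + 2 := by ring
    rw [e] at h3
    linarith

end Vale.Agent.P257.V4.A.ML
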